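import Vale.Agent.P071.MathlibUsed
import Vale.Agent.P071.Stmt
attribute [-instance] ProperSMul.toContinuousSMul IsTopologicalTorsor.toContinuousSMul IdemSemiring.toCanonicallyOrderedAdd IdemSemiring.toMulLeftMono IdemSemiring.toMulRightMono AddQuantale.instAddLeftMono AddQuantale.instAddRightMono Quantale.instMulLeftMono Quantale.instMulRightMono FiniteDimensional.rclike_to_real IsScalarTower.complexToReal FiniteDimensional.complexToReal

set_option linter.all false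

section

/-!
# Internal definitions for the passage to the limit (blocks H and I)
-/

open MeasureTheory Metric
open scoped ContDiff ENNReal ComplexConjugate

namespace Vale.Agent.P071.Lim

/-- `|∇w|²` -/
noncomputable def gsq (w : ℂ → ℝ) (z : ℂ) : ℝ := px w z ^ 2 + py w z ^ 2

/-- `Δw` -/
noncomputable def lap (w : ℂ → ℝ) (z : ℂ) : ℝ := px (px w) z + py (py w) z

/-- The open unit disc. -/
abbrev DD : Set ℂ := ball (0 : ℂ) 1

/-- `C¹` functions in the disc, bounded with bounded gradient. -/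
def BG (φ : ℂ → ℝ) : Prop :=
  ContDiffOn ℝ 1 φ DD ∧ ∃ C : ℝ, ∀ z ∈ DD, |φ z| ≤ C ∧ gsq φ z ≤ C

/-- The inequality (I): `∫ η² κ² u²/|∇u|² ≤ (16/μ²) ∫ |∇η|²` for all `η ∈ C_c¹(U)`.
Division in `[0,∞]`, so `u²/|∇u|² = ∞` at critical points off the zero set. -/
def IneqI (U : Set ℂ) (κ : ℂ → ℝ) (μ : ℝ) (u : ℂ → ℝ) : Prop :=
  ∀ η : ℂ → ℝ, ContDiff ℝ 1 η → HasCompactSupport η → tsupport η ⊆ U →
    ∫⁻ z in U, ENNReal.ofReal (η z ^ 2 * κ z ^ 2 * u z ^ 2) / ENNReal.ofReal (gsq u z) ≤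
      ENNReal.ofReal (16 / μ ^ 2 * ∫ z in U, gsq η z)

/-- `u` is a first nonconstant Neumann eigenfunction on the disc for the weight `κ`, with
eigenvalue `μ`, normalised by `∫ κ u² = 1`. -/
structure DiscMin (κ : ℂ → ℝ) (μ : ℝ) (u : ℂ → ℝ) : Prop where
  smooth : ContDiffOn ℝ 2 u DD
  bg : BG u
  eqn : ∀ z ∈ DD, -lap u z = μ * κ z * u z
  mean : ∫ z in DD, κ z * u z = 0
  norm : ∫ z in DD, κ z * u z ^ 2 = 1
  energy : ∫ z in DD, gsq u z = μ
  minimal : ∀ φ : ℂ → ℝ, BG φ → ∫ z in DD, κ z * φ z = 0 →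
    μ * ∫ z in DD, κ z * φ z ^ 2 ≤ ∫ z in DD, gsq φ z

/-- Real valued polynomial functions in `x, conj x`. -/
def IsPolyFun (s : ℂ → ℝ) : Prop :=
  ∃ (N : ℕ) (c : ℕ → ℕ → ℂ), ∀ x : ℂ,
    (s x : ℂ) = ∑ m ∈ Finset.range N, ∑ n ∈ Finset.range N, c m n * x ^ m * (conj x) ^ n

/-- The weights `κ_r(z) = r² |F(rz)|² ρ(f(rz))`. -/
noncomputable def kap (f F : ℂ → ℂ) (ρ : ℂ → ℝ) (r : ℝ) (z : ℂ) : ℝ :=
  r ^ 2 * ‖F (r * z)‖ ^ 2 * ρ (f (r * z))

/-- The holomorphic data: `f` holomorphic, injective and bounded in the disc, `F = f' ≠ 0`. -/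
structure Conf (f F : ℂ → ℂ) : Prop where
  deriv : ∀ z ∈ DD, HasDerivAt f (F z) z
  ne_zero : ∀ z ∈ DD, F z ≠ 0
  inj : Set.InjOn f DD
  bdd : ∃ C : ℝ, ∀ z ∈ DD, ‖f z‖ ≤ C

/-- THE DISC THEOREM (output of blocks A-G), for a given pair `f, F`:
if `ρ` is a positive polynomial weight, with curvature bound `Δ log ρ ≥ -m ρ` on `f(D)`, and
the Neumann Poincaré inequality on all discs holds with a constant `m' > m`, then for all
`r ∈ (0,1)` there is a first eigenfunction for `κ_r` satisfying (I). -/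
def DiscThm (f F : ℂ → ℂ) : Prop :=
  ∀ ρ : ℂ → ℝ, IsPolyFun ρ → (∃ c > 0, ∀ z ∈ DD, c ≤ ρ (f z)) →
    ∀ m m' : ℝ, 0 < m → m < m' →
    (∀ z ∈ DD, -m * ρ (f z) ^ 3 ≤ ρ (f z) * lap ρ (f z) - gsq ρ (f z)) →
    (∀ r : ℝ, 0 < r → r < 1 → ∀ φ : ℂ → ℝ, BG φ → ∫ z in DD, kap f F ρ r z * φ z = 0 →
      m' * ∫ z in DD, kap f F ρ r z * φ z ^ 2 ≤ ∫ z in DD, gsq φ z) →
    ∀ r : ℝ, 0 < r → r < 1 → ∃ (μ : ℝ) (u : ℂ → ℝ),
      DiscMin (kap f F ρ r) μ u ∧ IneqI DD (kap f F ρ r) μ u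

/-- Tightness on `Ω`: no `H¹` function concentrates its `L²` mass near the boundary. -/
def Tight (Ω : Set ℂ) : Prop :=
  ∀ δ : ℝ, 0 < δ → ∃ K : Set ℂ, IsCompact K ∧ K ⊆ Ω ∧ ∀ v : ℂ → ℝ, ContDiffOn ℝ 1 v Ω →
    IntegrableOn (fun z => v z ^ 2) Ω → IntegrableOn (gsq v) Ω →
    ∫ z in Ω \ K, v z ^ 2 ≤ δ * ∫ z in Ω, (v z ^ 2 + gsq v z)

/-- Tightness in the disc, for the weight `|F|²`. -/
def TailF (F : ℂ → ℂ) : Prop :=
  ∀ δ : ℝ, 0 < δ → ∃ R : ℝ, 1 / 2 < R ∧ R < 1 ∧ ∀ g : ℂ → ℝ, BG g →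
    ∫ z in DD \ ball 0 R, ‖F z‖ ^ 2 * g z ^ 2 ≤
      δ * ((∫ z in DD, gsq g z) + ∫ z in ball 0 (1 / 2), g z ^ 2)

/-- Tightness in the disc, uniformly for the weights `|F(rz)|²`, `0 < r < 1`. -/
def TailU (F : ℂ → ℂ) : Prop :=
  ∀ δ : ℝ, 0 < δ → ∃ R : ℝ, 1 / 2 < R ∧ R < 1 ∧ ∀ r : ℝ, 0 < r → r < 1 → ∀ g : ℂ → ℝ, BG g →
    ∫ z in DD \ ball 0 R, ‖F (r * z)‖ ^ 2 * g z ^ 2 ≤
      δ * ((∫ z in DD, gsq g z) + ∫ z in ball 0 (1 / 2), g z ^ 2)

/-- The given eigenfunction, transplanted to the disc: `κ = |F|²`. -/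
structure Target (F : ℂ → ℂ) (μ : ℝ) (U : ℂ → ℝ) : Prop where
  mu_pos : 0 < μ
  smooth : ContDiffOn ℝ 2 U DD
  eqn : ∀ z ∈ DD, -lap U z = μ * ‖F z‖ ^ 2 * U z
  int_sq : IntegrableOn (fun z => ‖F z‖ ^ 2 * U z ^ 2) DD
  int_gsq : IntegrableOn (gsq U) DD
  mean : ∫ z in DD, ‖F z‖ ^ 2 * U z = 0
  norm : ∫ z in DD, ‖F z‖ ^ 2 * U z ^ 2 = 1
  energy : ∫ z in DD, gsq U z = μ
  minimal : ∀ W : ℂ → ℝ, ContDiffOn ℝ 1 W DD → IntegrableOn (fun z => ‖F z‖ ^ 2 * W z ^ 2) DD →
    IntegrableOn (gsq W) DD → ∫ z in DD, ‖F z‖ ^ 2 * W z = 0 →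
    μ * ∫ z in DD, ‖F z‖ ^ 2 * W z ^ 2 ≤ ∫ z in DD, gsq W z

end Vale.Agent.P071.Lim
end

section

/-!
The Cauchy–Pompeiu formula for compactly supported `C¹` functions on `ℂ`.
-/

open Filter Topology MeasureTheory Set
open scoped ContDiff Real

namespace Vale.Agent.P136.SF

/-- `e^{iθ}` -/
noncomputable def uu (θ : ℝ) : ℂ := Complex.exp (θ * Complex.I)

theorem norm_uu (θ : ℝ) : ‖uu θ‖ = 1 := Complex.norm_exp_ofReal_mul_I θ

theorem continuous_uu : Continuous uu := by unfold uu; fun_prop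

theorem hasDerivAt_uu (θ : ℝ) : HasDerivAt uu (Complex.I * uu θ) θ := by
  unfold uu
  have h1 : HasDerivAt (fun θ : ℝ => (θ : ℂ) * Complex.I) (1 * Complex.I) θ :=
    (Complex.ofRealCLM.hasDerivAt (x := θ)).mul_const Complex.I
  have h2 := h1.cexp
  simpa [mul_comm] using h2

theorem polar_eq (p : ℝ × ℝ) : Complex.polarCoord.symm p = (p.1 : ℂ) * uu p.2 := by
  rw [Complex.polarCoord_symm_apply, uu, Complex.exp_mul_I]
  push_cast
  rfl

section

variable {ψ : ℂ → ℂ}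

/-- twice the Wirtinger derivative -/
noncomputable def db (ψ : ℂ → ℂ) (w : ℂ) : ℂ := fderiv ℝ ψ w 1 + Complex.I * fderiv ℝ ψ w Complex.I

/-- the polar form of the d-bar operator -/
theorem db_polar (D : ℂ →L[ℝ] ℂ) (θ : ℝ) :
    (uu θ)⁻¹ * (D 1 + Complex.I * D Complex.I) =
      D (uu θ) + Complex.I * D (Complex.I * uu θ) := by
  have h1 : uu θ = (Real.cos θ : ℂ) + (Real.sin θ : ℂ) * Complex.I := by
    rw [uu, Complex.exp_mul_I]; simp
  have h2 : (uu θ)⁻¹ = (Real.cos θ : ℂ) - (Real.sin θ : ℂ) * Complex.I := by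
    rw [uu, ← Complex.exp_neg, ← neg_mul, Complex.exp_mul_I]
    simp only [Complex.cos_neg, Complex.sin_neg, neg_mul, Complex.ofReal_cos, Complex.ofReal_sin, sub_eq_add_neg]
  have h3 : D (uu θ) = (Real.cos θ : ℂ) * D 1 + (Real.sin θ : ℂ) * D Complex.I := by
    have : uu θ = Real.cos θ • (1 : ℂ) + Real.sin θ • Complex.I := by
      rw [h1]; simp
    rw [this, map_add, map_smul, map_smul]
    simp only [Complex.real_smul, Complex.ofReal_cos, Complex.ofReal_sin]
  have h4 : D (Complex.I * uu θ) = (Real.cos θ : ℂ) * D Complex.I - (Real.sin θ : ℂ) * D 1 := by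
    have : Complex.I * uu θ = Real.cos θ • Complex.I + (-Real.sin θ) • (1 : ℂ) := by
      rw [h1]
      simp only [Complex.real_smul]
      push_cast
      ring_nf
      rw [Complex.I_sq]
      ring
    rw [this, map_add, map_smul, map_smul]
    simp only [Complex.real_smul]
    push_cast
    ring
  rw [h2, h3, h4]
  ring_nf
  rw [Complex.I_sq]
  ring

theorem radial_integral (h : ContDiff ℝ 1 ψ) (hs : HasCompactSupport ψ) (θ : ℝ) :
    ∫ r in Ioi (0 : ℝ), fderiv ℝ ψ ((r : ℂ) * uu θ) (uu θ) = - ψ 0 := by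
  set g : ℝ → ℂ := fun r => ψ ((r : ℂ) * uu θ) with hg
  have hder : ∀ r : ℝ, HasDerivAt g (fderiv ℝ ψ ((r : ℂ) * uu θ) (uu θ)) r := by
    intro r
    have h1 : HasDerivAt (fun r : ℝ => (r : ℂ) * uu θ) (uu θ) r := by
      simpa only [Complex.ofRealCLM_apply, Complex.ofReal_one, one_mul] using     (Complex.ofRealCLM.hasDerivAt (x := r)).mul_const (uu θ)
    exact ((h.differentiable (by simp) _).hasFDerivAt).comp_hasDerivAt r h1
  have hgs : HasCompactSupport g := by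
    apply hs.comp_isClosedEmbedding
    apply Isometry.isClosedEmbedding
    intro x y
    rw [edist_dist, edist_dist, dist_eq_norm, dist_eq_norm, ← sub_mul, norm_mul, norm_uu, mul_one,
      ← Complex.ofReal_sub, Complex.norm_real]
  have hgc : ContDiff ℝ 1 g := by
    apply h.comp
    exact (Complex.ofRealCLM.contDiff).mul contDiff_const
  have h2 := hgs.integral_Ioi_deriv_eq hgc 0
  have h3 : (fun r : ℝ => fderiv ℝ ψ ((r : ℂ) * uu θ) (uu θ)) = deriv g := by
    funext r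
    exact (hder r).deriv.symm
  rw [h3, h2, hg]
  simp

theorem angular_integral (h : ContDiff ℝ 1 ψ) {r : ℝ} (hr : 0 < r) :
    ∫ θ in Ioo (-π) π, fderiv ℝ ψ ((r : ℂ) * uu θ) (Complex.I * uu θ) = 0 := by
  rw [← integral_Ioc_eq_integral_Ioo, ← intervalIntegral.integral_of_le (by linarith only [Real.pi_pos])]
  have hder : ∀ θ : ℝ, HasDerivAt (fun θ : ℝ => ψ ((r : ℂ) * uu θ))
      (fderiv ℝ ψ ((r : ℂ) * uu θ) ((r : ℂ) * (Complex.I * uu θ))) θ := by
    intro θ
    have h1 : HasDerivAt (fun θ : ℝ => (r : ℂ) * uu θ) ((r : ℂ) * (Complex.I * uu θ)) θ :=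
      (hasDerivAt_uu θ).const_mul _
    exact ((h.differentiable (by simp) _).hasFDerivAt).comp_hasDerivAt θ h1
  have hcont : Continuous fun θ : ℝ =>
      fderiv ℝ ψ ((r : ℂ) * uu θ) ((r : ℂ) * (Complex.I * uu θ)) := by
    have := h.continuous_fderiv (by simp)
    have := continuous_uu
    (clear * - h this; fun_prop)
  have h2 := intervalIntegral.integral_eq_sub_of_hasDerivAt (a := -π) (b := π)
    (fun θ _ => hder θ) (hcont.intervalIntegrable _ _)
  have h3 : uu π = uu (-π) := by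
    unfold uu
    rw [Complex.exp_pi_mul_I]
    push_cast
    rw [neg_mul, Complex.exp_neg, Complex.exp_pi_mul_I]
    norm_num
  rw [h3, sub_self] at h2
  have h4 : ∀ θ : ℝ, fderiv ℝ ψ ((r : ℂ) * uu θ) ((r : ℂ) * (Complex.I * uu θ)) =
      (r : ℂ) * fderiv ℝ ψ ((r : ℂ) * uu θ) (Complex.I * uu θ) := by
    intro θ
    have : (r : ℂ) * (Complex.I * uu θ) = r • (Complex.I * uu θ) := by simp
    rw [this, map_smul]
    simp only [Complex.real_smul]
  simp_rw [h4] at h2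
  rw [intervalIntegral.integral_const_mul] at h2
  rcases mul_eq_zero.1 h2 with h5 | h5
  · exact absurd h5 (by exact_mod_cast hr.ne')
  · exact h5

theorem integrableOn_polar {v : ℝ → ℂ} (hv : Continuous v) (h : ContDiff ℝ 1 ψ)
    (hs : HasCompactSupport ψ) :
    IntegrableOn (fun p : ℝ × ℝ => fderiv ℝ ψ ((p.1 : ℂ) * uu p.2) (v p.2))
      (Ioi (0 : ℝ) ×ˢ Ioo (-π) π) := by
  have hD := h.continuous_fderiv (by simp only [ne_eq, one_ne_zero, not_false_eq_true])
  have hDs : HasCompactSupport (fderiv ℝ ψ) := hs.fderiv ℝ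
  obtain ⟨R, hR⟩ := hDs.isCompact.isBounded.subset_closedBall 0
  have hcont : Continuous fun p : ℝ × ℝ => fderiv ℝ ψ ((p.1 : ℂ) * uu p.2) (v p.2) := by
    have := continuous_uu
    (clear * - h this hv; fun_prop)
  have h1 : IntegrableOn (fun p : ℝ × ℝ => fderiv ℝ ψ ((p.1 : ℂ) * uu p.2) (v p.2))
      (Icc (0 : ℝ) R ×ˢ Icc (-π) π) :=
    hcont.continuousOn.integrableOn_compact (isCompact_Icc.prod isCompact_Icc)
  refine h1.of_forall_sdiff_eq_zero (measurableSet_Ioi.prod measurableSet_Ioo) ?_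
  rintro ⟨r, θ⟩ ⟨h2, h3⟩
  have h4 : R < r := by
    by_contra hcon
    push Not at hcon
    exact h3 ⟨⟨(mem_Ioi.1 h2.1).le, hcon⟩, ⟨h2.2.1.le, h2.2.2.le⟩⟩
  have h5 : fderiv ℝ ψ ((r : ℂ) * uu θ) = 0 := by
    by_contra hcon
    have h6 : (r : ℂ) * uu θ ∈ tsupport (fderiv ℝ ψ) := subset_tsupport _ hcon
    have h7 := hR h6
    rw [mem_closedBall_zero_iff, norm_mul, norm_uu, mul_one, Complex.norm_real] at h7
    have := le_abs_self r
    rw [Real.norm_eq_abs] at h7
    linarith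
  simp only
  rw [h5]
  rfl

/-- Cauchy–Pompeiu -/
theorem pompeiu (h : ContDiff ℝ 1 ψ) (hs : HasCompactSupport ψ) :
    ∫ w : ℂ, w⁻¹ * db ψ w = - (2 * π) * ψ 0 := by
  rw [← Complex.integral_comp_polarCoord_symm, polarCoord_target]
  have h1 : ∀ p ∈ Ioi (0 : ℝ) ×ˢ Ioo (-π) π,
      p.1 • ((Complex.polarCoord.symm p)⁻¹ * db ψ (Complex.polarCoord.symm p)) =
      fderiv ℝ ψ ((p.1 : ℂ) * uu p.2) (uu p.2) +
        Complex.I * fderiv ℝ ψ ((p.1 : ℂ) * uu p.2) (Complex.I * uu p.2) := by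
    rintro ⟨r, θ⟩ ⟨hr, -⟩
    have hr0 : (r : ℂ) ≠ 0 := by exact_mod_cast (mem_Ioi.1 hr).ne'
    rw [polar_eq, ← db_polar, db, Complex.real_smul]
    simp only
    rw [mul_inv]
    field_simp
  rw [setIntegral_congr_fun (measurableSet_Ioi.prod measurableSet_Ioo) h1]
  have hA := integrableOn_polar (v := uu) continuous_uu h hs
  have hB := integrableOn_polar (v := fun θ => Complex.I * uu θ)
    (continuous_const.mul continuous_uu) h hs
  rw [integral_add hA (hB.const_mul Complex.I), integral_const_mul]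
  have e1 : ∫ p in Ioi (0 : ℝ) ×ˢ Ioo (-π) π, fderiv ℝ ψ ((p.1 : ℂ) * uu p.2) (uu p.2) =
      - (2 * π) * ψ 0 := by
    rw [IntegrableOn, Measure.volume_eq_prod, ← Measure.prod_restrict] at hA
    rw [Measure.volume_eq_prod, ← Measure.prod_restrict, integral_prod_symm _ hA]
    simp_rw [radial_integral h hs]
    rw [setIntegral_const]
    simp only [Real.volume_real_Ioo, sub_neg_eq_add]
    rw [max_eq_left (by linarith [Real.pi_pos]), Complex.real_smul]
    push_cast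
    ring
  have e2 : ∫ p in Ioi (0 : ℝ) ×ˢ Ioo (-π) π,
      fderiv ℝ ψ ((p.1 : ℂ) * uu p.2) (Complex.I * uu p.2) = 0 := by
    rw [Measure.volume_eq_prod, setIntegral_prod _ hB]
    rw [setIntegral_congr_fun measurableSet_Ioi (g := fun _ => 0)]
    · simp
    · intro r hr
      exact angular_integral h hr
  rw [e1, e2, mul_zero, add_zero]

end

end Vale.Agent.P136.SF
end

section

/-!
# Local elliptic estimates: values (task LIM-LEa)
-/

open MeasureTheory Metric Filter Topology Real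
open scoped ContDiff ENNReal

namespace Vale.Agent.P071.Lim

/-! ### Local integrability -/

theorem lea_inv_ball (R : ℝ) : IntegrableOn (fun z : ℂ => ‖z‖⁻¹) (ball (0 : ℂ) R) := by
  rw [integrableOn_fun_norm_addHaar (volume : Measure ℂ) (f := fun r : ℝ => r⁻¹)]
  rw [Complex.finrank_real_complex]
  have : IntegrableOn (fun _ : ℝ => (1 : ℝ)) (Set.Ioo 0 R) := by
    simp only [enorm_one, ne_eq, ENNReal.one_ne_top, not_false_eq_true, integrableOn_const_iff, one_ne_zero, volume_Ioo, sub_zero, ENNReal.ofReal_lt_top, or_true]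
  refine this.congr_fun ?_ measurableSet_Ioo
  intro r hr
  have : r ≠ 0 := ne_of_gt hr.1
  simp only [smul_eq_mul]
  rw [show 2 - 1 = 1 from rfl, pow_one, mul_inv_cancel₀ this]

theorem lea_inv : LocallyIntegrable (fun z : ℂ => ‖z‖⁻¹) := by
  intro x
  exact ⟨ball 0 (‖x‖ + 1), isOpen_ball.mem_nhds (by rw [mem_ball_zero_iff]; linarith),
    lea_inv_ball _⟩

theorem lea_abs_log {x : ℝ} (hx : 0 ≤ x) : |log x| ≤ x⁻¹ + x := by
  rcases hx.eq_or_lt with h | h
  · rw [← h]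
    simp
  · have h1 : log x ≤ x := (Real.log_le_sub_one_of_pos h).trans (by linarith only [])
    have h2 : -log x ≤ x⁻¹ := by
      rw [← Real.log_inv]
      exact (Real.log_le_sub_one_of_pos (inv_pos.2 h)).trans (by linarith only [])
    have h3 : 0 < x⁻¹ := inv_pos.2 h
    rw [abs_le]
    constructor <;> linarith only [h, h2, h1, h3]

theorem lea_log_sq {x : ℝ} (hx : 0 ≤ x) : log x ^ 2 ≤ 4 * x⁻¹ + x ^ 2 := by
  rcases hx.eq_or_lt with h | h
  · rw [← h]
    simp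
  · have h0 : 0 < x⁻¹ := inv_pos.2 h
    rcases le_total 1 x with h1 | h1
    · have h2 : 0 ≤ log x := log_nonneg h1
      have h3 : log x ≤ x := (Real.log_le_sub_one_of_pos h).trans (by linarith only [])
      nlinarith only [h0, h3, h2]
    · have h2 : 0 ≤ log x⁻¹ := log_nonneg ((one_le_inv₀ h).2 h1)
      have h3 : log x⁻¹ ≤ 2 * √(x⁻¹) := by
        have h4 : log (√(x⁻¹)) ≤ √(x⁻¹) - 1 := Real.log_le_sub_one_of_pos (Real.sqrt_pos.2 h0)
        rw [Real.log_sqrt h0.le] at h4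
        linarith only [h4]
      have h5 : log x ^ 2 = log x⁻¹ ^ 2 := by rw [Real.log_inv]; ring
      have h6 : √(x⁻¹) ^ 2 = x⁻¹ := Real.sq_sqrt h0.le
      rw [h5]
      nlinarith only [h6, h2, h3]

theorem lea_log : LocallyIntegrable (fun z : ℂ => log ‖z‖) := by
  refine (lea_inv.add (continuous_norm.locallyIntegrable)).mono
    (Real.measurable_log.comp measurable_norm).aestronglyMeasurable ?_
  refine ae_of_all _ fun z => ?_
  simp only [Pi.add_apply]
  rw [Real.norm_eq_abs, Real.norm_eq_abs]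
  refine (lea_abs_log (norm_nonneg z)).trans (le_abs_self _)

theorem lea_abslog : LocallyIntegrable (fun z : ℂ => |log ‖z‖|) := by
  refine lea_log.mono (Real.measurable_log.comp measurable_norm).abs.aestronglyMeasurable ?_
  exact ae_of_all _ fun z => by rw [Real.norm_eq_abs, Real.norm_eq_abs, abs_abs]

theorem lea_logsq : LocallyIntegrable (fun z : ℂ => log ‖z‖ ^ 2) := by
  refine ((lea_inv.smul (4 : ℝ)).add ((continuous_norm.pow 2).locallyIntegrable)).mono
    ((Real.measurable_log.comp measurable_norm).pow_const 2).aestronglyMeasurable ?_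
  refine ae_of_all _ fun z => ?_
  simp only [Pi.add_apply, Pi.smul_apply, smul_eq_mul]
  rw [Real.norm_eq_abs, Real.norm_eq_abs, abs_of_nonneg (sq_nonneg _)]
  exact (lea_log_sq (norm_nonneg z)).trans (le_abs_self _)

/-- products with continuous functions of compact support -/
theorem lea_int {k g : ℂ → ℝ} (hk : LocallyIntegrable k) (hg : Continuous g)
    (hgs : HasCompactSupport g) : Integrable (fun z => k z * g z) := by
  have := hk.integrable_smul_left_of_hasCompactSupport hg hgs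
  refine this.congr (ae_of_all _ fun z => ?_)
  simp only [smul_eq_mul]
  ring

theorem lea_ibp {f g : ℂ → ℝ} (hf : ContDiff ℝ 1 f) (hg : ContDiff ℝ 1 g)
    (hgs : HasCompactSupport g) (v : ℂ) :
    ∫ z, f z * fderiv ℝ g z v = - ∫ z, fderiv ℝ f z v * g z := by
  have h1 : Continuous fun z => fderiv ℝ g z v :=
    (hg.continuous_fderiv one_ne_zero).clm_apply continuous_const
  have h2 : HasCompactSupport fun z => fderiv ℝ g z v :=
    (hgs.fderiv (𝕜 := ℝ)).comp_left (g := fun L : ℂ →L[ℝ] ℝ => L v) rfl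
  have h3 : Continuous fun z => fderiv ℝ f z v :=
    (hf.continuous_fderiv one_ne_zero).clm_apply continuous_const
  refine integral_mul_fderiv_eq_neg_fderiv_mul_of_integrable ?_ ?_ ?_ ?_ ?_
  · exact (h3.mul hg.continuous).integrable_of_hasCompactSupport hgs.mul_left
  · exact (hf.continuous.mul h1).integrable_of_hasCompactSupport h2.mul_left
  · exact (hf.continuous.mul hg.continuous).integrable_of_hasCompactSupport hgs.mul_left
  · intro z _
    exact hf.differentiable one_ne_zero z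
  · intro z _
    exact hg.differentiable one_ne_zero z

/-! ### The regularised logarithm -/

/-- regularised logarithm -/
noncomputable def lea_g (ε : ℝ) (z : ℂ) : ℝ := 1 / 2 * log (‖z‖ ^ 2 + ε ^ 2)

theorem lea_g_contDiff {ε : ℝ} (hε : 0 < ε) : ContDiff ℝ 1 (lea_g ε) := by
  unfold lea_g
  refine contDiff_const.mul (ContDiff.log ((contDiff_norm_sq ℝ).add contDiff_const) fun z => ?_)
  positivity

theorem lea_g_fderiv {ε : ℝ} (hε : 0 < ε) (z v : ℂ) :
    fderiv ℝ (lea_g ε) z v = inner ℝ z v / (‖z‖ ^ 2 + ε ^ 2) := by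
  have h0 : ‖z‖ ^ 2 + ε ^ 2 ≠ 0 := by positivity
  have h1 : HasFDerivAt (fun z : ℂ => ‖z‖ ^ 2) (2 • innerSL ℝ z) z :=
    (hasStrictFDerivAt_norm_sq z).hasFDerivAt
  have h2 := ((h1.add_const (ε ^ 2)).log h0).const_mul (1 / 2)
  have h3 : fderiv ℝ (lea_g ε) z = (1 / 2 : ℝ) • ((‖z‖ ^ 2 + ε ^ 2)⁻¹ • (2 • innerSL ℝ z)) :=
    h2.fderiv
  rw [h3]
  simp only [smul_apply, innerSL_apply_apply, smul_eq_mul, nsmul_eq_mul]
  push_cast
  field_simp

theorem lea_g_px {ε : ℝ} (hε : 0 < ε) (z : ℂ) :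
    fderiv ℝ (lea_g ε) z 1 = z.re / (‖z‖ ^ 2 + ε ^ 2) := by
  rw [lea_g_fderiv hε, Complex.inner]
  simp only [one_mul, Complex.conj_re]

theorem lea_g_py {ε : ℝ} (hε : 0 < ε) (z : ℂ) :
    fderiv ℝ (lea_g ε) z Complex.I = z.im / (‖z‖ ^ 2 + ε ^ 2) := by
  rw [lea_g_fderiv hε, Complex.inner]
  simp only [Complex.mul_re, Complex.I_re, Complex.conj_re, zero_mul, Complex.I_im, Complex.conj_im, mul_neg, one_mul, sub_neg_eq_add, zero_add]

theorem lea_g_abs {ε : ℝ} (h0 : 0 < ε) (h1 : ε ≤ 1) {z : ℂ} (hz : z ≠ 0) :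
    |lea_g ε z| ≤ |Real.log ‖z‖| + ‖z‖ ^ 2 := by
  have hn : 0 < ‖z‖ := norm_pos_iff.2 hz
  have ht : 0 < ‖z‖ ^ 2 := by positivity
  have he : ε ^ 2 ≤ 1 := pow_le_one₀ h0.le h1
  have e1 : Real.log ‖z‖ = 1 / 2 * Real.log (‖z‖ ^ 2) := by
    rw [Real.log_pow]
    push_cast
    ring
  have e2 : Real.log (‖z‖ ^ 2) ≤ Real.log (‖z‖ ^ 2 + ε ^ 2) :=
    Real.log_le_log ht (by positivity |> fun h : 0 ≤ ε ^ 2 => by linarith only [h])
  have e3 : Real.log (‖z‖ ^ 2 + ε ^ 2) ≤ ‖z‖ ^ 2 := by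
    have := Real.log_le_sub_one_of_pos (show 0 < ‖z‖ ^ 2 + ε ^ 2 by (clear * - hz h0; positivity))
    linarith only [he, this]
  have e4 := neg_abs_le (Real.log ‖z‖)
  have e5 := abs_nonneg (Real.log ‖z‖)
  unfold lea_g
  rw [abs_le]
  constructor <;> linarith

theorem lea_quot {ε : ℝ} (h0 : 0 < ε) (z : ℂ) (a b : ℝ) :
    ‖(z.re * a + z.im * b) / (‖z‖ ^ 2 + ε ^ 2)‖ ≤ ‖z‖⁻¹ * (|a| + |b|) := by
  rcases eq_or_ne z 0 with rfl | hz
  · simp only [Complex.zero_re, zero_mul, Complex.zero_im, add_zero, norm_zero, ne_eq, OfNat.ofNat_ne_zero, not_false_eq_true, zero_pow, zero_add, zero_div, inv_zero, Std.le_refl]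
  have hn : 0 < ‖z‖ := norm_pos_iff.2 hz
  have h1 : |z.re * a + z.im * b| ≤ ‖z‖ * (|a| + |b|) := by
    refine (abs_add_le _ _).trans ?_
    rw [abs_mul, abs_mul, mul_add]
    exact add_le_add (mul_le_mul_of_nonneg_right (Complex.abs_re_le_norm z) (abs_nonneg a))
      (mul_le_mul_of_nonneg_right (Complex.abs_im_le_norm z) (abs_nonneg b))
  have hp : 0 < ‖z‖ ^ 2 + ε ^ 2 := by positivity
  rw [Real.norm_eq_abs, abs_div, abs_of_pos hp, div_le_iff₀ hp]
  refine h1.trans ?_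
  have h2 : ‖z‖ * (|a| + |b|) = ‖z‖⁻¹ * (|a| + |b|) * ‖z‖ ^ 2 := by
    field_simp
  rw [h2]
  refine mul_le_mul_of_nonneg_left ?_ (by (clear * - hz; positivity))
  have : 0 ≤ ε ^ 2 := by positivity
  linarith only [this]

/-- regularised identity -/
theorem lea_reg {φ : ℂ → ℝ} (h : ContDiff ℝ 2 φ) (hs : HasCompactSupport φ) {ε : ℝ}
    (hε : 0 < ε) : ∫ z : ℂ, lea_g ε z * lap φ z =
      - ∫ z : ℂ, (z.re * px φ z + z.im * py φ z) / (‖z‖ ^ 2 + ε ^ 2) := by
  have hd : ContDiff ℝ 1 (fderiv ℝ φ) := h.fderiv_right (m := 1) (by (clear * -; norm_num))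
  have hx : ContDiff ℝ 1 (px φ) := hd.clm_apply contDiff_const
  have hy : ContDiff ℝ 1 (py φ) := hd.clm_apply contDiff_const
  have hxs : HasCompactSupport (px φ) :=
    (hs.fderiv (𝕜 := ℝ)).comp_left (g := fun L : ℂ →L[ℝ] ℝ => L 1) rfl
  have hys : HasCompactSupport (py φ) :=
    (hs.fderiv (𝕜 := ℝ)).comp_left (g := fun L : ℂ →L[ℝ] ℝ => L Complex.I) rfl
  have hg := lea_g_contDiff hε
  have e1 := lea_ibp hg hx hxs 1
  have e2 := lea_ibp hg hy hys Complex.I
  have hgx : Continuous fun z => fderiv ℝ (lea_g ε) z 1 :=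
    (hg.continuous_fderiv one_ne_zero).clm_apply continuous_const
  have hgy : Continuous fun z => fderiv ℝ (lea_g ε) z Complex.I :=
    (hg.continuous_fderiv one_ne_zero).clm_apply continuous_const
  have c1 : Continuous fun z => fderiv ℝ (px φ) z 1 :=
    (hx.continuous_fderiv one_ne_zero).clm_apply continuous_const
  have c2 : Continuous fun z => fderiv ℝ (py φ) z Complex.I :=
    (hy.continuous_fderiv one_ne_zero).clm_apply continuous_const
  have s1 : HasCompactSupport fun z => fderiv ℝ (px φ) z 1 :=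
    (hxs.fderiv (𝕜 := ℝ)).comp_left (g := fun L : ℂ →L[ℝ] ℝ => L 1) rfl
  have s2 : HasCompactSupport fun z => fderiv ℝ (py φ) z Complex.I :=
    (hys.fderiv (𝕜 := ℝ)).comp_left (g := fun L : ℂ →L[ℝ] ℝ => L Complex.I) rfl
  have i1 : Integrable fun z => lea_g ε z * fderiv ℝ (px φ) z 1 :=
    (hg.continuous.mul c1).integrable_of_hasCompactSupport s1.mul_left
  have i2 : Integrable fun z => lea_g ε z * fderiv ℝ (py φ) z Complex.I :=
    (hg.continuous.mul c2).integrable_of_hasCompactSupport s2.mul_left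
  have i3 : Integrable fun z => fderiv ℝ (lea_g ε) z 1 * px φ z :=
    (hgx.mul hx.continuous).integrable_of_hasCompactSupport hxs.mul_left
  have i4 : Integrable fun z => fderiv ℝ (lea_g ε) z Complex.I * py φ z :=
    (hgy.mul hy.continuous).integrable_of_hasCompactSupport hys.mul_left
  have f1 : ∀ z, lea_g ε z * lap φ z =
      lea_g ε z * fderiv ℝ (px φ) z 1 + lea_g ε z * fderiv ℝ (py φ) z Complex.I := by
    intro z
    rw [lap, px, py, mul_add]
  have f2 : ∀ z : ℂ, (z.re * px φ z + z.im * py φ z) / (‖z‖ ^ 2 + ε ^ 2) =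
      fderiv ℝ (lea_g ε) z 1 * px φ z + fderiv ℝ (lea_g ε) z Complex.I * py φ z := by
    intro z
    rw [lea_g_px hε, lea_g_py hε]
    ring
  simp_rw [f1, f2]
  rw [integral_add i1 i2, integral_add i3 i4, e1, e2]
  ring

/-- the limit of the right hand side, from the Cauchy-Pompeiu formula -/
theorem lea_pomp {φ : ℂ → ℝ} (h : ContDiff ℝ 1 φ) (hs : HasCompactSupport φ) :
    ∫ z : ℂ, (z.re * px φ z + z.im * py φ z) / ‖z‖ ^ 2 = - (2 * π) * φ 0 := by
  have hψ : ContDiff ℝ 1 (fun z => (φ z : ℂ)) := Complex.ofRealCLM.contDiff.comp h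
  have hψs : HasCompactSupport (fun z => (φ z : ℂ)) :=
    hs.comp_left (g := fun x : ℝ => (x : ℂ)) (by simp)
  have hfd : ∀ z v, fderiv ℝ (fun z => (φ z : ℂ)) z v = ((fderiv ℝ φ z v : ℝ) : ℂ) := by
    intro z v
    have h1 : HasFDerivAt (fun z => (φ z : ℂ)) (Complex.ofRealCLM.comp (fderiv ℝ φ z)) z :=
      Complex.ofRealCLM.hasFDerivAt.comp z (h.differentiable one_ne_zero z).hasFDerivAt
    rw [h1.fderiv]
    rfl
  have hdb : ∀ z, Vale.Agent.P136.SF.db (fun z => (φ z : ℂ)) z =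
      (px φ z : ℂ) + Complex.I * (py φ z : ℂ) := by
    intro z
    rw [Vale.Agent.P136.SF.db, hfd, hfd]
    rfl
  have hp := Vale.Agent.P136.SF.pompeiu hψ hψs
  have hx : Continuous (px φ) := (h.continuous_fderiv one_ne_zero).clm_apply continuous_const
  have hy : Continuous (py φ) := (h.continuous_fderiv one_ne_zero).clm_apply continuous_const
  have hxs : HasCompactSupport (px φ) :=
    (hs.fderiv (𝕜 := ℝ)).comp_left (g := fun L : ℂ →L[ℝ] ℝ => L 1) rfl
  have hys : HasCompactSupport (py φ) :=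
    (hs.fderiv (𝕜 := ℝ)).comp_left (g := fun L : ℂ →L[ℝ] ℝ => L Complex.I) rfl
  have hint : Integrable fun z : ℂ => z⁻¹ * ((px φ z : ℂ) + Complex.I * (py φ z : ℂ)) := by
    have i1 := lea_int lea_inv hx.abs hxs.norm
    have i2 := lea_int lea_inv hy.abs hys.norm
    refine (i1.add i2).mono' ?_ (ae_of_all _ fun z => ?_)
    · refine (measurable_inv.mul ?_).aestronglyMeasurable
      exact (by (clear * - hx hy; fun_prop) : Continuous fun z => (px φ z : ℂ) + Complex.I * (py φ z : ℂ)).measurable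
    · rw [norm_mul, norm_inv, Pi.add_apply, ← mul_add]
      refine mul_le_mul_of_nonneg_left ?_ (by (clear * -; positivity))
      refine (norm_add_le _ _).trans ?_
      rw [norm_mul, Complex.norm_I, one_mul, Complex.norm_real, Complex.norm_real]
      rfl
  simp_rw [hdb] at hp
  have hre := congrArg Complex.reCLM hp
  rw [← ContinuousLinearMap.integral_comp_comm _ hint] at hre
  have e1 : ∀ z : ℂ, Complex.reCLM (z⁻¹ * ((px φ z : ℂ) + Complex.I * (py φ z : ℂ))) =
      (z.re * px φ z + z.im * py φ z) / ‖z‖ ^ 2 := by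
    intro z
    rw [Complex.reCLM_apply, Complex.mul_re, Complex.inv_re, Complex.inv_im,
      Complex.normSq_eq_norm_sq]
    simp only [Complex.add_re, Complex.ofReal_re, Complex.mul_re, Complex.I_re, zero_mul, Complex.I_im, Complex.ofReal_im, mul_zero, sub_self, add_zero, Complex.add_im, Complex.mul_im, one_mul, zero_add]
    ring
  simp_rw [e1] at hre
  rw [hre]
  simp only [neg_mul, Complex.reCLM_apply, Complex.neg_re, Complex.mul_re, Complex.re_ofNat, Complex.ofReal_re, Complex.im_ofNat, Complex.ofReal_im, mul_zero, sub_zero, Complex.mul_im, zero_mul, add_zero]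

/-- Fundamental solution: `∫ log|z| Δφ = 2π φ(0)`. -/
theorem log_repr {φ : ℂ → ℝ} (h : ContDiff ℝ 2 φ) (hs : HasCompactSupport φ) :
    ∫ z : ℂ, Real.log ‖z‖ * lap φ z = 2 * π * φ 0 := by
  have hd : ContDiff ℝ 1 (fderiv ℝ φ) := h.fderiv_right (m := 1) (by (clear * -; norm_num))
  have hx : ContDiff ℝ 1 (px φ) := hd.clm_apply contDiff_const
  have hy : ContDiff ℝ 1 (py φ) := hd.clm_apply contDiff_const
  have hxs : HasCompactSupport (px φ) :=
    (hs.fderiv (𝕜 := ℝ)).comp_left (g := fun L : ℂ →L[ℝ] ℝ => L 1) rfl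
  have hys : HasCompactSupport (py φ) :=
    (hs.fderiv (𝕜 := ℝ)).comp_left (g := fun L : ℂ →L[ℝ] ℝ => L Complex.I) rfl
  have c1 : Continuous fun z => fderiv ℝ (px φ) z 1 :=
    (hx.continuous_fderiv one_ne_zero).clm_apply continuous_const
  have c2 : Continuous fun z => fderiv ℝ (py φ) z Complex.I :=
    (hy.continuous_fderiv one_ne_zero).clm_apply continuous_const
  have s1 : HasCompactSupport fun z => fderiv ℝ (px φ) z 1 :=
    (hxs.fderiv (𝕜 := ℝ)).comp_left (g := fun L : ℂ →L[ℝ] ℝ => L 1) rfl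
  have s2 : HasCompactSupport fun z => fderiv ℝ (py φ) z Complex.I :=
    (hys.fderiv (𝕜 := ℝ)).comp_left (g := fun L : ℂ →L[ℝ] ℝ => L Complex.I) rfl
  have hlc : Continuous (lap φ) := c1.add c2
  have hls : HasCompactSupport (lap φ) := s1.add s2
  set e : ℕ → ℝ := fun n => 1 / ((n : ℝ) + 1) with he
  have he0 : ∀ n, 0 < e n := fun n => by (clear * -; positivity)
  have he1 : ∀ n, e n ≤ 1 := fun n => by
    rw [he]
    simp only
    rw [div_le_one (by (clear * -; positivity))]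
    linarith only []
  have helim : Tendsto e atTop (𝓝 0) := tendsto_one_div_add_atTop_nhds_zero_nat
  -- the left hand sides
  have l1 : Tendsto (fun n => ∫ z : ℂ, lea_g (e n) z * lap φ z) atTop
      (𝓝 (∫ z : ℂ, Real.log ‖z‖ * lap φ z)) := by
    have hb : Integrable fun z : ℂ => (|Real.log ‖z‖| + ‖z‖ ^ 2) * |lap φ z| := by
      have i1 : LocallyIntegrable fun z : ℂ => |Real.log ‖z‖| + ‖z‖ ^ 2 :=
        lea_abslog.add ((continuous_norm.pow 2).locallyIntegrable)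
      exact lea_int i1 hlc.abs hls.norm
    refine tendsto_integral_of_dominated_convergence _ (fun n => ?_) hb (fun n => ?_) ?_
    · exact ((lea_g_contDiff (he0 n)).continuous.mul hlc).aestronglyMeasurable
    · have hne : ∀ᵐ z : ℂ, z ≠ 0 := by
        rw [ae_iff]
        simp
      filter_upwards [hne] with z hz
      rw [norm_mul, Real.norm_eq_abs, Real.norm_eq_abs]
      exact mul_le_mul_of_nonneg_right (lea_g_abs (he0 n) (he1 n) hz) (abs_nonneg _)
    · have hne : ∀ᵐ z : ℂ, z ≠ 0 := by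
        rw [ae_iff]
        simp
      filter_upwards [hne] with z hz
      refine Tendsto.mul_const _ ?_
      have h1 : Tendsto (fun n => ‖z‖ ^ 2 + e n ^ 2) atTop (𝓝 (‖z‖ ^ 2 + 0 ^ 2)) :=
        tendsto_const_nhds.add (helim.pow 2)
      have h2 : ‖z‖ ^ 2 + 0 ^ 2 ≠ 0 := by
        have := norm_pos_iff.2 hz
        (clear * - hz; positivity)
      have h3 := (h1.log h2).const_mul (1 / 2)
      have h4 : Real.log ‖z‖ = 1 / 2 * log (‖z‖ ^ 2 + 0 ^ 2) := by
        rw [zero_pow two_ne_zero, add_zero, Real.log_pow]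
        push_cast
        ring
      rw [h4]
      exact h3
  have l2 : Tendsto (fun n => ∫ z : ℂ, (z.re * px φ z + z.im * py φ z) / (‖z‖ ^ 2 + e n ^ 2))
      atTop (𝓝 (∫ z : ℂ, (z.re * px φ z + z.im * py φ z) / ‖z‖ ^ 2)) := by
    have hb : Integrable fun z : ℂ => ‖z‖⁻¹ * (|px φ z| + |py φ z|) := by
      have i1 := lea_int lea_inv hx.continuous.abs hxs.norm
      have i2 := lea_int lea_inv hy.continuous.abs hys.norm
      refine (i1.add i2).congr (ae_of_all _ fun z => ?_)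
      simp only [Pi.add_apply]
      ring
    refine tendsto_integral_of_dominated_convergence _ (fun n => ?_) hb (fun n => ?_) ?_
    · refine (Continuous.div ?_ (by fun_prop) fun z => ?_).aestronglyMeasurable
      · exact ((Complex.continuous_re.mul hx.continuous).add
          (Complex.continuous_im.mul hy.continuous))
      · have := he0 n
        (clear * -; positivity)
    · exact ae_of_all _ fun z => lea_quot (he0 n) z _ _
    · have hne : ∀ᵐ z : ℂ, z ≠ 0 := by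
        rw [ae_iff]
        simp
      filter_upwards [hne] with z hz
      have h1 : Tendsto (fun n => ‖z‖ ^ 2 + e n ^ 2) atTop (𝓝 (‖z‖ ^ 2 + 0 ^ 2)) :=
        tendsto_const_nhds.add (helim.pow 2)
      rw [zero_pow two_ne_zero, add_zero] at h1
      refine Tendsto.div tendsto_const_nhds h1 ?_
      have := norm_pos_iff.2 hz
      positivity
  have l3 := tendsto_nhds_unique l1 ((l2.neg).congr fun n => (lea_reg h hs (he0 n)).symm)
  rw [l3, lea_pomp (h.of_le (by norm_num)) hs]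
  ring

/-! ### The value estimate -/

theorem lea_cs {μ : Measure ℂ} {F G : ℂ → ℝ} (h1 : Integrable (fun z => F z ^ 2) μ)
    (h2 : Integrable (fun z => G z ^ 2) μ) (h3 : Integrable (fun z => F z * G z) μ) :
    (∫ z, F z * G z ∂μ) ^ 2 ≤ (∫ z, F z ^ 2 ∂μ) * ∫ z, G z ^ 2 ∂μ := by
  have h : ∀ s : ℝ, 0 ≤ (∫ z, F z ^ 2 ∂μ) * (s * s) + (-2 * ∫ z, F z * G z ∂μ) * s +
      ∫ z, G z ^ 2 ∂μ := by
    intro s
    have e : ∫ z, (s * F z - G z) ^ 2 ∂μ = (∫ z, F z ^ 2 ∂μ) * (s * s) +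
        (-2 * ∫ z, F z * G z ∂μ) * s + ∫ z, G z ^ 2 ∂μ := by
      have e1 : ∀ z, (s * F z - G z) ^ 2 = (s * s) * F z ^ 2 + (-2 * s) * (F z * G z) + G z ^ 2 := by
        intro z
        ring
      have i1 : Integrable (fun z => s * s * F z ^ 2) μ := h1.const_mul _
      have i2 : Integrable (fun z => -2 * s * (F z * G z)) μ := h3.const_mul _
      have i3 : Integrable (fun z => s * s * F z ^ 2 + -2 * s * (F z * G z)) μ := i1.add i2
      rw [integral_congr_ae (ae_of_all _ e1), integral_add i3 h2, integral_add i1 i2,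
        integral_const_mul, integral_const_mul]
      ring
    rw [← e]
    exact integral_nonneg fun z => sq_nonneg _
  have := discrim_le_zero h
  unfold discrim at this
  linarith

theorem lea_prod2 {f g : ℂ → ℝ} {z : ℂ} (v : ℂ) (hf : ContDiffAt ℝ 2 f z)
    (hg : ContDiffAt ℝ 2 g z) :
    fderiv ℝ (fun y => fderiv ℝ (fun x => f x * g x) y v) z v =
      f z * fderiv ℝ (fun y => fderiv ℝ g y v) z v + 2 * (fderiv ℝ f z v * fderiv ℝ g z v) +
        g z * fderiv ℝ (fun y => fderiv ℝ f y v) z v := by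
  have e1 : (fun y => fderiv ℝ (fun x => f x * g x) y v) =ᶠ[𝓝 z]
      fun y => f y * fderiv ℝ g y v + g y * fderiv ℝ f y v := by
    filter_upwards [hf.eventually (by simp), hg.eventually (by simp)] with y hy1 hy2
    rw [fderiv_fun_mul (hy1.differentiableAt (by norm_num)) (hy2.differentiableAt (by norm_num))]
    simp only [add_apply, smul_apply, smul_eq_mul]
  have df : DifferentiableAt ℝ f z := hf.differentiableAt (by norm_num)
  have dg : DifferentiableAt ℝ g z := hg.differentiableAt (by norm_num)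
  have df' : DifferentiableAt ℝ (fun y => fderiv ℝ f y v) z :=
    ((hf.fderiv_right (m := 1) (by norm_num)).differentiableAt (by norm_num)).clm_apply
      (differentiableAt_const v)
  have dg' : DifferentiableAt ℝ (fun y => fderiv ℝ g y v) z :=
    ((hg.fderiv_right (m := 1) (by norm_num)).differentiableAt (by norm_num)).clm_apply
      (differentiableAt_const v)
  have d1 : DifferentiableAt ℝ (fun y => f y * fderiv ℝ g y v) z := df.mul dg'
  have d2 : DifferentiableAt ℝ (fun y => g y * fderiv ℝ f y v) z := dg.mul df'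
  rw [e1.fderiv_eq, fderiv_fun_add d1 d2, fderiv_fun_mul df dg', fderiv_fun_mul dg df']
  simp only [add_apply, smul_apply, smul_eq_mul]
  ring

theorem lea_lap_mul {f g : ℂ → ℝ} {z : ℂ} (hf : ContDiffAt ℝ 2 f z) (hg : ContDiffAt ℝ 2 g z) :
    lap (fun x => f x * g x) z =
      f z * lap g z + 2 * (px f z * px g z + py f z * py g z) + g z * lap f z := by
  have h1 := lea_prod2 1 hf hg
  have h2 := lea_prod2 Complex.I hf hg
  have e1 : lap (fun x => f x * g x) z =
      fderiv ℝ (fun y => fderiv ℝ (fun x => f x * g x) y 1) z 1 +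
      fderiv ℝ (fun y => fderiv ℝ (fun x => f x * g x) y Complex.I) z Complex.I := rfl
  have e2 : lap g z = fderiv ℝ (fun y => fderiv ℝ g y 1) z 1 +
      fderiv ℝ (fun y => fderiv ℝ g y Complex.I) z Complex.I := rfl
  have e3 : lap f z = fderiv ℝ (fun y => fderiv ℝ f y 1) z 1 +
      fderiv ℝ (fun y => fderiv ℝ f y Complex.I) z Complex.I := rfl
  rw [e1, h1, h2, e2, e3]
  simp only [px, py]
  ring

theorem lea_alg {M a b c d L w1 w2 w : ℝ} (k1 : |a| ≤ M) (k2 : |b| ≤ M) (k3 : |c| ≤ M)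
    (k4 : |d| ≤ M) : (a * L + 2 * (b * w1 + c * w2) + w * d) ^ 2 ≤
      10 * M ^ 2 * (w ^ 2 + (w1 ^ 2 + w2 ^ 2) + L ^ 2) := by
  have h1 : a ^ 2 ≤ M ^ 2 := sq_le_sq.2 (k1.trans (le_abs_self M))
  have h2 : b ^ 2 ≤ M ^ 2 := sq_le_sq.2 (k2.trans (le_abs_self M))
  have h3 : c ^ 2 ≤ M ^ 2 := sq_le_sq.2 (k3.trans (le_abs_self M))
  have h4 : d ^ 2 ≤ M ^ 2 := sq_le_sq.2 (k4.trans (le_abs_self M))
  have h5 : (a * L + 2 * (b * w1 + c * w2) + w * d) ^ 2 ≤
      (a ^ 2 + 4 * b ^ 2 + 4 * c ^ 2 + d ^ 2) * (L ^ 2 + w1 ^ 2 + w2 ^ 2 + w ^ 2) := by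
    nlinarith only [sq_nonneg (a * w1 - 2 * b * L), sq_nonneg (a * w2 - 2 * c * L), sq_nonneg (a * w - d * L), sq_nonneg (2 * b * w2 - 2 * c * w1), sq_nonneg (2 * b * w - d * w1), sq_nonneg (2 * c * w - d * w2)]
  refine h5.trans ?_
  have h6 : 0 ≤ L ^ 2 + w1 ^ 2 + w2 ^ 2 + w ^ 2 := by (clear * -; positivity)
  calc (a ^ 2 + 4 * b ^ 2 + 4 * c ^ 2 + d ^ 2) * (L ^ 2 + w1 ^ 2 + w2 ^ 2 + w ^ 2)
      ≤ (10 * M ^ 2) * (L ^ 2 + w1 ^ 2 + w2 ^ 2 + w ^ 2) :=
        mul_le_mul_of_nonneg_right (by linarith only [h1, h2, h3, h4]) h6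
    _ = _ := by ring

theorem lea_trans_px (w : ℂ → ℝ) (z₀ : ℂ) :
    px (fun z => w (z₀ + z)) = fun z => px w (z₀ + z) := by
  funext z
  unfold px
  rw [fderiv_comp_add_left]

theorem lea_trans_py (w : ℂ → ℝ) (z₀ : ℂ) :
    py (fun z => w (z₀ + z)) = fun z => py w (z₀ + z) := by
  funext z
  unfold py
  rw [fderiv_comp_add_left]

theorem lea_trans_lap (w : ℂ → ℝ) (z₀ z : ℂ) :
    lap (fun z => w (z₀ + z)) z = lap w (z₀ + z) := by
  unfold lap
  rw [lea_trans_px, lea_trans_py, lea_trans_px (px w), lea_trans_py (py w)]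

theorem lea_bump {R : ℝ} (hR : 0 < R) : ∃ χ : ℂ → ℝ, ContDiff ℝ 3 χ ∧ HasCompactSupport χ ∧
    χ 0 = 1 ∧ tsupport χ ⊆ ball 0 R := by
  let b : ContDiffBump (0 : ℂ) := ⟨R / 2, 3 * R / 4, by linarith only [hR], by linarith only [hR]⟩
  refine ⟨b, b.contDiff, b.hasCompactSupport,
    b.one_of_mem_closedBall (mem_closedBall_self (by simp only [b]; linarith only [hR])), ?_⟩
  rw [b.tsupport_eq]
  exact closedBall_subset_ball (show 3 * R / 4 < R by linarith only [hR])

theorem lea_px_supp {f : ℂ → ℝ} (h : HasCompactSupport f) : HasCompactSupport (px f) :=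
  (h.fderiv (𝕜 := ℝ)).comp_left (g := fun L : ℂ →L[ℝ] ℝ => L 1) rfl

theorem lea_py_supp {f : ℂ → ℝ} (h : HasCompactSupport f) : HasCompactSupport (py f) :=
  (h.fderiv (𝕜 := ℝ)).comp_left (g := fun L : ℂ →L[ℝ] ℝ => L Complex.I) rfl

theorem lea_lap_supp {f : ℂ → ℝ} (h : HasCompactSupport f) : HasCompactSupport (lap f) :=
  (lea_px_supp (lea_px_supp h)).add (lea_py_supp (lea_py_supp h))

theorem lea_lap_cont {f : ℂ → ℝ} (h : ContDiff ℝ 2 f) : Continuous (lap f) := by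
  have hd : ContDiff ℝ 1 (fderiv ℝ f) := h.fderiv_right (m := 1) (by norm_num)
  have fx : ContDiff ℝ 1 (px f) := hd.clm_apply contDiff_const
  have fy : ContDiff ℝ 1 (py f) := hd.clm_apply contDiff_const
  exact ((fx.continuous_fderiv one_ne_zero).clm_apply continuous_const).add
    ((fy.continuous_fderiv one_ne_zero).clm_apply continuous_const)

/-- the localised function -/
theorem lea_loc {R : ℝ} {χ : ℂ → ℝ} (hχc : ContDiff ℝ 3 χ) (hχs : HasCompactSupport χ)
    (hts : tsupport χ ⊆ ball 0 R) {z₀ : ℂ} {w : ℂ → ℝ} (hw : ContDiffOn ℝ 2 w (ball z₀ R)) :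
    ContDiff ℝ 2 (fun z => χ z * w (z₀ + z)) ∧ HasCompactSupport (fun z => χ z * w (z₀ + z)) ∧
    (∀ z ∈ ball (0 : ℂ) R, lap (fun z => χ z * w (z₀ + z)) z = χ z * lap w (z₀ + z) +
      2 * (px χ z * px w (z₀ + z) + py χ z * py w (z₀ + z)) + w (z₀ + z) * lap χ z) ∧
    ∀ z, z ∉ ball (0 : ℂ) R → lap (fun z => χ z * w (z₀ + z)) z = 0 := by
  have hball : ∀ z ∈ ball (0 : ℂ) R, z₀ + z ∈ ball z₀ R := by
    intro z hz
    rw [mem_ball_zero_iff] at hz
    rw [mem_ball, dist_eq_norm]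
    simpa using hz
  have hwt : ∀ z ∈ ball (0 : ℂ) R, ContDiffAt ℝ 2 (fun z => w (z₀ + z)) z := by
    intro z hz
    have h1 : ContDiffAt ℝ 2 w (z₀ + z) := hw.contDiffAt (isOpen_ball.mem_nhds (hball z hz))
    exact h1.comp z (contDiffAt_const.add contDiffAt_id)
  have hzero : ∀ z, z ∉ tsupport χ → (fun z => χ z * w (z₀ + z)) =ᶠ[𝓝 z] fun _ => 0 := by
    intro z hz
    filter_upwards [notMem_tsupport_iff_eventuallyEq.1 hz] with y hy
    rw [hy]
    simp
  have hχ2 : ContDiff ℝ 2 χ := hχc.of_le (by norm_num)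
  refine ⟨?_, hχs.mul_right, ?_, ?_⟩
  · rw [contDiff_iff_contDiffAt]
    intro z
    by_cases hz : z ∈ tsupport χ
    · exact hχ2.contDiffAt.mul (hwt z (hts hz))
    · exact contDiffAt_const.congr_of_eventuallyEq (hzero z hz)
  · intro z hz
    rw [lea_lap_mul hχ2.contDiffAt (hwt z hz), lea_trans_lap, lea_trans_px, lea_trans_py]
  · intro z hz
    have h1 := hzero z fun h => hz (hts h)
    have e1 : px (fun z => χ z * w (z₀ + z)) =ᶠ[𝓝 z] fun _ => 0 := by
      filter_upwards [h1.fderiv (𝕜 := ℝ)] with y hy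
      rw [px, hy]
      simp only [fderiv_fun_const, Pi.zero_apply, zero_apply]
    have e2 : py (fun z => χ z * w (z₀ + z)) =ᶠ[𝓝 z] fun _ => 0 := by
      filter_upwards [h1.fderiv (𝕜 := ℝ)] with y hy
      rw [py, hy]
      simp only [fderiv_fun_const, Pi.zero_apply, zero_apply]
    have e3 : px (px (fun z => χ z * w (z₀ + z))) z = 0 := by
      rw [px, e1.fderiv_eq]
      simp
    have e4 : py (py (fun z => χ z * w (z₀ + z))) z = 0 := by
      rw [py, e2.fderiv_eq]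
      simp
    rw [lap, e3, e4, add_zero]

theorem lea_trans_int {R : ℝ} {z₀ : ℂ} {e : ℂ → ℝ} (h : IntegrableOn e (ball z₀ R)) :
    IntegrableOn (fun z => e (z₀ + z)) (ball (0 : ℂ) R) ∧
    ∫ z in ball (0 : ℂ) R, e (z₀ + z) = ∫ z in ball z₀ R, e z := by
  have hmp : MeasurePreserving (fun z : ℂ => z₀ + z) volume volume :=
    measurePreserving_add_left volume z₀
  have hemb : MeasurableEmbedding (fun z : ℂ => z₀ + z) := measurableEmbedding_addLeft z₀
  have hpre : (fun z : ℂ => z₀ + z) ⁻¹' ball z₀ R = ball 0 R := by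
    rw [preimage_add_left_ball, neg_add_cancel]
  constructor
  · have := (hmp.integrableOn_comp_preimage hemb).2 h
    rw [hpre] at this
    exact this
  · have := hmp.setIntegral_preimage_emb hemb e (ball z₀ R)
    rw [hpre] at this
    exact this

theorem lea_cs_ball {R : ℝ} {G : ℂ → ℝ} (hc : Continuous G) (hs : HasCompactSupport G)
    (h0 : ∀ z, z ∉ ball (0 : ℂ) R → G z = 0) :
    IntegrableOn (fun z => G z ^ 2) (ball (0 : ℂ) R) ∧
    (∫ z, Real.log ‖z‖ * G z) ^ 2 ≤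
      (∫ z in ball (0 : ℂ) R, Real.log ‖z‖ ^ 2) * ∫ z in ball (0 : ℂ) R, G z ^ 2 := by
  have hlog2 : IntegrableOn (fun z : ℂ => Real.log ‖z‖ ^ 2) (ball 0 R) :=
    (lea_logsq.integrableOn_isCompact (isCompact_closedBall 0 R)).mono_set ball_subset_closedBall
  have hset : ∫ z : ℂ, Real.log ‖z‖ * G z = ∫ z in ball (0 : ℂ) R, Real.log ‖z‖ * G z := by
    symm
    refine setIntegral_eq_integral_of_forall_compl_eq_zero fun z hz => ?_
    rw [h0 z hz, mul_zero]
  have s2 : HasCompactSupport (fun z => G z ^ 2) := by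
    have : HasCompactSupport (fun z => G z * G z) := hs.mul_right
    simpa only [sq] using this
  have c2 : Continuous (fun z => G z ^ 2) := hc.pow 2
  have hG2 : Integrable (fun z => G z ^ 2) := c2.integrable_of_hasCompactSupport s2
  have hFG : Integrable (fun z => Real.log ‖z‖ * G z) := lea_int lea_log hc hs
  rw [hset]
  exact ⟨hG2.integrableOn, lea_cs hlog2 hG2.integrableOn hFG.integrableOn⟩

/-- Cauchy-Schwarz for the representation -/
theorem lea_rep_cs {R A : ℝ} {φ : ℂ → ℝ} (hc : ContDiff ℝ 2 φ) (hs : HasCompactSupport φ)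
    (h0 : ∀ z, z ∉ ball (0 : ℂ) R → lap φ z = 0)
    (hA : A = ∫ z in ball (0 : ℂ) R, Real.log ‖z‖ ^ 2) :
    IntegrableOn (fun z => lap φ z ^ 2) (ball (0 : ℂ) R) ∧
    (2 * π * φ 0) ^ 2 ≤ A * ∫ z in ball (0 : ℂ) R, lap φ z ^ 2 := by
  have h := lea_cs_ball (lea_lap_cont hc) (lea_lap_supp hs) h0
  rw [log_repr hc hs, ← hA] at h
  exact h

theorem lea_core {R M A : ℝ} {χ : ℂ → ℝ} (hχc : ContDiff ℝ 3 χ) (hχs : HasCompactSupport χ)
    (hχ0 : χ 0 = 1) (hts : tsupport χ ⊆ ball 0 R) (b1 : ∀ z, |χ z| ≤ M) (b2 : ∀ z, |px χ z| ≤ M)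
    (b3 : ∀ z, |py χ z| ≤ M) (b4 : ∀ z, |lap χ z| ≤ M)
    (hA : A = ∫ z in ball (0 : ℂ) R, Real.log ‖z‖ ^ 2) (hA0 : 0 ≤ A) (z₀ : ℂ) (w : ℂ → ℝ)
    (hw : ContDiffOn ℝ 2 w (ball z₀ R))
    (hint : IntegrableOn (fun z => w z ^ 2 + gsq w z + lap w z ^ 2) (ball z₀ R)) :
    (2 * π * w z₀) ^ 2 ≤ A * (10 * M ^ 2 * ∫ z in ball z₀ R,
      (w z ^ 2 + gsq w z + lap w z ^ 2)) := by
  obtain ⟨hφc, hφs, hlapφ, hlap0⟩ := lea_loc hχc hχs hts hw
  obtain ⟨hG2, hcs⟩ := lea_rep_cs hφc hφs hlap0 hA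
  obtain ⟨hint', hval⟩ := lea_trans_int hint
  rw [hχ0, add_zero, one_mul] at hcs
  refine hcs.trans (mul_le_mul_of_nonneg_left ?_ hA0)
  rw [← hval, ← integral_const_mul]
  refine setIntegral_mono_on hG2 (hint'.const_mul _) measurableSet_ball fun z hz => ?_
  rw [hlapφ z hz]
  exact lea_alg (b1 z) (b2 z) (b3 z) (b4 z)

theorem lea_fin {x A M EE : ℝ} (hE : 0 ≤ EE) (h4 : (2 * π * x) ^ 2 ≤ A * (10 * M ^ 2 * EE)) :
    x ^ 2 ≤ (A * (10 * M ^ 2) + 1) * EE := by
  have hpi : 1 ≤ (2 * π) ^ 2 := by nlinarith only [Real.pi_gt_three]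
  have h5 : x ^ 2 ≤ (2 * π * x) ^ 2 := by
    rw [mul_pow]
    exact le_mul_of_one_le_left (sq_nonneg _) hpi
  calc x ^ 2 ≤ A * (10 * M ^ 2 * EE) := h5.trans h4
    _ ≤ (A * (10 * M ^ 2) + 1) * EE := by linarith

theorem lea_bds {R : ℝ} (hR : 0 < R) : ∃ (χ : ℂ → ℝ) (M : ℝ), ContDiff ℝ 3 χ ∧
    HasCompactSupport χ ∧ χ 0 = 1 ∧ tsupport χ ⊆ ball 0 R ∧ (∀ z, |χ z| ≤ M) ∧
    (∀ z, |px χ z| ≤ M) ∧ (∀ z, |py χ z| ≤ M) ∧ ∀ z, |lap χ z| ≤ M := by
  obtain ⟨χ, hχc, hχs, hχ0, hts⟩ := lea_bump hR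
  have hdχ : ContDiff ℝ 2 (fderiv ℝ χ) := hχc.fderiv_right (m := 2) (by norm_num)
  have cx : ContDiff ℝ 2 (px χ) := hdχ.clm_apply contDiff_const
  have cy : ContDiff ℝ 2 (py χ) := hdχ.clm_apply contDiff_const
  have cl : Continuous (lap χ) := lea_lap_cont (hχc.of_le (by norm_num))
  obtain ⟨M1, hM1⟩ := hχs.exists_bound_of_continuous hχc.continuous
  obtain ⟨M2, hM2⟩ := (lea_px_supp hχs).exists_bound_of_continuous cx.continuous
  obtain ⟨M3, hM3⟩ := (lea_py_supp hχs).exists_bound_of_continuous cy.continuous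
  obtain ⟨M4, hM4⟩ := (lea_lap_supp hχs).exists_bound_of_continuous cl
  refine ⟨χ, max (max M1 M2) (max M3 M4), hχc, hχs, hχ0, hts, fun z => ?_, fun z => ?_,
    fun z => ?_, fun z => ?_⟩
  · exact (hM1 z).trans ((le_max_left _ _).trans (le_max_left _ _))
  · exact (hM2 z).trans ((le_max_right _ _).trans (le_max_left _ _))
  · exact (hM3 z).trans ((le_max_left _ _).trans (le_max_right _ _))
  · exact (hM4 z).trans ((le_max_right _ _).trans (le_max_right _ _))

/-- Value estimate. -/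
theorem sq_le_of_ball {R : ℝ} (hR : 0 < R) : ∃ C : ℝ, 0 < C ∧ ∀ (z₀ : ℂ) (w : ℂ → ℝ),
    ContDiffOn ℝ 2 w (ball z₀ R) →
    IntegrableOn (fun z => w z ^ 2 + gsq w z + lap w z ^ 2) (ball z₀ R) →
    w z₀ ^ 2 ≤ C * ∫ z in ball z₀ R, (w z ^ 2 + gsq w z + lap w z ^ 2) := by
  obtain ⟨χ, M, hχc, hχs, hχ0, hts, b1, b2, b3, b4⟩ := lea_bds hR
  obtain ⟨A, hA⟩ : ∃ A : ℝ, A = ∫ z in ball (0 : ℂ) R, Real.log ‖z‖ ^ 2 := ⟨_, rfl⟩
  have hA0 : 0 ≤ A := by
    rw [hA]
    exact integral_nonneg fun z => sq_nonneg _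
  refine ⟨A * (10 * M ^ 2) + 1, by (clear * - hA0; positivity), fun z₀ w hw hint => ?_⟩
  have hEE0 : 0 ≤ ∫ z in ball z₀ R, (w z ^ 2 + gsq w z + lap w z ^ 2) :=
    integral_nonneg fun z =>
      add_nonneg (add_nonneg (sq_nonneg _) (add_nonneg (sq_nonneg _) (sq_nonneg _)))
        (sq_nonneg _)
  exact lea_fin hEE0 (lea_core hχc hχs hχ0 hts b1 b2 b3 b4 hA hA0 z₀ w hw hint)

end Vale.Agent.P071.Lim
end

section

/-!
# P071: the local lower bound for the gradient of good eigenfunctions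

Pure calculus. If `ψ > 0` is superharmonic in a disc and `|∇ψ| |∇U| ≥ m |U| ψ` there, then
`|∇U(x₀)|` is bounded below at the centre by a constant which depends only on `m`, a lower
bound of `|U|`, the Lipschitz constant of `∇U` and the radius.
-/

open MeasureTheory Set Metric Filter Topology

noncomputable section

namespace Vale.Agent.P071.Loc

/-- `x`-derivative. -/
abbrev gx (g : ℂ → ℝ) (z : ℂ) : ℝ := fderiv ℝ g z 1

/-- `y`-derivative. -/
abbrev gy (g : ℂ → ℝ) (z : ℂ) : ℝ := fderiv ℝ g z Complex.I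

/-- squared length of the gradient. -/
abbrev gsq (g : ℂ → ℝ) (z : ℂ) : ℝ := gx g z ^ 2 + gy g z ^ 2

theorem cont_mul {η W : ℂ → ℝ} {S : Set ℂ} (hS : IsOpen S) (hη : Continuous η)
    (hs : tsupport η ⊆ S) (hW : ContinuousOn W S) : Continuous (fun z => η z * W z) := by
  rw [continuous_iff_continuousAt]
  intro z
  by_cases hz : z ∈ tsupport η
  · exact hη.continuousAt.mul (hW.continuousAt (hS.mem_nhds (hs hz)))
  · have h1 : η =ᶠ[𝓝 z] 0 := notMem_tsupport_iff_eventuallyEq.1 hz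
    have h2 : (fun z => η z * W z) =ᶠ[𝓝 z] fun _ => 0 := by
      filter_upwards [h1] with w hw
      simp [hw]
    exact continuousAt_const.congr h2.symm

theorem int_mul {η W : ℂ → ℝ} {S : Set ℂ} (hS : IsOpen S) (hη : Continuous η)
    (hc : HasCompactSupport η) (hs : tsupport η ⊆ S) (hW : ContinuousOn W S) :
    Integrable (fun z => η z * W z) :=
  (cont_mul hS hη hs hW).integrable_of_hasCompactSupport (hc.mul_right)

/-- Integration by parts in one direction. -/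
theorem ibp {η W : ℂ → ℝ} {S : Set ℂ} (hS : IsOpen S) (hη : ContDiff ℝ 1 η)
    (hc : HasCompactSupport η) (hs : tsupport η ⊆ S) (hW : ContDiffOn ℝ 1 W S) (v : ℂ) :
    ∫ z, η z * fderiv ℝ W z v = - ∫ z, fderiv ℝ η z v * W z := by
  have hWc : ContinuousOn W S := hW.continuousOn
  have hW' : ContinuousOn (fun z => fderiv ℝ W z v) S :=
    (hW.continuousOn_fderiv_of_isOpen hS le_rfl).clm_apply continuousOn_const
  have hη' : Continuous (fun z => fderiv ℝ η z v) :=
    (hη.continuous_fderiv one_ne_zero).clm_apply continuous_const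
  have hc' : HasCompactSupport (fun z => fderiv ℝ η z v) :=
    (hc.fderiv (𝕜 := ℝ)).comp_left (g := fun L : ℂ →L[ℝ] ℝ => L v) rfl
  have hs' : tsupport (fun z => fderiv ℝ η z v) ⊆ S := by
    refine Subset.trans ?_ hs
    exact tsupport_fderiv_apply_subset ℝ v
  refine integral_mul_fderiv_eq_neg_fderiv_mul_of_integrable ?_ ?_ ?_ ?_ ?_
  · exact int_mul hS hη' hc' hs' hWc
  · exact int_mul hS hη.continuous hc hs hW'
  · exact int_mul hS hη.continuous hc hs hWc
  · intro z _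
    exact hη.differentiable one_ne_zero z
  · intro z hz
    exact (hW.differentiableOn one_ne_zero).differentiableAt (hS.mem_nhds (hs hz))

/-- The logarithmic gradient of a positive superharmonic function is locally square
integrable, with an explicit bound. -/
theorem super_log {ψ η : ℂ → ℝ} {S : Set ℂ} (hS : IsOpen S) (hψ : ContDiffOn ℝ 2 ψ S)
    (hpos : ∀ z ∈ S, 0 < ψ z) (hlap : ∀ z ∈ S, gx (gx ψ) z + gy (gy ψ) z ≤ 0)
    (hη : ContDiff ℝ 1 η) (hc : HasCompactSupport η) (hs : tsupport η ⊆ S) :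
    ∫ z, η z ^ 2 * (gsq ψ z / ψ z ^ 2) ≤ 4 * ∫ z, gsq η z := by
  have hψ1 : ContDiffOn ℝ 1 (fderiv ℝ ψ) S := hψ.fderiv_of_isOpen hS (by norm_num)
  have hψv : ∀ v : ℂ, ContDiffOn ℝ 1 (fun z => fderiv ℝ ψ z v) S := fun v =>
    hψ1.clm_apply contDiffOn_const
  have hψ0 : ContDiffOn ℝ 1 ψ S := hψ.of_le (by norm_num)
  have hne : ∀ z ∈ S, ψ z ≠ 0 := fun z hz => (hpos z hz).ne'
  have hW : ∀ v : ℂ, ContDiffOn ℝ 1 (fun z => fderiv ℝ ψ z v / ψ z) S := fun v =>
    (hψv v).div hψ0 hne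
  have hη2 : ContDiff ℝ 1 (fun z => η z ^ 2) := hη.pow 2
  have hc2 : HasCompactSupport (fun z => η z ^ 2) :=
    hc.comp_left (g := fun t : ℝ => t ^ 2) (by norm_num)
  have hs2 : tsupport (fun z => η z ^ 2) ⊆ S := by
    refine Subset.trans ?_ hs
    refine closure_mono fun z hz => ?_
    simp only [Function.mem_support] at hz ⊢
    intro h
    exact hz (by rw [h]; norm_num)
  -- derivative formulas
  have hdη : ∀ v z, fderiv ℝ (fun z => η z ^ 2) z v = 2 * η z * fderiv ℝ η z v := by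
    intro v z
    have h1 : HasFDerivAt η (fderiv ℝ η z) z := (hη.differentiable one_ne_zero z).hasFDerivAt
    have h2 := h1.pow 2
    rw [h2.fderiv]
    simp only [Nat.add_one_sub_one, pow_one, nsmul_eq_mul, Nat.cast_ofNat, smul_apply, smul_eq_mul]
  have hdW : ∀ v, ∀ z ∈ S, fderiv ℝ (fun z => fderiv ℝ ψ z v / ψ z) z v =
      fderiv ℝ (fun z => fderiv ℝ ψ z v) z v / ψ z - fderiv ℝ ψ z v ^ 2 / ψ z ^ 2 := by
    intro v z hz
    have h1 : HasFDerivAt (fun z => fderiv ℝ ψ z v) (fderiv ℝ (fun z => fderiv ℝ ψ z v) z) z :=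
      (((hψv v).differentiableOn one_ne_zero).differentiableAt (hS.mem_nhds hz)).hasFDerivAt
    have h2 : HasFDerivAt ψ (fderiv ℝ ψ z) z :=
      ((hψ0.differentiableOn one_ne_zero).differentiableAt (hS.mem_nhds hz)).hasFDerivAt
    have h3 : HasFDerivAt (fun z => (ψ z)⁻¹) (-(ψ z ^ 2)⁻¹ • fderiv ℝ ψ z) z :=
      (hasDerivAt_inv (hne z hz)).comp_hasFDerivAt z h2
    have h4 := h1.mul h3
    have h5 : (fun z => fderiv ℝ ψ z v / ψ z) =
        (fun z => fderiv ℝ ψ z v) * fun z => (ψ z)⁻¹ := by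
      funext z; simp only [Pi.mul_apply]; rw [div_eq_mul_inv]
    rw [h5, h4.fderiv]
    have := hne z hz
    simp only [_root_.add_apply, _root_.smul_apply, smul_eq_mul]
    field_simp
    ring
  -- integration by parts
  have key : ∀ v : ℂ, ∫ z, η z ^ 2 * fderiv ℝ (fun z => fderiv ℝ ψ z v / ψ z) z v =
      - ∫ z, 2 * η z * fderiv ℝ η z v * (fderiv ℝ ψ z v / ψ z) := by
    intro v
    rw [ibp hS hη2 hc2 hs2 (hW v) v]
    congr 1
    refine integral_congr_ae (Eventually.of_forall fun z => ?_)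
    simp only [hdη]
  have hX : Integrable (fun z => η z ^ 2 * (gsq ψ z / ψ z ^ 2)) := by
    refine int_mul hS hη2.continuous hc2 hs2 ?_
    exact ((((hψv 1).continuousOn.pow 2).add ((hψv Complex.I).continuousOn.pow 2))).div
      (hψ0.continuousOn.pow 2) fun z hz => pow_ne_zero _ (hne z hz)
  have hE : Integrable (fun z => gsq η z) := by
    have h1 : ∀ v : ℂ, Integrable (fun z => fderiv ℝ η z v ^ 2) := by
      intro v
      refine Continuous.integrable_of_hasCompactSupport ?_ ?_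
      · exact ((hη.continuous_fderiv one_ne_zero).clm_apply continuous_const).pow 2
      · exact (hc.fderiv (𝕜 := ℝ)).comp_left (g := fun L : ℂ →L[ℝ] ℝ => L v ^ 2) (by simp)
    exact (h1 1).add (h1 Complex.I)
  have hC : ∀ v : ℂ, Integrable (fun z => 2 * η z * fderiv ℝ η z v * (fderiv ℝ ψ z v / ψ z)) := by
    intro v
    have h1 : Integrable (fun z => η z * (2 * fderiv ℝ η z v * (fderiv ℝ ψ z v / ψ z))) := by
      refine int_mul hS hη.continuous hc hs ?_
      exact (continuousOn_const.mul (((hη.continuous_fderiv one_ne_zero).clm_apply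
        continuous_const).continuousOn)).mul (hW v).continuousOn
    refine h1.congr (Eventually.of_forall fun z => ?_)
    simp only
    ring
  have hL : ∀ v : ℂ, Integrable
      (fun z => η z ^ 2 * fderiv ℝ (fun z => fderiv ℝ ψ z v / ψ z) z v) := by
    intro v
    refine int_mul hS hη2.continuous hc2 hs2 ?_
    exact ((hW v).continuousOn_fderiv_of_isOpen hS le_rfl).clm_apply continuousOn_const
  have hle1 : ∫ z, η z ^ 2 * (gsq ψ z / ψ z ^ 2) ≤
      ∫ z, -(η z ^ 2 * fderiv ℝ (fun z => fderiv ℝ ψ z 1 / ψ z) z 1 +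
        η z ^ 2 * fderiv ℝ (fun z => fderiv ℝ ψ z Complex.I / ψ z) z Complex.I) := by
    refine integral_mono hX ((hL 1).add (hL Complex.I)).neg fun z => ?_
    simp only
    by_cases hz : z ∈ S
    · rw [hdW 1 z hz, hdW Complex.I z hz]
      have h1 := hlap z hz
      have h2 := hpos z hz
      have h3 : gx (gx ψ) z / ψ z + gy (gy ψ) z / ψ z ≤ 0 := by
        rw [← add_div]; exact div_nonpos_of_nonpos_of_nonneg h1 h2.le
      have h4 : 0 ≤ η z ^ 2 := sq_nonneg _
      simp only [gx, gy, gsq] at h3 ⊢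
      rw [add_div]
      nlinarith only [h3]
    · have h1 : η z = 0 := by
        by_contra h
        exact hz (hs (subset_tsupport _ h))
      simp only [h1, ne_eq, OfNat.ofNat_ne_zero, not_false_eq_true, zero_pow, zero_mul, add_zero, neg_zero, Std.le_refl]
  have hle2 : ∫ z, (2 * η z * fderiv ℝ η z 1 * (fderiv ℝ ψ z 1 / ψ z) +
        2 * η z * fderiv ℝ η z Complex.I * (fderiv ℝ ψ z Complex.I / ψ z)) ≤
      ∫ z, ((1 / 2) * (η z ^ 2 * (gsq ψ z / ψ z ^ 2)) + 2 * gsq η z) := by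
    refine integral_mono ((hC 1).add (hC Complex.I)) ((hX.const_mul _).add (hE.const_mul _))
      fun z => ?_
    simp only [gsq, gx, gy]
    rw [add_div, ← div_pow, ← div_pow]
    nlinarith only [sq_nonneg (η z * (fderiv ℝ ψ z 1 / ψ z) - 2 * fderiv ℝ η z 1), sq_nonneg (η z * (fderiv ℝ ψ z Complex.I / ψ z) - 2 * fderiv ℝ η z Complex.I)]
  rw [integral_neg, integral_add (hL 1) (hL Complex.I), key 1, key Complex.I] at hle1
  rw [integral_add (hC 1) (hC Complex.I), integral_add (hX.const_mul _) (hE.const_mul _),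
    integral_const_mul, integral_const_mul] at hle2
  linarith

theorem radial_big {L R : ℝ} (hL : 0 < L) (hR : 0 < R) (K : ℝ) :
    ∃ c > 0, K < ∫ z in ball (0 : ℂ) R, 1 / (c + L * ‖z‖) ^ 2 := by
  obtain ⟨N, hN⟩ := exists_nat_gt ((4 * L ^ 2) * |K|)
  set c : ℝ := L * R * Real.exp (-(N : ℝ)) with hc
  have hcpos : 0 < c := by positivity
  refine ⟨c, hcpos, ?_⟩
  have hcL : 0 < c / L := div_pos hcpos hL
  have hcR : c / L ≤ R := by
    have h1 : c / L = R * Real.exp (-(N : ℝ)) := by rw [hc]; (clear * - hL hR; field_simp)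
    rw [h1]
    have h2 : Real.exp (-(N : ℝ)) ≤ 1 := Real.exp_le_one_iff.2 (by simp only [Left.neg_nonpos_iff, Nat.cast_nonneg])
    nlinarith only [hR, h2]
  have h1 : ∫ z in ball (0 : ℂ) R, 1 / (c + L * ‖z‖) ^ 2 =
      ∫ z : ℂ, (Iio R).indicator (fun y : ℝ => 1 / (c + L * y) ^ 2) ‖z‖ := by
    rw [← integral_indicator measurableSet_ball]
    congr 1
    funext z
    by_cases hz : z ∈ ball (0 : ℂ) R
    · rw [indicator_of_mem hz, indicator_of_mem]
      simpa using hz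
    · rw [indicator_of_notMem hz, indicator_of_notMem]
      simpa only [mem_Iio, not_lt, mem_ball, dist_zero_right] using hz
  rw [h1, integral_fun_norm_addHaar volume]
  have h2 : Module.finrank ℝ ℂ = 2 := Complex.finrank_real_complex
  rw [h2]
  have h3 : volume.real (ball (0 : ℂ) 1) = Real.pi := by
    simp only [Measure.real, Complex.volume_ball, ENNReal.ofReal_one, one_pow, one_mul, ENNReal.coe_toReal, NNReal.coe_real_pi]
  rw [h3]
  have h4 : ∫ y in Ioi (0 : ℝ), y ^ (2 - 1) • (Iio R).indicator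
      (fun y : ℝ => 1 / (c + L * y) ^ 2) y = ∫ y in Ioo 0 R, y / (c + L * y) ^ 2 := by
    rw [← Ioi_inter_Iio, ← setIntegral_indicator measurableSet_Iio]
    congr 1
    funext y
    by_cases hy : y ∈ Iio R
    · rw [indicator_of_mem hy, indicator_of_mem hy]
      simp only [Nat.add_one_sub_one, pow_one, div_eq_mul_inv, one_mul, smul_eq_mul]
    · rw [indicator_of_notMem hy, indicator_of_notMem hy]
      simp only [Nat.add_one_sub_one, pow_one, smul_eq_mul, mul_zero]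
  rw [h4]
  have hint : IntegrableOn (fun y : ℝ => y / (c + L * y) ^ 2) (Ioo 0 R) := by
    refine IntegrableOn.mono_set ?_ Ioo_subset_Icc_self
    refine ContinuousOn.integrableOn_compact isCompact_Icc ?_
    refine continuousOn_id.div (by (clear * -; fun_prop)) fun y hy => ?_
    have : 0 ≤ y := hy.1
    positivity
  have h5 : ∫ y in Ioo (c / L) R, 1 / (4 * L ^ 2) * y⁻¹ ≤
      ∫ y in Ioo 0 R, y / (c + L * y) ^ 2 := by
    have h6 : ∫ y in Ioo (c / L) R, 1 / (4 * L ^ 2) * y⁻¹ ≤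
        ∫ y in Ioo (c / L) R, y / (c + L * y) ^ 2 := by
      refine setIntegral_mono_on ?_ (hint.mono_set (Ioo_subset_Ioo_left hcL.le))
        measurableSet_Ioo fun y hy => ?_
      · refine IntegrableOn.mono_set ?_ Ioo_subset_Icc_self
        refine ContinuousOn.integrableOn_compact isCompact_Icc ?_
        refine continuousOn_const.mul (continuousOn_inv₀.mono fun y hy => ?_)
        have : c / L ≤ y := hy.1
        simp only [mem_compl_iff, mem_singleton_iff]
        linarith only [hcL, this]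
      · have hy0 : 0 < y := lt_trans hcL hy.1
        have hcy : c < L * y := by
          have := hy.1
          rw [div_lt_iff₀ hL] at this
          linarith only [this]
        rw [one_div, ← mul_inv, ← one_div, div_le_div_iff₀ (by (clear * - hL hy0; positivity)) (by positivity)]
        nlinarith only [hcpos, hcy]
    refine h6.trans (setIntegral_mono_set hint ?_ ?_)
    · refine (ae_restrict_iff' measurableSet_Ioo).2 (Eventually.of_forall fun y hy => ?_)
      have : 0 < y := hy.1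
      simp only [Pi.zero_apply]
      (clear * - this hL hR; positivity)
    · exact (Ioo_subset_Ioo_left hcL.le).eventuallyLE
  have h7 : ∫ y in Ioo (c / L) R, 1 / (4 * L ^ 2) * y⁻¹ = 1 / (4 * L ^ 2) * N := by
    rw [← integral_Ioc_eq_integral_Ioo, ← intervalIntegral.integral_of_le hcR,
      intervalIntegral.integral_const_mul, integral_inv_of_pos hcL hR]
    congr 1
    have : R / (c / L) = Real.exp N := by
      rw [hc, Real.exp_neg]
      (clear * - hR hL; field_simp)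
    rw [this, Real.log_exp]
  rw [h7] at h5
  have h8 : |K| < 1 / (4 * L ^ 2) * N := by
    rw [one_div, inv_mul_eq_div, lt_div_iff₀ (by positivity)]
    linarith only [hN]
  have h9 : |K| < ∫ y in Ioo 0 R, y / (c + L * y) ^ 2 := lt_of_lt_of_le h8 h5
  have h10 : K ≤ |K| := le_abs_self K
  have h11 : 0 ≤ |K| := abs_nonneg K
  have hpi := Real.pi_gt_three
  simp only [smul_eq_mul, nsmul_eq_mul]
  push_cast
  set I := ∫ y in Ioo 0 R, y / (c + L * y) ^ 2
  have h12 : I ≤ 2 * (Real.pi * I) := by nlinarith only [h8, h11, h5, hpi]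
  linarith only [h8, h10, h5, h12]

end Vale.Agent.P071.Loc
end
end

section

/-!
# Regularity of weak solutions: calculus of test functions and convolution
-/

open MeasureTheory Metric Filter Topology Real
open scoped ContDiff ENNReal Convolution

namespace Vale.Agent.P071.Lim.RegA

lemma px_contDiff {φ : ℂ → ℝ} (h : ContDiff ℝ ∞ φ) : ContDiff ℝ ∞ (px φ) :=
  (h.fderiv_right (m := ∞) (by simp)).clm_apply contDiff_const

lemma py_contDiff {φ : ℂ → ℝ} (h : ContDiff ℝ ∞ φ) : ContDiff ℝ ∞ (py φ) :=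
  (h.fderiv_right (m := ∞) (by simp)).clm_apply contDiff_const

lemma px_tsupport (φ : ℂ → ℝ) : tsupport (px φ) ⊆ tsupport φ := by
  refine closure_minimal ?_ (isClosed_tsupport φ)
  intro z hz
  by_contra h
  apply hz
  have : fderiv ℝ φ z = 0 := by
    by_contra h2
    exact h (support_fderiv_subset ℝ h2)
  simp only [px, this, zero_apply]

lemma py_tsupport (φ : ℂ → ℝ) : tsupport (py φ) ⊆ tsupport φ := by
  refine closure_minimal ?_ (isClosed_tsupport φ)
  intro z hz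
  by_contra h
  apply hz
  have : fderiv ℝ φ z = 0 := by
    by_contra h2
    exact h (support_fderiv_subset ℝ h2)
  simp [py, this]

lemma px_cs {φ : ℂ → ℝ} (h : HasCompactSupport φ) : HasCompactSupport (px φ) :=
  h.of_isClosed_subset (isClosed_tsupport _) (px_tsupport φ)

lemma py_cs {φ : ℂ → ℝ} (h : HasCompactSupport φ) : HasCompactSupport (py φ) :=
  h.of_isClosed_subset (isClosed_tsupport _) (py_tsupport φ)

/-- commuting derivatives -/
lemma px_py {φ : ℂ → ℝ} (h : ContDiff ℝ ∞ φ) : px (py φ) = py (px φ) := by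
  have h2 : ContDiff ℝ ∞ (fderiv ℝ φ) := h.fderiv_right (m := ∞) (by simp)
  have hd : Differentiable ℝ (fderiv ℝ φ) := h2.differentiable (by simp)
  funext z
  have e1 : px (py φ) z = fderiv ℝ (fderiv ℝ φ) z 1 Complex.I := by
    unfold px py
    rw [fderiv_clm_apply (hd z) (by fun_prop)]
    simp only [fderiv_fun_const, Pi.zero_apply, ContinuousLinearMap.comp_zero, zero_add, ContinuousLinearMap.flip_apply]
  have e2 : py (px φ) z = fderiv ℝ (fderiv ℝ φ) z Complex.I 1 := by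
    unfold px py
    rw [fderiv_clm_apply (hd z) (by fun_prop)]
    simp only [fderiv_fun_const, Pi.zero_apply, ContinuousLinearMap.comp_zero, zero_add, ContinuousLinearMap.flip_apply]
  rw [e1, e2]
  have hs : IsSymmSndFDerivAt ℝ φ z := h.contDiffAt.isSymmSndFDerivAt
    (by simp only [minSmoothness_of_isRCLikeNormedField]; exact WithTop.coe_le_coe.2 (le_top : (2 : ℕ∞) ≤ ⊤))
  exact hs.eq 1 Complex.I

/-- A product with a test function is integrable. -/
lemma mul_cs_continuous {U : Set ℂ} (hU : IsOpen U) {f φ : ℂ → ℝ} (hf : ContinuousOn f U)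
    (hφ : Continuous φ) (hs : tsupport φ ⊆ U) : Continuous (fun z => f z * φ z) := by
  rw [continuous_iff_continuousAt]
  intro z
  by_cases hz : z ∈ tsupport φ
  · exact (hf.continuousAt (hU.mem_nhds (hs hz))).mul hφ.continuousAt
  · have : (fun z => f z * φ z) =ᶠ[𝓝 z] fun _ => 0 := by
      filter_upwards [notMem_tsupport_iff_eventuallyEq.1 hz] with y hy
      simp [hy]
    exact this.continuousAt

lemma mul_cs_integrable {U : Set ℂ} (hU : IsOpen U) {f φ : ℂ → ℝ} (hf : ContinuousOn f U)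
    (hφ : Continuous φ) (hc : HasCompactSupport φ) (hs : tsupport φ ⊆ U) :
    Integrable (fun z => f z * φ z) :=
  (mul_cs_continuous hU hf hφ hs).integrable_of_hasCompactSupport hc.mul_left

lemma setInt_eq {U : Set ℂ} {f φ : ℂ → ℝ} (hs : tsupport φ ⊆ U) :
    ∫ z in U, f z * φ z = ∫ z, f z * φ z := by
  apply setIntegral_eq_integral_of_forall_compl_eq_zero
  intro z hz
  rw [image_eq_zero_of_notMem_tsupport (fun h => hz (hs h)), mul_zero]

/-- integration by parts -/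
lemma ibp {U : Set ℂ} (hU : IsOpen U) {f φ : ℂ → ℝ} (hf : ContDiffOn ℝ 1 f U)
    (hφ : ContDiff ℝ ∞ φ) (hc : HasCompactSupport φ) (hs : tsupport φ ⊆ U) (v : ℂ) :
    ∫ z, f z * fderiv ℝ φ z v = -∫ z, fderiv ℝ f z v * φ z := by
  have hf' : ContinuousOn (fun z => fderiv ℝ f z v) U :=
    (hf.continuousOn_fderiv_of_isOpen hU le_rfl).clm_apply continuousOn_const
  have hφ' : Continuous (fun z => fderiv ℝ φ z v) :=
    (hφ.continuous_fderiv (by simp)).clm_apply continuous_const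
  have hs' : tsupport (fun z => fderiv ℝ φ z v) ⊆ tsupport φ := by
    refine closure_minimal ?_ (isClosed_tsupport φ)
    intro z hz
    by_contra h
    apply hz
    have : fderiv ℝ φ z = 0 := by
      by_contra h2
      exact h (support_fderiv_subset ℝ h2)
    simp [this]
  refine integral_mul_fderiv_eq_neg_fderiv_mul_of_integrable ?_ ?_ ?_ ?_ ?_
  · exact mul_cs_integrable hU hf' hφ.continuous hc hs
  · exact mul_cs_integrable hU hf.continuousOn hφ'
      (hc.of_isClosed_subset (isClosed_tsupport _) hs') (hs'.trans hs)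
  · exact mul_cs_integrable hU hf.continuousOn hφ.continuous hc hs
  · intro x hx
    exact (hf.contDiffAt (hU.mem_nhds (hs hx))).differentiableAt (by simp)
  · intro x _
    exact (hφ.differentiable (by simp)) x

lemma ibp_x {U : Set ℂ} (hU : IsOpen U) {f φ : ℂ → ℝ} (hf : ContDiffOn ℝ 1 f U)
    (hφ : ContDiff ℝ ∞ φ) (hc : HasCompactSupport φ) (hs : tsupport φ ⊆ U) :
    ∫ z, f z * px φ z = -∫ z, px f z * φ z := ibp hU hf hφ hc hs 1

lemma ibp_y {U : Set ℂ} (hU : IsOpen U) {f φ : ℂ → ℝ} (hf : ContDiffOn ℝ 1 f U)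
    (hφ : ContDiff ℝ ∞ φ) (hc : HasCompactSupport φ) (hs : tsupport φ ⊆ U) :
    ∫ z, f z * py φ z = -∫ z, py f z * φ z := ibp hU hf hφ hc hs Complex.I

/-- convolution -/
noncomputable def cv (w ρ : ℂ → ℝ) : ℂ → ℝ :=
  MeasureTheory.convolution w ρ (ContinuousLinearMap.mul ℝ ℝ) volume

lemma cv_apply (w ρ : ℂ → ℝ) (z : ℂ) : cv w ρ z = ∫ t, w t * ρ (z - t) := rfl

lemma cv_contDiff {w ρ : ℂ → ℝ} (hw : LocallyIntegrable w) (hρ : ContDiff ℝ ∞ ρ)
    (hc : HasCompactSupport ρ) : ContDiff ℝ ∞ (cv w ρ) :=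
  hc.contDiff_convolution_right _ hw hρ

lemma cv_fderiv {w ρ : ℂ → ℝ} (hw : LocallyIntegrable w) (hρ : ContDiff ℝ ∞ ρ)
    (hc : HasCompactSupport ρ) (z v : ℂ) :
    fderiv ℝ (cv w ρ) z v = cv w (fun t => fderiv ℝ ρ t v) z := by
  have h := hc.hasFDerivAt_convolution_right (ContinuousLinearMap.mul ℝ ℝ) hw
    (hρ.of_le (by simp only [WithTop.one_le_coe, le_top])) z
  rw [show fderiv ℝ (cv w ρ) z = _ from h.fderiv]
  exact convolution_precompR_apply _ hw (hc.fderiv ℝ) (hρ.continuous_fderiv (by simp)) z v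

lemma cv_px {w ρ : ℂ → ℝ} (hw : LocallyIntegrable w) (hρ : ContDiff ℝ ∞ ρ)
    (hc : HasCompactSupport ρ) : px (cv w ρ) = cv w (px ρ) := by
  funext z; exact cv_fderiv hw hρ hc z 1

lemma cv_py {w ρ : ℂ → ℝ} (hw : LocallyIntegrable w) (hρ : ContDiff ℝ ∞ ρ)
    (hc : HasCompactSupport ρ) : py (cv w ρ) = cv w (py ρ) := by
  funext z; exact cv_fderiv hw hρ hc z Complex.I

lemma cv_lap {w ρ : ℂ → ℝ} (hw : LocallyIntegrable w) (hρ : ContDiff ℝ ∞ ρ)
    (hc : HasCompactSupport ρ) (z : ℂ) : lap (cv w ρ) z = cv w (lap ρ) z := by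
  have e1 : px (px (cv w ρ)) = cv w (px (px ρ)) := by
    rw [cv_px hw hρ hc, cv_px hw (px_contDiff hρ) (px_cs hc)]
  have e2 : py (py (cv w ρ)) = cv w (py (py ρ)) := by
    rw [cv_py hw hρ hc, cv_py hw (py_contDiff hρ) (py_cs hc)]
  unfold lap
  rw [e1, e2]
  have i1 := (px_cs (px_cs hc)).convolutionExists_right (ContinuousLinearMap.mul ℝ ℝ) hw
    (px_contDiff (px_contDiff hρ)).continuous z
  have i2 := (py_cs (py_cs hc)).convolutionExists_right (ContinuousLinearMap.mul ℝ ℝ) hw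
    (py_contDiff (py_contDiff hρ)).continuous z
  exact (i1.distrib_add i2).symm

/-- Laplacian of a reflected function -/
lemma lap_refl {ρ : ℂ → ℝ} (hρ : ContDiff ℝ ∞ ρ) (z t : ℂ) :
    lap (fun s => ρ (z - s)) t = lap ρ (z - t) := by
  have key : ∀ (ψ : ℂ → ℝ), ContDiff ℝ ∞ ψ → ∀ (v s : ℂ),
      fderiv ℝ (fun s => ψ (z - s)) s v = -fderiv ℝ ψ (z - s) v := by
    intro ψ hψ v s
    have h1 : HasFDerivAt (fun s : ℂ => z - s) (-ContinuousLinearMap.id ℝ ℂ) s := by
      exact (hasFDerivAt_id s).const_sub z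
    have h2 := ((hψ.differentiable (by simp)) (z - s)).hasFDerivAt
    have h3 := h2.comp s h1
    rw [show (fun s => ψ (z - s)) = ψ ∘ (fun s : ℂ => z - s) from rfl, h3.fderiv]
    simp only [ContinuousLinearMap.comp_neg, ContinuousLinearMap.comp_id, neg_apply]
  have kx : ∀ (ψ : ℂ → ℝ), ContDiff ℝ ∞ ψ →
      px (fun s => ψ (z - s)) = fun s => -px ψ (z - s) := by
    intro ψ hψ; funext s; exact key ψ hψ 1 s
  have ky : ∀ (ψ : ℂ → ℝ), ContDiff ℝ ∞ ψ →
      py (fun s => ψ (z - s)) = fun s => -py ψ (z - s) := by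
    intro ψ hψ; funext s; exact key ψ hψ Complex.I s
  have nx : ∀ (ψ : ℂ → ℝ) (s : ℂ), px (fun s => -ψ s) s = -px ψ s := by
    intro ψ s
    unfold px
    rw [show (fun s => -ψ s) = -ψ from rfl, fderiv_neg]
    rfl
  have ny : ∀ (ψ : ℂ → ℝ) (s : ℂ), py (fun s => -ψ s) s = -py ψ s := by
    intro ψ s
    unfold py
    rw [show (fun s => -ψ s) = -ψ from rfl, fderiv_neg]
    rfl
  unfold lap
  rw [kx ρ hρ, ky ρ hρ, nx (fun s => px ρ (z - s)), ny (fun s => py ρ (z - s)),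
    kx _ (px_contDiff hρ), ky _ (py_contDiff hρ)]
  ring

lemma cv_sub_test {U : Set ℂ} {w h : ℂ → ℝ}
    (hweak : ∀ φ : ℂ → ℝ, ContDiff ℝ ∞ φ → HasCompactSupport φ → tsupport φ ⊆ U →
      ∫ z in U, w z * lap φ z = -∫ z in U, h z * φ z)
    {K : Set ℂ} {ρ : ℂ → ℝ} (hρ : ContDiff ℝ ∞ ρ)
    (hc : HasCompactSupport ρ) (hKU : K ⊆ U) {z : ℂ}
    (hK : ∀ t, z - t ∈ tsupport ρ → t ∈ K) :
    cv (K.indicator w) (lap ρ) z = -cv (K.indicator h) ρ z := by
  have hφ : ContDiff ℝ ∞ (fun t => ρ (z - t)) := hρ.comp (contDiff_const.sub contDiff_id)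
  have hts : tsupport (fun t => ρ (z - t)) ⊆ (fun t => z - t) ⁻¹' (tsupport ρ) :=
    closure_minimal (fun t ht => subset_tsupport ρ ht)
      ((isClosed_tsupport ρ).preimage (by fun_prop))
  have hφc : HasCompactSupport (fun t => ρ (z - t)) := by
    refine IsCompact.of_isClosed_subset ?_ (isClosed_tsupport _) hts
    have : (fun t => z - t) ⁻¹' (tsupport ρ) = (fun t => z - t) '' (tsupport ρ) := by
      ext t
      constructor
      · intro ht; exact ⟨z - t, ht, by ring⟩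
      · rintro ⟨s, hs, rfl⟩
        simpa using hs
    rw [this]
    exact (show IsCompact (tsupport ρ) from hc).image (by fun_prop)
  have hφK : tsupport (fun t => ρ (z - t)) ⊆ K := fun t ht => hK t (hts ht)
  have h1 := hweak _ hφ hφc (hφK.trans hKU)
  have hlapts : tsupport (lap (fun t => ρ (z - t))) ⊆ tsupport (fun t => ρ (z - t)) := by
    refine closure_minimal ?_ (isClosed_tsupport _)
    intro t ht
    by_contra h
    apply ht
    unfold lap
    rw [image_eq_zero_of_notMem_tsupport (fun h' => h (px_tsupport _ (px_tsupport _ h'))),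
      image_eq_zero_of_notMem_tsupport (fun h' => h (py_tsupport _ (py_tsupport _ h'))), add_zero]
  rw [setInt_eq (hφK.trans hKU), setInt_eq (hlapts.trans (hφK.trans hKU))] at h1
  rw [cv_apply, cv_apply]
  have a1 : ∫ t, K.indicator w t * lap ρ (z - t) = ∫ t, w t * lap (fun t => ρ (z - t)) t := by
    apply integral_congr_ae
    filter_upwards with t
    by_cases ht : t ∈ K
    · rw [Set.indicator_of_mem ht, lap_refl hρ]
    · rw [Set.indicator_of_notMem ht,
        image_eq_zero_of_notMem_tsupport (fun h' => ht (hφK (hlapts h')))]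
      ring
  have a2 : ∫ t, K.indicator h t * ρ (z - t) = ∫ t, h t * ρ (z - t) := by
    apply integral_congr_ae
    filter_upwards with t
    by_cases ht : t ∈ K
    · rw [Set.indicator_of_mem ht]
    · have : ρ (z - t) = 0 :=
        image_eq_zero_of_notMem_tsupport (f := fun t => ρ (z - t)) (fun h' => ht (hφK h'))
      rw [this, mul_zero, mul_zero]
  rw [a1, a2, h1]

end Vale.Agent.P071.Lim.RegA
end

section

/-!
# The inequality (I) passes to limits (task LIM-COMPb)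
-/

open MeasureTheory Metric Filter Topology Real
open scoped ContDiff ENNReal

namespace Vale.Agent.P071.Lim

/-- The inequality (I) passes to `C¹_loc` limits. -/
theorem ineqI_of_tendsto {κ : ℕ → ℂ → ℝ} {κ₀ : ℂ → ℝ} {μ : ℕ → ℝ} {μ₀ : ℝ}
    {u : ℕ → ℂ → ℝ} {w : ℂ → ℝ} (hμ₀ : 0 < μ₀) (hμ : Tendsto μ atTop (𝓝 μ₀))
    (hκ : ∀ z ∈ DD, Tendsto (fun n => κ n z) atTop (𝓝 (κ₀ z)))
    (hu : ∀ z ∈ DD, Tendsto (fun n => u n z) atTop (𝓝 (w z)))
    (hux : ∀ z ∈ DD, Tendsto (fun n => px (u n) z) atTop (𝓝 (px w z)))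
    (huy : ∀ z ∈ DD, Tendsto (fun n => py (u n) z) atTop (𝓝 (py w z)))
    (hm : ∀ n, ContinuousOn (κ n) DD) (hm' : ∀ n, ContDiffOn ℝ 1 (u n) DD)
    (hI : ∀ n, IneqI DD (κ n) (μ n) (u n)) : IneqI DD κ₀ μ₀ w := by
  intro η hη hηc hηs
  have hDo : IsOpen DD := isOpen_ball
  have hpx : ∀ n, ContinuousOn (px (u n)) DD := fun n =>
    ((hm' n).continuousOn_fderiv_of_isOpen hDo le_rfl).clm_apply continuousOn_const
  have hpy : ∀ n, ContinuousOn (py (u n)) DD := fun n =>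
    ((hm' n).continuousOn_fderiv_of_isOpen hDo le_rfl).clm_apply continuousOn_const
  have hmeas : ∀ n, AEMeasurable (fun z => ENNReal.ofReal (η z ^ 2 * κ n z ^ 2 * u n z ^ 2) /
      ENNReal.ofReal (gsq (u n) z)) (volume.restrict DD) := by
    intro n
    apply AEMeasurable.div
    · apply AEMeasurable.ennreal_ofReal
      apply ContinuousOn.aemeasurable _ measurableSet_ball
      exact ((hη.continuous.continuousOn.pow 2).mul ((hm n).pow 2)).mul
        ((hm' n).continuousOn.pow 2)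
    · apply AEMeasurable.ennreal_ofReal
      apply ContinuousOn.aemeasurable _ measurableSet_ball
      unfold gsq
      exact ((hpx n).pow 2).add ((hpy n).pow 2)
  have hpt : ∀ z ∈ DD, ENNReal.ofReal (η z ^ 2 * κ₀ z ^ 2 * w z ^ 2) /
      ENNReal.ofReal (gsq w z) ≤ liminf (fun n =>
        ENNReal.ofReal (η z ^ 2 * κ n z ^ 2 * u n z ^ 2) / ENNReal.ofReal (gsq (u n) z)) atTop := by
    intro z hz
    have t1 : Tendsto (fun n => ENNReal.ofReal (η z ^ 2 * κ n z ^ 2 * u n z ^ 2)) atTop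
        (𝓝 (ENNReal.ofReal (η z ^ 2 * κ₀ z ^ 2 * w z ^ 2))) := by
      apply ENNReal.tendsto_ofReal
      exact (((hκ z hz).pow 2).const_mul (η z ^ 2)).mul ((hu z hz).pow 2)
    have t2 : Tendsto (fun n => ENNReal.ofReal (gsq (u n) z)) atTop
        (𝓝 (ENNReal.ofReal (gsq w z))) := by
      apply ENNReal.tendsto_ofReal
      exact ((hux z hz).pow 2).add ((huy z hz).pow 2)
    by_cases h0 : ENNReal.ofReal (η z ^ 2 * κ₀ z ^ 2 * w z ^ 2) = 0 ∧
        ENNReal.ofReal (gsq w z) = 0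
    · rw [h0.1, ENNReal.zero_div]
      exact zero_le
    · rw [(ENNReal.Tendsto.div t1 (by (clear * - h0; tauto)) t2 (Or.inl ENNReal.ofReal_ne_top)).liminf_eq]
  have hlim : Tendsto (fun n => ENNReal.ofReal (16 / μ n ^ 2 * ∫ z in DD, gsq η z)) atTop
      (𝓝 (ENNReal.ofReal (16 / μ₀ ^ 2 * ∫ z in DD, gsq η z))) := by
    apply ENNReal.tendsto_ofReal
    exact (Tendsto.div tendsto_const_nhds (hμ.pow 2) (by positivity)).mul_const _
  calc ∫⁻ z in DD, ENNReal.ofReal (η z ^ 2 * κ₀ z ^ 2 * w z ^ 2) / ENNReal.ofReal (gsq w z)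
      ≤ ∫⁻ z in DD, liminf (fun n => ENNReal.ofReal (η z ^ 2 * κ n z ^ 2 * u n z ^ 2) /
          ENNReal.ofReal (gsq (u n) z)) atTop :=
        setLIntegral_mono' measurableSet_ball hpt
    _ ≤ liminf (fun n => ∫⁻ z in DD, ENNReal.ofReal (η z ^ 2 * κ n z ^ 2 * u n z ^ 2) /
          ENNReal.ofReal (gsq (u n) z)) atTop := lintegral_liminf_le' hmeas
    _ ≤ liminf (fun n => ENNReal.ofReal (16 / μ n ^ 2 * ∫ z in DD, gsq η z)) atTop :=
        liminf_le_liminf (Eventually.of_forall fun n => hI n η hη hηc hηs)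
    _ = _ := hlim.liminf_eq

end Vale.Agent.P071.Lim
end

section

/-!
# P071: the selection lemma (Picone), weighted form

`u` is a weak solution of the Neumann problem with weight `κ` and eigenvalue `μ`, `U` is a
minimiser and `∫ U² (κ+|∇u|²)/u² < ∞`. Then `∇U = (U/u) ∇u` wherever `u ≠ 0`.
-/

open MeasureTheory Set Metric Filter Topology

noncomputable section

namespace Vale.Agent.P071.Loc

open scoped ENNReal

theorem intOn_of_bound {Ω : Set ℂ} (hΩ : IsOpen Ω) {f g : ℂ → ℝ} (hf : ContinuousOn f Ω)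
    (hg : IntegrableOn g Ω) (h : ∀ z ∈ Ω, |f z| ≤ g z) : IntegrableOn f Ω := by
  refine Integrable.mono' hg (hf.aestronglyMeasurable hΩ.measurableSet) ?_
  exact (ae_restrict_iff' hΩ.measurableSet).2 (Eventually.of_forall fun z hz => by
    rw [Real.norm_eq_abs]; exact h z hz)

/-- the truncation -/
def tr (d t : ℝ) : ℝ := t / (1 + d * t ^ 2)

/-- its derivative -/
def tr' (d t : ℝ) : ℝ := (1 - d * t ^ 2) / (1 + d * t ^ 2) ^ 2

/-- the regularised inverse -/
def sv (d t : ℝ) : ℝ := t / (t ^ 2 + d)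

/-- its derivative -/
def sv' (d t : ℝ) : ℝ := (d - t ^ 2) / (t ^ 2 + d) ^ 2

theorem tr_hasDerivAt {d : ℝ} (hd : 0 < d) (t : ℝ) : HasDerivAt (tr d) (tr' d t) t := by
  have h1 : HasDerivAt (fun t : ℝ => 1 + d * t ^ 2) (d * (2 * t)) t := by
    have := ((hasDerivAt_pow 2 t).const_mul d).const_add 1
    simpa only [hasDerivAt_const_add_iff, Nat.cast_ofNat, Nat.add_one_sub_one, pow_one] using this
  have h2 : (1 + d * t ^ 2) ≠ 0 := by positivity
  have h3 := (hasDerivAt_id t).div h1 h2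
  refine h3.congr_deriv ?_
  unfold tr'
  simp only [id]
  field_simp
  ring

theorem sv_hasDerivAt {d : ℝ} (hd : 0 < d) (t : ℝ) : HasDerivAt (sv d) (sv' d t) t := by
  have h1 : HasDerivAt (fun t : ℝ => t ^ 2 + d) (2 * t) t := by
    have := (hasDerivAt_pow 2 t).add_const d
    simpa only [hasDerivAt_add_const_iff, Nat.cast_ofNat, Nat.add_one_sub_one, pow_one] using this
  have h2 : (t ^ 2 + d) ≠ 0 := by positivity
  have h3 := (hasDerivAt_id t).div h1 h2
  refine h3.congr_deriv ?_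
  unfold sv'
  simp only [id]
  field_simp
  ring

theorem tr_sq_le {d : ℝ} (hd : 0 < d) (t : ℝ) : tr d t ^ 2 ≤ t ^ 2 := by
  unfold tr
  rw [div_pow]
  have h1 : 1 ≤ (1 + d * t ^ 2) ^ 2 := by
    have : 0 ≤ d * t ^ 2 := by positivity
    nlinarith
  exact div_le_self (sq_nonneg _) h1

theorem tr_sq_le' {d : ℝ} (hd : 0 < d) (t : ℝ) : tr d t ^ 2 ≤ 1 / (4 * d) := by
  unfold tr
  rw [div_pow, div_le_div_iff₀ (by positivity) (by positivity)]
  nlinarith [sq_nonneg (1 - d * t ^ 2)]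

theorem tr'_sq_le {d : ℝ} (hd : 0 < d) (t : ℝ) : tr' d t ^ 2 ≤ 1 := by
  unfold tr'
  have h1 : 0 ≤ d * t ^ 2 := by (clear * - hd; positivity)
  rw [div_pow, div_le_one (by positivity)]
  have h2 : (1 - d * t ^ 2) ^ 2 ≤ (1 + d * t ^ 2) ^ 2 := by linarith
  have h3 : (1 + d * t ^ 2) ^ 2 ≤ ((1 + d * t ^ 2) ^ 2) ^ 2 := by
    have : 1 ≤ (1 + d * t ^ 2) ^ 2 := by nlinarith only [h1]
    nlinarith only [this]
  linarith only [h1, h3]

theorem sv_sq_le {d : ℝ} (hd : 0 < d) (t : ℝ) : sv d t ^ 2 ≤ 1 / (4 * d) := by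
  unfold sv
  rw [div_pow, div_le_div_iff₀ (by positivity) (by positivity)]
  nlinarith [sq_nonneg (t ^ 2 - d)]

theorem sv'_sq_le {d : ℝ} (hd : 0 < d) (t : ℝ) : sv' d t ^ 2 ≤ 1 / d ^ 2 := by
  unfold sv'
  rw [div_pow, div_le_div_iff₀ (by positivity) (by positivity)]
  have h0 : 0 ≤ t ^ 2 := sq_nonneg _
  have h1 : (d - t ^ 2) ^ 2 ≤ (t ^ 2 + d) ^ 2 := by nlinarith
  have h2 : d ^ 2 ≤ (t ^ 2 + d) ^ 2 := by nlinarith only [h1]
  have h3 : 0 ≤ (t ^ 2 + d) ^ 2 := by positivity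
  have h4 : 0 ≤ d ^ 2 := by positivity
  calc (d - t ^ 2) ^ 2 * d ^ 2 ≤ (t ^ 2 + d) ^ 2 * (t ^ 2 + d) ^ 2 := by gcongr
    _ = 1 * ((t ^ 2 + d) ^ 2) ^ 2 := by ring

theorem alg_id {d : ℝ} (hd : 0 < d) (u T p a b : ℝ) :
    (p * a - sv d u * T * b) ^ 2 = (p * a) ^ 2 - b * (2 * T * p * sv d u * a + T ^ 2 * sv' d u * b)
      + d * T ^ 2 * b ^ 2 / (u ^ 2 + d) ^ 2 := by
  unfold sv sv'
  have h : u ^ 2 + d ≠ 0 := by positivity
  field_simp
  ring

/-- test function -/
def chi (d : ℝ) (u U : ℂ → ℝ) (z : ℂ) : ℝ := tr d (U z) ^ 2 * sv d (u z)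

/-- error term -/
def Ed (d : ℝ) (u U : ℂ → ℝ) (z : ℂ) : ℝ :=
  d * tr d (U z) ^ 2 * gsq u z / (u z ^ 2 + d) ^ 2

/-- the square -/
def Dd (d : ℝ) (u U : ℂ → ℝ) (z : ℂ) : ℝ :=
  (tr' d (U z) * gx U z - sv d (u z) * tr d (U z) * gx u z) ^ 2 +
    (tr' d (U z) * gy U z - sv d (u z) * tr d (U z) * gy u z) ^ 2

/-- Step A: limit form of the penalisation. -/
theorem stepA {Ω : Set ℂ} (hΩ : IsOpen Ω) {κ u U : ℂ → ℝ} (hκc : ContinuousOn κ Ω)
    (hκ0 : ∀ z ∈ Ω, 0 < κ z)
    (hu : ContDiffOn ℝ 1 u Ω) (hU : ContDiffOn ℝ 1 U Ω)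
    (hP : ∫⁻ z in Ω, ENNReal.ofReal ((κ z + gsq u z) * U z ^ 2) / ENNReal.ofReal (u z ^ 2) < ⊤) :
    (∀ᵐ z ∂(volume.restrict Ω), u z = 0 → U z = 0) ∧
      IntegrableOn (fun z => (κ z + gsq u z) * U z ^ 2 / u z ^ 2) Ω := by
  have hms := hΩ.measurableSet
  have huc := hu.continuousOn
  have hUc := hU.continuousOn
  have hud : ∀ v : ℂ, ContinuousOn (fun z => fderiv ℝ u z v) Ω := fun v =>
    (hu.continuousOn_fderiv_of_isOpen hΩ le_rfl).clm_apply continuousOn_const
  have hgu : ContinuousOn (gsq u) Ω := ((hud 1).pow 2).add ((hud Complex.I).pow 2)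
  have hgu0 : ∀ z, 0 ≤ gsq u z := fun z => by simp only [gsq]; (clear * -; positivity)
  have hnum : AEMeasurable (fun z => (κ z + gsq u z) * U z ^ 2) (volume.restrict Ω) :=
    (((hκc.add hgu).mul (hUc.pow 2)).aestronglyMeasurable hms).aemeasurable
  have hden : AEMeasurable (fun z => u z ^ 2) (volume.restrict Ω) :=
    ((huc.pow 2).aestronglyMeasurable hms).aemeasurable
  have hm : AEMeasurable (fun z => ENNReal.ofReal ((κ z + gsq u z) * U z ^ 2) /
      ENNReal.ofReal (u z ^ 2)) (volume.restrict Ω) :=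
    (ENNReal.measurable_ofReal.comp_aemeasurable hnum).div
      (ENNReal.measurable_ofReal.comp_aemeasurable hden)
  have hzero : ∀ᵐ z ∂(volume.restrict Ω), u z = 0 → U z = 0 := by
    filter_upwards [ae_lt_top' hm hP.ne, ae_restrict_mem hms] with z hz hzΩ hu0
    by_contra hne
    have h1 : 0 < (κ z + gsq u z) * U z ^ 2 := by
      have := hκ0 z hzΩ
      have := hgu0 z
      (clear hΩ hκc hu hU hP hms huc hUc hud hgu hgu0 hnum hden hm hz hu0 this; positivity)
    rw [hu0] at hz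
    simp only [ne_eq, OfNat.ofNat_ne_zero, not_false_eq_true, zero_pow, ENNReal.ofReal_zero] at hz
    rw [ENNReal.div_zero (by simpa only [ne_eq, ENNReal.ofReal_eq_zero, not_le] using h1)] at hz
    exact lt_irrefl _ hz
  refine ⟨hzero, ?_⟩
  refine ⟨(hnum.div hden).aestronglyMeasurable, ?_⟩
  rw [hasFiniteIntegral_iff_ofReal]
  · refine lt_of_le_of_lt (lintegral_mono_ae ?_) hP
    refine Eventually.of_forall fun z => ?_
    by_cases hu0 : u z = 0
    · simp only [hu0, ne_eq, OfNat.ofNat_ne_zero, not_false_eq_true, zero_pow, div_zero, ENNReal.ofReal_zero, zero_le]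
    · rw [ENNReal.ofReal_div_of_pos (by (clear * - hu0; positivity))]
  · refine (ae_restrict_iff' hms).2 (Eventually.of_forall fun z hz => ?_)
    have := hgu0 z
    have := hκ0 z hz
    simp only [Pi.zero_apply]
    (clear * - this; positivity)

theorem tr_contDiff {d : ℝ} (hd : 0 < d) : ContDiff ℝ 1 (tr d) := by
  refine contDiff_id.div (contDiff_const.add (contDiff_const.mul (contDiff_id.pow 2)))
    fun t => ?_
  positivity

theorem sv_contDiff {d : ℝ} (hd : 0 < d) : ContDiff ℝ 1 (sv d) := by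
  refine contDiff_id.div ((contDiff_id.pow 2).add contDiff_const) fun t => ?_
  positivity

theorem tr'_cont {d : ℝ} (hd : 0 < d) : Continuous (tr' d) := by
  unfold tr'
  refine Continuous.div (by fun_prop) (by fun_prop) fun t => ?_
  positivity

theorem chi_contDiffOn {Ω : Set ℂ} {u U : ℂ → ℝ}
    (hu : ContDiffOn ℝ 1 u Ω) (hU : ContDiffOn ℝ 1 U Ω) {d : ℝ} (hd : 0 < d) :
    ContDiffOn ℝ 1 (chi d u U) Ω :=
  (((tr_contDiff hd).comp_contDiffOn hU).pow 2).mul ((sv_contDiff hd).comp_contDiffOn hu)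

theorem chi_fderiv {Ω : Set ℂ} (hΩ : IsOpen Ω) {u U : ℂ → ℝ}
    (hu : ContDiffOn ℝ 1 u Ω) (hU : ContDiffOn ℝ 1 U Ω) {d : ℝ} (hd : 0 < d) {z : ℂ} (hz : z ∈ Ω)
    (v : ℂ) : fderiv ℝ (chi d u U) z v =
      2 * tr d (U z) * tr' d (U z) * sv d (u z) * fderiv ℝ U z v +
        tr d (U z) ^ 2 * sv' d (u z) * fderiv ℝ u z v := by
  have hUF : HasFDerivAt U (fderiv ℝ U z) z :=
    ((hU.differentiableOn one_ne_zero).differentiableAt (hΩ.mem_nhds hz)).hasFDerivAt
  have huF : HasFDerivAt u (fderiv ℝ u z) z :=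
    ((hu.differentiableOn one_ne_zero).differentiableAt (hΩ.mem_nhds hz)).hasFDerivAt
  have hTF : HasFDerivAt (fun z => tr d (U z)) (tr' d (U z) • fderiv ℝ U z) z :=
    (tr_hasDerivAt hd (U z)).comp_hasFDerivAt z hUF
  have hSF : HasFDerivAt (fun z => sv d (u z)) (sv' d (u z) • fderiv ℝ u z) z :=
    (sv_hasDerivAt hd (u z)).comp_hasFDerivAt z huF
  have h1 := (hTF.pow 2).mul hSF
  have h2 : chi d u U = (fun x => tr d (U x) ^ 2) * fun z => sv d (u z) := by
    funext z; simp [chi]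
  rw [h2, h1.fderiv]
  simp only [_root_.add_apply, _root_.smul_apply, smul_eq_mul]
  simp only [Nat.add_one_sub_one, pow_one, nsmul_eq_mul, Nat.cast_ofNat]
  ring

/-- bounds for the test function -/
theorem chi_int {Ω : Set ℂ} (hΩ : IsOpen Ω) {κ u U : ℂ → ℝ} (hκc : ContinuousOn κ Ω)
    (hκ0 : ∀ z ∈ Ω, 0 < κ z) (hκi : IntegrableOn κ Ω)
    (hu : ContDiffOn ℝ 1 u Ω) (hU : ContDiffOn ℝ 1 U Ω)
    (hug : IntegrableOn (gsq u) Ω) (hUg : IntegrableOn (gsq U) Ω) {d : ℝ} (hd : 0 < d) :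
    IntegrableOn (fun z => κ z * chi d u U z ^ 2) Ω ∧ IntegrableOn (gsq (chi d u U)) Ω := by
  have hχC := chi_contDiffOn hu hU hd
  have hχd : ∀ v : ℂ, ContinuousOn (fun z => fderiv ℝ (chi d u U) z v) Ω := fun v =>
    (hχC.continuousOn_fderiv_of_isOpen hΩ le_rfl).clm_apply continuousOn_const
  constructor
  · have hc : IntegrableOn (fun z : ℂ => κ z * ((1 / (4 * d)) ^ 2 * (1 / (4 * d)))) Ω :=
      hκi.mul_const _
    refine intOn_of_bound hΩ (hκc.mul (hχC.continuousOn.pow 2)) hc fun z hz => ?_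
    have hκz := (hκ0 z hz).le
    rw [abs_of_nonneg (by (clear * - hκz; positivity))]
    have h1 := tr_sq_le' hd (U z)
    have h2 := sv_sq_le hd (u z)
    have h3 : (tr d (U z) ^ 2) ^ 2 ≤ (1 / (4 * d)) ^ 2 := pow_le_pow_left₀ (sq_nonneg _) h1 2
    refine mul_le_mul_of_nonneg_left ?_ hκz
    calc chi d u U z ^ 2 = (tr d (U z) ^ 2) ^ 2 * sv d (u z) ^ 2 := by simp only [chi]; ring
      _ ≤ _ := by (clear * - h3 h2 hd; gcongr)
  · have hc : IntegrableOn (fun z => (1 / (2 * d ^ 2)) * gsq U z +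
        (1 / (8 * d ^ 4)) * gsq u z) Ω := (hUg.const_mul _).add (hug.const_mul _)
    refine intOn_of_bound hΩ (((hχd 1).pow 2).add ((hχd Complex.I).pow 2)) hc fun z hz => ?_
    have h1 := tr_sq_le' hd (U z)
    have h2 := sv_sq_le hd (u z)
    have h3 := tr'_sq_le hd (U z)
    have h4 := sv'_sq_le hd (u z)
    have h5 : (tr d (U z) ^ 2) ^ 2 ≤ (1 / (4 * d)) ^ 2 := pow_le_pow_left₀ (sq_nonneg _) h1 2
    have key : ∀ v : ℂ, (fderiv ℝ (chi d u U) z v) ^ 2 ≤
        (1 / (2 * d ^ 2)) * (fderiv ℝ U z v) ^ 2 +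
        (1 / (8 * d ^ 4)) * (fderiv ℝ u z v) ^ 2 := by
      intro v
      rw [chi_fderiv hΩ hu hU hd hz v]
      have e1 : (2 * tr d (U z) * tr' d (U z) * sv d (u z)) ^ 2 ≤ 1 / (4 * d ^ 2) := by
        calc (2 * tr d (U z) * tr' d (U z) * sv d (u z)) ^ 2
            = 4 * (tr d (U z) ^ 2 * (tr' d (U z) ^ 2 * sv d (u z) ^ 2)) := by ring
          _ ≤ 4 * (1 / (4 * d) * (1 * (1 / (4 * d)))) := by (clear * - h1 h3 h2 hd; gcongr)
          _ = _ := by (clear * - hd; field_simp)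
      have e2 : (tr d (U z) ^ 2 * sv' d (u z)) ^ 2 ≤ 1 / (16 * d ^ 4) := by
        calc (tr d (U z) ^ 2 * sv' d (u z)) ^ 2 = (tr d (U z) ^ 2) ^ 2 * sv' d (u z) ^ 2 := by ring
          _ ≤ (1 / (4 * d)) ^ 2 * (1 / d ^ 2) := by (clear * - h5 h4 hd; gcongr)
          _ = _ := by field_simp; ring
      have e3 : ∀ a b : ℝ, (a + b) ^ 2 ≤ 2 * a ^ 2 + 2 * b ^ 2 := fun a b => by
        nlinarith only [sq_nonneg (a - b)]
      refine (e3 _ _).trans ?_
      have e4 : 2 * (2 * tr d (U z) * tr' d (U z) * sv d (u z) * fderiv ℝ U z v) ^ 2 ≤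
          (1 / (2 * d ^ 2)) * (fderiv ℝ U z v) ^ 2 := by
        calc 2 * (2 * tr d (U z) * tr' d (U z) * sv d (u z) * fderiv ℝ U z v) ^ 2
            = 2 * ((2 * tr d (U z) * tr' d (U z) * sv d (u z)) ^ 2 *
                (fderiv ℝ U z v) ^ 2) := by ring
          _ ≤ 2 * (1 / (4 * d ^ 2) * (fderiv ℝ U z v) ^ 2) := by (clear * - e1; gcongr)
          _ = _ := by field_simp; ring
      have e5 : 2 * (tr d (U z) ^ 2 * sv' d (u z) * fderiv ℝ u z v) ^ 2 ≤
          (1 / (8 * d ^ 4)) * (fderiv ℝ u z v) ^ 2 := by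
        calc 2 * (tr d (U z) ^ 2 * sv' d (u z) * fderiv ℝ u z v) ^ 2
            = 2 * ((tr d (U z) ^ 2 * sv' d (u z)) ^ 2 * (fderiv ℝ u z v) ^ 2) := by ring
          _ ≤ 2 * (1 / (16 * d ^ 4) * (fderiv ℝ u z v) ^ 2) := by (clear * - e2; gcongr)
          _ = _ := by field_simp; ring
      exact add_le_add e4 e5
    rw [abs_of_nonneg (by simp only [gsq]; (clear * -; positivity))]
    have k1 := key 1
    have k2 := key Complex.I
    simp only [gsq, gx, gy]
    linarith only [k1, k2]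

theorem inner_int {Ω : Set ℂ} (hΩ : IsOpen Ω) {u φ : ℂ → ℝ}
    (hu : ContDiffOn ℝ 1 u Ω) (hφ : ContDiffOn ℝ 1 φ Ω)
    (hug : IntegrableOn (gsq u) Ω) (hφg : IntegrableOn (gsq φ) Ω) :
    IntegrableOn (fun z => gx u z * gx φ z + gy u z * gy φ z) Ω := by
  have hud : ∀ v : ℂ, ContinuousOn (fun z => fderiv ℝ u z v) Ω := fun v =>
    (hu.continuousOn_fderiv_of_isOpen hΩ le_rfl).clm_apply continuousOn_const
  have hχd : ∀ v : ℂ, ContinuousOn (fun z => fderiv ℝ φ z v) Ω := fun v =>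
    (hφ.continuousOn_fderiv_of_isOpen hΩ le_rfl).clm_apply continuousOn_const
  refine intOn_of_bound hΩ (((hud 1).mul (hχd 1)).add ((hud Complex.I).mul (hχd Complex.I)))
    (hug.add hφg) fun z _ => ?_
  simp only [gsq, gx, gy, Pi.add_apply]
  rw [abs_le]
  constructor
  · nlinarith [sq_nonneg (fderiv ℝ u z 1 + fderiv ℝ φ z 1),
      sq_nonneg (fderiv ℝ u z Complex.I + fderiv ℝ φ z Complex.I),
      sq_nonneg (fderiv ℝ u z 1), sq_nonneg (fderiv ℝ φ z 1),
      sq_nonneg (fderiv ℝ u z Complex.I), sq_nonneg (fderiv ℝ φ z Complex.I)]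
  · nlinarith only [sq_nonneg (fderiv ℝ u z Complex.I - fderiv ℝ φ z Complex.I)]

theorem Ed_cont {Ω : Set ℂ} (hΩ : IsOpen Ω) {u U : ℂ → ℝ}
    (hu : ContDiffOn ℝ 1 u Ω) (hU : ContDiffOn ℝ 1 U Ω) {d : ℝ} (hd : 0 < d) :
    ContinuousOn (Ed d u U) Ω := by
  have hud : ∀ v : ℂ, ContinuousOn (fun z => fderiv ℝ u z v) Ω := fun v =>
    (hu.continuousOn_fderiv_of_isOpen hΩ le_rfl).clm_apply continuousOn_const
  have hgu : ContinuousOn (gsq u) Ω := ((hud 1).pow 2).add ((hud Complex.I).pow 2)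
  have hTc : ContinuousOn (fun z => tr d (U z)) Ω :=
    (tr_contDiff hd).continuous.comp_continuousOn hU.continuousOn
  refine ((continuousOn_const.mul (hTc.pow 2)).mul hgu).div
    (((hu.continuousOn.pow 2).add continuousOn_const).pow 2) fun z _ => ?_
  (clear * - hd; positivity)

theorem Ed_nonneg {u U : ℂ → ℝ} {d : ℝ} (hd : 0 < d) (z : ℂ) : 0 ≤ Ed d u U z := by
  have : 0 ≤ gsq u z := by simp only [gsq]; (clear * -; positivity)
  unfold Ed
  positivity

theorem Ed_le {u U : ℂ → ℝ} {d k : ℝ} (hd : 0 < d) (hk : 0 ≤ k) (z : ℂ)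
    (hz : u z = 0 → U z = 0) :
    |Ed d u U z| ≤ (k + gsq u z) * U z ^ 2 / u z ^ 2 := by
  rw [abs_of_nonneg (Ed_nonneg hd z)]
  by_cases hu0 : u z = 0
  · have hU0 := hz hu0
    simp only [Ed, tr, hU0, ne_eq, OfNat.ofNat_ne_zero, not_false_eq_true, zero_pow, mul_zero, add_zero, div_one, zero_mul, zero_div, Std.le_refl]
  · have hg : 0 ≤ gsq u z := by simp only [gsq]; (clear * -; positivity)
    have hu2 : 0 < u z ^ 2 := by positivity
    unfold Ed
    rw [div_le_div_iff₀ (by positivity) hu2]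
    have e1 := tr_sq_le hd (U z)
    have e2 : 4 * d * u z ^ 2 ≤ (u z ^ 2 + d) ^ 2 := by
      nlinarith only [sq_nonneg (u z ^ 2 - d)]
    calc d * tr d (U z) ^ 2 * gsq u z * u z ^ 2
        = gsq u z * tr d (U z) ^ 2 * (d * u z ^ 2) := by ring
      _ ≤ (k + gsq u z) * U z ^ 2 * ((u z ^ 2 + d) ^ 2) := by
        gcongr
        · linarith only [hk]
        · nlinarith only [e2]

theorem uchi {u U : ℂ → ℝ} {d : ℝ} (hd : 0 < d) (z : ℂ) :
    0 ≤ u z * chi d u U z ∧ u z * chi d u U z ≤ U z ^ 2 := by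
  have h1 : u z * chi d u U z = tr d (U z) ^ 2 * (u z ^ 2 / (u z ^ 2 + d)) := by
    simp only [chi, sv]; ring
  rw [h1]
  constructor
  · (clear * - hd; positivity)
  · have h2 : u z ^ 2 / (u z ^ 2 + d) ≤ 1 := by
      rw [div_le_one (by positivity)]; linarith only [hd]
    calc tr d (U z) ^ 2 * (u z ^ 2 / (u z ^ 2 + d)) ≤ U z ^ 2 * 1 := by
          have := tr_sq_le hd (U z)
          (clear * - this h2 hd; gcongr)
      _ = _ := mul_one _

/-- Step B: the inequality for fixed regularisation. -/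
theorem stepB {Ω : Set ℂ} (hΩ : IsOpen Ω) {κ u U : ℂ → ℝ} {μ : ℝ} (hκc : ContinuousOn κ Ω)
    (hκ0 : ∀ z ∈ Ω, 0 < κ z) (hκi : IntegrableOn κ Ω)
    (hu : ContDiffOn ℝ 1 u Ω) (hU : ContDiffOn ℝ 1 U Ω)
    (hug : IntegrableOn (gsq u) Ω)
    (hU2 : IntegrableOn (fun z => κ z * U z ^ 2) Ω) (hUg : IntegrableOn (gsq U) Ω)
    (hweak : ∀ φ : ℂ → ℝ, ContDiffOn ℝ 1 φ Ω → IntegrableOn (fun z => κ z * φ z ^ 2) Ω →
      IntegrableOn (gsq φ) Ω →
      ∫ z in Ω, (gx u z * gx φ z + gy u z * gy φ z) = μ * ∫ z in Ω, κ z * u z * φ z)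
    (hmin : ∫ z in Ω, gsq U z ≤ μ * ∫ z in Ω, κ z * U z ^ 2) {d : ℝ} (hd : 0 < d)
    (hiE : IntegrableOn (Ed d u U) Ω) :
    IntegrableOn (Dd d u U) Ω ∧
    ∫ z in Ω, Dd d u U z ≤
      μ * (∫ z in Ω, (κ z * U z ^ 2 - κ z * u z * chi d u U z)) + ∫ z in Ω, Ed d u U z := by
  have hms := hΩ.measurableSet
  have hUd : ∀ v : ℂ, ContinuousOn (fun z => fderiv ℝ U z v) Ω := fun v =>
    (hU.continuousOn_fderiv_of_isOpen hΩ le_rfl).clm_apply continuousOn_const
  have hgU : ContinuousOn (gsq U) Ω := ((hUd 1).pow 2).add ((hUd Complex.I).pow 2)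
  have hχC := chi_contDiffOn hu hU hd
  obtain ⟨hiχ, hiχg⟩ := chi_int hΩ hκc hκ0 hκi hu hU hug hUg hd
  have hid : ∀ z ∈ Ω, Dd d u U z = tr' d (U z) ^ 2 * gsq U z -
      (gx u z * gx (chi d u U) z + gy u z * gy (chi d u U) z) + Ed d u U z := by
    intro z hz
    have e1 := alg_id hd (u z) (tr d (U z)) (tr' d (U z)) (gx U z) (gx u z)
    have e2 := alg_id hd (u z) (tr d (U z)) (tr' d (U z)) (gy U z) (gy u z)
    simp only [gx, gy, Dd, gsq, Ed] at e1 e2 ⊢
    rw [chi_fderiv hΩ hu hU hd hz, chi_fderiv hΩ hu hU hd hz, e1, e2]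
    ring
  have hPc : ContinuousOn (fun z => tr' d (U z)) Ω :=
    (tr'_cont hd).comp_continuousOn hU.continuousOn
  have hgU0 : ∀ z, 0 ≤ gsq U z := fun z => by simp only [gsq]; (clear * -; positivity)
  have hG1 : ∀ z, tr' d (U z) ^ 2 * gsq U z ≤ gsq U z := by
    intro z
    have h1 := hgU0 z
    calc tr' d (U z) ^ 2 * gsq U z ≤ 1 * gsq U z := by gcongr; exact tr'_sq_le hd _
      _ = _ := one_mul _
  have hiG : IntegrableOn (fun z => tr' d (U z) ^ 2 * gsq U z) Ω := by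
    refine intOn_of_bound hΩ ((hPc.pow 2).mul hgU) hUg fun z _ => ?_
    have h1 := hgU0 z
    rw [abs_of_nonneg (by (clear * -; positivity))]
    exact hG1 z
  have hiX := inner_int hΩ hu hχC hug hiχg
  have hiD : IntegrableOn (Dd d u U) Ω := by
    refine ((hiG.sub hiX).add hiE).congr ?_
    exact (ae_restrict_iff' hms).2 (Eventually.of_forall fun z hz => by
      simp only [Pi.add_apply, Pi.sub_apply]; rw [hid z hz])
  refine ⟨hiD, ?_⟩
  have hiuχ : IntegrableOn (fun z => κ z * u z * chi d u U z) Ω :=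
    intOn_of_bound hΩ ((hκc.mul hu.continuousOn).mul hχC.continuousOn) hU2 fun z hz => by
      have hκz := (hκ0 z hz).le
      rw [mul_assoc, abs_of_nonneg (mul_nonneg hκz (uchi hd z).1)]
      exact mul_le_mul_of_nonneg_left (uchi hd z).2 hκz
  have h1 : ∫ z in Ω, Dd d u U z = ∫ z in Ω, (tr' d (U z) ^ 2 * gsq U z -
      (gx u z * gx (chi d u U) z + gy u z * gy (chi d u U) z) + Ed d u U z) :=
    setIntegral_congr_fun hms fun z hz => hid z hz
  have h2 : ∫ z in Ω, (tr' d (U z) ^ 2 * gsq U z -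
      (gx u z * gx (chi d u U) z + gy u z * gy (chi d u U) z) + Ed d u U z) =
      (∫ z in Ω, tr' d (U z) ^ 2 * gsq U z) -
        (∫ z in Ω, (gx u z * gx (chi d u U) z + gy u z * gy (chi d u U) z)) +
        ∫ z in Ω, Ed d u U z := by
    have h5 := integral_add (hiG.sub hiX) hiE
    have h6 := integral_sub hiG hiX
    simp only [Pi.sub_apply] at h5
    rw [h5, h6]
  have h3 := hweak (chi d u U) hχC hiχ hiχg
  have h4 : ∫ z in Ω, tr' d (U z) ^ 2 * gsq U z ≤ ∫ z in Ω, gsq U z :=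
    setIntegral_mono hiG hUg hG1
  rw [h1, h2, h3, integral_sub hU2 hiuχ]
  linarith only [hmin, h4]

theorem dk_tendsto (a : ℝ) :
    Tendsto (fun k : ℕ => a / (1 + (1 / ((k : ℝ) + 1)) * a ^ 2)) atTop (𝓝 a) := by
  have hdk0 : Tendsto (fun k : ℕ => 1 / ((k : ℝ) + 1)) atTop (𝓝 0) :=
    tendsto_one_div_add_atTop_nhds_zero_nat
  have : Tendsto (fun k : ℕ => a / (1 + (1 / ((k : ℝ) + 1)) * a ^ 2)) atTop
      (𝓝 (a / (1 + 0 * a ^ 2))) :=
    tendsto_const_nhds.div (tendsto_const_nhds.add (hdk0.mul_const _)) (by simp)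
  simpa only [one_div, zero_mul, add_zero, div_one] using this

theorem dk_tendsto' (a : ℝ) :
    Tendsto (fun k : ℕ => tr' (1 / ((k : ℝ) + 1)) a) atTop (𝓝 1) := by
  have hdk0 : Tendsto (fun k : ℕ => 1 / ((k : ℝ) + 1)) atTop (𝓝 0) :=
    tendsto_one_div_add_atTop_nhds_zero_nat
  unfold tr'
  have : Tendsto (fun k : ℕ => (1 - (1 / ((k : ℝ) + 1)) * a ^ 2) /
      (1 + (1 / ((k : ℝ) + 1)) * a ^ 2) ^ 2) atTop
      (𝓝 ((1 - 0 * a ^ 2) / (1 + 0 * a ^ 2) ^ 2)) :=
    (tendsto_const_nhds.sub (hdk0.mul_const _)).div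
      ((tendsto_const_nhds.add (hdk0.mul_const _)).pow 2) (by simp)
  simpa only [one_div, zero_mul, sub_zero, add_zero, one_pow, ne_eq, one_ne_zero, not_false_eq_true,     div_self] using this

theorem dk_tendsto'' {a : ℝ} (ha : a ≠ 0) :
    Tendsto (fun k : ℕ => sv (1 / ((k : ℝ) + 1)) a) atTop (𝓝 (1 / a)) := by
  have hdk0 : Tendsto (fun k : ℕ => 1 / ((k : ℝ) + 1)) atTop (𝓝 0) :=
    tendsto_one_div_add_atTop_nhds_zero_nat
  unfold sv
  have h5 : Tendsto (fun k : ℕ => a / (a ^ 2 + 1 / ((k : ℝ) + 1))) atTop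
      (𝓝 (a / (a ^ 2 + 0))) :=
    tendsto_const_nhds.div (tendsto_const_nhds.add hdk0) (by simpa only [add_zero, ne_eq, OfNat.ofNat_ne_zero, not_false_eq_true, pow_eq_zero_iff] using ha)
  have h6 : a / (a ^ 2 + 0) = 1 / a := by field_simp; simp
  rwa [h6] at h5

/-- Step C: the right-hand side tends to zero. -/
theorem stepC {Ω : Set ℂ} (hΩ : IsOpen Ω) {κ u U : ℂ → ℝ} (μ : ℝ) (hκc : ContinuousOn κ Ω)
    (hκ0 : ∀ z ∈ Ω, 0 < κ z)
    (hu : ContDiffOn ℝ 1 u Ω) (hU : ContDiffOn ℝ 1 U Ω)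
    (hU2 : IntegrableOn (fun z => κ z * U z ^ 2) Ω)
    (hzero : ∀ᵐ z ∂(volume.restrict Ω), u z = 0 → U z = 0)
    (hH : IntegrableOn (fun z => (κ z + gsq u z) * U z ^ 2 / u z ^ 2) Ω) :
    Tendsto (fun k : ℕ => μ * (∫ z in Ω, (κ z * U z ^ 2 -
      κ z * u z * chi (1 / ((k : ℝ) + 1)) u U z)) +
      ∫ z in Ω, Ed (1 / ((k : ℝ) + 1)) u U z) atTop (𝓝 0) := by
  have hms := hΩ.measurableSet
  have hdk : ∀ k : ℕ, 0 < 1 / ((k : ℝ) + 1) := fun k => by (clear * -; positivity)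
  have hdk0 : Tendsto (fun k : ℕ => 1 / ((k : ℝ) + 1)) atTop (𝓝 0) :=
    tendsto_one_div_add_atTop_nhds_zero_nat
  have hlim1 : Tendsto (fun k : ℕ => ∫ z in Ω, (κ z * U z ^ 2 -
      κ z * u z * chi (1 / ((k : ℝ) + 1)) u U z)) atTop (𝓝 0) := by
    have h0 : (0 : ℝ) = ∫ z in Ω, (0 : ℝ) := by simp
    rw [h0]
    refine tendsto_integral_of_dominated_convergence (fun z => κ z * U z ^ 2) (fun k => ?_) hU2
      (fun k => (ae_restrict_iff' hms).2 (Eventually.of_forall fun z hz => ?_)) ?_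
    · exact ((hκc.mul (hU.continuousOn.pow 2)).sub ((hκc.mul hu.continuousOn).mul
        (chi_contDiffOn hu hU (hdk k)).continuousOn)).aestronglyMeasurable hms
    · have h1 := uchi (u := u) (U := U) (hdk k) z
      have hκz := (hκ0 z hz).le
      have h2 := mul_nonneg hκz h1.1
      have h3 := mul_le_mul_of_nonneg_left h1.2 hκz
      rw [mul_assoc, Real.norm_eq_abs, abs_of_nonneg (by (clear * - h3; linarith))]
      (clear * - h2; linarith)
    · filter_upwards [hzero] with z hz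
      by_cases hu0 : u z = 0
      · simp only [hz hu0, ne_eq, OfNat.ofNat_ne_zero, not_false_eq_true, zero_pow, mul_zero, hu0, one_div, zero_mul, sub_self, tendsto_const_nhds_iff]
      · have h3 := (dk_tendsto'' hu0).const_mul (u z)
        have h5 : u z * (1 / u z) = 1 := by field_simp
        rw [h5] at h3
        have h6 := ((tendsto_const_nhds (x := U z ^ 2)).sub
          (((dk_tendsto (U z)).pow 2).mul h3)).const_mul (κ z)
        have h7 : κ z * (U z ^ 2 - U z ^ 2 * 1) = 0 := by ring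
        rw [h7] at h6
        refine h6.congr fun k => ?_
        simp only [chi, tr]
        ring
  have hlim2 : Tendsto (fun k : ℕ => ∫ z in Ω, Ed (1 / ((k : ℝ) + 1)) u U z) atTop (𝓝 0) := by
    have h0 : (0 : ℝ) = ∫ z in Ω, (0 : ℝ) := by simp
    rw [h0]
    refine tendsto_integral_of_dominated_convergence _
      (fun k => (Ed_cont hΩ hu hU (hdk k)).aestronglyMeasurable hms) hH
      (fun k => ?_) ?_
    · filter_upwards [hzero, ae_restrict_mem hms] with z hz hzΩ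
      rw [Real.norm_eq_abs]
      exact Ed_le (hdk k) (hκ0 z hzΩ).le z hz
    · filter_upwards [hzero] with z hz
      by_cases hu0 : u z = 0
      · simp only [Ed, one_div, tr, hz hu0, ne_eq, OfNat.ofNat_ne_zero, not_false_eq_true, zero_pow, mul_zero, add_zero, div_one, zero_mul, zero_div, tendsto_const_nhds_iff]
      · have h3 : Tendsto (fun k : ℕ => 1 / ((k : ℝ) + 1) *
            (U z / (1 + (1 / ((k : ℝ) + 1)) * U z ^ 2)) ^ 2 * gsq u z /
            (u z ^ 2 + 1 / ((k : ℝ) + 1)) ^ 2) atTop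
            (𝓝 (0 * U z ^ 2 * gsq u z / (u z ^ 2 + 0) ^ 2)) :=
          ((hdk0.mul ((dk_tendsto (U z)).pow 2)).mul tendsto_const_nhds).div
            ((tendsto_const_nhds.add hdk0).pow 2) (by simpa using hu0)
        have h4 : 0 * U z ^ 2 * gsq u z / (u z ^ 2 + 0) ^ 2 = 0 := by simp
        rw [h4] at h3
        exact h3
  simpa only [one_div, mul_zero, add_zero] using (hlim1.const_mul μ).add hlim2

/-- **Selection lemma.** -/
theorem picone {Ω : Set ℂ} (hΩ : IsOpen Ω) {κ u U : ℂ → ℝ} {μ : ℝ} (hκc : ContinuousOn κ Ω)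
    (hκ0 : ∀ z ∈ Ω, 0 < κ z) (hκi : IntegrableOn κ Ω)
    (hu : ContDiffOn ℝ 1 u Ω) (hU : ContDiffOn ℝ 1 U Ω) (hug : IntegrableOn (gsq u) Ω)
    (hU2 : IntegrableOn (fun z => κ z * U z ^ 2) Ω) (hUg : IntegrableOn (gsq U) Ω)
    (hweak : ∀ φ : ℂ → ℝ, ContDiffOn ℝ 1 φ Ω → IntegrableOn (fun z => κ z * φ z ^ 2) Ω →
      IntegrableOn (gsq φ) Ω →
      ∫ z in Ω, (gx u z * gx φ z + gy u z * gy φ z) = μ * ∫ z in Ω, κ z * u z * φ z)
    (hmin : ∫ z in Ω, gsq U z ≤ μ * ∫ z in Ω, κ z * U z ^ 2)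
    (hP : ∫⁻ z in Ω, ENNReal.ofReal ((κ z + gsq u z) * U z ^ 2) / ENNReal.ofReal (u z ^ 2) < ⊤) :
    ∀ z ∈ Ω, u z ≠ 0 → gx U z = U z / u z * gx u z ∧ gy U z = U z / u z * gy u z := by
  have hms := hΩ.measurableSet
  have huc := hu.continuousOn
  have hUc := hU.continuousOn
  have hud : ∀ v : ℂ, ContinuousOn (fun z => fderiv ℝ u z v) Ω := fun v =>
    (hu.continuousOn_fderiv_of_isOpen hΩ le_rfl).clm_apply continuousOn_const
  have hUd : ∀ v : ℂ, ContinuousOn (fun z => fderiv ℝ U z v) Ω := fun v =>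
    (hU.continuousOn_fderiv_of_isOpen hΩ le_rfl).clm_apply continuousOn_const
  obtain ⟨hzero, hHint⟩ := stepA hΩ hκc hκ0 hu hU hP
  have hdk : ∀ k : ℕ, 0 < 1 / ((k : ℝ) + 1) := fun k => by (clear * -; positivity)
  have hiE : ∀ k : ℕ, IntegrableOn (Ed (1 / ((k : ℝ) + 1)) u U) Ω := by
    intro k
    refine Integrable.mono' hHint ((Ed_cont hΩ hu hU (hdk k)).aestronglyMeasurable hms) ?_
    filter_upwards [hzero, ae_restrict_mem hms] with z hz hzΩ
    rw [Real.norm_eq_abs]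
    exact Ed_le (hdk k) (hκ0 z hzΩ).le z hz
  have hB := fun k : ℕ => stepB hΩ hκc hκ0 hκi hu hU hug hU2 hUg hweak hmin (hdk k) (hiE k)
  have hBk := stepC hΩ μ hκc hκ0 hu hU hU2 hzero hHint
  set Ω' : Set ℂ := Ω ∩ u ⁻¹' {0}ᶜ with hΩ'
  have hΩ'o : IsOpen Ω' := huc.isOpen_inter_preimage hΩ isOpen_compl_singleton
  have hΩ's : Ω' ⊆ Ω := inter_subset_left
  set F : ℂ → ℝ := fun z => (gx U z - U z / u z * gx u z) ^ 2 +
    (gy U z - U z / u z * gy u z) ^ 2 with hF
  have hFc : ContinuousOn F Ω' := by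
    have hq : ContinuousOn (fun z => U z / u z) Ω' :=
      (hUc.mono hΩ's).div (huc.mono hΩ's) fun z hz => hz.2
    exact ((((hUd 1).mono hΩ's).sub (hq.mul ((hud 1).mono hΩ's))).pow 2).add
      ((((hUd Complex.I).mono hΩ's).sub (hq.mul ((hud Complex.I).mono hΩ's))).pow 2)
  have hDF : ∀ z ∈ Ω', Tendsto (fun k : ℕ => Dd (1 / ((k : ℝ) + 1)) u U z) atTop (𝓝 (F z)) := by
    intro z hz
    have hu0 : u z ≠ 0 := hz.2
    have h2 : Tendsto (fun k : ℕ => tr (1 / ((k : ℝ) + 1)) (U z)) atTop (𝓝 (U z)) :=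
      dk_tendsto (U z)
    have h3 := dk_tendsto' (U z)
    have h4 := dk_tendsto'' hu0
    have h7 : F z = (1 * gx U z - 1 / u z * U z * gx u z) ^ 2 +
        (1 * gy U z - 1 / u z * U z * gy u z) ^ 2 := by
      simp only [hF]; ring
    rw [h7]
    exact (((h3.mul_const _).sub ((h4.mul h2).mul_const _)).pow 2).add
      (((h3.mul_const _).sub ((h4.mul h2).mul_const _)).pow 2)
  have hD0 : ∀ (k : ℕ) z, 0 ≤ Dd (1 / ((k : ℝ) + 1)) u U z := fun k z => by
    unfold Dd; (clear * -; positivity)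
  have hFat : ∫⁻ z in Ω', ENNReal.ofReal (F z) ≤ 0 := by
    have h1 : ∫⁻ z in Ω', ENNReal.ofReal (F z) = ∫⁻ z in Ω',
        liminf (fun k : ℕ => ENNReal.ofReal (Dd (1 / ((k : ℝ) + 1)) u U z)) atTop := by
      refine setLIntegral_congr_fun hΩ'o.measurableSet fun z hz => ?_
      exact (((ENNReal.continuous_ofReal.tendsto _).comp (hDF z hz)).liminf_eq).symm
    rw [h1]
    have hm : ∀ k : ℕ, AEMeasurable
        (fun z => ENNReal.ofReal (Dd (1 / ((k : ℝ) + 1)) u U z)) (volume.restrict Ω') := fun k =>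
      ENNReal.measurable_ofReal.comp_aemeasurable
        ((hB k).1.mono_set hΩ's).aestronglyMeasurable.aemeasurable
    refine (lintegral_liminf_le' hm).trans ?_
    have h2 : ∀ k : ℕ, ∫⁻ z in Ω', ENNReal.ofReal (Dd (1 / ((k : ℝ) + 1)) u U z) ≤
        ENNReal.ofReal (μ * (∫ z in Ω, (κ z * U z ^ 2 -
          κ z * u z * chi (1 / ((k : ℝ) + 1)) u U z)) +
          ∫ z in Ω, Ed (1 / ((k : ℝ) + 1)) u U z) := by
      intro k
      calc ∫⁻ z in Ω', ENNReal.ofReal (Dd (1 / ((k : ℝ) + 1)) u U z)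
          ≤ ∫⁻ z in Ω, ENNReal.ofReal (Dd (1 / ((k : ℝ) + 1)) u U z) :=
            lintegral_mono_set hΩ's
        _ = ENNReal.ofReal (∫ z in Ω, Dd (1 / ((k : ℝ) + 1)) u U z) :=
            (ofReal_integral_eq_lintegral_ofReal (hB k).1
              (Eventually.of_forall fun z => hD0 k z)).symm
        _ ≤ _ := ENNReal.ofReal_le_ofReal (hB k).2
    have h3 := (ENNReal.continuous_ofReal.tendsto 0).comp hBk
    rw [ENNReal.ofReal_zero] at h3
    refine (liminf_le_liminf (Eventually.of_forall h2)).trans ?_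
    exact h3.liminf_eq.le
  have hF0 : ∀ᵐ z ∂(volume.restrict Ω'), F z = 0 := by
    have hm : AEMeasurable (fun z => ENNReal.ofReal (F z)) (volume.restrict Ω') :=
      ENNReal.measurable_ofReal.comp_aemeasurable
        (hFc.aestronglyMeasurable hΩ'o.measurableSet).aemeasurable
    have h1 := (lintegral_eq_zero_iff' hm).1 (le_antisymm hFat bot_le)
    filter_upwards [h1] with z hz
    have h2 : F z ≤ 0 := by
      simpa only [Pi.zero_apply, ENNReal.ofReal_eq_zero] using hz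
    have h3 : 0 ≤ F z := by simp only [hF]; (clear * -; positivity)
    linarith only [h3, h2]
  have hF1 : EqOn F (fun _ => 0) Ω' :=
    Measure.eqOn_open_of_ae_eq hF0 hΩ'o hFc continuousOn_const
  intro z hz hu0
  have h1 := hF1 (show z ∈ Ω' from ⟨hz, hu0⟩)
  simp only [hF] at h1
  have h2 : (gx U z - U z / u z * gx u z) ^ 2 = 0 := by
    nlinarith only [h1]
  have h3 : (gy U z - U z / u z * gy u z) ^ 2 = 0 := by
    nlinarith only [h1]
  exact ⟨sub_eq_zero.1 (pow_eq_zero_iff (two_ne_zero) |>.1 h2),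
    sub_eq_zero.1 (pow_eq_zero_iff (two_ne_zero) |>.1 h3)⟩

end Vale.Agent.P071.Loc
end
end

section

/-!
# (I) from the superharmonic function `ψ` (last step of block G)
-/

open MeasureTheory Metric Filter Topology Real
open scoped ContDiff ENNReal

namespace Vale.Agent.P071.Lim

/-- `ψ > 0` superharmonic and `(μ/2) κ |u| ψ ≤ |∇ψ| |∇u|` in the disc imply (I). -/
theorem ineqI_of_psi {κ : ℂ → ℝ} {μ : ℝ} {u ψ : ℂ → ℝ} (hμ : 0 < μ) (hκ : ∀ z ∈ DD, 0 < κ z)
    (hψ : ContDiffOn ℝ 2 ψ DD) (hpos : ∀ z ∈ DD, 0 < ψ z) (hlap : ∀ z ∈ DD, lap ψ z ≤ 0)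
    (hgood : ∀ z ∈ DD, μ / 2 * κ z * |u z| * ψ z ≤ √(gsq ψ z) * √(gsq u z)) :
    IneqI DD κ μ u := by
  intro η hη hηc hηs
  have hmain := Loc.super_log (ψ := ψ) (η := η) (S := DD) isOpen_ball hψ hpos
    (fun z hz => hlap z hz) hη hηc hηs
  have hη0 : ∀ z, z ∉ DD → η z = 0 := fun z hz => by
    by_contra h
    exact hz (hηs (subset_tsupport _ h))
  have hη1 : ∀ z, z ∉ DD → gsq η z = 0 := fun z hz => by
    have h1 : fderiv ℝ η z = 0 := by
      have h2 : z ∉ tsupport η := fun h => hz (hηs h)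
      have h3 : η =ᶠ[𝓝 z] 0 := notMem_tsupport_iff_eventuallyEq.1 h2
      rw [h3.fderiv_eq]
      simp
    simp [gsq, px, py, h1]
  have hgη : ∫ z in DD, gsq η z = ∫ z, gsq η z :=
    setIntegral_eq_integral_of_forall_compl_eq_zero fun z hz => hη1 z hz
  have hgψ0 : ∀ z, 0 ≤ gsq ψ z := fun z => by unfold gsq; (clear * -; positivity)
  have hgu0 : ∀ z, 0 ≤ gsq u z := fun z => by unfold gsq; (clear * -; positivity)
  -- integrability of the logarithmic gradient
  have hψ1 : ContDiffOn ℝ 1 (fderiv ℝ ψ) DD := hψ.fderiv_of_isOpen isOpen_ball (by (clear * -; norm_num))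
  have hψv : ∀ v : ℂ, ContinuousOn (fun z => fderiv ℝ ψ z v) DD := fun v =>
    (hψ1.clm_apply contDiffOn_const).continuousOn
  have hX : Integrable (fun z => η z ^ 2 * (gsq ψ z / ψ z ^ 2)) := by
    refine Loc.int_mul (S := DD) isOpen_ball (hη.pow 2).continuous
      (hηc.comp_left (g := fun t : ℝ => t ^ 2) (by norm_num)) ?_ ?_
    · refine Set.Subset.trans ?_ hηs
      refine closure_mono fun z hz => ?_
      simp only [Function.mem_support] at hz ⊢
      intro h
      exact hz (by rw [h]; norm_num)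
    · exact ((((hψv 1).pow 2).add ((hψv Complex.I).pow 2))).div
        (hψ.continuousOn.pow 2) fun z hz => pow_ne_zero _ (hpos z hz).ne'
  have hle : ∫⁻ z in DD, ENNReal.ofReal (η z ^ 2 * κ z ^ 2 * u z ^ 2) / ENNReal.ofReal (gsq u z) ≤
      ∫⁻ z in DD, ENNReal.ofReal (4 / μ ^ 2 * (η z ^ 2 * (gsq ψ z / ψ z ^ 2))) := by
    refine setLIntegral_mono' measurableSet_ball fun z hz => ?_
    have h1 := hκ z hz
    have h2 := hpos z hz
    have h3 := hgood z hz
    rcases (hgu0 z).eq_or_lt with h0 | h0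
    · rw [← h0, Real.sqrt_zero, mul_zero] at h3
      have h4 : |u z| ≤ 0 := by
        by_contra hne
        push Not at hne
        have : 0 < μ / 2 * κ z * |u z| * ψ z := by (clear * - hμ h1 hne h2; positivity)
        linarith only [h3, this]
      have h5 : u z = 0 := abs_nonpos_iff.1 h4
      simp only [h5, ne_eq, OfNat.ofNat_ne_zero, not_false_eq_true, zero_pow, mul_zero, ENNReal.ofReal_zero, ENNReal.zero_div, zero_le]
    · rw [← ENNReal.ofReal_div_of_pos h0]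
      refine ENNReal.ofReal_le_ofReal ?_
      have h4 : (μ / 2 * κ z * |u z| * ψ z) ^ 2 ≤ (√(gsq ψ z) * √(gsq u z)) ^ 2 :=
        pow_le_pow_left₀ (by (clear * - hμ h1 h2; positivity)) h3 2
      rw [mul_pow (√(gsq ψ z)), Real.sq_sqrt (hgψ0 z), Real.sq_sqrt h0.le] at h4
      have h5 : (μ / 2 * κ z * |u z| * ψ z) ^ 2 = μ ^ 2 / 4 * (κ z ^ 2 * u z ^ 2) * ψ z ^ 2 := by
        rw [mul_pow, mul_pow, mul_pow, sq_abs]; ring
      rw [h5] at h4
      rw [div_le_iff₀ h0]
      have h6 : 4 / μ ^ 2 * (η z ^ 2 * (gsq ψ z / ψ z ^ 2)) * gsq u z =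
          η z ^ 2 * (4 / μ ^ 2 * (gsq ψ z * gsq u z) / ψ z ^ 2) := by ring
      rw [h6, mul_assoc]
      refine mul_le_mul_of_nonneg_left ?_ (sq_nonneg _)
      rw [le_div_iff₀ (by (clear * - h2; positivity)), div_mul_eq_mul_div, le_div_iff₀ (by positivity)]
      nlinarith only [h4]
  refine hle.trans ?_
  have hX2 : Integrable (fun z => 4 / μ ^ 2 * (η z ^ 2 * (gsq ψ z / ψ z ^ 2))) := hX.const_mul _
  rw [← ofReal_integral_eq_lintegral_ofReal hX2.integrableOn
    ((ae_restrict_iff' measurableSet_ball).2 (Eventually.of_forall fun z hz => by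
      have := hgψ0 z
      have := hpos z hz
      simp only [Pi.zero_apply]
      (clear κ u hκ hψ hlap hgood hη hηc hηs hmain hη0 hη1 hgη hgu0 hψ1 hψv hX hle hX2; positivity)))]
  refine ENNReal.ofReal_le_ofReal ?_
  rw [setIntegral_eq_integral_of_forall_compl_eq_zero (fun z hz => by simp [hη0 z hz]),
    integral_const_mul, hgη]
  have h7 : ∫ z, η z ^ 2 * (gsq ψ z / ψ z ^ 2) ≤ 4 * ∫ z, gsq η z := hmain
  calc 4 / μ ^ 2 * ∫ z, η z ^ 2 * (gsq ψ z / ψ z ^ 2) ≤ 4 / μ ^ 2 * (4 * ∫ z, gsq η z) := by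
        gcongr
    _ = _ := by ring

end Vale.Agent.P071.Lim
end

section

/-!
# Continuity up to a Lipschitz boundary: definitions
-/

open MeasureTheory Metric Filter Topology Real
open scoped ContDiff ENNReal ComplexConjugate

namespace Vale.Agent.P071.Reg

open Vale.Agent.P071.Lim

/-- `w` is a weak solution of `-Δw = μ w` in `Ω` with zero normal derivative, `C¹` inside, of
finite energy (tested with `C¹` functions of finite energy only). -/
structure WN (Ω : Set ℂ) (μ : ℝ) (w : ℂ → ℝ) : Prop where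
  smooth : ContDiffOn ℝ 1 w Ω
  sq : IntegrableOn (fun z => w z ^ 2) Ω
  en : IntegrableOn (gsq w) Ω
  weak : ∀ v : ℂ → ℝ, ContDiffOn ℝ 1 v Ω → IntegrableOn (fun z => v z ^ 2) Ω →
    IntegrableOn (gsq v) Ω →
    ∫ z in Ω, (px w z * px v z + py w z * py v z) = μ * ∫ z in Ω, w z * v z

/-- The box `{|x| < ρ, g(x) < y < η}`. -/
def Box (g : ℝ → ℝ) (ρ η : ℝ) : Set ℂ := {z | |z.re| < ρ ∧ g z.re < z.im ∧ z.im < η}

/-- The inner boundary (left side, top, right side) of the box. -/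
def Ucurve (g : ℝ → ℝ) (ρ η : ℝ) : Set ℂ :=
  {z | (|z.re| = ρ ∧ g z.re < z.im ∧ z.im ≤ η) ∨ (|z.re| ≤ ρ ∧ z.im = η)}

theorem isOpen_Box {g : ℝ → ℝ} (hg : Continuous g) (ρ η : ℝ) : IsOpen (Box g ρ η) := by
  have h1 : IsOpen {z : ℂ | |z.re| < ρ} := isOpen_lt (by fun_prop) continuous_const
  have h2 : IsOpen {z : ℂ | g z.re < z.im} := isOpen_lt (by fun_prop) (by fun_prop)
  have h3 : IsOpen {z : ℂ | z.im < η} := isOpen_lt (by fun_prop) continuous_const
  exact h1.inter (h2.inter h3)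

end Vale.Agent.P071.Reg
end

section

/-!
# REG-4: integration along vertical lines
-/

open MeasureTheory Metric Filter Topology Real
open scoped ContDiff ENNReal ComplexConjugate

namespace Vale.Agent.P071.Reg

open Vale.Agent.P071.Lim

/-! ### Fubini in the box -/

/-- The box in the coordinates `(x, y)`. -/
def VtB (g : ℝ → ℝ) (ρ η : ℝ) : Set (ℝ × ℝ) := {p | |p.1| < ρ ∧ g p.1 < p.2 ∧ p.2 < η}

theorem vt_measB {g : ℝ → ℝ} (hg : Continuous g) (ρ η : ℝ) : MeasurableSet (VtB g ρ η) := by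
  have h1 : IsOpen {p : ℝ × ℝ | |p.1| < ρ} := isOpen_lt (by fun_prop) continuous_const
  have h2 : IsOpen {p : ℝ × ℝ | g p.1 < p.2} := isOpen_lt (by fun_prop) (by fun_prop)
  have h3 : IsOpen {p : ℝ × ℝ | p.2 < η} := isOpen_lt (by fun_prop) continuous_const
  exact (h1.inter (h2.inter h3)).measurableSet

theorem vt_mp : MeasurePreserving (fun p : ℝ × ℝ => (⟨p.1, p.2⟩ : ℂ)) :=
  Complex.volume_preserving_equiv_real_prod.symm

theorem vt_emb : MeasurableEmbedding (fun p : ℝ × ℝ => (⟨p.1, p.2⟩ : ℂ)) :=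
  Complex.measurableEquivRealProd.symm.measurableEmbedding

theorem vt_pre (g : ℝ → ℝ) (ρ η : ℝ) :
    (fun p : ℝ × ℝ => (⟨p.1, p.2⟩ : ℂ)) ⁻¹' Box g ρ η = VtB g ρ η := rfl

theorem vt_slice {β : Type*} [Zero β] (g : ℝ → ℝ) (ρ η : ℝ) (F : ℂ → β) (x y : ℝ) :
    (VtB g ρ η).indicator (fun p => F ⟨p.1, p.2⟩) (x, y) =
      if |x| < ρ then (Set.Ioo (g x) η).indicator (fun y => F ⟨x, y⟩) y else 0 := by
  by_cases h1 : |x| < ρ
  · rw [if_pos h1]
    by_cases h2 : y ∈ Set.Ioo (g x) η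
    · rw [Set.indicator_of_mem h2, Set.indicator_of_mem]
      exact ⟨h1, h2.1, h2.2⟩
    · rw [Set.indicator_of_notMem h2, Set.indicator_of_notMem]
      exact fun h => h2 ⟨h.2.1, h.2.2⟩
  · rw [if_neg h1, Set.indicator_of_notMem]
    exact fun h => h1 h.1

theorem vt_lint {g : ℝ → ℝ} (hg : Continuous g) (ρ η : ℝ) {F : ℂ → ℝ≥0∞}
    (hF : AEMeasurable F (volume.restrict (Box g ρ η))) :
    ∫⁻ z in Box g ρ η, F z =
      ∫⁻ x : ℝ, if |x| < ρ then ∫⁻ y in Set.Ioo (g x) η, F ⟨x, y⟩ else 0 := by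
  have hB := (isOpen_Box hg ρ η).measurableSet
  have hF' : AEMeasurable (fun p : ℝ × ℝ => F ⟨p.1, p.2⟩)
      ((volume : Measure (ℝ × ℝ)).restrict (VtB g ρ η)) := by
    have h := vt_mp.restrict_preimage hB
    rw [vt_pre] at h
    exact hF.comp_quasiMeasurePreserving h.quasiMeasurePreserving
  rw [← vt_mp.setLIntegral_comp_preimage_emb vt_emb F (Box g ρ η), vt_pre,
    ← lintegral_indicator (vt_measB hg ρ η)]
  rw [show (volume : Measure (ℝ × ℝ)) = (volume : Measure ℝ).prod volume from rfl]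
  rw [lintegral_prod _ ((aemeasurable_indicator_iff (vt_measB hg ρ η)).2 hF')]
  refine lintegral_congr fun x => ?_
  simp_rw [vt_slice]
  split_ifs with h1
  · rw [lintegral_indicator measurableSet_Ioo]
  · simp only [lintegral_const, measure_univ_of_isAddLeftInvariant, zero_mul]

theorem vt_int {g : ℝ → ℝ} (hg : Continuous g) (ρ η : ℝ) {F : ℂ → ℝ}
    (hF : IntegrableOn F (Box g ρ η)) (h0 : ∀ x : ℝ, |x| < ρ →
      IntegrableOn (fun y => F ⟨x, y⟩) (Set.Ioo (g x) η) →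
      0 ≤ ∫ y in Set.Ioo (g x) η, F ⟨x, y⟩) :
    0 ≤ ∫ z in Box g ρ η, F z := by
  have hB := (isOpen_Box hg ρ η).measurableSet
  have hF' : Integrable ((VtB g ρ η).indicator (fun p : ℝ × ℝ => F ⟨p.1, p.2⟩))
      ((volume : Measure ℝ).prod volume) := by
    rw [integrable_indicator_iff (vt_measB hg ρ η)]
    have h := (vt_mp.integrableOn_comp_preimage vt_emb (f := F) (s := Box g ρ η)).2 hF
    exact h
  rw [← vt_mp.setIntegral_preimage_emb vt_emb F (Box g ρ η), vt_pre,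
    ← integral_indicator (vt_measB hg ρ η)]
  rw [show (volume : Measure (ℝ × ℝ)) = (volume : Measure ℝ).prod volume from rfl]
  rw [integral_prod _ hF']
  refine integral_nonneg_of_ae ?_
  filter_upwards [hF'.prod_right_ae] with x hx
  simp_rw [vt_slice] at hx ⊢
  by_cases h1 : |x| < ρ
  · simp only [h1, if_true] at hx ⊢
    rw [integrable_indicator_iff measurableSet_Ioo] at hx
    rw [integral_indicator measurableSet_Ioo]
    exact h0 x h1 hx
  · simp [h1]

/-! ### Vertical lines -/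

theorem vt_deriv {g : ℝ → ℝ} (hg : Continuous g) {ρ η : ℝ} {G : ℂ → ℝ}
    (hG : ContDiffOn ℝ 1 G (Box g ρ η)) {x y : ℝ} (hx : |x| < ρ) (hy : y ∈ Set.Ioo (g x) η) :
    HasDerivAt (fun t : ℝ => G ⟨x, t⟩) (py G ⟨x, y⟩) y := by
  have hm : (⟨x, y⟩ : ℂ) ∈ Box g ρ η := ⟨hx, hy.1, hy.2⟩
  have h1 : HasFDerivAt G (fderiv ℝ G ⟨x, y⟩) ⟨x, y⟩ :=
    ((hG.differentiableOn one_ne_zero).differentiableAt
      ((isOpen_Box hg ρ η).mem_nhds hm)).hasFDerivAt
  have h2 : HasDerivAt (fun t : ℝ => (⟨x, t⟩ : ℂ)) Complex.I y := by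
    have h3 : (fun t : ℝ => (⟨x, t⟩ : ℂ)) = fun t : ℝ => (x : ℂ) + t * Complex.I := by
      funext t
      apply Complex.ext <;> simp
    rw [h3]
    have h4 : HasDerivAt (fun t : ℝ => (t : ℂ)) 1 y := Complex.ofRealCLM.hasDerivAt
    simpa only [hasDerivAt_const_add_iff, one_mul] using (h4.mul_const Complex.I).const_add (x : ℂ)
  exact h1.comp_hasDerivAt y h2

theorem vt_contpy {g : ℝ → ℝ} (hg : Continuous g) {ρ η : ℝ} {G : ℂ → ℝ}
    (hG : ContDiffOn ℝ 1 G (Box g ρ η)) : ContinuousOn (py G) (Box g ρ η) := by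
  have h := hG.continuousOn_fderiv_of_isOpen (isOpen_Box hg ρ η) le_rfl
  exact h.clm_apply continuousOn_const

theorem vt_contline {g : ℝ → ℝ} {ρ η : ℝ} {F : ℂ → ℝ} (hF : ContinuousOn F (Box g ρ η))
    {x : ℝ} (hx : |x| < ρ) : ContinuousOn (fun y : ℝ => F ⟨x, y⟩) (Set.Ioo (g x) η) := by
  refine hF.comp ?_ fun y hy => ⟨hx, hy.1, hy.2⟩
  have h3 : (fun t : ℝ => (⟨x, t⟩ : ℂ)) = fun t : ℝ => (x : ℂ) + t * Complex.I := by
    funext t
    apply Complex.ext <;> simp
  change ContinuousOn (fun t : ℝ => (⟨x, t⟩ : ℂ)) _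
  rw [h3]
  (clear * -; fun_prop)

/-- One dimensional estimate. -/
theorem vt_one {f f' : ℝ → ℝ} {a b b' : ℝ} (hb : b' < b)
    (hd : ∀ y ∈ Set.Ioo a b, HasDerivAt f (f' y) y) (hc : ContinuousOn f' (Set.Ioo a b))
    (hv : ∀ y ∈ Set.Ioo a b, b' ≤ y → f y = 0) {y : ℝ} (hy : y ∈ Set.Ioo a b) :
    ENNReal.ofReal (f y ^ 2) ≤
      ENNReal.ofReal (b - a) * ∫⁻ t in Set.Ioo a b, ENNReal.ofReal (f' t ^ 2) := by
  rcases le_or_gt b' y with h | h
  · rw [hv y hy h]
    simp only [ne_eq, OfNat.ofNat_ne_zero, not_false_eq_true, zero_pow, ENNReal.ofReal_zero, zero_le]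
  have hyb : b' ∈ Set.Ioo a b := ⟨hy.1.trans h, hb⟩
  have hsub : Set.Icc y b' ⊆ Set.Ioo a b := fun t ht => ⟨hy.1.trans_le ht.1, ht.2.trans_lt hb⟩
  have hcc : ContinuousOn f' (Set.Icc y b') := hc.mono hsub
  have hi1 : IntervalIntegrable f' volume y b' := by
    refine ContinuousOn.intervalIntegrable ?_
    rwa [Set.uIcc_of_le h.le]
  have hi2 : IntervalIntegrable (fun t => f' t ^ 2) volume y b' := by
    refine ContinuousOn.intervalIntegrable ?_
    rw [Set.uIcc_of_le h.le]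
    exact hcc.pow 2
  have hL : 0 < b' - y := sub_pos.2 h
  have e1 : ∫ t in y..b', f' t = - f y := by
    rw [intervalIntegral.integral_eq_sub_of_hasDerivAt (f := f) ?_ hi1, hv b' hyb le_rfl,
      zero_sub]
    intro t ht
    rw [Set.uIcc_of_le h.le] at ht
    exact hd t (hsub ht)
  set A := ∫ t in y..b', f' t with hA
  have e2 : 0 ≤ ∫ t in y..b', (f' t - A / (b' - y)) ^ 2 :=
    intervalIntegral.integral_nonneg h.le fun t _ => sq_nonneg _
  have e3 : ∫ t in y..b', (f' t - A / (b' - y)) ^ 2 =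
      (∫ t in y..b', f' t ^ 2) - A ^ 2 / (b' - y) := by
    have e4 : (fun t => (f' t - A / (b' - y)) ^ 2) =
        fun t => (f' t ^ 2 - (2 * (A / (b' - y))) * f' t) + (A / (b' - y)) ^ 2 := by
      funext t
      ring
    rw [e4, intervalIntegral.integral_add (hi2.sub (hi1.const_mul _)) intervalIntegrable_const,
      intervalIntegral.integral_sub hi2 (hi1.const_mul _), intervalIntegral.integral_const_mul,
      intervalIntegral.integral_const, ← hA, smul_eq_mul]
    field_simp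
    ring
  rw [e3] at e2
  have e5 : f y ^ 2 ≤ (b' - y) * ∫ t in y..b', f' t ^ 2 := by
    have h6 : f y ^ 2 = A ^ 2 := by rw [e1]; ring
    rw [h6]
    have h7 : A ^ 2 / (b' - y) ≤ ∫ t in y..b', f' t ^ 2 := by linarith only [e2]
    rw [div_le_iff₀ hL] at h7
    linarith only [h7]
  have e6 : ENNReal.ofReal (∫ t in y..b', f' t ^ 2) ≤
      ∫⁻ t in Set.Ioo a b, ENNReal.ofReal (f' t ^ 2) := by
    rw [intervalIntegral.integral_of_le h.le, ofReal_integral_eq_lintegral_ofReal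
      ((intervalIntegrable_iff_integrableOn_Ioc_of_le h.le).1 hi2)
      (Eventually.of_forall fun t => sq_nonneg _)]
    exact lintegral_mono_set (Set.Ioc_subset_Icc_self.trans hsub)
  have e7 : (b' - y) ≤ b - a := by linarith only [hb, hy.1]
  calc ENNReal.ofReal (f y ^ 2) ≤ ENNReal.ofReal ((b' - y) * ∫ t in y..b', f' t ^ 2) :=
        ENNReal.ofReal_le_ofReal e5
    _ = ENNReal.ofReal (b' - y) * ENNReal.ofReal (∫ t in y..b', f' t ^ 2) :=
        ENNReal.ofReal_mul hL.le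
    _ ≤ _ := mul_le_mul' (ENNReal.ofReal_le_ofReal e7) e6

/-- Poincaré inequality along vertical lines, for functions vanishing near the top. -/
theorem vert_poincare {g : ℝ → ℝ} (hg : Continuous g) {ρ η ℓ : ℝ}
    (hℓ : ∀ x : ℝ, |x| < ρ → η - g x ≤ ℓ) {G : ℂ → ℝ} (hG : ContDiffOn ℝ 1 G (Box g ρ η))
    {η' : ℝ} (hη : η' < η) (hvan : ∀ z ∈ Box g ρ η, η' ≤ z.im → G z = 0)
    (hi : IntegrableOn (fun z => py G z ^ 2) (Box g ρ η)) :
    IntegrableOn (fun z => G z ^ 2) (Box g ρ η) ∧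
      ∫ z in Box g ρ η, G z ^ 2 ≤ ℓ ^ 2 * ∫ z in Box g ρ η, py G z ^ 2 := by
  have hB := (isOpen_Box hg ρ η).measurableSet
  have hc2 : ContinuousOn (fun z => py G z ^ 2) (Box g ρ η) := (vt_contpy hg hG).pow 2
  have hc1 : ContinuousOn (fun z => G z ^ 2) (Box g ρ η) := hG.continuousOn.pow 2
  have m1 : AEMeasurable (fun z => ENNReal.ofReal (G z ^ 2)) (volume.restrict (Box g ρ η)) :=
    (hc1.aemeasurable hB).ennreal_ofReal
  have m2 : AEMeasurable (fun z => ENNReal.ofReal (py G z ^ 2)) (volume.restrict (Box g ρ η)) :=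
    (hc2.aemeasurable hB).ennreal_ofReal
  have key : ∫⁻ z in Box g ρ η, ENNReal.ofReal (G z ^ 2) ≤
      ENNReal.ofReal (ℓ ^ 2) * ∫⁻ z in Box g ρ η, ENNReal.ofReal (py G z ^ 2) := by
    rw [vt_lint hg ρ η m1, vt_lint hg ρ η m2, ← lintegral_const_mul' _ _ ENNReal.ofReal_ne_top]
    refine lintegral_mono fun x => ?_
    dsimp only
    split_ifs with hx
    · rcases le_or_gt η (g x) with h | h
      · rw [Set.Ioo_eq_empty (not_lt.2 h)]
        simp only [Measure.restrict_empty, lintegral_zero_measure, mul_zero, Std.le_refl]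
      have h1 : ∀ y ∈ Set.Ioo (g x) η, ENNReal.ofReal (G ⟨x, y⟩ ^ 2) ≤
          ENNReal.ofReal (η - g x) *
            ∫⁻ t in Set.Ioo (g x) η, ENNReal.ofReal (py G ⟨x, t⟩ ^ 2) := fun y hy =>
        vt_one (f := fun t => G ⟨x, t⟩) (f' := fun t => py G ⟨x, t⟩) hη
          (fun t ht => vt_deriv hg hG hx ht) (vt_contline (vt_contpy hg hG) hx)
          (fun t ht h' => hvan ⟨x, t⟩ ⟨hx, ht.1, ht.2⟩ h') hy
      calc ∫⁻ y in Set.Ioo (g x) η, ENNReal.ofReal (G ⟨x, y⟩ ^ 2)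
          ≤ ∫⁻ _ in Set.Ioo (g x) η, ENNReal.ofReal (η - g x) *
            ∫⁻ t in Set.Ioo (g x) η, ENNReal.ofReal (py G ⟨x, t⟩ ^ 2) :=
            setLIntegral_mono' measurableSet_Ioo h1
        _ = ENNReal.ofReal ((η - g x) ^ 2) *
            ∫⁻ t in Set.Ioo (g x) η, ENNReal.ofReal (py G ⟨x, t⟩ ^ 2) := by
            rw [lintegral_const, Measure.restrict_apply MeasurableSet.univ, Set.univ_inter,
              Real.volume_Ioo, ENNReal.ofReal_pow (sub_pos.2 h).le]
            ring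
        _ ≤ _ := by
            refine mul_le_mul' (ENNReal.ofReal_le_ofReal ?_) le_rfl
            exact pow_le_pow_left₀ (sub_pos.2 h).le (hℓ x hx) 2
    · simp only [mul_zero, Std.le_refl]
  have hfin : ∫⁻ z in Box g ρ η, ENNReal.ofReal (py G z ^ 2) =
      ENNReal.ofReal (∫ z in Box g ρ η, py G z ^ 2) :=
    (ofReal_integral_eq_lintegral_ofReal hi (Eventually.of_forall fun t => sq_nonneg _)).symm
  rw [hfin, ← ENNReal.ofReal_mul (sq_nonneg _)] at key
  have hint : IntegrableOn (fun z => G z ^ 2) (Box g ρ η) := by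
    refine ⟨hc1.aestronglyMeasurable hB, ?_⟩
    rw [hasFiniteIntegral_iff_ofReal (Eventually.of_forall fun t => sq_nonneg _)]
    exact key.trans_lt ENNReal.ofReal_lt_top
  refine ⟨hint, ?_⟩
  rw [← ofReal_integral_eq_lintegral_ofReal hint
    (Eventually.of_forall fun t => sq_nonneg _)] at key
  refine (ENNReal.ofReal_le_ofReal_iff ?_).1 key
  exact mul_nonneg (sq_nonneg _) (integral_nonneg fun z => sq_nonneg _)

/-- Integration by parts along vertical lines: no boundary term with the wrong sign. -/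
theorem vert_ibp {g : ℝ → ℝ} (hg : Continuous g) {ρ η a b : ℝ} {v : ℂ → ℝ}
    (hv : ContDiffOn ℝ 1 v (Box g ρ η)) (hv0 : ∀ z ∈ Box g ρ η, 0 ≤ v z)
    {η' : ℝ} (hη : η' < η) (hvan : ∀ z ∈ Box g ρ η, η' ≤ z.im → v z = 0)
    (hi : IntegrableOn (py v) (Box g ρ η)) (hiv : IntegrableOn v (Box g ρ η))
    (hab : ∀ z ∈ Box g ρ η, 0 ≤ a + b * z.im) :
    b * ∫ z in Box g ρ η, v z ≤ ∫ z in Box g ρ η, -(a + b * z.im) * py v z := by
  have hB := (isOpen_Box hg ρ η).measurableSet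
  -- the weight is bounded
  obtain ⟨M, hM⟩ : ∃ M : ℝ, ∀ z ∈ Box g ρ η, ‖-(a + b * z.im)‖ ≤ M := by
    obtain ⟨m, hm⟩ := (isCompact_Icc (a := -ρ) (b := ρ)).exists_bound_of_continuousOn
      hg.continuousOn
    refine ⟨|a| + |b| * (m + |η|), fun z hz => ?_⟩
    have h1 : |z.im| ≤ m + |η| := by
      have h2 := hm z.re ⟨(abs_lt.1 hz.1).1.le, (abs_lt.1 hz.1).2.le⟩
      rw [Real.norm_eq_abs, abs_le] at h2
      have h3 := hz.2.1
      have h4 := hz.2.2
      have h5 := neg_abs_le η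
      have h6 := le_abs_self η
      have h7 : 0 ≤ m := (abs_nonneg _).trans (abs_le.2 h2)
      rw [abs_le]
      constructor <;> linarith only [h2, h3, h5, h6, h4]
    rw [norm_neg, Real.norm_eq_abs]
    refine (abs_add_le _ _).trans ?_
    rw [abs_mul]
    have := mul_le_mul_of_nonneg_left h1 (abs_nonneg b)
    linarith only [this]
  have hi1 : IntegrableOn (fun z => -(a + b * z.im) * py v z) (Box g ρ η) := by
    refine Integrable.bdd_mul hi ?_ ?_ (c := M)
    · refine Continuous.aestronglyMeasurable ?_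
      fun_prop
    · exact (ae_restrict_iff' hB).2 (Eventually.of_forall hM)
  have hi2 : IntegrableOn (fun z => -(a + b * z.im) * py v z - b * v z) (Box g ρ η) :=
    hi1.sub (hiv.const_mul b)
  have key : 0 ≤ ∫ z in Box g ρ η, (-(a + b * z.im) * py v z - b * v z) := by
    refine vt_int hg ρ η hi2 fun x hx hix => ?_
    dsimp only at hix ⊢
    rcases le_or_gt η (g x) with h | h
    · rw [Set.Ioo_eq_empty (not_lt.2 h)]
      simp only [Measure.restrict_empty, neg_add_rev, integral_zero_measure, Std.le_refl]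
    -- exhaustion
    set u : ℕ → ℝ := fun n => g x + (η - g x) / (n + 2) with hu
    have hu1 : ∀ n, g x < u n := fun n => by
      have : 0 < (η - g x) / ((n : ℝ) + 2) := div_pos (sub_pos.2 h) (by (clear * -; positivity))
      simp only [hu]
      linarith only [this]
    have hu2 : ∀ n, u n < η := fun n => by
      have h1 : (η - g x) / ((n : ℝ) + 2) < η - g x := by
        rw [div_lt_iff₀ (by (clear * -; positivity))]
        have : (0 : ℝ) ≤ n := Nat.cast_nonneg n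
        nlinarith only [h]
      simp only [hu]
      linarith
    have hmono : Monotone fun n => Set.Ioo (u n) η := by
      intro n k hnk
      refine Set.Ioo_subset_Ioo_left ?_
      simp only [hu]
      have h1 : (n : ℝ) ≤ k := by exact_mod_cast hnk
      have h2 : (η - g x) / ((k : ℝ) + 2) ≤ (η - g x) / ((n : ℝ) + 2) :=
        div_le_div_of_nonneg_left (sub_pos.2 h).le (by (clear * -; positivity)) (by linarith only [h1])
      linarith only [h2]
    have hun : ⋃ n, Set.Ioo (u n) η = Set.Ioo (g x) η := by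
      ext y
      simp only [Set.mem_iUnion, Set.mem_Ioo]
      constructor
      · rintro ⟨n, h1, h2⟩
        exact ⟨(hu1 n).trans h1, h2⟩
      · rintro ⟨h1, h2⟩
        obtain ⟨n, hn⟩ := exists_nat_gt ((η - g x) / (y - g x))
        refine ⟨n, ?_, h2⟩
        have h3 : 0 < y - g x := sub_pos.2 h1
        rw [div_lt_iff₀ h3] at hn
        have h4 : (η - g x) / ((n : ℝ) + 2) < y - g x := by
          rw [div_lt_iff₀ (by (clear * -; positivity))]
          linarith
        simp only [hu]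
        linarith only [h4]
    have hlim := tendsto_setIntegral_of_monotone (μ := volume)
      (f := fun y : ℝ => -(a + b * y) * py v ⟨x, y⟩ - b * v ⟨x, y⟩)
      (fun n => measurableSet_Ioo) hmono (by rw [hun]; exact hix)
    rw [hun] at hlim
    refine ge_of_tendsto' hlim fun n => ?_
    -- the integral over `(u n, η)`
    set c := max η' ((u n + η) / 2) with hc
    have hc1 : c < η := max_lt hη (by linarith [hu2 n])
    have hc2 : u n < c := lt_max_of_lt_right (by linarith only [hu2 n])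
    have hsub : Set.Icc (u n) c ⊆ Set.Ioo (g x) η := fun t ht =>
      ⟨(hu1 n).trans_le ht.1, ht.2.trans_lt hc1⟩
    have hd : ∀ y ∈ Set.Ioo (g x) η, HasDerivAt (fun y : ℝ => -(a + b * y) * v ⟨x, y⟩)
        (-(a + b * y) * py v ⟨x, y⟩ - b * v ⟨x, y⟩) y := by
      intro y hy
      have h1 := vt_deriv hg hv hx hy
      have h2 : HasDerivAt (fun y : ℝ => -(a + b * y)) (-(b * 1)) y :=
        (((hasDerivAt_id y).const_mul b).const_add a).neg
      refine (h2.mul h1).congr_deriv ?_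
      ring
    have hcW : ContinuousOn (fun y : ℝ => -(a + b * y) * py v ⟨x, y⟩ - b * v ⟨x, y⟩)
        (Set.Ioo (g x) η) := by
      have h1 := vt_contline (vt_contpy hg hv) hx
      have h2 := vt_contline hv.continuousOn hx
      exact ((by fun_prop : Continuous fun y : ℝ => -(a + b * y)).continuousOn.mul h1).sub
        (continuousOn_const.mul h2)
    have hz : ∀ y ∈ Set.Ioo c η, -(a + b * y) * py v ⟨x, y⟩ - b * v ⟨x, y⟩ = 0 := by
      intro y hy
      have hy1 : y ∈ Set.Ioo (g x) η := ⟨(hu1 n).trans (hc2.trans hy.1), hy.2⟩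
      have hvz : v ⟨x, y⟩ = 0 := hvan ⟨x, y⟩ ⟨hx, hy1.1, hy1.2⟩ ((le_max_left _ _).trans hy.1.le)
      have hev : (fun t : ℝ => v ⟨x, t⟩) =ᶠ[𝓝 y] fun _ => 0 := by
        filter_upwards [Ioo_mem_nhds hy.1 hy.2] with t ht
        exact hvan ⟨x, t⟩ ⟨hx, (hu1 n).trans (hc2.trans ht.1), ht.2⟩
          ((le_max_left _ _).trans ht.1.le)
      have h1 := vt_deriv hg hv hx hy1
      have h2 : py v ⟨x, y⟩ = 0 := by
        have h3 := h1.congr_of_eventuallyEq hev.symm
        exact h3.unique (hasDerivAt_const y (0 : ℝ))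
      rw [h2, hvz]
      ring
    have hsplit : ∫ y in Set.Ioo (u n) η, (-(a + b * y) * py v ⟨x, y⟩ - b * v ⟨x, y⟩) =
        ∫ y in Set.Ioc (u n) c, (-(a + b * y) * py v ⟨x, y⟩ - b * v ⟨x, y⟩) := by
      have h1 : Set.Ioo (u n) η = Set.Ioc (u n) c ∪ Set.Ioo c η :=
        (Set.Ioc_union_Ioo_eq_Ioo hc2.le hc1).symm
      rw [h1, setIntegral_union ?_ measurableSet_Ioo (hix.mono_set ?_) (hix.mono_set ?_)]
      · rw [setIntegral_congr_fun measurableSet_Ioo hz]
        simp only [neg_add_rev, integral_zero, add_zero]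
      · rw [Set.disjoint_left]
        intro t ht1 ht2
        exact absurd ht1.2 (not_le.2 ht2.1)
      · exact Set.Ioc_subset_Icc_self.trans hsub
      · intro t ht
        exact ⟨(hu1 n).trans (hc2.trans ht.1), ht.2⟩
    rw [hsplit, ← intervalIntegral.integral_of_le hc2.le,
      intervalIntegral.integral_eq_sub_of_hasDerivAt
        (f := fun y : ℝ => -(a + b * y) * v ⟨x, y⟩) ?_ ?_]
    · have h1 : v ⟨x, c⟩ = 0 :=
        hvan ⟨x, c⟩ ⟨hx, (hu1 n).trans hc2, hc1⟩ (le_max_left _ _)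
      have hun1 : (⟨x, u n⟩ : ℂ) ∈ Box g ρ η := ⟨hx, hu1 n, hu2 n⟩
      have h2 := hab _ hun1
      have h3 := hv0 _ hun1
      dsimp only at h2
      rw [h1]
      nlinarith only [h2, h3]
    · intro t ht
      rw [Set.uIcc_of_le hc2.le] at ht
      exact hd t (hsub ht)
    · refine ContinuousOn.intervalIntegrable ?_
      rw [Set.uIcc_of_le hc2.le]
      exact hcW.mono hsub
  rw [integral_sub hi1 (hiv.const_mul b), integral_const_mul] at key
  linarith only [key]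

end Vale.Agent.P071.Reg
end

section

/-!
# REG-2: rigid motions
-/

open MeasureTheory Metric Filter Topology Real
open scoped ContDiff ENNReal ComplexConjugate

namespace Vale.Agent.P071.Reg

open Vale.Agent.P071.Lim

/-- The rigid motion `ζ ↦ p + e ζ` is differentiable with derivative `e`. -/
theorem hasFDerivAt_mot (p e ζ : ℂ) :
    HasFDerivAt (fun ζ : ℂ => p + e * ζ) (ContinuousLinearMap.mul ℝ ℂ e) ζ := by
  have h := (ContinuousLinearMap.mul ℝ ℂ e).hasFDerivAt (x := ζ)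
  simpa using h.const_add p

/-- Rigid motions preserve the area. -/
theorem mp_mot (p e : ℂ) (he : ‖e‖ = 1) :
    MeasurePreserving (fun ζ : ℂ => p + e * ζ) volume volume := by
  have h1 : MeasurePreserving (fun ζ : ℂ => e * ζ) volume volume := by
    have hc : e ∈ Submonoid.unitSphere ℂ := by
      simpa only [Submonoid.unitSphere, Submonoid.mem_mk, Subsemigroup.mem_mk, mem_sphere_iff_norm, sub_zero] using     he
    exact (rotation ⟨e, hc⟩).measurePreserving
  exact (measurePreserving_add_left volume p).comp h1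

/-- Rigid motions are measurable embeddings. -/
theorem emb_mot (p e : ℂ) (he : ‖e‖ = 1) :
    MeasurableEmbedding (fun ζ : ℂ => p + e * ζ) := by
  have he0 : e ≠ 0 := by
    intro h
    rw [h, norm_zero] at he
    exact zero_ne_one he
  exact ((Homeomorph.mulLeft₀ e he0).trans (Homeomorph.addLeft p)).measurableEmbedding

/-- The partial derivatives after a rigid motion. -/
theorem px_mot {w : ℂ → ℝ} {p e ζ : ℂ} (hw : DifferentiableAt ℝ w (p + e * ζ)) :
    px (fun ζ => w (p + e * ζ)) ζ = e.re * px w (p + e * ζ) + e.im * py w (p + e * ζ) := by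
  have h := hw.hasFDerivAt.comp ζ (hasFDerivAt_mot p e ζ)
  have h2 : fderiv ℝ (fun ζ => w (p + e * ζ)) ζ =
      (fderiv ℝ w (p + e * ζ)).comp (ContinuousLinearMap.mul ℝ ℂ e) := h.fderiv
  have h3 : (ContinuousLinearMap.mul ℝ ℂ e) 1 = e.re • (1 : ℂ) + e.im • Complex.I := by
    simp only [ContinuousLinearMap.mul_apply', mul_one, Complex.real_smul, Complex.re_add_im]
  unfold px py
  rw [h2, ContinuousLinearMap.comp_apply, h3, map_add, map_smul, map_smul, smul_eq_mul,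
    smul_eq_mul]

theorem py_mot {w : ℂ → ℝ} {p e ζ : ℂ} (hw : DifferentiableAt ℝ w (p + e * ζ)) :
    py (fun ζ => w (p + e * ζ)) ζ = -e.im * px w (p + e * ζ) + e.re * py w (p + e * ζ) := by
  have h := hw.hasFDerivAt.comp ζ (hasFDerivAt_mot p e ζ)
  have h2 : fderiv ℝ (fun ζ => w (p + e * ζ)) ζ =
      (fderiv ℝ w (p + e * ζ)).comp (ContinuousLinearMap.mul ℝ ℂ e) := h.fderiv
  have h3 : (ContinuousLinearMap.mul ℝ ℂ e) Complex.I =
      (-e.im) • (1 : ℂ) + e.re • Complex.I := by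
    apply Complex.ext <;> simp
  unfold px py
  rw [h2, ContinuousLinearMap.comp_apply, h3, map_add, map_smul, map_smul, smul_eq_mul,
    smul_eq_mul]

theorem sq_add_sq_of_norm {e : ℂ} (he : ‖e‖ = 1) : e.re ^ 2 + e.im ^ 2 = 1 := by
  have h := Complex.sq_norm e
  rw [he, Complex.normSq_apply] at h
  linarith

/-- The scalar product of the gradients is invariant. -/
theorem dot_mot {w v : ℂ → ℝ} {p e ζ : ℂ} (he : ‖e‖ = 1)
    (hw : DifferentiableAt ℝ w (p + e * ζ)) (hv : DifferentiableAt ℝ v (p + e * ζ)) :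
    px (fun ζ => w (p + e * ζ)) ζ * px (fun ζ => v (p + e * ζ)) ζ +
      py (fun ζ => w (p + e * ζ)) ζ * py (fun ζ => v (p + e * ζ)) ζ =
    px w (p + e * ζ) * px v (p + e * ζ) + py w (p + e * ζ) * py v (p + e * ζ) := by
  rw [px_mot hw, px_mot hv, py_mot hw, py_mot hv]
  have h := sq_add_sq_of_norm he
  linear_combination (px w (p + e * ζ) * px v (p + e * ζ) +
    py w (p + e * ζ) * py v (p + e * ζ)) * h

theorem gsq_mot {w : ℂ → ℝ} {p e ζ : ℂ} (he : ‖e‖ = 1)
    (hw : DifferentiableAt ℝ w (p + e * ζ)) :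
    gsq (fun ζ => w (p + e * ζ)) ζ = gsq w (p + e * ζ) := by
  have h := dot_mot he hw hw
  unfold gsq
  linarith

/-- Invariance under rigid motions. -/
theorem WN.rigid {Ω : Set ℂ} (ho : IsOpen Ω) {μ : ℝ} {w : ℂ → ℝ} (h : WN Ω μ w) (p e : ℂ)
    (he : ‖e‖ = 1) : WN {ζ | p + e * ζ ∈ Ω} μ (fun ζ => w (p + e * ζ)) := by
  have hmp := mp_mot p e he
  have hemb := emb_mot p e he
  have hset : {ζ | p + e * ζ ∈ Ω} = (fun ζ : ℂ => p + e * ζ) ⁻¹' Ω := rfl
  have hcont : Continuous (fun ζ : ℂ => p + e * ζ) := by fun_prop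
  have hΩ' : IsOpen {ζ | p + e * ζ ∈ Ω} := by
    rw [hset]
    exact ho.preimage hcont
  have hw : ∀ ζ ∈ {ζ | p + e * ζ ∈ Ω}, DifferentiableAt ℝ w (p + e * ζ) := fun ζ hζ =>
    (h.smooth.contDiffAt (ho.mem_nhds hζ)).differentiableAt one_ne_zero
  have hee : conj e * e = 1 := by
    rw [mul_comm, Complex.mul_conj, Complex.normSq_eq_norm_sq, he]
    simp
  have hee' : e * conj e = 1 := by rw [mul_comm]; exact hee
  refine ⟨?_, ?_, ?_, ?_⟩
  · exact h.smooth.comp (by fun_prop : ContDiff ℝ 1 (fun ζ : ℂ => p + e * ζ)).contDiffOn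
      (fun ζ hζ => hζ)
  · have := (hmp.integrableOn_comp_preimage hemb (f := fun z => w z ^ 2) (s := Ω)).2 h.sq
    exact this
  · have h1 := (hmp.integrableOn_comp_preimage hemb (f := gsq w) (s := Ω)).2 h.en
    refine h1.congr_fun (fun ζ hζ => ?_) hΩ'.measurableSet
    exact (gsq_mot he (hw ζ hζ)).symm
  · intro v hv hv2 hvg
    set v0 : ℂ → ℝ := fun z => v (conj e * (z - p)) with hv0
    have hv0T : ∀ ζ, v0 (p + e * ζ) = v ζ := by
      intro ζ
      simp only [hv0]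
      congr 1
      rw [add_sub_cancel_left, ← mul_assoc, hee, one_mul]
    have hTS : ∀ z, p + e * (conj e * (z - p)) = z := by
      intro z
      rw [← mul_assoc, hee', one_mul]
      ring
    have hv0s : ContDiffOn ℝ 1 v0 Ω := by
      refine hv.comp (by fun_prop : ContDiff ℝ 1 (fun z : ℂ => conj e * (z - p))).contDiffOn
        (fun z hz => ?_)
      change p + e * (conj e * (z - p)) ∈ Ω
      rw [hTS]
      exact hz
    have hveq : v = fun ζ => v0 (p + e * ζ) := by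
      funext ζ
      exact (hv0T ζ).symm
    have hv0d : ∀ ζ ∈ {ζ | p + e * ζ ∈ Ω}, DifferentiableAt ℝ v0 (p + e * ζ) := fun ζ hζ =>
      (hv0s.contDiffAt (ho.mem_nhds hζ)).differentiableAt one_ne_zero
    have hv02 : IntegrableOn (fun z => v0 z ^ 2) Ω := by
      rw [← hmp.integrableOn_comp_preimage hemb]
      refine hv2.congr_fun (fun ζ _ => ?_) hΩ'.measurableSet
      change v ζ ^ 2 = v0 (p + e * ζ) ^ 2
      rw [hv0T]
    have hv0g : IntegrableOn (gsq v0) Ω := by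
      rw [← hmp.integrableOn_comp_preimage hemb]
      refine hvg.congr_fun (fun ζ hζ => ?_) hΩ'.measurableSet
      change gsq v ζ = gsq v0 (p + e * ζ)
      rw [← gsq_mot he (hv0d ζ hζ), ← hveq]
    have hk := h.weak v0 hv0s hv02 hv0g
    have k1 := hmp.setIntegral_preimage_emb hemb
      (fun z => px w z * px v0 z + py w z * py v0 z) Ω
    have k2 := hmp.setIntegral_preimage_emb hemb (fun z => w z * v0 z) Ω
    have e1 : ∫ ζ in {ζ | p + e * ζ ∈ Ω},
        (px (fun ζ => w (p + e * ζ)) ζ * px v ζ + py (fun ζ => w (p + e * ζ)) ζ * py v ζ) =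
        ∫ ζ in (fun ζ : ℂ => p + e * ζ) ⁻¹' Ω,
          (px w (p + e * ζ) * px v0 (p + e * ζ) + py w (p + e * ζ) * py v0 (p + e * ζ)) := by
      refine setIntegral_congr_fun hΩ'.measurableSet (fun ζ hζ => ?_)
      rw [← dot_mot he (hw ζ hζ) (hv0d ζ hζ), ← hveq]
    have e2 : ∫ ζ in {ζ | p + e * ζ ∈ Ω}, w (p + e * ζ) * v ζ =
        ∫ ζ in (fun ζ : ℂ => p + e * ζ) ⁻¹' Ω, w (p + e * ζ) * v0 (p + e * ζ) := by
      refine setIntegral_congr_fun hΩ'.measurableSet (fun ζ hζ => ?_)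
      rw [hv0T]
    rw [e1, e2, k1, k2]
    exact hk

end Vale.Agent.P071.Reg
end
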