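import Vale.Agent.P071.MathlibUsed

set_option linter.all false

section

/-!
# Weighted `ℓ¹` power series in `z, conj z` on the closed unit disc

`Y p` is the Banach space of formal series `∑ c (m,n) z^m (conj z)^n` with
`∑ |c (m,n)| (1+m+n)^p < ∞`. It is implemented as `ℓ¹(ℕ × ℕ)`, normalised such that the monomial
`e p (m,n)` has norm `(1+m+n)^p`.
-/

open scoped ComplexConjugate

noncomputable section

namespace Vale.Agent.P071

/-- Indices `(m,n)` of the monomials `z^m (conj z)^n`. -/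
abbrev Ix := ℕ × ℕ

/-- Weights. -/
def wt (p : ℕ) (i : Ix) : ℝ := (1 + (i.1 : ℝ) + i.2) ^ p

theorem wt_base (i : Ix) : (1 : ℝ) ≤ 1 + (i.1 : ℝ) + i.2 := by
  have h1 : (0 : ℝ) ≤ i.1 := Nat.cast_nonneg _
  have h2 : (0 : ℝ) ≤ i.2 := Nat.cast_nonneg _
  linarith

theorem one_le_wt (p : ℕ) (i : Ix) : 1 ≤ wt p i := one_le_pow₀ (wt_base i)

theorem wt_pos (p : ℕ) (i : Ix) : 0 < wt p i := lt_of_lt_of_le one_pos (one_le_wt p i)

theorem wt_mono {p q : ℕ} (h : p ≤ q) (i : Ix) : wt p i ≤ wt q i :=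
  pow_le_pow_right₀ (wt_base i) h

theorem wt_succ (p : ℕ) (i : Ix) : wt (p + 1) i = wt p i * (1 + (i.1 : ℝ) + i.2) := pow_succ _ _

theorem wt_add_le (p : ℕ) (i j : Ix) : wt p (i + j) ≤ wt p i * wt p j := by
  unfold wt
  rw [← mul_pow]
  have h1 : (0 : ℝ) ≤ i.1 := Nat.cast_nonneg _
  have h2 : (0 : ℝ) ≤ i.2 := Nat.cast_nonneg _
  have h3 : (0 : ℝ) ≤ j.1 := Nat.cast_nonneg _
  have h4 : (0 : ℝ) ≤ j.2 := Nat.cast_nonneg _
  refine pow_le_pow_left₀ (by positivity) ?_ p
  simp only [Prod.fst_add, Prod.snd_add]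
  push_cast
  nlinarith [mul_nonneg h1 h3, mul_nonneg h1 h4, mul_nonneg h2 h3, mul_nonneg h2 h4]

/-- The Banach space of series with weight exponent `p`. -/
def Y (_p : ℕ) : Type := lp (fun _ : Ix => ℂ) 1

instance (p : ℕ) : NormedAddCommGroup (Y p) :=
  inferInstanceAs (NormedAddCommGroup (lp (fun _ : Ix => ℂ) 1))

instance (p : ℕ) : NormedSpace ℂ (Y p) :=
  inferInstanceAs (NormedSpace ℂ (lp (fun _ : Ix => ℂ) 1))

instance (p : ℕ) : CompleteSpace (Y p) :=
  inferInstanceAs (CompleteSpace (lp (fun _ : Ix => ℂ) 1))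

/-- The monomial `z^i.1 (conj z)^i.2`, of norm `wt p i`. -/
def e (p : ℕ) (i : Ix) : Y p := lp.single 1 i (wt p i : ℂ)

/-- The coefficients. -/
def cf {p : ℕ} (a : Y p) (i : Ix) : ℂ := (show lp (fun _ : Ix => ℂ) 1 from a) i / wt p i

variable {p q : ℕ}

theorem norm_e (p : ℕ) (i : Ix) : ‖e p i‖ = wt p i := by
  have h : ‖(lp.single 1 i (wt p i : ℂ) : lp (fun _ : Ix => ℂ) 1)‖ = ‖(wt p i : ℂ)‖ :=
    lp.norm_single (by norm_num) i _
  rw [show ‖e p i‖ = ‖(lp.single 1 i (wt p i : ℂ) : lp (fun _ : Ix => ℂ) 1)‖ from rfl, h]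
  simp [abs_of_pos (wt_pos p i)]

theorem norm_eq (a : Y p) : ‖a‖ = ∑' i, ‖cf a i‖ * wt p i := by
  have h : ‖(show lp (fun _ : Ix => ℂ) 1 from a)‖ =
      (∑' i, ‖(show lp (fun _ : Ix => ℂ) 1 from a) i‖ ^ (1 : ENNReal).toReal) ^
        (1 / (1 : ENNReal).toReal) := lp.norm_eq_tsum_rpow (by norm_num) _
  rw [show ‖a‖ = ‖(show lp (fun _ : Ix => ℂ) 1 from a)‖ from rfl, h]
  simp only [ENNReal.toReal_one, Real.rpow_one, div_one]
  refine tsum_congr fun i => ?_
  rw [cf, norm_div, Complex.norm_real, Real.norm_eq_abs, abs_of_pos (wt_pos p i),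
    div_mul_cancel₀ _ (wt_pos p i).ne']

theorem summable_cf (a : Y p) : Summable fun i => ‖cf a i‖ * wt p i := by
  have h : Summable fun i => ‖(show lp (fun _ : Ix => ℂ) 1 from a) i‖ ^ (1 : ENNReal).toReal :=
    (lp.memℓp (show lp (fun _ : Ix => ℂ) 1 from a)).summable (by norm_num)
  refine h.congr fun i => ?_
  simp only [ENNReal.toReal_one, Real.rpow_one]
  rw [cf, norm_div, Complex.norm_real, Real.norm_eq_abs, abs_of_pos (wt_pos p i),
    div_mul_cancel₀ _ (wt_pos p i).ne']

theorem hasSum_cf (a : Y p) : HasSum (fun i => cf a i • e p i) a := by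
  have h := lp.hasSum_single (E := fun _ : Ix => ℂ) (p := 1) (by norm_num)
    (show lp (fun _ : Ix => ℂ) 1 from a)
  have h2 : (fun i => cf a i • e p i) =
      fun i => (lp.single 1 i ((show lp (fun _ : Ix => ℂ) 1 from a) i) : Y p) := by
    funext i
    have h3 : cf a i • (lp.single 1 i (wt p i : ℂ) : lp (fun _ : Ix => ℂ) 1) =
        lp.single 1 i (cf a i • (wt p i : ℂ)) := (lp.single_smul 1 i (cf a i) _).symm
    have h4 : cf a i • (wt p i : ℂ) = (show lp (fun _ : Ix => ℂ) 1 from a) i := by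
      rw [cf, smul_eq_mul, div_mul_cancel₀]
      exact Complex.ofReal_ne_zero.2 (wt_pos p i).ne'
    rw [h4] at h3
    exact h3
  rw [h2]
  exact h

@[simp] theorem cf_add (a b : Y p) (i : Ix) : cf (a + b) i = cf a i + cf b i := by
  have h : (show lp (fun _ : Ix => ℂ) 1 from (a + b)) i =
      (show lp (fun _ : Ix => ℂ) 1 from a) i + (show lp (fun _ : Ix => ℂ) 1 from b) i := rfl
  rw [cf, h, add_div]
  rfl

@[simp] theorem cf_smul (c : ℂ) (a : Y p) (i : Ix) : cf (c • a) i = c * cf a i := by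
  have h : (show lp (fun _ : Ix => ℂ) 1 from (c • a)) i =
      c * (show lp (fun _ : Ix => ℂ) 1 from a) i := rfl
  rw [cf, h, mul_div_assoc]
  rfl

@[simp] theorem cf_zero (i : Ix) : cf (0 : Y p) i = 0 := by
  have h : (show lp (fun _ : Ix => ℂ) 1 from (0 : Y p)) i = 0 := rfl
  rw [cf, h, zero_div]

@[simp] theorem cf_neg (a : Y p) (i : Ix) : cf (-a) i = - cf a i := by
  have h : (show lp (fun _ : Ix => ℂ) 1 from (-a)) i =
      - (show lp (fun _ : Ix => ℂ) 1 from a) i := rfl
  rw [cf, h, neg_div]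
  rfl

@[simp] theorem cf_sub (a b : Y p) (i : Ix) : cf (a - b) i = cf a i - cf b i := by
  rw [sub_eq_add_neg, cf_add, cf_neg, sub_eq_add_neg]

theorem cf_e (i j : Ix) : cf (e p i) j = if j = i then 1 else 0 := by
  by_cases hij : j = i
  · subst hij
    have h : (lp.single 1 j (wt p j : ℂ) : lp (fun _ : Ix => ℂ) 1) j = (wt p j : ℂ) :=
      lp.single_apply_self 1 j _
    rw [if_pos rfl]
    show (lp.single 1 j (wt p j : ℂ) : lp (fun _ : Ix => ℂ) 1) j / (wt p j : ℂ) = 1
    rw [h, div_self]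
    exact Complex.ofReal_ne_zero.2 (wt_pos p j).ne'
  · have h : (lp.single 1 i (wt p i : ℂ) : lp (fun _ : Ix => ℂ) 1) j = 0 :=
      lp.single_apply_ne 1 i _ hij
    rw [if_neg hij]
    show (lp.single 1 i (wt p i : ℂ) : lp (fun _ : Ix => ℂ) 1) j / (wt p j : ℂ) = 0
    rw [h, zero_div]

theorem norm_cf_le (a : Y p) (i : Ix) : ‖cf a i‖ * wt p i ≤ ‖a‖ := by
  rw [norm_eq]
  exact (summable_cf a).le_tsum i fun j _ => mul_nonneg (norm_nonneg _) (wt_pos p j).le

@[ext] theorem Y.ext {a b : Y p} (h : ∀ i, cf a i = cf b i) : a = b := by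
  rw [← (hasSum_cf a).tsum_eq, ← (hasSum_cf b).tsum_eq]
  simp only [h]

/-! ### Universal property -/

section Lift

variable {F : Type*} [NormedAddCommGroup F] [NormedSpace ℂ F]

/-- Continuous linear maps agreeing on the monomials are equal. -/
theorem Y.clm_ext {S T : Y p →L[ℂ] F} (h : ∀ i, S (e p i) = T (e p i)) : S = T := by
  ext a
  have h1 := (hasSum_cf a).mapL S
  have h2 := (hasSum_cf a).mapL T
  simp only [map_smul, h] at h1 h2
  exact h1.unique h2

theorem summable_lift [CompleteSpace F] {v : Ix → F} {C : ℝ} (hv : ∀ i, ‖v i‖ ≤ C * wt p i)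
    (a : Y p) : Summable fun i => cf a i • v i := by
  refine Summable.of_norm_bounded ((summable_cf a).mul_left C) fun i => ?_
  rw [norm_smul]
  calc ‖cf a i‖ * ‖v i‖ ≤ ‖cf a i‖ * (C * wt p i) := by gcongr; exact hv i
    _ = C * (‖cf a i‖ * wt p i) := by ring

variable [CompleteSpace F]

/-- The continuous linear map with prescribed values on the monomials. -/
def lift (v : Ix → F) (C : ℝ) (_hC : 0 ≤ C) (hv : ∀ i, ‖v i‖ ≤ C * wt p i) : Y p →L[ℂ] F :=
  LinearMap.mkContinuous
    { toFun := fun a => ∑' i, cf a i • v i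
      map_add' := fun a b => by
        simp only [cf_add, add_smul]
        exact (summable_lift hv a).tsum_add (summable_lift hv b)
      map_smul' := fun c a => by
        simp only [cf_smul, mul_smul, RingHom.id_apply]
        exact (summable_lift hv a).tsum_const_smul c } C fun a => by
    show ‖∑' i, cf a i • v i‖ ≤ C * ‖a‖
    have hs : Summable fun i => C * (‖cf a i‖ * wt p i) := (summable_cf a).mul_left C
    rw [norm_eq, ← tsum_mul_left]
    refine tsum_of_norm_bounded hs.hasSum fun i => ?_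
    rw [norm_smul]
    calc ‖cf a i‖ * ‖v i‖ ≤ ‖cf a i‖ * (C * wt p i) := by gcongr; exact hv i
      _ = C * (‖cf a i‖ * wt p i) := by ring

theorem lift_apply (v : Ix → F) (C : ℝ) (hC : 0 ≤ C) (hv : ∀ i, ‖v i‖ ≤ C * wt p i) (a : Y p) :
    lift v C hC hv a = ∑' i, cf a i • v i := rfl

@[simp] theorem lift_e (v : Ix → F) (C : ℝ) (hC : 0 ≤ C) (hv : ∀ i, ‖v i‖ ≤ C * wt p i) (i : Ix) :
    lift v C hC hv (e p i) = v i := by
  rw [lift_apply, tsum_eq_single i]
  · rw [cf_e, if_pos rfl, one_smul]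
  · intro j hj
    rw [cf_e, if_neg hj, zero_smul]

theorem norm_lift_le (v : Ix → F) (C : ℝ) (hC : 0 ≤ C) (hv : ∀ i, ‖v i‖ ≤ C * wt p i) :
    ‖lift v C hC hv‖ ≤ C := LinearMap.mkContinuous_norm_le _ hC _

end Lift

end Vale.Agent.P071
end
end

section

/-!
# Operators on the series spaces: inclusions, evaluation, products, conjugation, derivatives
-/

open scoped ComplexConjugate

noncomputable section

namespace Vale.Agent.P071

variable {p q : ℕ}

section Ext2

variable {F : Type*} [NormedAddCommGroup F] [NormedSpace ℂ F]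

/-- Continuous bilinear maps agreeing on the monomials are equal. -/
theorem Y.clm_ext₂ {S T : Y p →L[ℂ] Y q →L[ℂ] F} (h : ∀ i j, S (e p i) (e q j) = T (e p i) (e q j)) :
    S = T := Y.clm_ext fun i => Y.clm_ext fun j => h i j

end Ext2

/-! ### Inclusions -/

/-- The inclusion `Y q → Y p` for `p ≤ q`. -/
def incl (h : p ≤ q) : Y q →L[ℂ] Y p :=
  lift (e p) 1 zero_le_one fun i => by rw [norm_e, one_mul]; exact wt_mono h i

@[simp] theorem incl_e (h : p ≤ q) (i : Ix) : incl h (e q i) = e p i := lift_e _ _ _ _ _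

/-- The coefficient functionals. -/
def cfL (p : ℕ) (i : Ix) : Y p →L[ℂ] ℂ :=
  lift (fun j => if i = j then 1 else 0) 1 zero_le_one fun j => by
    split_ifs
    · simpa using one_le_wt p j
    · simpa using (wt_pos p j).le

@[simp] theorem cfL_apply (a : Y p) (i : Ix) : cfL p i a = cf a i := by
  unfold cfL
  rw [lift_apply, tsum_eq_single i]
  · simp
  · intro j hj
    simp [hj.symm]

@[simp] theorem cf_incl (h : p ≤ q) (a : Y q) (i : Ix) : cf (incl h a) i = cf a i := by
  have : (cfL p i).comp (incl h) = cfL q i := Y.clm_ext fun j => by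
    simp [cf_e]
  simpa using congrArg (fun T : Y q →L[ℂ] ℂ => T a) this

/-! ### Evaluation -/

/-- The value of the monomial with index `i`. -/
def mon (i : Ix) (z : ℂ) : ℂ := z ^ i.1 * (conj z) ^ i.2

theorem mon_add (i j : Ix) (z : ℂ) : mon (i + j) z = mon i z * mon j z := by
  simp only [mon, Prod.fst_add, Prod.snd_add, pow_add]
  ring

theorem norm_mon_le (i : Ix) {z : ℂ} (hz : ‖z‖ ≤ 1) : ‖mon i z‖ ≤ 1 := by
  unfold mon
  rw [norm_mul, norm_pow, norm_pow, Complex.norm_conj]
  exact mul_le_one₀ (pow_le_one₀ (norm_nonneg _) hz) (by positivity)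
    (pow_le_one₀ (norm_nonneg _) hz)

/-- The value at `z` of the series (meaningful for `‖z‖ ≤ 1`). -/
def ev (a : Y p) (z : ℂ) : ℂ := ∑' i, cf a i * mon i z

theorem norm_cf_mon_le (a : Y p) {z : ℂ} (hz : ‖z‖ ≤ 1) (i : Ix) :
    ‖cf a i * mon i z‖ ≤ ‖cf a i‖ * wt p i := by
  rw [norm_mul]
  exact mul_le_mul_of_nonneg_left ((norm_mon_le i hz).trans (one_le_wt p i)) (norm_nonneg _)

theorem summable_ev (a : Y p) {z : ℂ} (hz : ‖z‖ ≤ 1) : Summable fun i => cf a i * mon i z :=
  Summable.of_norm_bounded (summable_cf a) (norm_cf_mon_le a hz)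

/-- Evaluation as a continuous linear map. -/
def evL (p : ℕ) (z : ℂ) (hz : ‖z‖ ≤ 1) : Y p →L[ℂ] ℂ :=
  lift (fun i => mon i z) 1 zero_le_one fun i => by
    rw [one_mul]; exact (norm_mon_le i hz).trans (one_le_wt p i)

theorem evL_apply (a : Y p) {z : ℂ} (hz : ‖z‖ ≤ 1) : evL p z hz a = ev a z := rfl

@[simp] theorem evL_e {z : ℂ} (hz : ‖z‖ ≤ 1) (i : Ix) : evL p z hz (e p i) = mon i z :=
  lift_e _ _ _ _ _

@[simp] theorem ev_e (i : Ix) (z : ℂ) : ev (e p i) z = mon i z := by
  unfold ev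
  rw [tsum_eq_single i]
  · rw [cf_e, if_pos rfl, one_mul]
  · intro j hj
    rw [cf_e, if_neg hj, zero_mul]

theorem norm_ev_le (a : Y p) {z : ℂ} (hz : ‖z‖ ≤ 1) : ‖ev a z‖ ≤ ‖a‖ := by
  rw [← evL_apply a hz]
  refine ((evL p z hz).le_opNorm a).trans ?_
  calc _ ≤ 1 * ‖a‖ := by gcongr; exact norm_lift_le _ _ _ _
    _ = _ := one_mul _

theorem ev_add (a b : Y p) {z : ℂ} (hz : ‖z‖ ≤ 1) : ev (a + b) z = ev a z + ev b z := by
  simp only [← evL_apply _ hz, map_add]

theorem ev_sub (a b : Y p) {z : ℂ} (hz : ‖z‖ ≤ 1) : ev (a - b) z = ev a z - ev b z := by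
  simp only [← evL_apply _ hz, map_sub]

@[simp] theorem ev_smul (c : ℂ) (a : Y p) (z : ℂ) : ev (c • a) z = c * ev a z := by
  unfold ev
  simp only [cf_smul, mul_assoc, tsum_mul_left]

@[simp] theorem ev_zero (z : ℂ) : ev (0 : Y p) z = 0 := by simp [ev]

@[simp] theorem ev_neg (a : Y p) (z : ℂ) : ev (-a) z = - ev a z := by
  simp [ev, tsum_neg]

@[simp] theorem ev_incl (h : p ≤ q) (a : Y q) (z : ℂ) : ev (incl h a) z = ev a z := by
  simp [ev]

/-- The values depend continuously on the point. -/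
theorem continuousOn_ev (a : Y p) : ContinuousOn (ev a) (Metric.closedBall 0 1) := by
  refine continuousOn_tsum (fun i => ?_) (summable_cf a) fun i z hz =>
    norm_cf_mon_le a (mem_closedBall_zero_iff.1 hz) i
  have : Continuous fun z : ℂ => cf a i * mon i z := by
    unfold mon
    fun_prop
  exact this.continuousOn

/-! ### Products -/

/-- Multiplication by a monomial. -/
def mulE (p : ℕ) (i : Ix) : Y p →L[ℂ] Y p :=
  lift (fun j => e p (i + j)) (wt p i) (wt_pos p i).le fun j => by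
    rw [norm_e]; exact wt_add_le p i j

/-- The product of two series. -/
def mulL (p : ℕ) : Y p →L[ℂ] Y p →L[ℂ] Y p :=
  lift (mulE p) 1 zero_le_one fun i => by
    rw [one_mul]; exact norm_lift_le _ _ _ _

instance : Mul (Y p) := ⟨fun a b => mulL p a b⟩

theorem mul_def (a b : Y p) : a * b = mulL p a b := rfl

@[simp] theorem e_mul_e (i j : Ix) : e p i * e p j = e p (i + j) := by
  rw [mul_def, mulL, lift_e, mulE, lift_e]

theorem mulL_e_e (i j : Ix) : mulL p (e p i) (e p j) = e p (i + j) := e_mul_e i j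

theorem mulL_comm : mulL p = (mulL p).flip := Y.clm_ext₂ fun i j => by
  rw [ContinuousLinearMap.flip_apply, mulL_e_e, mulL_e_e, add_comm]

theorem ser_mul_comm (a b : Y p) : a * b = b * a := by
  have h := congrArg (fun T : Y p →L[ℂ] Y p →L[ℂ] Y p => T a b) (mulL_comm (p := p))
  exact h

theorem ser_mul_assoc (a b c : Y p) : a * b * c = a * (b * c) := by
  have h : ∀ i j : Ix, mulL p (e p i) ∘L mulL p (e p j) = mulL p (mulL p (e p i) (e p j)) :=
    fun i j => Y.clm_ext fun k => by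
      rw [ContinuousLinearMap.comp_apply, mulL_e_e, mulL_e_e, mulL_e_e, mulL_e_e, add_assoc]
  have h2 : ∀ i : Ix, ∀ b : Y p, mulL p (e p i) ∘L mulL p b = mulL p (mulL p (e p i) b) := by
    intro i b
    have : (ContinuousLinearMap.compL ℂ (Y p) (Y p) (Y p) (mulL p (e p i))) ∘L (mulL p) =
        (mulL p) ∘L (mulL p (e p i)) := Y.clm_ext fun j => h i j
    exact congrArg (fun T : Y p →L[ℂ] Y p →L[ℂ] Y p => T b) this
  have h3 : mulL p a ∘L mulL p b = mulL p (mulL p a b) := by
    have : ((ContinuousLinearMap.compL ℂ (Y p) (Y p) (Y p)).flip (mulL p b)) ∘L (mulL p) =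
        (mulL p) ∘L ((mulL p).flip b) := Y.clm_ext fun i => h2 i b
    exact congrArg (fun T : Y p →L[ℂ] Y p →L[ℂ] Y p => T a) this
  exact (congrArg (fun T : Y p →L[ℂ] Y p => T c) h3).symm

theorem norm_ser_mul_le (a b : Y p) : ‖a * b‖ ≤ ‖a‖ * ‖b‖ := by
  have h : ‖mulL p‖ ≤ 1 := norm_lift_le _ _ _ _
  calc ‖a * b‖ ≤ ‖mulL p‖ * ‖a‖ * ‖b‖ := (mulL p).le_opNorm₂ a b
    _ ≤ 1 * ‖a‖ * ‖b‖ := by gcongr
    _ = _ := by ring

theorem ser_add_mul (a b c : Y p) : (a + b) * c = a * c + b * c := by simp [mul_def]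
theorem ser_mul_add (a b c : Y p) : a * (b + c) = a * b + a * c := by simp [mul_def]
theorem ser_sub_mul (a b c : Y p) : (a - b) * c = a * c - b * c := by simp [mul_def]
theorem ser_mul_sub (a b c : Y p) : a * (b - c) = a * b - a * c := by simp [mul_def]
theorem ser_smul_mul (t : ℂ) (a b : Y p) : (t • a) * b = t • (a * b) := by simp [mul_def]
theorem ser_mul_smul (t : ℂ) (a b : Y p) : a * (t • b) = t • (a * b) := by simp [mul_def]
@[simp] theorem ser_zero_mul (a : Y p) : 0 * a = 0 := by simp [mul_def]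
@[simp] theorem ser_mul_zero (a : Y p) : a * 0 = 0 := by simp [mul_def]

theorem ev_mul (a b : Y p) {z : ℂ} (hz : ‖z‖ ≤ 1) : ev (a * b) z = ev a z * ev b z := by
  have h : (ContinuousLinearMap.compL ℂ (Y p) (Y p) ℂ (evL p z hz)) ∘L (mulL p) =
      (ContinuousLinearMap.mul ℂ ℂ).bilinearComp (evL p z hz) (evL p z hz) :=
    Y.clm_ext₂ fun i j => by
      show evL p z hz (mulL p (e p i) (e p j)) = evL p z hz (e p i) * evL p z hz (e p j)
      rw [mulL_e_e, evL_e, evL_e, evL_e, mon_add]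
  have h2 := congrArg (fun T : Y p →L[ℂ] Y p →L[ℂ] ℂ => T a b) h
  exact h2

/-- The unit. -/
def one1 (p : ℕ) : Y p := e p 0

@[simp] theorem one1_mul (a : Y p) : one1 p * a = a := by
  have : mulL p (one1 p) = ContinuousLinearMap.id ℂ (Y p) := Y.clm_ext fun i => by
    rw [one1, mulL_e_e, zero_add]; rfl
  exact congrArg (fun T : Y p →L[ℂ] Y p => T a) this

@[simp] theorem mul_one1 (a : Y p) : a * one1 p = a := by rw [ser_mul_comm, one1_mul]

@[simp] theorem ev_one1 (z : ℂ) : ev (one1 p) z = 1 := by simp [one1, mon]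

theorem incl_mul (h : p ≤ q) (a b : Y q) : incl h (a * b) = incl h a * incl h b := by
  have h : (ContinuousLinearMap.compL ℂ (Y q) (Y q) (Y p) (incl h)) ∘L (mulL q) =
      (mulL p).bilinearComp (incl h) (incl h) :=
    Y.clm_ext₂ fun i j => by
      show incl h (mulL q (e q i) (e q j)) = mulL p (incl h (e q i)) (incl h (e q j))
      rw [mulL_e_e, incl_e, incl_e, incl_e, mulL_e_e]
  exact congrArg (fun T : Y q →L[ℂ] Y q →L[ℂ] Y p => T a b) h

/-! ### Derivatives -/

/-- `∂_z`. -/
def dz (p : ℕ) : Y (p + 1) →L[ℂ] Y p :=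
  lift (fun i => (i.1 : ℂ) • e p (i.1 - 1, i.2)) 1 zero_le_one fun i => by
    rw [norm_smul, norm_e, one_mul, Complex.norm_natCast, wt_succ]
    rcases Nat.eq_zero_or_pos i.1 with h | h
    · rw [h]
      simp only [Nat.cast_zero, zero_mul]
      have := wt_pos p i
      positivity
    · have h1 : wt p (i.1 - 1, i.2) ≤ wt p i := by
        unfold wt
        gcongr
        exact_mod_cast Nat.sub_le _ _
      have h2 : (i.1 : ℝ) ≤ 1 + i.1 + i.2 := by
        have : (0 : ℝ) ≤ i.2 := Nat.cast_nonneg _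
        linarith
      calc (i.1 : ℝ) * wt p (i.1 - 1, i.2) ≤ (1 + i.1 + i.2) * wt p i :=
            mul_le_mul h2 h1 (wt_pos _ _).le (by positivity)
        _ = _ := mul_comm _ _

/-- `∂_{conj z}`. -/
def dzb (p : ℕ) : Y (p + 1) →L[ℂ] Y p :=
  lift (fun i => (i.2 : ℂ) • e p (i.1, i.2 - 1)) 1 zero_le_one fun i => by
    rw [norm_smul, norm_e, one_mul, Complex.norm_natCast, wt_succ]
    rcases Nat.eq_zero_or_pos i.2 with h | h
    · rw [h]
      simp only [Nat.cast_zero, zero_mul]
      have := wt_pos p i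
      positivity
    · have h1 : wt p (i.1, i.2 - 1) ≤ wt p i := by
        unfold wt
        gcongr
        exact_mod_cast Nat.sub_le _ _
      have h2 : (i.2 : ℝ) ≤ 1 + i.1 + i.2 := by
        have : (0 : ℝ) ≤ i.1 := Nat.cast_nonneg _
        linarith
      calc (i.2 : ℝ) * wt p (i.1, i.2 - 1) ≤ (1 + i.1 + i.2) * wt p i :=
            mul_le_mul h2 h1 (wt_pos _ _).le (by positivity)
        _ = _ := mul_comm _ _

@[simp] theorem dz_e (i : Ix) : dz p (e (p + 1) i) = (i.1 : ℂ) • e p (i.1 - 1, i.2) :=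
  lift_e _ _ _ _ _

@[simp] theorem dzb_e (i : Ix) : dzb p (e (p + 1) i) = (i.2 : ℂ) • e p (i.1, i.2 - 1) :=
  lift_e _ _ _ _ _

end Vale.Agent.P071
end
end

section

/-!
# Conjugation, product rules, evaluation of derivatives
-/

open scoped ComplexConjugate Topology

noncomputable section

namespace Vale.Agent.P071

variable {p q : ℕ}

/-! ### Conjugation -/

theorem summable_cj (a : Y p) : Summable fun i => conj (cf a i) • e p i.swap := by
  refine Summable.of_norm_bounded (summable_cf a) fun i => ?_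
  rw [norm_smul, norm_e, Complex.norm_conj]
  have : wt p i.swap = wt p i := by
    simp only [wt, Prod.fst_swap, Prod.snd_swap]
    ring_nf
  rw [this]

theorem wt_swap (p : ℕ) (i : Ix) : wt p i.swap = wt p i := by
  simp only [wt, Prod.fst_swap, Prod.snd_swap]
  ring_nf

/-- The series of the complex conjugate function. -/
def cj (a : Y p) : Y p := ∑' i, conj (cf a i) • e p i.swap

@[simp] theorem cf_cj (a : Y p) (i : Ix) : cf (cj a) i = conj (cf a i.swap) := by
  have h := (summable_cj a).hasSum.mapL (cfL p i)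
  have h2 : cfL p i (cj a) = ∑' j, cfL p i (conj (cf a j) • e p j.swap) := h.tsum_eq.symm
  rw [cfL_apply] at h2
  rw [h2, tsum_eq_single i.swap]
  · rw [map_smul, cfL_apply, cf_e, Prod.swap_swap, if_pos rfl, smul_eq_mul, mul_one]
  · intro j hj
    rw [map_smul, cfL_apply, cf_e, if_neg, smul_zero]
    rintro rfl
    exact hj (by simp)

@[simp] theorem cj_cj (a : Y p) : cj (cj a) = a := by
  ext i; simp

@[simp] theorem cj_add (a b : Y p) : cj (a + b) = cj a + cj b := by ext i; simp
@[simp] theorem cj_sub (a b : Y p) : cj (a - b) = cj a - cj b := by ext i; simp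
@[simp] theorem cj_neg (a : Y p) : cj (-a) = -cj a := by ext i; simp
@[simp] theorem cj_zero : cj (0 : Y p) = 0 := by ext i; simp
@[simp] theorem cj_smul (c : ℂ) (a : Y p) : cj (c • a) = conj c • cj a := by ext i; simp

@[simp] theorem cj_e (i : Ix) : cj (e p i) = e p i.swap := by
  ext j
  rw [cf_cj, cf_e, cf_e]
  by_cases h : j = i.swap
  · subst h; simp
  · rw [if_neg h, if_neg, map_zero]
    rintro rfl
    exact h (by simp)

theorem norm_cj (a : Y p) : ‖cj a‖ = ‖a‖ := by
  rw [norm_eq, norm_eq, ← (Equiv.prodComm ℕ ℕ).tsum_eq]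
  refine tsum_congr fun i => ?_
  rw [cf_cj, Complex.norm_conj, Equiv.prodComm_apply, Prod.swap_swap, wt_swap]

@[simp] theorem ev_cj (a : Y p) (z : ℂ) : ev (cj a) z = conj (ev a z) := by
  unfold ev
  rw [Complex.conj_tsum, ← (Equiv.prodComm ℕ ℕ).tsum_eq]
  refine tsum_congr fun i => ?_
  rw [cf_cj, Equiv.prodComm_apply, Prod.swap_swap, map_mul]
  congr 1
  simp only [mon, Prod.fst_swap, Prod.snd_swap, map_mul, map_pow, Complex.conj_conj]
  ring

/-- Conjugation as a continuous conjugate linear map. -/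
def cjL (p : ℕ) : Y p →L⋆[ℂ] Y p :=
  LinearMap.mkContinuous
    { toFun := cj
      map_add' := cj_add
      map_smul' := fun c a => cj_smul c a } 1 fun a => by
    rw [one_mul]; exact (norm_cj a).le

@[simp] theorem cjL_apply (a : Y p) : cjL p a = cj a := rfl

theorem continuous_cj : Continuous (cj : Y p → Y p) := (cjL p).continuous

/-- Conjugate linear maps agreeing on monomials are equal. -/
theorem Y.clm_ext_conj {F : Type*} [NormedAddCommGroup F] [NormedSpace ℂ F]
    {S T : Y p →L⋆[ℂ] F} (h : ∀ i, S (e p i) = T (e p i)) : S = T := by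
  ext a
  have h1 := (hasSum_cf a).mapL S
  have h2 := (hasSum_cf a).mapL T
  simp only [ContinuousLinearMap.map_smulₛₗ, h] at h1 h2
  exact h1.unique h2

theorem cj_mul (a b : Y p) : cj (a * b) = cj a * cj b := by
  have h1 : ∀ i : Ix, ∀ b : Y p, cj (e p i * b) = cj (e p i) * cj b := by
    intro i b
    have : (cjL p).comp (mulL p (e p i)) = (mulL p (cj (e p i))).comp (cjL p) :=
      Y.clm_ext_conj fun j => by
        show cj (e p i * e p j) = cj (e p i) * cj (e p j)
        rw [e_mul_e, cj_e, cj_e, cj_e, e_mul_e]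
        rfl
    exact congrArg (fun T : Y p →L⋆[ℂ] Y p => T b) this
  have : (cjL p).comp ((mulL p).flip b) = ((mulL p).flip (cj b)).comp (cjL p) :=
    Y.clm_ext_conj fun i => h1 i b
  exact congrArg (fun T : Y p →L⋆[ℂ] Y p => T a) this

theorem cj_dz (a : Y (p + 1)) : cj (dz p a) = dzb p (cj a) := by
  have : (cjL p).comp (dz p) = (dzb p).comp (cjL (p + 1)) := Y.clm_ext_conj fun i => by
    show cj (dz p (e (p + 1) i)) = dzb p (cj (e (p + 1) i))
    rw [dz_e, cj_e, dzb_e, cj_smul, cj_e]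
    simp
  exact congrArg (fun T : Y (p + 1) →L⋆[ℂ] Y p => T a) this

theorem cj_dzb (a : Y (p + 1)) : cj (dzb p a) = dz p (cj a) := by
  rw [← cj_cj (dz p (cj a)), cj_dz, cj_cj]

theorem cj_incl (h : p ≤ q) (a : Y q) : cj (incl h a) = incl h (cj a) := by ext i; simp

@[simp] theorem cj_one1 : cj (one1 p) = one1 p := by rw [one1, cj_e]; rfl

/-! ### Product rules -/

theorem dz_mul_e (i j : Ix) : dz p (e (p + 1) (i + j)) =
    dz p (e (p + 1) i) * e p j + e p i * dz p (e (p + 1) j) := by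
  rw [dz_e, dz_e, dz_e, ser_smul_mul, ser_mul_smul, e_mul_e, e_mul_e]
  rcases i with ⟨m, n⟩
  rcases j with ⟨m', n'⟩
  show ((m + m' : ℕ) : ℂ) • e p (m + m' - 1, n + n') =
    (m : ℂ) • e p (m - 1 + m', n + n') + (m' : ℂ) • e p (m + (m' - 1), n + n')
  rcases Nat.eq_zero_or_pos m with rfl | hm
  · simp only [Nat.zero_add, Nat.cast_zero, zero_smul, zero_add]
  · rcases Nat.eq_zero_or_pos m' with rfl | hm'
    · simp only [Nat.add_zero, Nat.cast_zero, zero_smul, add_zero]
    · have e1 : m - 1 + m' = m + m' - 1 := by omega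
      have e2 : m + (m' - 1) = m + m' - 1 := by omega
      rw [e1, e2, ← add_smul]
      push_cast
      rfl

theorem dz_mul (a b : Y (p + 1)) :
    dz p (a * b) = dz p a * incl (Nat.le_succ p) b + incl (Nat.le_succ p) a * dz p b := by
  have h : (ContinuousLinearMap.compL ℂ (Y (p + 1)) (Y (p + 1)) (Y p) (dz p)) ∘L (mulL (p + 1)) =
      (mulL p).bilinearComp (dz p) (incl (Nat.le_succ p)) +
        (mulL p).bilinearComp (incl (Nat.le_succ p)) (dz p) :=
    Y.clm_ext₂ fun i j => by
      show dz p (mulL (p + 1) (e (p + 1) i) (e (p + 1) j)) =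
        mulL p (dz p (e (p + 1) i)) (incl (Nat.le_succ p) (e (p + 1) j)) +
        mulL p (incl (Nat.le_succ p) (e (p + 1) i)) (dz p (e (p + 1) j))
      rw [mulL_e_e, incl_e, incl_e]
      exact dz_mul_e i j
  exact congrArg (fun T : Y (p + 1) →L[ℂ] Y (p + 1) →L[ℂ] Y p => T a b) h

theorem dzb_mul (a b : Y (p + 1)) :
    dzb p (a * b) = dzb p a * incl (Nat.le_succ p) b + incl (Nat.le_succ p) a * dzb p b := by
  have h := congrArg cj (dz_mul (cj a) (cj b))
  rw [cj_dz, cj_mul, cj_add, cj_mul, cj_mul, cj_cj, cj_cj, cj_dz, cj_dz, cj_incl, cj_incl, cj_cj,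
    cj_cj] at h
  exact h

theorem dz_incl (h : p ≤ q) (a : Y (q + 1)) :
    dz p (incl (Nat.succ_le_succ h) a) = incl h (dz q a) := by
  have : (dz p).comp (incl (Nat.succ_le_succ h)) = (incl h).comp (dz q) := Y.clm_ext fun i => by
    simp
  exact congrArg (fun T : Y (q + 1) →L[ℂ] Y p => T a) this

theorem dzb_incl (h : p ≤ q) (a : Y (q + 1)) :
    dzb p (incl (Nat.succ_le_succ h) a) = incl h (dzb q a) := by
  have : (dzb p).comp (incl (Nat.succ_le_succ h)) = (incl h).comp (dzb q) := Y.clm_ext fun i => by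
    simp
  exact congrArg (fun T : Y (q + 1) →L[ℂ] Y p => T a) this

theorem dz_dzb (a : Y (p + 1 + 1)) : dz p (dzb (p + 1) a) = dzb p (dz (p + 1) a) := by
  have : (dz p).comp (dzb (p + 1)) = (dzb p).comp (dz (p + 1)) := Y.clm_ext fun i => by
    simp [smul_smul, mul_comm]
  exact congrArg (fun T : Y (p + 1 + 1) →L[ℂ] Y p => T a) this

@[simp] theorem dz_one1 : dz p (one1 (p + 1)) = 0 := by simp [one1]
@[simp] theorem dzb_one1 : dzb p (one1 (p + 1)) = 0 := by simp [one1]

/-- The Laplacian `4 ∂ ∂̄`. -/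
def lap (p : ℕ) : Y (p + 1 + 1) →L[ℂ] Y p := (4 : ℂ) • (dz p).comp (dzb (p + 1))

theorem lap_apply (a : Y (p + 1 + 1)) : lap p a = (4 : ℂ) • dz p (dzb (p + 1) a) := rfl

/-! ### Evaluation of derivatives -/

/-- The real differential of `z ↦ z^m (conj z)^n`. -/
def monD (i : Ix) (z : ℂ) : ℂ →L[ℝ] ℂ :=
  ((i.1 : ℂ) * mon (i.1 - 1, i.2) z) • ContinuousLinearMap.id ℝ ℂ +
    ((i.2 : ℂ) * mon (i.1, i.2 - 1) z) • (Complex.conjCLE : ℂ →L[ℝ] ℂ)

theorem hasFDerivAt_mon (i : Ix) (z : ℂ) : HasFDerivAt (mon i) (monD i z) z := by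
  have h1 : HasFDerivAt (fun z : ℂ => z ^ i.1)
      (((i.1 : ℂ) * z ^ (i.1 - 1)) • ContinuousLinearMap.id ℝ ℂ) z := by
    have h := (hasDerivAt_pow i.1 z).hasFDerivAt.restrictScalars ℝ
    refine h.congr_fderiv ?_
    ext w
    simp [mul_comm]
  have h0 : HasFDerivAt (fun z : ℂ => conj z) (Complex.conjCLE : ℂ →L[ℝ] ℂ) z :=
    Complex.conjCLE.hasFDerivAt
  have h2 : HasFDerivAt (fun z : ℂ => (conj z) ^ i.2)
      (((i.2 : ℂ) * (conj z) ^ (i.2 - 1)) • (Complex.conjCLE : ℂ →L[ℝ] ℂ)) z := by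
    have h := ((hasDerivAt_pow i.2 (conj z)).hasFDerivAt.restrictScalars ℝ).comp z h0
    refine h.congr_fderiv ?_
    ext w
    simp [mul_comm]
  have h3 := h1.mul h2
  refine h3.congr_fderiv ?_
  ext w
  simp only [monD, mon, add_apply, smul_apply, smul_eq_mul, ContinuousLinearMap.id_apply,
    ContinuousLinearEquiv.coe_coe, Complex.conjCLE_apply]
  ring

theorem norm_monD_le (i : Ix) {z : ℂ} (hz : ‖z‖ ≤ 1) : ‖monD i z‖ ≤ i.1 + i.2 := by
  unfold monD
  refine (norm_add_le _ _).trans ?_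
  have h1 : ‖((i.1 : ℂ) * mon (i.1 - 1, i.2) z) • ContinuousLinearMap.id ℝ ℂ‖ ≤ i.1 := by
    rw [norm_smul, norm_mul, Complex.norm_natCast]
    calc (i.1 : ℝ) * ‖mon (i.1 - 1, i.2) z‖ * ‖ContinuousLinearMap.id ℝ ℂ‖ ≤ (i.1 : ℝ) * 1 * 1 := by
          gcongr
          · exact norm_mon_le _ hz
          · exact ContinuousLinearMap.norm_id_le
      _ = _ := by ring
  have h2 : ‖((i.2 : ℂ) * mon (i.1, i.2 - 1) z) • (Complex.conjCLE : ℂ →L[ℝ] ℂ)‖ ≤ i.2 := by
    rw [norm_smul, norm_mul, Complex.norm_natCast]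
    calc (i.2 : ℝ) * ‖mon (i.1, i.2 - 1) z‖ * ‖(Complex.conjCLE : ℂ →L[ℝ] ℂ)‖ ≤ (i.2 : ℝ) * 1 * 1 := by
          gcongr
          · exact norm_mon_le _ hz
          · exact Complex.conjCLE_norm.le
      _ = _ := by ring
  exact add_le_add h1 h2

/-- The real differential of a series. -/
def evD (a : Y (p + 1)) (z : ℂ) : ℂ →L[ℝ] ℂ :=
  (ev (dz p a) z) • ContinuousLinearMap.id ℝ ℂ +
    (ev (dzb p a) z) • (Complex.conjCLE : ℂ →L[ℝ] ℂ)

theorem evD_apply (a : Y (p + 1)) (z w : ℂ) :
    evD a z w = ev (dz p a) z * w + ev (dzb p a) z * conj w := by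
  simp [evD]

theorem hasSum_evD (a : Y (p + 1)) {z : ℂ} (hz : ‖z‖ ≤ 1) :
    HasSum (fun i => cf a i • monD i z) (evD a z) := by
  have h1 : HasSum (fun i => cf a i * ((i.1 : ℂ) * mon (i.1 - 1, i.2) z)) (ev (dz p a) z) := by
    have := (hasSum_cf a).mapL ((evL p z hz).comp (dz p))
    simpa [evL_apply] using this
  have h2 : HasSum (fun i => cf a i * ((i.2 : ℂ) * mon (i.1, i.2 - 1) z)) (ev (dzb p a) z) := by
    have := (hasSum_cf a).mapL ((evL p z hz).comp (dzb p))
    simpa [evL_apply] using this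
  have h3 := (h1.smul_const (ContinuousLinearMap.id ℝ ℂ)).add
    (h2.smul_const (Complex.conjCLE : ℂ →L[ℝ] ℂ))
  refine h3.congr_fun fun i => ?_
  simp only [monD, smul_add, smul_smul]

end Vale.Agent.P071
end
end

section

/-!
# Differentiability up to the boundary; real, radial and angular derivatives
-/

open scoped ComplexConjugate Topology
open Metric Filter

noncomputable section

namespace Vale.Agent.P071

variable {p q : ℕ}

theorem hasFDerivAt_ev (a : Y (p + 1)) {z : ℂ} (hz : ‖z‖ < 1) :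
    HasFDerivAt (ev a) (evD a z) z := by
  have hs : Summable fun i => ‖cf a i‖ * ((i.1 : ℝ) + i.2) := by
    refine Summable.of_nonneg_of_le (fun i => by positivity) (fun i => ?_) (summable_cf a)
    gcongr
    rw [wt_succ]
    have h1 := one_le_wt p i
    have h2 : (0 : ℝ) ≤ (i.1 : ℝ) + i.2 := by positivity
    nlinarith
  have h := hasFDerivAt_tsum_of_isPreconnected (𝕜 := ℝ) (f := fun i z => cf a i * mon i z)
    (f' := fun i z => cf a i • monD i z) (s := ball (0 : ℂ) 1) (x₀ := 0) (x := z) hs isOpen_ball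
    (convex_ball 0 1).isPreconnected
    (fun i y _ => by
      have := (hasFDerivAt_mon i y).const_mul (cf a i)
      exact this)
    (fun i y hy => by
      rw [norm_smul]
      gcongr
      exact norm_monD_le i (mem_ball_zero_iff.1 hy).le)
    (mem_ball_self one_pos) (summable_ev a (by simp)) (mem_ball_zero_iff.2 hz)
  rw [(hasSum_evD a hz.le).tsum_eq] at h
  exact h

theorem continuousOn_evD (a : Y (p + 1)) : ContinuousOn (evD a) (closedBall 0 1) := by
  unfold evD
  exact ((continuousOn_ev _).smul continuousOn_const).add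
    ((continuousOn_ev _).smul continuousOn_const)

theorem hasFDerivWithinAt_ev (a : Y (p + 1)) {z : ℂ} (hz : ‖z‖ ≤ 1) :
    HasFDerivWithinAt (ev a) (evD a z) (closedBall 0 1) z := by
  have hcl : closure (ball (0 : ℂ) 1) = closedBall 0 1 := closure_ball 0 one_ne_zero
  rw [← hcl]
  refine hasFDerivWithinAt_closure_of_tendsto_fderiv (s := ball (0 : ℂ) 1)
    (fun y hy => (hasFDerivAt_ev a (mem_ball_zero_iff.1 hy)).differentiableAt.differentiableWithinAt)
    (convex_ball 0 1) isOpen_ball (fun y hy => ?_) ?_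
  · rw [hcl] at hy
    exact (continuousOn_ev a y hy).mono ball_subset_closedBall
  · have h1 : Tendsto (evD a) (𝓝[ball 0 1] z) (𝓝 (evD a z)) :=
      ((continuousOn_evD a) z (mem_closedBall_zero_iff.2 hz)).mono ball_subset_closedBall
    refine h1.congr' ?_
    filter_upwards [self_mem_nhdsWithin] with y hy
    exact ((hasFDerivAt_ev a (mem_ball_zero_iff.1 hy)).fderiv).symm

/-! ### Real derivatives -/

/-- `∂_x`. -/
def dx (p : ℕ) : Y (p + 1) →L[ℂ] Y p := dz p + dzb p

/-- `∂_y`. -/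
def dy (p : ℕ) : Y (p + 1) →L[ℂ] Y p := Complex.I • (dz p - dzb p)

theorem dx_apply (a : Y (p + 1)) : dx p a = dz p a + dzb p a := rfl
theorem dy_apply (a : Y (p + 1)) : dy p a = Complex.I • (dz p a - dzb p a) := rfl

theorem cj_dx (a : Y (p + 1)) : cj (dx p a) = dx p (cj a) := by
  rw [dx_apply, dx_apply, cj_add, cj_dz, cj_dzb, add_comm]

theorem cj_dy (a : Y (p + 1)) : cj (dy p a) = dy p (cj a) := by
  rw [dy_apply, dy_apply, cj_smul, cj_sub, cj_dz, cj_dzb, Complex.conj_I, neg_smul, ← smul_neg,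
    neg_sub]

theorem dx_mul (a b : Y (p + 1)) :
    dx p (a * b) = dx p a * incl (Nat.le_succ p) b + incl (Nat.le_succ p) a * dx p b := by
  simp only [dx_apply, dz_mul, dzb_mul, ser_add_mul, ser_mul_add]
  abel

theorem dy_mul (a b : Y (p + 1)) :
    dy p (a * b) = dy p a * incl (Nat.le_succ p) b + incl (Nat.le_succ p) a * dy p b := by
  simp only [dy_apply, dz_mul, dzb_mul, ser_smul_mul, ser_mul_smul, ser_sub_mul, ser_mul_sub,
    ← smul_add]
  congr 1
  abel

theorem lap_eq (a : Y (p + 1 + 1)) :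
    lap p a = dx p (dx (p + 1) a) + dy p (dy (p + 1) a) := by
  simp only [lap_apply, dx_apply, dy_apply, map_smul, map_add, map_sub, dz_dzb, smul_sub, smul_smul,
    Complex.I_mul_I]
  module

theorem evD_apply_real (a : Y (p + 1)) {z : ℂ} (hz : ‖z‖ ≤ 1) (w : ℂ) :
    evD a z w = w.re * ev (dx p a) z + w.im * ev (dy p a) z := by
  rw [evD_apply, dx_apply, dy_apply, ev_add _ _ hz, ev_smul, ev_sub _ _ hz]
  have h1 : w = w.re + w.im * Complex.I := (Complex.re_add_im w).symm
  have h2 : conj w = w.re - w.im * Complex.I := by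
    conv_lhs => rw [h1]
    simp only [map_add, map_mul, Complex.conj_ofReal, Complex.conj_I]
    ring
  conv_lhs => rw [h2]
  conv_lhs => rw [h1]
  have h3 : ((w.re : ℂ) + w.im * Complex.I).re = w.re := by simp
  have h4 : ((w.re : ℂ) + w.im * Complex.I).im = w.im := by simp
  simp only [h3, h4]
  ring

/-! ### Radial and angular derivatives -/

theorem aux_bound (i : Ix) {c : ℂ} (hc : ‖c‖ ≤ (i.1 : ℝ) + i.2) :
    ‖c • e p i‖ ≤ 1 * wt (p + 1) i := by
  rw [norm_smul, norm_e, one_mul, wt_succ, mul_comm]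
  gcongr
  · exact (wt_pos p i).le
  · linarith

/-- The radial derivative `x ∂_x + y ∂_y`. -/
def Rad (p : ℕ) : Y (p + 1) →L[ℂ] Y p :=
  lift (fun i => ((i.1 : ℂ) + i.2) • e p i) 1 zero_le_one fun i => aux_bound i (by
    refine (norm_add_le _ _).trans ?_
    simp)

/-- The angular derivative `x ∂_y - y ∂_x`. -/
def Ang (p : ℕ) : Y (p + 1) →L[ℂ] Y p :=
  lift (fun i => (Complex.I * ((i.1 : ℂ) - i.2)) • e p i) 1 zero_le_one fun i => aux_bound i (by
    rw [norm_mul, Complex.norm_I, one_mul]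
    refine (norm_sub_le _ _).trans ?_
    simp)

@[simp] theorem Rad_e (i : Ix) : Rad p (e (p + 1) i) = ((i.1 : ℂ) + i.2) • e p i := lift_e _ _ _ _ _

@[simp] theorem Ang_e (i : Ix) : Ang p (e (p + 1) i) = (Complex.I * ((i.1 : ℂ) - i.2)) • e p i :=
  lift_e _ _ _ _ _

theorem mon_pred_left (i : Ix) (z : ℂ) : z * ((i.1 : ℂ) * mon (i.1 - 1, i.2) z) = i.1 * mon i z := by
  rcases i with ⟨m, n⟩
  rcases m with _ | m
  · simp
  · simp only [mon, Nat.add_sub_cancel]
    ring

theorem mon_pred_right (i : Ix) (z : ℂ) :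
    conj z * ((i.2 : ℂ) * mon (i.1, i.2 - 1) z) = i.2 * mon i z := by
  rcases i with ⟨m, n⟩
  rcases n with _ | n
  · simp
  · simp only [mon, Nat.add_sub_cancel]
    ring

theorem ev_Rad (a : Y (p + 1)) {z : ℂ} (hz : ‖z‖ ≤ 1) :
    ev (Rad p a) z = z * ev (dz p a) z + conj z * ev (dzb p a) z := by
  have : (evL p z hz).comp (Rad p) = z • (evL p z hz).comp (dz p) +
      (conj z) • (evL p z hz).comp (dzb p) := Y.clm_ext fun i => by
    simp only [ContinuousLinearMap.comp_apply, add_apply, smul_apply,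
      Rad_e, dz_e, dzb_e, map_smul, evL_e, smul_eq_mul, mon_pred_left, mon_pred_right]
    ring
  exact congrArg (fun T : Y (p + 1) →L[ℂ] ℂ => T a) this

theorem ev_Ang (a : Y (p + 1)) {z : ℂ} (hz : ‖z‖ ≤ 1) :
    ev (Ang p a) z = Complex.I * (z * ev (dz p a) z - conj z * ev (dzb p a) z) := by
  have : (evL p z hz).comp (Ang p) = Complex.I • (z • (evL p z hz).comp (dz p) -
      (conj z) • (evL p z hz).comp (dzb p)) := Y.clm_ext fun i => by
    simp only [ContinuousLinearMap.comp_apply, sub_apply, smul_apply,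
      Ang_e, dz_e, dzb_e, map_smul, evL_e, smul_eq_mul, mon_pred_left, mon_pred_right]
    ring
  exact congrArg (fun T : Y (p + 1) →L[ℂ] ℂ => T a) this

theorem ev_Ang_real (a : Y (p + 1)) {z : ℂ} (hz : ‖z‖ ≤ 1) :
    ev (Ang p a) z = z.re * ev (dy p a) z - z.im * ev (dx p a) z := by
  have h := evD_apply_real a hz (Complex.I * z)
  rw [evD_apply] at h
  rw [ev_Ang a hz]
  have h1 : (Complex.I * z).re = -z.im := by simp
  have h2 : (Complex.I * z).im = z.re := by simp
  rw [h1, h2] at h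
  simp only [map_mul, Complex.conj_I] at h
  push_cast at h
  linear_combination h

theorem cj_Rad (a : Y (p + 1)) : cj (Rad p a) = Rad p (cj a) := by
  have : (cjL p).comp (Rad p) = (Rad p).comp (cjL (p + 1)) := Y.clm_ext_conj fun i => by
    show cj (Rad p (e (p + 1) i)) = Rad p (cj (e (p + 1) i))
    rw [Rad_e, cj_e, Rad_e, cj_smul, cj_e]
    simp [add_comm]
  exact congrArg (fun T : Y (p + 1) →L⋆[ℂ] Y p => T a) this

theorem cj_Ang (a : Y (p + 1)) : cj (Ang p a) = Ang p (cj a) := by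
  have : (cjL p).comp (Ang p) = (Ang p).comp (cjL (p + 1)) := Y.clm_ext_conj fun i => by
    show cj (Ang p (e (p + 1) i)) = Ang p (cj (e (p + 1) i))
    rw [Ang_e, cj_e, Ang_e, cj_smul, cj_e]
    congr 1
    simp only [map_mul, Complex.conj_I, map_sub, Complex.conj_natCast, Prod.fst_swap,
      Prod.snd_swap]
    ring
  exact congrArg (fun T : Y (p + 1) →L⋆[ℂ] Y p => T a) this

theorem Rad_incl (h : p ≤ q) (a : Y (q + 1)) :
    Rad p (incl (Nat.succ_le_succ h) a) = incl h (Rad q a) := by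
  have : (Rad p).comp (incl (Nat.succ_le_succ h)) = (incl h).comp (Rad q) := Y.clm_ext fun i => by
    simp
  exact congrArg (fun T : Y (q + 1) →L[ℂ] Y p => T a) this

/-! ### Smoothness -/

theorem contDiffOn_ev (p : ℕ) : ∀ a : Y p, ContDiffOn ℝ p (ev a) (closedBall 0 1) := by
  induction p with
  | zero => intro a; exact contDiffOn_zero.2 (continuousOn_ev a)
  | succ p ih =>
    intro a
    have hu : UniqueDiffOn ℝ (closedBall (0 : ℂ) 1) :=
      uniqueDiffOn_convex (convex_closedBall 0 1) (by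
        rw [interior_closedBall _ one_ne_zero]; exact ⟨0, mem_ball_self one_pos⟩)
    have : ((p + 1 : ℕ) : WithTop ℕ∞) = (p : WithTop ℕ∞) + 1 := by push_cast; rfl
    rw [this, contDiffOn_succ_iff_fderivWithin hu]
    refine ⟨fun z hz => (hasFDerivWithinAt_ev a (mem_closedBall_zero_iff.1 hz)).differentiableWithinAt,
      by simp, ?_⟩
    have hD : ContDiffOn ℝ p (evD a) (closedBall 0 1) := by
      unfold evD
      exact ((ih _).smul contDiffOn_const).add ((ih _).smul contDiffOn_const)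
    refine hD.congr fun z hz => ?_
    exact (hasFDerivWithinAt_ev a (mem_closedBall_zero_iff.1 hz)).fderivWithin (hu z hz)

end Vale.Agent.P071
end
end

section

/-!
# The Neumann solver on series, and Green's identity
-/

open scoped ComplexConjugate Topology
open Metric Filter

noncomputable section

namespace Vale.Agent.P071

variable {p q : ℕ}

/-! ### Mean value over the disc and over the circle -/

/-- The mean value over the disc, `(1/π) ∫_D`. -/
def I (p : ℕ) : Y p →L[ℂ] ℂ :=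
  lift (fun i => if i.1 = i.2 then 1 / ((i.1 : ℂ) + 1) else 0) 1 zero_le_one fun i => by
    split_ifs
    · rw [norm_div, norm_one]
      have h1 : ‖(i.1 : ℂ) + 1‖ = (i.1 : ℝ) + 1 := by
        have : ((i.1 : ℂ) + 1) = (((i.1 : ℝ) + 1 : ℝ) : ℂ) := by push_cast; rfl
        rw [this, Complex.norm_real, Real.norm_eq_abs, abs_of_pos (by positivity)]
      rw [h1]
      have h2 : 1 / ((i.1 : ℝ) + 1) ≤ 1 := by
        rw [div_le_one (by positivity)]
        linarith [(Nat.cast_nonneg i.1 : (0 : ℝ) ≤ i.1)]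
      linarith [one_le_wt p i]
    · simpa using (wt_pos p i).le

/-- The mean value over the circle, `(1/2π) ∮`. -/
def Bd (p : ℕ) : Y p →L[ℂ] ℂ :=
  lift (fun i => if i.1 = i.2 then 1 else 0) 1 zero_le_one fun i => by
    split_ifs
    · simpa using one_le_wt p i
    · simpa using (wt_pos p i).le

@[simp] theorem I_e (i : Ix) : I p (e p i) = if i.1 = i.2 then 1 / ((i.1 : ℂ) + 1) else 0 :=
  lift_e _ _ _ _ _

@[simp] theorem Bd_e (i : Ix) : Bd p (e p i) = if i.1 = i.2 then 1 else 0 :=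
  lift_e _ _ _ _ _

theorem I_incl (h : p ≤ q) (a : Y q) : I p (incl h a) = I q a := by
  have : (I p).comp (incl h) = I q := Y.clm_ext fun i => by simp
  exact congrArg (fun T : Y q →L[ℂ] ℂ => T a) this

theorem I_cj (a : Y p) : I p (cj a) = conj (I p a) := by
  let cL : ℂ →L⋆[ℂ] ℂ := (Complex.conjLIE.toContinuousLinearEquiv : ℂ ≃L[ℝ] ℂ) |> fun _ =>
    { toFun := conj
      map_add' := map_add _
      map_smul' := fun c x => by simp
      cont := Complex.continuous_conj }
  have : ((I p).comp (cjL p) : Y p →L⋆[ℂ] ℂ) = (cL.comp (I p)) := Y.clm_ext_conj fun i => by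
    show I p (cj (e p i)) = conj (I p (e p i))
    rw [cj_e, I_e, I_e]
    simp only [Prod.fst_swap, Prod.snd_swap]
    by_cases h : i.1 = i.2
    · rw [if_pos h.symm, if_pos h, h]
      simp
    · rw [if_neg (Ne.symm h), if_neg h, map_zero]
  exact congrArg (fun T : Y p →L⋆[ℂ] ℂ => T a) this

theorem norm_I_le (a : Y p) : ‖I p a‖ ≤ ‖a‖ := by
  refine ((I p).le_opNorm a).trans ?_
  calc _ ≤ 1 * ‖a‖ := by gcongr; exact norm_lift_le _ _ _ _
    _ = _ := one_mul _

/-! ### The solver -/

/-- First coefficient of the solution for a monomial. -/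
def sc (i : Ix) : ℂ := 1 / (4 * ((i.1 : ℂ) + 1) * ((i.2 : ℂ) + 1))

/-- `|m - n|`. -/
def ad (i : Ix) : ℕ := (i.1 - i.2) + (i.2 - i.1)

/-- Second coefficient of the solution for a monomial. -/
def sd (i : Ix) : ℂ := sc i * ((i.1 : ℂ) + i.2 + 2) / (ad i : ℂ)

theorem norm_sc (i : Ix) : ‖sc i‖ = 1 / (4 * ((i.1 : ℝ) + 1) * ((i.2 : ℝ) + 1)) := by
  have : sc i = ((1 / (4 * ((i.1 : ℝ) + 1) * ((i.2 : ℝ) + 1)) : ℝ) : ℂ) := by
    unfold sc; push_cast; rfl
  rw [this, Complex.norm_real, Real.norm_eq_abs, abs_of_pos (by positivity)]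

theorem norm_sd (i : Ix) : ‖sd i‖ =
    1 / (4 * ((i.1 : ℝ) + 1) * ((i.2 : ℝ) + 1)) * ((i.1 : ℝ) + i.2 + 2) / (ad i : ℝ) := by
  have : sd i = ((1 / (4 * ((i.1 : ℝ) + 1) * ((i.2 : ℝ) + 1)) * ((i.1 : ℝ) + i.2 + 2) /
      (ad i : ℝ) : ℝ) : ℂ) := by
    unfold sd sc; push_cast; rfl
  rw [this, Complex.norm_real, Real.norm_eq_abs, abs_of_nonneg (by positivity)]

theorem sol_bound1 (i : Ix) :
    ‖(-sc i) • e (p + 1) (i.1 + 1, i.2 + 1)‖ ≤ 3 ^ (p + 1) * wt p i := by
  rw [norm_smul, norm_neg, norm_sc, norm_e]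
  have hm : (0 : ℝ) ≤ i.1 := Nat.cast_nonneg _
  have hn : (0 : ℝ) ≤ i.2 := Nat.cast_nonneg _
  have h1 : wt (p + 1) (i.1 + 1, i.2 + 1) ≤ 3 ^ (p + 1) * wt (p + 1) i := by
    unfold wt
    rw [← mul_pow]
    refine pow_le_pow_left₀ (by positivity) ?_ _
    push_cast
    nlinarith
  have h2 : 1 / (4 * ((i.1 : ℝ) + 1) * ((i.2 : ℝ) + 1)) * (1 + (i.1 : ℝ) + i.2) ≤ 1 := by
    rw [div_mul_eq_mul_div, one_mul, div_le_one (by positivity)]
    nlinarith [mul_nonneg hm hn]
  calc 1 / (4 * ((i.1 : ℝ) + 1) * ((i.2 : ℝ) + 1)) * wt (p + 1) (i.1 + 1, i.2 + 1)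
      ≤ 1 / (4 * ((i.1 : ℝ) + 1) * ((i.2 : ℝ) + 1)) * (3 ^ (p + 1) * wt (p + 1) i) := by gcongr
    _ = (3 ^ (p + 1) * wt p i) *
        (1 / (4 * ((i.1 : ℝ) + 1) * ((i.2 : ℝ) + 1)) * (1 + (i.1 : ℝ) + i.2)) := by
        rw [wt_succ]; ring
    _ ≤ (3 ^ (p + 1) * wt p i) * 1 :=
        mul_le_mul_of_nonneg_left h2 (mul_nonneg (by positivity) (wt_pos p i).le)
    _ = _ := mul_one _

theorem sol_bound2 (i : Ix) : ‖sd i • e (p + 1) (i.1 - i.2, i.2 - i.1)‖ ≤ 1 * wt p i := by
  rw [norm_smul, norm_sd, norm_e]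
  have hm : (0 : ℝ) ≤ i.1 := Nat.cast_nonneg _
  have hn : (0 : ℝ) ≤ i.2 := Nat.cast_nonneg _
  rcases Nat.eq_zero_or_pos (ad i) with h | h
  · rw [h, Nat.cast_zero, div_zero, zero_mul, one_mul]
    exact (wt_pos p i).le
  have h0 : (1 : ℝ) ≤ ad i := by exact_mod_cast h
  have hw : wt (p + 1) (i.1 - i.2, i.2 - i.1) = (1 + (ad i : ℝ)) ^ (p + 1) := by
    unfold wt ad; push_cast; ring
  have hle : (ad i : ℝ) ≤ i.1 + i.2 := by
    have : ad i ≤ i.1 + i.2 := by unfold ad; omega
    exact_mod_cast this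
  have h3 : (1 + (ad i : ℝ)) ^ p ≤ wt p i := by
    unfold wt
    refine pow_le_pow_left₀ (by positivity) (by linarith) _
  rw [hw, pow_succ]
  have h4 : 1 / (4 * ((i.1 : ℝ) + 1) * ((i.2 : ℝ) + 1)) * ((i.1 : ℝ) + i.2 + 2) / (ad i : ℝ) *
      (1 + (ad i : ℝ)) ≤ 1 := by
    rw [div_mul_eq_mul_div, div_le_one (by linarith), div_mul_eq_mul_div, one_mul,
      div_mul_eq_mul_div, div_le_iff₀ (by positivity)]
    nlinarith [mul_nonneg hm hn, mul_nonneg (mul_nonneg hm hn) (by linarith : (0 : ℝ) ≤ (ad i : ℝ)),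
      mul_nonneg (add_nonneg hm hn) (by linarith : (0 : ℝ) ≤ (ad i : ℝ) - 1)]
  calc 1 / (4 * ((i.1 : ℝ) + 1) * ((i.2 : ℝ) + 1)) * ((i.1 : ℝ) + i.2 + 2) / (ad i : ℝ) *
      ((1 + (ad i : ℝ)) ^ p * (1 + (ad i : ℝ)))
      = (1 + (ad i : ℝ)) ^ p * (1 / (4 * ((i.1 : ℝ) + 1) * ((i.2 : ℝ) + 1)) *
        ((i.1 : ℝ) + i.2 + 2) / (ad i : ℝ) * (1 + (ad i : ℝ))) := by ring
    _ ≤ (1 + (ad i : ℝ)) ^ p * 1 := by gcongr
    _ = (1 + (ad i : ℝ)) ^ p := mul_one _
    _ ≤ wt p i := h3
    _ = 1 * wt p i := (one_mul _).symm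

/-- The Neumann solver: `-Δ (Sol f) = f`, the normal derivative is the constant `-(1/2) I f`. -/
def Sol (p : ℕ) : Y p →L[ℂ] Y (p + 1) :=
  lift (fun i => (-sc i) • e (p + 1) (i.1 + 1, i.2 + 1) +
    sd i • e (p + 1) (i.1 - i.2, i.2 - i.1)) (3 ^ (p + 1) + 1) (by positivity) fun i => by
    refine (norm_add_le _ _).trans ?_
    rw [add_mul]
    exact add_le_add (sol_bound1 i) (sol_bound2 i)

@[simp] theorem Sol_e (i : Ix) : Sol p (e p i) = (-sc i) • e (p + 1) (i.1 + 1, i.2 + 1) +
    sd i • e (p + 1) (i.1 - i.2, i.2 - i.1) := lift_e _ _ _ _ _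

theorem Sol_incl (h : p ≤ q) (f : Y q) :
    Sol p (incl h f) = incl (Nat.succ_le_succ h) (Sol q f) := by
  have : (Sol p).comp (incl h) = (incl (Nat.succ_le_succ h)).comp (Sol q) := Y.clm_ext fun i => by
    simp
  exact congrArg (fun T : Y q →L[ℂ] Y (p + 1) => T f) this

theorem sc_swap (i : Ix) : sc i.swap = sc i := by
  simp only [sc, Prod.fst_swap, Prod.snd_swap]; ring

theorem ad_swap (i : Ix) : ad i.swap = ad i := by
  simp only [ad, Prod.fst_swap, Prod.snd_swap]; omega

theorem sd_swap (i : Ix) : sd i.swap = sd i := by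
  unfold sd
  rw [sc_swap, ad_swap]
  simp only [Prod.fst_swap, Prod.snd_swap]; ring

theorem conj_sc (i : Ix) : conj (sc i) = sc i := by
  have : sc i = ((1 / (4 * ((i.1 : ℝ) + 1) * ((i.2 : ℝ) + 1)) : ℝ) : ℂ) := by
    unfold sc; push_cast; rfl
  rw [this, Complex.conj_ofReal]

theorem conj_sd (i : Ix) : conj (sd i) = sd i := by
  have : sd i = ((1 / (4 * ((i.1 : ℝ) + 1) * ((i.2 : ℝ) + 1)) * ((i.1 : ℝ) + i.2 + 2) /
      (ad i : ℝ) : ℝ) : ℂ) := by
    unfold sd sc; push_cast; rfl
  rw [this, Complex.conj_ofReal]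

theorem cj_Sol (f : Y p) : cj (Sol p f) = Sol p (cj f) := by
  have : (cjL (p + 1)).comp (Sol p) = (Sol p).comp (cjL p) := Y.clm_ext_conj fun i => by
    show cj (Sol p (e p i)) = Sol p (cj (e p i))
    rw [Sol_e, cj_e, Sol_e, cj_add, cj_smul, cj_smul, cj_e, cj_e, map_neg, conj_sc, conj_sd,
      sc_swap, sd_swap]
    rfl
  exact congrArg (fun T : Y p →L⋆[ℂ] Y (p + 1) => T f) this

theorem lap_Sol (f : Y (p + 1)) : lap p (Sol (p + 1) f) = -incl (Nat.le_succ p) f := by
  have : (lap p).comp (Sol (p + 1)) = -incl (Nat.le_succ p) := Y.clm_ext fun i => by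
    have h1 : ((i.1 : ℂ) + 1) ≠ 0 := Nat.cast_add_one_ne_zero _
    have h2 : ((i.2 : ℂ) + 1) ≠ 0 := Nat.cast_add_one_ne_zero _
    have h3 : ((i.1 - i.2 : ℕ) : ℂ) = 0 ∨ ((i.2 - i.1 : ℕ) : ℂ) = 0 := by
      rcases le_total i.1 i.2 with h | h
      · left; rw [Nat.sub_eq_zero_of_le h]; simp
      · right; rw [Nat.sub_eq_zero_of_le h]; simp
    rw [ContinuousLinearMap.comp_apply, lap_apply, Sol_e, neg_apply, incl_e]
    simp only [map_add, map_smul, dzb_e, dz_e, smul_smul, smul_add, Nat.add_sub_cancel]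
    have h4 : (4 * (sd i * ((i.2 - i.1 : ℕ) : ℂ) * ((i.1 - i.2 : ℕ) : ℂ))) = 0 := by
      rcases h3 with h | h <;> rw [h] <;> ring
    have h5 : (4 * (-sc i * ((i.2 + 1 : ℕ) : ℂ) * ((i.1 + 1 : ℕ) : ℂ))) = -1 := by
      unfold sc; push_cast; field_simp
    rw [h4, h5, zero_smul, add_zero, neg_smul, one_smul]
  exact congrArg (fun T : Y (p + 1) →L[ℂ] Y p => T f) this

theorem mon_circle {z : ℂ} (hz : ‖z‖ = 1) (i : Ix) :
    mon (i.1 + 1, i.2 + 1) z = mon (i.1 - i.2, i.2 - i.1) z := by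
  have h1 : z * conj z = 1 := by
    rw [Complex.mul_conj, Complex.normSq_eq_norm_sq, hz]; norm_num
  have key : ∀ a b c : ℕ, z ^ (a + c) * (conj z) ^ (b + c) = z ^ a * (conj z) ^ b := by
    intro a b c
    rw [pow_add, pow_add]
    calc z ^ a * z ^ c * ((conj z) ^ b * (conj z) ^ c) = z ^ a * (conj z) ^ b * (z * conj z) ^ c := by
          rw [mul_pow]; ring
      _ = _ := by rw [h1, one_pow, mul_one]
  simp only [mon]
  rcases le_total i.1 i.2 with h | h
  · obtain ⟨k, hk⟩ := Nat.exists_eq_add_of_le h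
    rw [hk]
    have := key 0 k (i.1 + 1)
    rw [Nat.zero_add] at this
    rw [show i.1 - (i.1 + k) = 0 by omega, show i.1 + k - i.1 = k by omega, ← this]
    congr 2
    ring
  · obtain ⟨k, hk⟩ := Nat.exists_eq_add_of_le h
    rw [hk]
    have := key k 0 (i.2 + 1)
    rw [Nat.zero_add] at this
    rw [show i.2 + k - i.2 = k by omega, show i.2 - (i.2 + k) = 0 by omega, ← this]
    congr 2
    ring

/-- The normal derivative of `Sol f` is constant. -/
theorem ev_Rad_Sol (f : Y p) {z : ℂ} (hz : ‖z‖ = 1) :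
    ev (Rad p (Sol p f)) z = -(1 / 2) * I p f := by
  have : (evL p z hz.le).comp ((Rad p).comp (Sol p)) = (-(1 / 2) : ℂ) • I p :=
    Y.clm_ext fun i => by
      have h1 : ((i.1 : ℂ) + 1) ≠ 0 := Nat.cast_add_one_ne_zero _
      have h2 : ((i.2 : ℂ) + 1) ≠ 0 := Nat.cast_add_one_ne_zero _
      simp only [ContinuousLinearMap.comp_apply, smul_apply, Sol_e, map_add,
        map_smul, Rad_e, evL_e, smul_eq_mul, I_e]
      rw [mon_circle hz]
      by_cases h : i.1 = i.2
      · rw [if_pos h]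
        have h3 : ad i = 0 := by unfold ad; omega
        have h4 : sd i = 0 := by unfold sd; rw [h3]; simp
        rw [h4, h, Nat.sub_self]
        simp only [mon, pow_zero]
        unfold sc
        rw [h]
        push_cast
        field_simp
        ring
      · rw [if_neg h]
        have h3 : (((i.1 - i.2 : ℕ) : ℂ) + ((i.2 - i.1 : ℕ) : ℂ)) = (ad i : ℂ) := by
          unfold ad; push_cast; rfl
        have h4 : (ad i : ℂ) ≠ 0 := by
          have : ad i ≠ 0 := by unfold ad; omega
          exact_mod_cast this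
        rw [h3]
        unfold sd
        have h5 : sc i * ((i.1 : ℂ) + i.2 + 2) / (ad i : ℂ) *
            ((ad i : ℂ) * mon (i.1 - i.2, i.2 - i.1) z) =
            sc i * ((i.1 : ℂ) + i.2 + 2) * mon (i.1 - i.2, i.2 - i.1) z := by
          field_simp
        rw [h5]
        push_cast
        ring
  exact congrArg (fun T : Y p →L[ℂ] ℂ => T f) this

/-! ### The Dirichlet form -/

/-- The Dirichlet form `(1/π) ∫_D ∇a · ∇b` (bilinear). -/
def Dir (p : ℕ) (a b : Y (p + 1)) : ℂ := I p (dx p a * dx p b + dy p a * dy p b)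

/-- The Dirichlet form as a continuous bilinear map. -/
def DirL (p : ℕ) : Y (p + 1) →L[ℂ] Y (p + 1) →L[ℂ] ℂ :=
  (ContinuousLinearMap.compL ℂ (Y (p + 1)) (Y p) ℂ (I p)).comp
    ((mulL p).bilinearComp (dx p) (dx p) + (mulL p).bilinearComp (dy p) (dy p))

theorem DirL_apply (a b : Y (p + 1)) : DirL p a b = Dir p a b := rfl

theorem Dir_eq (a b : Y (p + 1)) :
    Dir p a b = 2 * I p (dz p a * dzb p b + dzb p a * dz p b) := by
  unfold Dir
  have : dx p a * dx p b + dy p a * dy p b =
      (2 : ℂ) • (dz p a * dzb p b + dzb p a * dz p b) := by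
    simp only [dx_apply, dy_apply, ser_smul_mul, ser_mul_smul, ser_add_mul, ser_mul_add,
      ser_sub_mul, ser_mul_sub, smul_sub, smul_smul, Complex.I_mul_I]
    module
  rw [this, map_smul, smul_eq_mul]

theorem Dir_comm (a b : Y (p + 1)) : Dir p a b = Dir p b a := by
  unfold Dir
  rw [ser_mul_comm (dx p a), ser_mul_comm (dy p a)]

theorem Dir_e (i j : Ix) : Dir p (e (p + 1) i) (e (p + 1) j) =
    if i.1 + j.1 = i.2 + j.2 then
      2 * ((i.1 : ℂ) * j.2 + i.2 * j.1) / ((i.1 : ℂ) + j.1) else 0 := by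
  rw [Dir_eq]
  simp only [dz_e, dzb_e, ser_smul_mul, ser_mul_smul, e_mul_e, smul_smul, map_add, map_smul, I_e,
    smul_eq_mul, Prod.fst_add, Prod.snd_add]
  rcases i with ⟨a, b⟩
  rcases j with ⟨m, n⟩
  simp only
  by_cases h : a + m = b + n
  · rw [if_pos h]
    -- first term
    have t1 : ((n : ℂ) * (a : ℂ)) * (if a - 1 + m = b + (n - 1) then
        1 / (((a - 1 + m : ℕ) : ℂ) + 1) else 0) = (a : ℂ) * n / ((a : ℂ) + m) := by
      rcases Nat.eq_zero_or_pos a with rfl | ha
      · simp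
      · rcases Nat.eq_zero_or_pos n with rfl | hn
        · simp
        · rw [if_pos (by omega)]
          have : (((a - 1 + m : ℕ) : ℂ) + 1) = (a : ℂ) + m := by
            have h1 : a - 1 + m + 1 = a + m := by omega
            exact_mod_cast congrArg (Nat.cast : ℕ → ℂ) h1
          rw [this]; ring
    have t2 : ((m : ℂ) * (b : ℂ)) * (if a + (m - 1) = b - 1 + n then
        1 / (((a + (m - 1) : ℕ) : ℂ) + 1) else 0) = (b : ℂ) * m / ((a : ℂ) + m) := by
      rcases Nat.eq_zero_or_pos b with rfl | hb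
      · simp
      · rcases Nat.eq_zero_or_pos m with rfl | hm
        · simp
        · rw [if_pos (by omega)]
          have : (((a + (m - 1) : ℕ) : ℂ) + 1) = (a : ℂ) + m := by
            have h1 : a + (m - 1) + 1 = a + m := by omega
            exact_mod_cast congrArg (Nat.cast : ℕ → ℂ) h1
          rw [this]; ring
    rw [t1, t2]
    ring
  · rw [if_neg h]
    have t1 : ((n : ℂ) * (a : ℂ)) * (if a - 1 + m = b + (n - 1) then
        1 / (((a - 1 + m : ℕ) : ℂ) + 1) else 0) = 0 := by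
      rcases Nat.eq_zero_or_pos a with rfl | ha
      · simp
      · rcases Nat.eq_zero_or_pos n with rfl | hn
        · simp
        · rw [if_neg (by omega), mul_zero]
    have t2 : ((m : ℂ) * (b : ℂ)) * (if a + (m - 1) = b - 1 + n then
        1 / (((a + (m - 1) : ℕ) : ℂ) + 1) else 0) = 0 := by
      rcases Nat.eq_zero_or_pos b with rfl | hb
      · simp
      · rcases Nat.eq_zero_or_pos m with rfl | hm
        · simp
        · rw [if_neg (by omega), mul_zero]
    rw [t1, t2]
    ring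

/-- Green's identity for the solver. -/
theorem Dir_Sol (a : Y (p + 1)) (f : Y p) :
    Dir p a (Sol p f) = I p (incl (Nat.le_succ p) a * f) - I p f * Bd (p + 1) a := by
  have : (DirL p).bilinearComp (ContinuousLinearMap.id ℂ _) (Sol p) =
      (ContinuousLinearMap.compL ℂ (Y p) (Y p) ℂ (I p)).comp
        ((mulL p).bilinearComp (incl (Nat.le_succ p)) (ContinuousLinearMap.id ℂ _)) -
      (ContinuousLinearMap.mul ℂ ℂ).bilinearComp (Bd (p + 1)) (I p) :=
    Y.clm_ext₂ fun i j => by
      show Dir p (e (p + 1) i) (Sol p (e p j)) =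
        I p (incl (Nat.le_succ p) (e (p + 1) i) * e p j) - Bd (p + 1) (e (p + 1) i) * I p (e p j)
      rw [incl_e, e_mul_e, Sol_e, ← DirL_apply, map_add, map_smul, map_smul, DirL_apply,
        DirL_apply, Dir_e, Dir_e, I_e, I_e, Bd_e, smul_eq_mul, smul_eq_mul]
      rcases i with ⟨a, b⟩
      rcases j with ⟨m, n⟩
      simp only [Prod.fst_add, Prod.snd_add]
      have hm1 : ((m : ℂ) + 1) ≠ 0 := Nat.cast_add_one_ne_zero _
      have hn1 : ((n : ℂ) + 1) ≠ 0 := Nat.cast_add_one_ne_zero _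
      by_cases h : a + m = b + n
      · have hS : ((a : ℂ) + m + 1) ≠ 0 := by
          have := Nat.cast_add_one_ne_zero (R := ℂ) (a + m)
          push_cast at this
          exact this
        have hc : (a : ℂ) + m = b + n := by exact_mod_cast congrArg (Nat.cast : ℕ → ℂ) h
        have hb : (b : ℂ) = a + m - n := by rw [hc]; ring
        rw [if_pos (by omega), if_pos (by omega), if_pos h]
        by_cases hmn : m = n
        · have hab : a = b := by omega
          subst hmn
          subst hab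
          have h4 : sd (m, m) = 0 := by simp [sd, ad]
          rw [h4, if_pos rfl, if_pos rfl]
          unfold sc
          push_cast
          have hS'' : ((a : ℂ) + (m + 1)) ≠ 0 := by rwa [← add_assoc]
          field_simp
          ring
        · rw [if_neg hmn]
          have h4 : (ad (m, n) : ℂ) ≠ 0 := by
            have : ad (m, n) ≠ 0 := by unfold ad; simp only; omega
            exact_mod_cast this
          have key : 2 * ((a : ℂ) * ((n - m : ℕ) : ℂ) + b * ((m - n : ℕ) : ℂ)) /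
              ((a : ℂ) + ((m - n : ℕ) : ℂ)) = 2 * (ad (m, n) : ℂ) := by
            unfold ad
            simp only
            rcases lt_or_gt_of_ne hmn with hlt | hlt
            · obtain ⟨k, hk⟩ := Nat.exists_eq_add_of_lt hlt
              have e1 : m - n = 0 := by omega
              have e2 : a = b + (n - m) := by omega
              have e3 : (a : ℂ) ≠ 0 := by
                have : a ≠ 0 := by omega
                exact_mod_cast this
              rw [e1, Nat.cast_zero, mul_zero, add_zero, add_zero, Nat.zero_add]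
              field_simp
            · have e1 : n - m = 0 := by omega
              have e2 : b = a + (m - n) := by omega
              have e3 : (a : ℂ) + ((m - n : ℕ) : ℂ) ≠ 0 := by
                have : a + (m - n) ≠ 0 := by omega
                exact_mod_cast this
              rw [e1, Nat.cast_zero, mul_zero, zero_add, Nat.add_zero, e2]
              push_cast
              field_simp
          rw [key]
          unfold sd
          have h5 : sc (m, n) * ((m : ℂ) + n + 2) / (ad (m, n) : ℂ) * (2 * (ad (m, n) : ℂ)) =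
            2 * (sc (m, n) * ((m : ℂ) + n + 2)) := by
            field_simp
          simp only
          rw [h5]
          unfold sc
          simp only
          have hS' : ((a : ℂ) + ((m + 1 : ℕ) : ℂ)) ≠ 0 := by
            push_cast; rwa [← add_assoc]
          rw [hb]
          push_cast
          rw [mul_zero, sub_zero]
          have hS'' : ((a : ℂ) + (m + 1)) ≠ 0 := by rwa [← add_assoc]
          field_simp
          ring
      · rw [if_neg (by omega), if_neg (by omega), if_neg h]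
        by_cases hmn : m = n
        · rw [if_neg (show a ≠ b by omega)]; ring
        · rw [if_neg hmn]; ring
  have h2 := congrArg (fun T : Y (p + 1) →L[ℂ] Y p →L[ℂ] ℂ => T a f) this
  have h3 : Dir p a (Sol p f) =
    I p (incl (Nat.le_succ p) a * f) - Bd (p + 1) a * I p f := h2
  rw [h3]; ring

/-- Auxiliary bilinear map for Green's identity. -/
def lapL (p : ℕ) : Y (p + 1 + 1) →L[ℂ] Y (p + 1 + 1) →L[ℂ] ℂ :=
  (ContinuousLinearMap.compL ℂ (Y (p + 1 + 1)) (Y p) ℂ (I p)).comp
    ((mulL p).bilinearComp (incl (show p ≤ p + 1 + 1 by omega)) (lap p))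

theorem lapL_apply (a w : Y (p + 1 + 1)) :
    lapL p a w = I p (incl (show p ≤ p + 1 + 1 by omega) a * lap p w) := rfl

/-- Auxiliary bilinear map for Green's identity. -/
def radL (p : ℕ) : Y (p + 1) →L[ℂ] Y (p + 1) →L[ℂ] ℂ :=
  (ContinuousLinearMap.compL ℂ (Y (p + 1)) (Y p) ℂ (Bd p)).comp
    ((mulL p).bilinearComp (incl (Nat.le_succ p)) (Rad p))

theorem radL_apply (a w : Y (p + 1)) :
    radL p a w = Bd p (incl (Nat.le_succ p) a * Rad p w) := rfl

theorem green_e (i j : Ix) :
    Dir (p + 1) (e (p + 1 + 1) i) (e (p + 1 + 1) j) +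
      lapL p (e (p + 1 + 1) i) (e (p + 1 + 1) j) =
      2 * radL (p + 1) (e (p + 1 + 1) i) (e (p + 1 + 1) j) := by
  rw [lapL_apply, radL_apply, incl_e, incl_e, lap_apply, Dir_e]
  simp only [dzb_e, map_smul, dz_e, Rad_e, ser_mul_smul, e_mul_e, I_e, Bd_e, smul_eq_mul]
  rcases i with ⟨a, b⟩
  rcases j with ⟨m, n⟩
  simp only [Prod.fst_add, Prod.snd_add]
  by_cases h : a + m = b + n
  · rw [if_pos h, if_pos h]
    have hb : (b : ℂ) = a + m - n := by
      have hc : (a : ℂ) + m = b + n := by exact_mod_cast congrArg (Nat.cast : ℕ → ℂ) h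
      rw [hc]; ring
    have t : (4 : ℂ) * ((n : ℂ) * ((m : ℂ) * (if a + (m - 1) = b + (n - 1) then
        1 / (((a + (m - 1) : ℕ) : ℂ) + 1) else 0))) = 4 * (m * n) / ((a : ℂ) + m) := by
      rcases Nat.eq_zero_or_pos m with rfl | hm
      · simp
      · rcases Nat.eq_zero_or_pos n with rfl | hn
        · simp
        · rw [if_pos (by omega)]
          have : (((a + (m - 1) : ℕ) : ℂ) + 1) = (a : ℂ) + m := by
            have h1 : a + (m - 1) + 1 = a + m := by omega
            exact_mod_cast congrArg (Nat.cast : ℕ → ℂ) h1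
          rw [this]; ring
    rw [t]
    by_cases h0 : a + m = 0
    · have ha : a = 0 := by omega
      have hm : m = 0 := by omega
      have hb' : b = 0 := by omega
      have hn : n = 0 := by omega
      subst ha hm hb' hn
      simp
    · have hne : (a : ℂ) + m ≠ 0 := by exact_mod_cast h0
      rw [hb]
      field_simp
      ring
  · rw [if_neg h, if_neg h]
    have t : (4 : ℂ) * ((n : ℂ) * ((m : ℂ) * (if a + (m - 1) = b + (n - 1) then
        1 / (((a + (m - 1) : ℕ) : ℂ) + 1) else 0))) = 0 := by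
      rcases Nat.eq_zero_or_pos m with rfl | hm
      · simp
      · rcases Nat.eq_zero_or_pos n with rfl | hn
        · simp
        · rw [if_neg (by omega)]; ring
    rw [t]
    ring

/-- Green's identity. -/
theorem Dir_add_lap (a w : Y (p + 1 + 1)) :
    Dir (p + 1) a w + I p (incl (show p ≤ p + 1 + 1 by omega) a * lap p w) =
      2 * Bd (p + 1) (incl (Nat.le_succ _) a * Rad (p + 1) w) := by
  have : DirL (p + 1) + lapL p = (2 : ℂ) • radL (p + 1) :=
    Y.clm_ext₂ fun i j => green_e i j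
  have h2 := congrArg (fun T : Y (p + 1 + 1) →L[ℂ] Y (p + 1 + 1) →L[ℂ] ℂ => T a w) this
  exact h2

end Vale.Agent.P071
end
end

section

/-!
# The functionals `I` and `Bd` are integrals; uniqueness of the coefficients; dilations
-/

open scoped ComplexConjugate Topology Real
open Metric Filter MeasureTheory Set

noncomputable section

namespace Vale.Agent.P071

variable {p q : ℕ}

theorem mon_polar (i : Ix) (r θ : ℝ) :
    mon i ((r : ℂ) * Complex.exp (θ * Complex.I)) =
      ((r ^ (i.1 + i.2) : ℝ) : ℂ) * Complex.exp ((((i.1 : ℂ) - i.2) * Complex.I) * θ) := by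
  unfold mon
  rw [map_mul, Complex.conj_ofReal, ← Complex.exp_conj, map_mul, Complex.conj_ofReal, Complex.conj_I,
    mul_pow, mul_pow, ← Complex.exp_nat_mul, ← Complex.exp_nat_mul]
  push_cast
  rw [pow_add]
  have : Complex.exp ((((i.1 : ℂ) - i.2) * Complex.I) * θ) =
      Complex.exp ((i.1 : ℂ) * (θ * Complex.I)) * Complex.exp ((i.2 : ℂ) * (θ * -Complex.I)) := by
    rw [← Complex.exp_add]
    congr 1
    ring
  rw [this]
  ring

theorem integral_circle_exp (m n : ℕ) :
    ∫ θ in (-π)..π, Complex.exp ((((m : ℂ) - n) * Complex.I) * θ) =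
      if m = n then 2 * (π : ℂ) else 0 := by
  by_cases h : m = n
  · subst h
    simp only [sub_self, zero_mul, Complex.exp_zero, if_true, intervalIntegral.integral_const,
      Complex.real_smul, mul_one]
    push_cast
    ring
  · rw [if_neg h]
    have hc : ((m : ℂ) - n) * Complex.I ≠ 0 := by
      refine mul_ne_zero ?_ Complex.I_ne_zero
      rw [sub_ne_zero]
      exact_mod_cast h
    rw [integral_exp_mul_complex hc]
    have : Complex.exp (((m : ℂ) - n) * Complex.I * (π : ℝ)) =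
        Complex.exp (((m : ℂ) - n) * Complex.I * ((-π : ℝ) : ℂ)) := by
      rw [Complex.exp_eq_exp_iff_exists_int]
      refine ⟨(m : ℤ) - n, ?_⟩
      push_cast
      ring
    rw [this, sub_self, zero_div]

theorem integral_circle_mon (i : Ix) :
    ∫ θ in (-π)..π, mon i (Complex.exp (θ * Complex.I)) = if i.1 = i.2 then 2 * (π : ℂ) else 0 := by
  rw [← integral_circle_exp]
  refine intervalIntegral.integral_congr fun θ _ => ?_
  have := mon_polar i 1 θ
  simpa using this

theorem integral_ball_mon (i : Ix) :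
    ∫ z in ball (0 : ℂ) 1, mon i z = if i.1 = i.2 then (π : ℂ) / ((i.1 : ℂ) + 1) else 0 := by
  rw [← integral_indicator measurableSet_ball, ← Complex.integral_comp_polarCoord_symm]
  rw [show polarCoord.target = Ioi (0 : ℝ) ×ˢ Ioo (-π) π from rfl]
  have h1 : ∀ x ∈ Ioi (0 : ℝ) ×ˢ Ioo (-π) π,
      x.1 • (ball (0 : ℂ) 1).indicator (mon i) (Complex.polarCoord.symm x) =
      (((Iio (1 : ℝ)).indicator (fun r => r * r ^ (i.1 + i.2)) x.1 : ℝ) : ℂ) *
        Complex.exp ((((i.1 : ℂ) - i.2) * Complex.I) * x.2) := by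
    rintro ⟨r, θ⟩ ⟨hr, -⟩
    have hr : 0 < r := hr
    rw [Complex.polarCoord_symm_apply]
    simp only
    have e1 : ((r : ℂ) * ((Real.cos θ : ℂ) + (Real.sin θ : ℂ) * Complex.I)) =
        (r : ℂ) * Complex.exp (θ * Complex.I) := by
      rw [Complex.exp_mul_I]
      push_cast
      rfl
    rw [e1]
    have e2 : ‖(r : ℂ) * Complex.exp (θ * Complex.I)‖ = r := by
      rw [norm_mul, Complex.norm_exp_ofReal_mul_I, mul_one, Complex.norm_real, Real.norm_eq_abs,
        abs_of_pos hr]
    by_cases h : r < 1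
    · rw [indicator_of_mem (by rw [mem_ball_zero_iff, e2]; exact h),
        indicator_of_mem (show r ∈ Iio (1 : ℝ) from h), mon_polar]
      simp only [Complex.real_smul]
      push_cast
      ring
    · rw [indicator_of_notMem (by rw [mem_ball_zero_iff, e2]; exact h),
        indicator_of_notMem (show r ∉ Iio (1 : ℝ) from h)]
      simp
  rw [setIntegral_congr_fun (measurableSet_Ioi.prod measurableSet_Ioo) h1]
  rw [Measure.volume_eq_prod, setIntegral_prod_mul
    (fun r : ℝ => (((Iio (1 : ℝ)).indicator (fun r => r * r ^ (i.1 + i.2)) r : ℝ) : ℂ))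
    (fun θ : ℝ => Complex.exp ((((i.1 : ℂ) - i.2) * Complex.I) * θ))]
  have h2 : ∫ θ in Ioo (-π) π, Complex.exp ((((i.1 : ℂ) - i.2) * Complex.I) * θ) =
      if i.1 = i.2 then 2 * (π : ℂ) else 0 := by
    rw [← integral_circle_exp, intervalIntegral.integral_of_le (by linarith [Real.pi_pos]),
      integral_Ioc_eq_integral_Ioo]
  have h3 : ∫ r in Ioi (0 : ℝ), (((Iio (1 : ℝ)).indicator (fun r => r * r ^ (i.1 + i.2)) r : ℝ) : ℂ)
      = ((1 / ((i.1 : ℝ) + i.2 + 2) : ℝ) : ℂ) := by
    rw [integral_complex_ofReal]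
    congr 1
    rw [setIntegral_indicator measurableSet_Iio]
    have : Ioi (0 : ℝ) ∩ Iio 1 = Ioo 0 1 := by ext; simp
    rw [this, ← integral_Ioc_eq_integral_Ioo, ← intervalIntegral.integral_of_le zero_le_one]
    have h4 : ∀ r : ℝ, r * r ^ (i.1 + i.2) = r ^ (i.1 + i.2 + 1) := fun r => by ring
    simp only [h4]
    rw [integral_pow]
    push_cast
    simp
    ring
  rw [h2, h3]
  by_cases h : i.1 = i.2
  · rw [if_pos h, if_pos h, h]
    have h1 : ((i.2 : ℂ) + 1) ≠ 0 := Nat.cast_add_one_ne_zero _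
    have h5 : ((i.2 : ℂ) + i.2 + 2) = 2 * ((i.2 : ℂ) + 1) := by ring
    push_cast
    rw [h5]
    field_simp
  · rw [if_neg h, if_neg h, mul_zero]

theorem integrableOn_ev (a : Y p) : IntegrableOn (ev a) (ball 0 1) := by
  have h : IntegrableOn (ev a) (closedBall 0 1) :=
    (continuousOn_ev a).integrableOn_compact (isCompact_closedBall 0 1)
  exact h.mono_set ball_subset_closedBall

theorem continuous_ev_circle (a : Y p) : Continuous fun θ : ℝ => ev a (Complex.exp (θ * Complex.I)) := by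
  rw [← continuousOn_univ]
  refine (continuousOn_ev a).comp (by fun_prop) fun θ _ => ?_
  rw [mem_closedBall_zero_iff, Complex.norm_exp_ofReal_mul_I]

/-- Integration over the disc as a continuous linear map. -/
def ballL (p : ℕ) : Y p →L[ℂ] ℂ :=
  LinearMap.mkContinuous
    { toFun := fun a => ∫ z in ball (0 : ℂ) 1, ev a z
      map_add' := fun a b => by
        rw [← integral_add (integrableOn_ev a) (integrableOn_ev b)]
        exact setIntegral_congr_fun measurableSet_ball fun z hz =>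
          ev_add a b (mem_ball_zero_iff.1 hz).le
      map_smul' := fun c a => by
        rw [RingHom.id_apply, smul_eq_mul, ← integral_const_mul]
        exact setIntegral_congr_fun measurableSet_ball fun z hz => ev_smul c a z }
    (volume.real (ball (0 : ℂ) 1)) fun a => by
    show ‖∫ z in ball (0 : ℂ) 1, ev a z‖ ≤ _
    rw [mul_comm]
    refine norm_setIntegral_le_of_norm_le_const (measure_ball_lt_top) fun z hz => ?_
    exact norm_ev_le a (mem_ball_zero_iff.1 hz).le

/-- Integration over the circle as a continuous linear map. -/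
def circL (p : ℕ) : Y p →L[ℂ] ℂ :=
  LinearMap.mkContinuous
    { toFun := fun a => ∫ θ in (-π)..π, ev a (Complex.exp (θ * Complex.I))
      map_add' := fun a b => by
        rw [← intervalIntegral.integral_add ((continuous_ev_circle a).intervalIntegrable _ _)
          ((continuous_ev_circle b).intervalIntegrable _ _)]
        exact intervalIntegral.integral_congr fun θ _ =>
          ev_add a b (Complex.norm_exp_ofReal_mul_I θ).le
      map_smul' := fun c a => by
        rw [RingHom.id_apply, smul_eq_mul, ← intervalIntegral.integral_const_mul]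
        exact intervalIntegral.integral_congr fun θ _ => ev_smul c a _ }
    |π - -π| fun a => by
    show ‖∫ θ in (-π)..π, ev a (Complex.exp (θ * Complex.I))‖ ≤ _
    rw [mul_comm]
    refine intervalIntegral.norm_integral_le_of_norm_le_const fun θ _ => ?_
    exact norm_ev_le a (Complex.norm_exp_ofReal_mul_I θ).le

theorem integral_ball_ev (a : Y p) : ∫ z in ball (0 : ℂ) 1, ev a z = π * I p a := by
  have : ballL p = (π : ℂ) • I p := Y.clm_ext fun i => by
    show ∫ z in ball (0 : ℂ) 1, ev (e p i) z = (π : ℂ) • I p (e p i)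
    rw [I_e]
    simp only [ev_e]
    rw [integral_ball_mon]
    split_ifs
    · rw [smul_eq_mul]; ring
    · simp
  exact congrArg (fun T : Y p →L[ℂ] ℂ => T a) this

theorem integral_circle_ev (a : Y p) :
    ∫ θ in (-π)..π, ev a (Complex.exp (θ * Complex.I)) = 2 * π * Bd p a := by
  have : circL p = (2 * π : ℂ) • Bd p := Y.clm_ext fun i => by
    show ∫ θ in (-π)..π, ev (e p i) (Complex.exp (θ * Complex.I)) = (2 * π : ℂ) • Bd p (e p i)
    rw [Bd_e]
    simp only [ev_e]
    rw [integral_circle_mon]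
    split_ifs
    · rw [smul_eq_mul]; ring
    · simp
  exact congrArg (fun T : Y p →L[ℂ] ℂ => T a) this

theorem I_eq_integral (a : Y p) : I p a = (∫ z in ball (0 : ℂ) 1, ev a z) / π := by
  rw [integral_ball_ev, mul_div_cancel_left₀]
  exact_mod_cast Real.pi_ne_zero

theorem Bd_eq_integral (a : Y p) :
    Bd p a = (∫ θ in (-π)..π, ev a (Complex.exp (θ * Complex.I))) / (2 * π) := by
  rw [integral_circle_ev, mul_div_cancel_left₀]
  have : (π : ℂ) ≠ 0 := by exact_mod_cast Real.pi_ne_zero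
  simp

/-! ### Constructing series -/

/-- The series with given coefficients. -/
def mk (c : Ix → ℂ) : Y p := ∑' i, c i • e p i

theorem summable_mk {c : Ix → ℂ} (h : Summable fun i => ‖c i‖ * wt p i) :
    Summable fun i => c i • e p i := by
  refine Summable.of_norm ?_
  simpa only [norm_smul, norm_e] using h

theorem cf_mk {c : Ix → ℂ} (h : Summable fun i => ‖c i‖ * wt p i) (i : Ix) :
    cf (mk (p := p) c) i = c i := by
  have h1 := (summable_mk h).hasSum.mapL (cfL p i)
  have h2 : cfL p i (mk c) = ∑' j, cfL p i (c j • e p j) := h1.tsum_eq.symm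
  rw [cfL_apply] at h2
  rw [h2, tsum_eq_single i]
  · rw [map_smul, cfL_apply, cf_e, if_pos rfl, smul_eq_mul, mul_one]
  · intro j hj
    rw [map_smul, cfL_apply, cf_e, if_neg hj.symm, smul_zero]

/-! ### Dilations -/

theorem exists_dil_bound (q : ℕ) {r : ℝ} (h0 : 0 ≤ r) (h1 : r < 1) :
    ∃ C : ℝ, 0 ≤ C ∧ ∀ n : ℕ, r ^ n * (1 + (n : ℝ)) ^ q ≤ C := by
  have h : Tendsto (fun n : ℕ => (n : ℝ) ^ q * r ^ n) atTop (𝓝 0) :=
    tendsto_pow_const_mul_const_pow_of_abs_lt_one q (by rwa [abs_of_nonneg h0])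
  obtain ⟨C, hC⟩ := h.bddAbove_range
  refine ⟨max (2 ^ q * C) 1, le_trans zero_le_one (le_max_right _ _), fun n => ?_⟩
  rcases Nat.eq_zero_or_pos n with rfl | hn
  · simp
  · refine le_trans ?_ (le_max_left _ _)
    have hn' : (1 : ℝ) ≤ n := by exact_mod_cast hn
    calc r ^ n * (1 + (n : ℝ)) ^ q ≤ r ^ n * (2 * (n : ℝ)) ^ q := by gcongr; linarith
      _ = 2 ^ q * ((n : ℝ) ^ q * r ^ n) := by rw [mul_pow]; ring
      _ ≤ 2 ^ q * C := by gcongr; exact hC ⟨n, rfl⟩

/-- Dilation: `ev (dil r a) z = ev a (r z)`, from `Y p` to any `Y q`. -/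
def dil (p q : ℕ) (r : ℝ) (h0 : 0 ≤ r) (h1 : r < 1) : Y p →L[ℂ] Y q :=
  lift (fun i => ((r ^ (i.1 + i.2) : ℝ) : ℂ) • e q i) (exists_dil_bound q h0 h1).choose
    (exists_dil_bound q h0 h1).choose_spec.1 fun i => by
    rw [norm_smul, norm_e, Complex.norm_real, Real.norm_eq_abs, abs_of_nonneg (by positivity)]
    have h2 := (exists_dil_bound q h0 h1).choose_spec.2 (i.1 + i.2)
    have h3 : wt q i = (1 + ((i.1 + i.2 : ℕ) : ℝ)) ^ q := by unfold wt; push_cast; ring
    rw [h3]
    refine h2.trans ?_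
    exact le_mul_of_one_le_right (exists_dil_bound q h0 h1).choose_spec.1 (one_le_wt p i)

@[simp] theorem dil_e {r : ℝ} (h0 : 0 ≤ r) (h1 : r < 1) (i : Ix) :
    dil p q r h0 h1 (e p i) = ((r ^ (i.1 + i.2) : ℝ) : ℂ) • e q i := lift_e _ _ _ _ _

theorem cf_dil {r : ℝ} (h0 : 0 ≤ r) (h1 : r < 1) (a : Y p) (i : Ix) :
    cf (dil p q r h0 h1 a) i = ((r ^ (i.1 + i.2) : ℝ) : ℂ) * cf a i := by
  have : (cfL q i).comp (dil p q r h0 h1) = ((r ^ (i.1 + i.2) : ℝ) : ℂ) • cfL p i :=
    Y.clm_ext fun j => by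
      rw [ContinuousLinearMap.comp_apply, dil_e, map_smul, cfL_apply, smul_apply,
        cfL_apply, cf_e, cf_e]
      by_cases h : i = j
      · subst h; rfl
      · rw [if_neg h, smul_zero, smul_zero]
  have h2 := congrArg (fun T : Y p →L[ℂ] ℂ => T a) this
  simpa using h2

theorem mon_smul (i : Ix) (r : ℝ) (z : ℂ) :
    mon i ((r : ℂ) * z) = ((r ^ (i.1 + i.2) : ℝ) : ℂ) * mon i z := by
  unfold mon
  rw [map_mul, Complex.conj_ofReal]
  push_cast
  ring

theorem ev_dil {r : ℝ} (h0 : 0 ≤ r) (h1 : r < 1) (a : Y p) (z : ℂ) :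
    ev (dil p q r h0 h1 a) z = ev a (r * z) := by
  unfold ev
  refine tsum_congr fun i => ?_
  rw [cf_dil, mon_smul]
  ring

/-! ### Uniqueness -/

theorem cf_dz (a : Y (p + 1)) (i : Ix) :
    cf (dz p a) i = ((i.1 : ℂ) + 1) * cf a (i.1 + 1, i.2) := by
  have : (cfL p i).comp (dz p) = ((i.1 : ℂ) + 1) • cfL (p + 1) (i.1 + 1, i.2) :=
    Y.clm_ext fun j => by
      rw [ContinuousLinearMap.comp_apply, dz_e, map_smul, cfL_apply, smul_apply,
        cfL_apply, cf_e, cf_e]
      rcases j with ⟨m, n⟩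
      rcases i with ⟨a, b⟩
      simp only [Prod.mk.injEq, smul_eq_mul]
      rcases m with _ | m
      · simp
      · simp only [Nat.add_sub_cancel, Nat.add_right_cancel_iff]
        by_cases h : a = m ∧ b = n
        · simp only [h.1]; push_cast; ring
        · simp only [if_neg h, mul_zero]
  have h2 := congrArg (fun T : Y (p + 1) →L[ℂ] ℂ => T a) this
  simpa using h2

theorem cf_dzb (a : Y (p + 1)) (i : Ix) :
    cf (dzb p a) i = ((i.2 : ℂ) + 1) * cf a (i.1, i.2 + 1) := by
  have h := cf_dz (cj a) i.swap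
  rw [← cj_dzb, cf_cj, cf_cj, Prod.swap_swap] at h
  have h2 := congrArg conj h
  simp only [Complex.conj_conj, map_mul, map_add, map_one, Complex.conj_natCast, Prod.fst_swap,
    Prod.snd_swap] at h2
  rw [h2]
  rfl

theorem ev_zero_point (a : Y p) : ev a 0 = cf a 0 := by
  unfold ev
  rw [tsum_eq_single 0]
  · simp [mon]
  · intro i hi
    have : i.1 ≠ 0 ∨ i.2 ≠ 0 := by
      by_contra h
      push Not at h
      exact hi (Prod.ext h.1 h.2)
    rcases this with h | h <;> simp [mon, h]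

theorem ev_dz_eq_zero {a : Y (p + 1)} (h : ∀ z, ‖z‖ < 1 → ev a z = 0) {z : ℂ} (hz : ‖z‖ < 1) :
    ev (dz p a) z = 0 ∧ ev (dzb p a) z = 0 := by
  have h1 : HasFDerivAt (ev a) (0 : ℂ →L[ℝ] ℂ) z := by
    have h2 : HasFDerivAt (fun _ : ℂ => (0 : ℂ)) (0 : ℂ →L[ℝ] ℂ) z := hasFDerivAt_const _ _
    refine h2.congr_of_eventuallyEq ?_
    filter_upwards [isOpen_ball.mem_nhds (mem_ball_zero_iff.2 hz)] with y hy
    exact h y (mem_ball_zero_iff.1 hy)
  have h2 := (hasFDerivAt_ev a hz).unique h1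
  have h3 := evD_apply a z 1
  have h4 := evD_apply a z Complex.I
  rw [h2] at h3 h4
  simp only [zero_apply, map_one, mul_one, Complex.conj_I] at h3 h4
  have h5 : ev (dz p a) z = ev (dzb p a) z := by
    have : Complex.I * (ev (dz p a) z - ev (dzb p a) z) = 0 := by linear_combination -h4
    rcases mul_eq_zero.1 this with h | h
    · exact absurd h Complex.I_ne_zero
    · exact sub_eq_zero.1 h
  rw [h5] at h3
  have h6 : ev (dzb p a) z = 0 := by linear_combination -h3 / 2
  exact ⟨h5.trans h6, h6⟩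

theorem cf_eq_zero_of_ev (q : ℕ) : ∀ b : Y q, (∀ z, ‖z‖ < 1 → ev b z = 0) →
    ∀ i : Ix, i.1 + i.2 ≤ q → cf b i = 0 := by
  induction q with
  | zero =>
    intro b hb i hi
    have : i = 0 := Prod.ext (by simp; omega) (by simp; omega)
    rw [this, ← ev_zero_point]
    exact hb 0 (by simp)
  | succ q ih =>
    intro b hb i hi
    rcases i with ⟨m, n⟩
    rcases m with _ | m
    · rcases n with _ | n
      · have := hb 0 (by simp)
        rwa [ev_zero_point] at this
      · have h1 := ih (dzb q b) (fun z hz => (ev_dz_eq_zero hb hz).2) (0, n) (by simp at hi ⊢; omega)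
        rw [cf_dzb] at h1
        rcases mul_eq_zero.1 h1 with h | h
        · exact absurd h (Nat.cast_add_one_ne_zero _)
        · exact h
    · have h1 := ih (dz q b) (fun z hz => (ev_dz_eq_zero hb hz).1) (m, n) (by simp at hi ⊢; omega)
      rw [cf_dz] at h1
      rcases mul_eq_zero.1 h1 with h | h
      · exact absurd h (Nat.cast_add_one_ne_zero _)
      · exact h

/-- A series vanishing on the open disc is zero. -/
theorem eq_zero_of_ev {a : Y p} (h : ∀ z, ‖z‖ < 1 → ev a z = 0) : a = 0 := by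
  ext i
  have hb : ∀ z, ‖z‖ < 1 → ev (dil p (i.1 + i.2) (1 / 2) (by norm_num) (by norm_num) a) z = 0 := by
    intro z hz
    rw [ev_dil]
    refine h _ ?_
    rw [norm_mul, Complex.norm_real]
    norm_num
    linarith
  have h1 := cf_eq_zero_of_ev (i.1 + i.2) _ hb i le_rfl
  rw [cf_dil] at h1
  rcases mul_eq_zero.1 h1 with h2 | h2
  · exfalso
    have : ((1 / 2 : ℝ) ^ (i.1 + i.2)) ≠ 0 := by positivity
    exact this (by exact_mod_cast h2)
  · rw [h2, cf_zero]

theorem Y.ext_ev {a b : Y p} (h : ∀ z, ‖z‖ < 1 → ev a z = ev b z) : a = b := by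
  rw [← sub_eq_zero]
  refine eq_zero_of_ev fun z hz => ?_
  rw [ev_sub _ _ hz.le, h z hz, sub_self]

end Vale.Agent.P071
end
end

section

/-!
# Functions of one real variable with bounded derivatives, and Fourier coefficients

`BC n M f`: `f` has `n` continuous derivatives, and `f` and these derivatives are bounded by `M`.
-/

open scoped Topology Real ComplexConjugate
open Filter MeasureTheory

noncomputable section

namespace Vale.Agent.P071

section BC

variable {F : Type*} [NormedAddCommGroup F] [NormedSpace ℝ F]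

/-- `f` has `n` continuous derivatives, and `f` and these derivatives are bounded by `M`. -/
def BC : ℕ → ℝ → (ℝ → F) → Prop
  | 0, M, f => Continuous f ∧ ∀ t, ‖f t‖ ≤ M
  | n + 1, M, f => (∀ t, ‖f t‖ ≤ M) ∧ ∃ f' : ℝ → F, (∀ t, HasDerivAt f (f' t) t) ∧ BC n M f'

theorem BC.bound {n : ℕ} {M : ℝ} {f : ℝ → F} (h : BC n M f) (t : ℝ) : ‖f t‖ ≤ M := by
  cases n with
  | zero => exact h.2 t
  | succ n => exact h.1 t

theorem BC.nonneg {n : ℕ} {M : ℝ} {f : ℝ → F} (h : BC n M f) : 0 ≤ M :=
  (norm_nonneg _).trans (h.bound 0)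

theorem BC.continuous {n : ℕ} {M : ℝ} {f : ℝ → F} (h : BC n M f) : Continuous f := by
  cases n with
  | zero => exact h.1
  | succ n =>
    obtain ⟨f', hf', _⟩ := h.2
    exact continuous_iff_continuousAt.2 fun t => (hf' t).continuousAt

theorem BC.mono_const {n : ℕ} {M M' : ℝ} (hM : M ≤ M') {f : ℝ → F} (h : BC n M f) : BC n M' f := by
  induction n generalizing f with
  | zero => exact ⟨h.1, fun t => (h.2 t).trans hM⟩
  | succ n ih =>
    obtain ⟨h1, f', hf', h2⟩ := h
    exact ⟨fun t => (h1 t).trans hM, f', hf', ih h2⟩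

theorem BC.pred {n : ℕ} {M : ℝ} {f : ℝ → F} (h : BC (n + 1) M f) : BC n M f := by
  induction n generalizing f with
  | zero => exact ⟨h.continuous, h.bound⟩
  | succ n ih =>
    obtain ⟨h1, f', hf', h2⟩ := h
    exact ⟨h1, f', hf', ih h2⟩

theorem BC.mono {n m : ℕ} (hmn : m ≤ n) {M : ℝ} {f : ℝ → F} (h : BC n M f) : BC m M f := by
  induction n, hmn using Nat.le_induction with
  | base => exact h
  | succ n _ ih => exact ih h.pred

theorem BC.const {n : ℕ} (c : F) : BC n ‖c‖ (fun _ : ℝ => c) := by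
  induction n generalizing c with
  | zero => exact ⟨continuous_const, fun _ => le_rfl⟩
  | succ n ih =>
    refine ⟨fun _ => le_rfl, fun _ => 0, fun t => hasDerivAt_const t c, ?_⟩
    exact (ih (0 : F)).mono_const (by simp)

theorem BC.add {n : ℕ} {M N : ℝ} {f g : ℝ → F} (hf : BC n M f) (hg : BC n N g) :
    BC n (M + N) (fun t => f t + g t) := by
  induction n generalizing f g with
  | zero => exact ⟨hf.1.add hg.1, fun t => (norm_add_le _ _).trans (add_le_add (hf.2 t) (hg.2 t))⟩
  | succ n ih =>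
    obtain ⟨h1, f', hf', h2⟩ := hf
    obtain ⟨k1, g', hg', k2⟩ := hg
    exact ⟨fun t => (norm_add_le _ _).trans (add_le_add (h1 t) (k1 t)), fun t => f' t + g' t,
      fun t => (hf' t).add (hg' t), ih h2 k2⟩

theorem BC.neg {n : ℕ} {M : ℝ} {f : ℝ → F} (hf : BC n M f) : BC n M (fun t => -f t) := by
  induction n generalizing f with
  | zero => exact ⟨hf.1.neg, fun t => by rw [norm_neg]; exact hf.2 t⟩
  | succ n ih =>
    obtain ⟨h1, f', hf', h2⟩ := hf
    exact ⟨fun t => by rw [norm_neg]; exact h1 t, fun t => -f' t, fun t => (hf' t).neg, ih h2⟩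

theorem BC.sub {n : ℕ} {M N : ℝ} {f g : ℝ → F} (hf : BC n M f) (hg : BC n N g) :
    BC n (M + N) (fun t => f t - g t) := by
  simpa only [sub_eq_add_neg] using hf.add hg.neg

theorem BC.clm {G : Type*} [NormedAddCommGroup G] [NormedSpace ℝ G] (L : F →L[ℝ] G)
    {n : ℕ} {M : ℝ} {f : ℝ → F} (hf : BC n M f) : BC n (‖L‖ * M) (fun t => L (f t)) := by
  induction n generalizing f with
  | zero => exact ⟨L.continuous.comp hf.1, fun t => L.le_of_opNorm_le_of_le le_rfl (hf.2 t)⟩
  | succ n ih =>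
    obtain ⟨h1, f', hf', h2⟩ := hf
    exact ⟨fun t => L.le_of_opNorm_le_of_le le_rfl (h1 t), fun t => L (f' t),
      fun t => L.hasFDerivAt.comp_hasDerivAt t (hf' t), ih h2⟩

/-- The derivative of a periodic function is periodic. -/
theorem periodic_deriv' {f f' : ℝ → F} {T : ℝ} (hf : Function.Periodic f T)
    (hd : ∀ t, HasDerivAt f (f' t) t) : Function.Periodic f' T := by
  intro t
  have h1 : HasDerivAt (fun s => f (s + T)) (f' (t + T)) t := (hd (t + T)).comp_add_const t T
  have h2 : (fun s => f (s + T)) = f := funext fun s => hf s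
  rw [h2] at h1
  exact h1.unique (hd t)

end BC

section Algebra

variable {A : Type*} [NormedRing A] [NormedAlgebra ℝ A]

theorem BC.mul {n : ℕ} {M N : ℝ} {f g : ℝ → A} (hf : BC n M f) (hg : BC n N g) :
    BC n (2 ^ n * (M * N)) (fun t => f t * g t) := by
  induction n generalizing f g with
  | zero =>
    refine ⟨hf.1.mul hg.1, fun t => ?_⟩
    rw [pow_zero, one_mul]
    exact (norm_mul_le _ _).trans (mul_le_mul (hf.2 t) (hg.2 t) (norm_nonneg _) hf.nonneg)
  | succ n ih =>
    have hf0 := hf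
    have hg0 := hg
    obtain ⟨h1, f', hf', h2⟩ := hf
    obtain ⟨k1, g', hg', k2⟩ := hg
    have hMN : 0 ≤ M * N := mul_nonneg hf0.nonneg hg0.nonneg
    refine ⟨fun t => ?_, fun t => f' t * g t + f t * g' t, fun t => (hf' t).mul (hg' t), ?_⟩
    · refine (norm_mul_le _ _).trans
        ((mul_le_mul (h1 t) (k1 t) (norm_nonneg _) hf0.nonneg).trans ?_)
      have : (1 : ℝ) ≤ 2 ^ (n + 1) := one_le_pow₀ (by norm_num)
      nlinarith
    · have a1 := ih h2 hg0.pred
      have a2 := ih hf0.pred k2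
      have a3 := a1.add a2
      have e : 2 ^ n * (M * N) + 2 ^ n * (M * N) = 2 ^ (n + 1) * (M * N) := by ring
      rw [e] at a3
      exact a3

theorem BC.const_mul {n : ℕ} {M : ℝ} {f : ℝ → A} (hf : BC n M f) (c : A) :
    BC n (‖c‖ * M) (fun t => c * f t) := by
  induction n generalizing f with
  | zero =>
    exact ⟨continuous_const.mul hf.1, fun t => (norm_mul_le _ _).trans
      (mul_le_mul_of_nonneg_left (hf.2 t) (norm_nonneg _))⟩
  | succ n ih =>
    obtain ⟨h1, f', hf', h2⟩ := hf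
    exact ⟨fun t => (norm_mul_le _ _).trans
      (mul_le_mul_of_nonneg_left (h1 t) (norm_nonneg _)), fun t => c * f' t,
      fun t => (hf' t).const_mul c, ih h2⟩

end Algebra

/-- Real valued functions as complex valued ones. -/
theorem BC.ofReal {n : ℕ} {M : ℝ} {f : ℝ → ℝ} (hf : BC n M f) :
    BC n M (fun t => (f t : ℂ)) := by
  have h := hf.clm Complex.ofRealCLM
  refine h.mono_const ?_
  calc ‖Complex.ofRealCLM‖ * M = 1 * M := by rw [Complex.ofRealCLM_norm]
    _ ≤ M := by rw [one_mul]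

theorem BC.re {n : ℕ} {M : ℝ} {f : ℝ → ℂ} (hf : BC n M f) :
    BC n M (fun t => (f t).re) := by
  have h := hf.clm Complex.reCLM
  refine h.mono_const ?_
  calc ‖Complex.reCLM‖ * M = 1 * M := by rw [Complex.reCLM_norm]
    _ ≤ M := by rw [one_mul]

/-! ### Powers of the positive part -/

theorem hasDerivAt_posPow (k : ℕ) (x : ℝ) :
    HasDerivAt (fun y : ℝ => (max y 0) ^ (k + 2)) ((k + 2 : ℕ) * (max x 0) ^ (k + 1)) x := by
  rcases lt_trichotomy x 0 with hx | hx | hx
  · have h1 : (fun y : ℝ => (max y 0) ^ (k + 2)) =ᶠ[𝓝 x] fun _ => 0 := by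
      filter_upwards [Iio_mem_nhds hx] with y hy
      rw [max_eq_right (le_of_lt hy), zero_pow (by omega)]
    rw [max_eq_right hx.le, zero_pow (by omega), mul_zero]
    exact (hasDerivAt_const x (0 : ℝ)).congr_of_eventuallyEq h1
  · subst hx
    rw [max_self, zero_pow (by omega), mul_zero]
    rw [hasDerivAt_iff_isLittleO_nhds_zero]
    simp only [zero_add, max_self, smul_zero, sub_zero]
    rw [zero_pow (by omega : k + 2 ≠ 0)]
    simp only [sub_zero]
    refine Asymptotics.isLittleO_iff.2 fun c hc => ?_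
    have h1 : Tendsto (fun h : ℝ => |h| ^ (k + 1)) (𝓝 0) (𝓝 0) := by
      have : Continuous fun h : ℝ => |h| ^ (k + 1) := by fun_prop
      have h2 := this.tendsto 0
      simpa using h2
    filter_upwards [h1.eventually (gt_mem_nhds hc)] with h hh
    rw [Real.norm_eq_abs, Real.norm_eq_abs, abs_pow]
    have h3 : |max h 0| ≤ |h| := by
      rcases le_total h 0 with h4 | h4
      · rw [max_eq_right h4]; simp
      · rw [max_eq_left h4]
    calc |max h 0| ^ (k + 2) ≤ |h| ^ (k + 2) := by gcongr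
      _ = |h| ^ (k + 1) * |h| := pow_succ _ _
      _ ≤ c * |h| := mul_le_mul_of_nonneg_right hh.le (abs_nonneg _)
  · have h1 : (fun y : ℝ => (max y 0) ^ (k + 2)) =ᶠ[𝓝 x] fun y => y ^ (k + 2) := by
      filter_upwards [Ioi_mem_nhds hx] with y hy
      rw [max_eq_left (le_of_lt hy)]
    rw [max_eq_left hx.le]
    have h2 := hasDerivAt_pow (k + 2) x
    exact (h2.congr_of_eventuallyEq h1)

/-- Powers of positive parts have bounded derivatives. -/
theorem BC.posPow (n : ℕ) : ∀ (k : ℕ) (M : ℝ), n + 1 ≤ k → ∃ C : ℝ, ∀ V : ℝ → ℝ, BC n M V →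
    BC n C (fun t => (max (V t) 0) ^ k) := by
  induction n with
  | zero =>
    intro k M hk
    refine ⟨M ^ k, fun V hV => ⟨by have := hV.continuous; fun_prop, fun t => ?_⟩⟩
    rw [Real.norm_eq_abs, abs_pow]
    refine pow_le_pow_left₀ (abs_nonneg _) ?_ k
    have h1 := hV.bound t
    rw [Real.norm_eq_abs] at h1
    have h0 := hV.nonneg
    rw [abs_le] at h1 ⊢
    constructor
    · have := le_max_right (V t) 0; linarith
    · exact max_le h1.2 h0
  | succ n ih =>
    intro k M hk
    obtain ⟨k, rfl⟩ : ∃ k', k = k' + 2 := ⟨k - 2, by omega⟩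
    obtain ⟨C, hC⟩ := ih (k + 1) M (by omega)
    refine ⟨max (M ^ (k + 2)) (2 ^ n * (((k + 2 : ℕ) : ℝ) * C * M)), fun V hV => ⟨fun t => ?_, ?_⟩⟩
    · refine le_trans ?_ (le_max_left _ _)
      rw [Real.norm_eq_abs, abs_pow]
      refine pow_le_pow_left₀ (abs_nonneg _) ?_ _
      have h1 := hV.bound t
      rw [Real.norm_eq_abs] at h1
      have h0 := hV.nonneg
      rw [abs_le] at h1 ⊢
      constructor
      · have := le_max_right (V t) 0; linarith
      · exact max_le h1.2 h0
    · have hV0 := hV.pred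
      obtain ⟨h1, V', hV', h2⟩ := hV
      refine ⟨fun t => ((k + 2 : ℕ) : ℝ) * (max (V t) 0) ^ (k + 1) * V' t, fun t => ?_, ?_⟩
      · exact (hasDerivAt_posPow k (V t)).comp t (hV' t)
      · have a1 := (hC V hV0).const_mul (((k + 2 : ℕ) : ℝ))
        have a2 := a1.mul h2
        refine a2.mono_const ?_
        rw [Real.norm_natCast]
        exact le_max_right _ _

end Vale.Agent.P071
end
end

section

/-!
# Fourier coefficients of periodic functions with bounded derivatives
-/

open scoped Topology Real ComplexConjugate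
open Filter MeasureTheory

noncomputable section

namespace Vale.Agent.P071

/-- The mean value of a `2π`-periodic function. -/
def cm (h : ℝ → ℂ) : ℂ := (1 / (2 * π) : ℂ) * ∫ t in (-π)..π, h t

/-- The Fourier coefficients. -/
def fc (h : ℝ → ℂ) (k : ℤ) : ℂ := cm fun t => Complex.exp (-(k * t * Complex.I)) * h t

theorem norm_exp_fc (k : ℤ) (t : ℝ) : ‖Complex.exp (-(k * t * Complex.I))‖ = 1 := by
  have : -((k : ℂ) * t * Complex.I) = ((-(k * t : ℝ) : ℝ) : ℂ) * Complex.I := by push_cast; ring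
  rw [this, Complex.norm_exp_ofReal_mul_I]

theorem exp_periodic (k : ℤ) (t : ℝ) : Complex.exp (-(k * ((t + 2 * π : ℝ) : ℂ) * Complex.I)) =
    Complex.exp (-(k * t * Complex.I)) := by
  rw [Complex.exp_eq_exp_iff_exists_int]
  refine ⟨-k, ?_⟩
  push_cast
  ring

theorem continuous_exp_fc (k : ℤ) : Continuous fun t : ℝ => Complex.exp (-(k * t * Complex.I)) := by
  fun_prop

theorem norm_cm_le {h : ℝ → ℂ} {M : ℝ} (hM : ∀ t, ‖h t‖ ≤ M) : ‖cm h‖ ≤ M := by
  have h1 : ‖∫ t in (-π)..π, h t‖ ≤ M * |π - -π| :=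
    intervalIntegral.norm_integral_le_of_norm_le_const fun t _ => hM t
  have h2 : |π - -π| = 2 * π := by
    rw [abs_of_pos (by linarith [Real.pi_pos])]; ring
  rw [h2] at h1
  have h3 : ‖(1 / (2 * π) : ℂ)‖ = 1 / (2 * π) := by
    have : (1 / (2 * π) : ℂ) = ((1 / (2 * π) : ℝ) : ℂ) := by push_cast; rfl
    rw [this, Complex.norm_real, Real.norm_eq_abs, abs_of_pos (by positivity)]
  unfold cm
  rw [norm_mul, h3]
  have hp := Real.pi_pos
  calc 1 / (2 * π) * ‖∫ t in (-π)..π, h t‖ ≤ 1 / (2 * π) * (M * (2 * π)) := by gcongr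
    _ = M := by field_simp

theorem cm_add {f g : ℝ → ℂ} (hf : Continuous f) (hg : Continuous g) :
    cm (fun t => f t + g t) = cm f + cm g := by
  unfold cm
  rw [intervalIntegral.integral_add (hf.intervalIntegrable _ _) (hg.intervalIntegrable _ _)]
  ring

theorem cm_const_mul (c : ℂ) (f : ℝ → ℂ) : cm (fun t => c * f t) = c * cm f := by
  unfold cm
  rw [intervalIntegral.integral_const_mul]
  ring

theorem cm_const (c : ℂ) : cm (fun _ => c) = c := by
  unfold cm
  rw [intervalIntegral.integral_const]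
  have hp : (π : ℂ) ≠ 0 := by exact_mod_cast Real.pi_ne_zero
  rw [Complex.real_smul]
  push_cast
  field_simp
  ring

theorem cm_conj (f : ℝ → ℂ) : cm (fun t => conj (f t)) = conj (cm f) := by
  unfold cm
  rw [intervalIntegral.integral_of_le (by linarith [Real.pi_pos]),
    intervalIntegral.integral_of_le (by linarith [Real.pi_pos]), integral_conj, map_mul]
  congr 1
  simp only [map_div₀, map_one, map_mul, Complex.conj_ofReal, Complex.conj_ofNat]

/-- The mean value of a derivative vanishes. -/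
theorem cm_deriv {f f' : ℝ → ℂ} (hp : Function.Periodic f (2 * π))
    (hd : ∀ t, HasDerivAt f (f' t) t) (hc : Continuous f') : cm f' = 0 := by
  unfold cm
  rw [intervalIntegral.integral_eq_sub_of_hasDerivAt (fun t _ => hd t) (hc.intervalIntegrable _ _)]
  have := hp (-π)
  rw [show -π + 2 * π = π by ring] at this
  rw [this, sub_self, mul_zero]

theorem fc_deriv {h h' : ℝ → ℂ} (hp : Function.Periodic h (2 * π))
    (hd : ∀ t, HasDerivAt h (h' t) t) (hc : Continuous h') (k : ℤ) :
    fc h' k = (k * Complex.I) * fc h k := by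
  have hcont : Continuous h := continuous_iff_continuousAt.2 fun t => (hd t).continuousAt
  have hE : ∀ t : ℝ, HasDerivAt (fun t : ℝ => Complex.exp (-(k * t * Complex.I)))
      (-(k * Complex.I) * Complex.exp (-(k * t * Complex.I))) t := by
    intro t
    have h1 : HasDerivAt (fun t : ℝ => -((k : ℂ) * t * Complex.I)) (-(k * Complex.I)) t := by
      have h2 : HasDerivAt (fun t : ℝ => (t : ℂ)) 1 t := Complex.ofRealCLM.hasDerivAt
      have h3 := ((h2.const_mul (k : ℂ)).mul_const Complex.I).neg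
      rw [mul_one] at h3
      exact h3
    have h2 := h1.cexp
    rw [mul_comm] at h2
    exact h2
  have h1 : ∀ t : ℝ, HasDerivAt (fun t : ℝ => Complex.exp (-(k * t * Complex.I)) * h t)
      (-(k * Complex.I) * (Complex.exp (-(k * t * Complex.I)) * h t) +
        Complex.exp (-(k * t * Complex.I)) * h' t) t := by
    intro t
    refine ((hE t).mul (hd t)).congr_deriv ?_
    ring
  have h2 : Function.Periodic (fun t : ℝ => Complex.exp (-(k * t * Complex.I)) * h t) (2 * π) := by
    intro t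
    show Complex.exp (-(k * ((t + 2 * π : ℝ) : ℂ) * Complex.I)) * h (t + 2 * π) = _
    rw [exp_periodic, hp t]
  have c1 : Continuous fun t : ℝ => Complex.exp (-(k * t * Complex.I)) * h t :=
    (continuous_exp_fc k).mul hcont
  have c2 : Continuous fun t : ℝ => Complex.exp (-(k * t * Complex.I)) * h' t :=
    (continuous_exp_fc k).mul hc
  have c3 : Continuous fun t : ℝ =>
      -(k * Complex.I) * (Complex.exp (-(k * t * Complex.I)) * h t) := continuous_const.mul c1
  have h3 := cm_deriv h2 h1 (c3.add c2)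
  rw [cm_add c3 c2, cm_const_mul] at h3
  unfold fc
  linear_combination h3

theorem norm_fc_le {h : ℝ → ℂ} {M : ℝ} (hM : ∀ t, ‖h t‖ ≤ M) (k : ℤ) : ‖fc h k‖ ≤ M := by
  refine norm_cm_le fun t => ?_
  rw [norm_mul, norm_exp_fc, one_mul]
  exact hM t

/-- Decay of the Fourier coefficients. -/
theorem fc_decay {n : ℕ} {M : ℝ} {h : ℝ → ℂ} (hh : BC n M h) (hp : Function.Periodic h (2 * π))
    (k : ℤ) : |(k : ℝ)| ^ n * ‖fc h k‖ ≤ M := by
  induction n generalizing h with
  | zero => rw [pow_zero, one_mul]; exact norm_fc_le hh.2 k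
  | succ n ih =>
    obtain ⟨h1, h', hd, h2⟩ := hh
    have h3 := ih h2 (periodic_deriv' hp hd)
    rw [fc_deriv hp hd h2.continuous k, norm_mul, norm_mul, Complex.norm_I, mul_one] at h3
    have h4 : ‖(k : ℂ)‖ = |(k : ℝ)| := by
      rw [show (k : ℂ) = ((k : ℝ) : ℂ) by push_cast; rfl, Complex.norm_real, Real.norm_eq_abs]
    rw [h4] at h3
    calc |(k : ℝ)| ^ (n + 1) * ‖fc h k‖ = |(k : ℝ)| ^ n * (|(k : ℝ)| * ‖fc h k‖) := by ring
      _ ≤ M := h3

theorem fc_conj (h : ℝ → ℂ) (k : ℤ) : fc (fun t => conj (h t)) k = conj (fc h (-k)) := by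
  unfold fc
  rw [← cm_conj]
  congr 1
  funext t
  rw [map_mul, ← Complex.exp_conj]
  congr 2
  simp only [map_neg, map_mul, Complex.conj_ofReal, Complex.conj_I, map_intCast]
  push_cast
  ring

theorem fc_zero (h : ℝ → ℂ) : fc h 0 = cm h := by
  unfold fc
  simp

/-- Dominated convergence for the mean value. -/
theorem tendsto_cm {hs : ℕ → ℝ → ℂ} {h : ℝ → ℂ} {M : ℝ} (hc : ∀ j, Continuous (hs j))
    (hM : ∀ j t, ‖hs j t‖ ≤ M) (hlim : ∀ t, Tendsto (fun j => hs j t) atTop (𝓝 (h t))) :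
    Tendsto (fun j => cm (hs j)) atTop (𝓝 (cm h)) := by
  unfold cm
  refine Tendsto.const_mul _ ?_
  refine intervalIntegral.tendsto_integral_filter_of_dominated_convergence (fun _ => M)
    (Eventually.of_forall fun j => (hc j).aestronglyMeasurable) ?_
    intervalIntegrable_const ?_
  · exact Eventually.of_forall fun j => ae_of_all _ fun t _ => hM j t
  · exact ae_of_all _ fun t _ => hlim t

theorem tendsto_fc {hs : ℕ → ℝ → ℂ} {h : ℝ → ℂ} {M : ℝ} (hc : ∀ j, Continuous (hs j))
    (hM : ∀ j t, ‖hs j t‖ ≤ M) (hlim : ∀ t, Tendsto (fun j => hs j t) atTop (𝓝 (h t))) (k : ℤ) :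
    Tendsto (fun j => fc (hs j) k) atTop (𝓝 (fc h k)) := by
  unfold fc
  refine tendsto_cm (M := M) (fun j => (continuous_exp_fc k).mul (hc j)) (fun j t => ?_)
    fun t => (hlim t).const_mul _
  rw [norm_mul, norm_exp_fc, one_mul]
  exact hM j t

/-- The Fourier series of a `C²` periodic function. -/
theorem hasSum_fc {M : ℝ} {h : ℝ → ℂ} (hh : BC 2 M h) (hp : Function.Periodic h (2 * π)) (t : ℝ) :
    HasSum (fun k : ℤ => fc h k * Complex.exp (k * t * Complex.I)) (h t) := by
  have : Fact (0 < 2 * π) := ⟨by positivity⟩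
  have hcont : Continuous h := hh.continuous
  let H : C(AddCircle (2 * π), ℂ) := ⟨hp.lift, by
    exact continuous_coinduced_dom.2 hcont⟩
  have hH : ∀ s : ℝ, H (s : AddCircle (2 * π)) = h s := fun s => rfl
  have hcoef : ∀ k : ℤ, fourierCoeff H k = fc h k := by
    intro k
    rw [fourierCoeff_eq_intervalIntegral H k (-π), show -π + 2 * π = π by ring]
    unfold fc cm
    rw [Complex.real_smul]
    push_cast
    congr 1
    refine intervalIntegral.integral_congr fun s _ => ?_
    show fourier (-k) (s : AddCircle (2 * π)) • H (s : AddCircle (2 * π)) = _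
    rw [fourier_coe_apply, hH, smul_eq_mul]
    congr 2
    have hp : (π : ℂ) ≠ 0 := by exact_mod_cast Real.pi_ne_zero
    push_cast
    field_simp
  have hsum : Summable (fourierCoeff H) := by
    have h1 : Summable fun k : ℤ => M * (1 / |(k : ℝ)| ^ 2) := by
      refine Summable.mul_left M ?_
      have := Real.summable_one_div_int_pow (p := 2)
      simpa [sq_abs] using this.2 (by norm_num)
    rw [← Finset.summable_compl_iff {(0 : ℤ)}]
    refine Summable.of_norm_bounded
      (g := fun k : {k : ℤ // k ∉ ({0} : Finset ℤ)} => M * (1 / |((k : ℤ) : ℝ)| ^ 2))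
      (h1.subtype _) ?_
    rintro ⟨k, hk⟩
    have hk0 : k ≠ 0 := by simpa using hk
    have hk1 : 0 < |(k : ℝ)| := by
      rw [abs_pos]; exact_mod_cast hk0
    show ‖fourierCoeff H k‖ ≤ M * (1 / |(k : ℝ)| ^ 2)
    rw [hcoef, mul_one_div, le_div_iff₀ (by positivity), mul_comm]
    exact fc_decay hh hp k
  have h2 := has_pointwise_sum_fourier_series_of_summable hsum (t : AddCircle (2 * π))
  rw [hH] at h2
  refine h2.congr_fun fun k => ?_
  rw [hcoef, fourier_coe_apply, smul_eq_mul]
  congr 2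
  have hp : (π : ℂ) ≠ 0 := by exact_mod_cast Real.pi_ne_zero
  push_cast
  field_simp

end Vale.Agent.P071
end
end

section

/-!
# Harmonic functions with prescribed normal derivative, as series
-/

open scoped Topology Real ComplexConjugate
open Filter MeasureTheory Metric

noncomputable section

namespace Vale.Agent.P071

variable {p q : ℕ}

/-- The point `exp (i t)` of the circle. -/
def cir (t : ℝ) : ℂ := Complex.exp (t * Complex.I)

@[simp] theorem norm_cir (t : ℝ) : ‖cir t‖ = 1 := Complex.norm_exp_ofReal_mul_I t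

theorem cir_mem (t : ℝ) : cir t ∈ closedBall (0 : ℂ) 1 := by simp

theorem continuous_cir : Continuous cir := by unfold cir; fun_prop

theorem cir_periodic : Function.Periodic cir (2 * π) := by
  intro t
  unfold cir
  rw [Complex.exp_eq_exp_iff_exists_int]
  refine ⟨1, ?_⟩
  push_cast
  ring

theorem hasDerivAt_cir (t : ℝ) : HasDerivAt cir (Complex.I * cir t) t := by
  have h1 : HasDerivAt (fun t : ℝ => (t : ℂ) * Complex.I) Complex.I t := by
    have h2 : HasDerivAt (fun t : ℝ => (t : ℂ)) 1 t := Complex.ofRealCLM.hasDerivAt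
    simpa using h2.mul_const Complex.I
  have h3 := h1.cexp
  rw [mul_comm] at h3
  exact h3

theorem continuous_ev_cir (a : Y p) : Continuous fun t => ev a (cir t) :=
  (continuousOn_ev a).comp_continuous continuous_cir cir_mem

/-- The derivative along the circle. -/
theorem hasDerivAt_ev_cir (a : Y (p + 1)) (t : ℝ) :
    HasDerivAt (fun t => ev a (cir t)) (ev (Ang p a) (cir t)) t := by
  have h1 := hasFDerivWithinAt_ev a (norm_cir t).le
  have h2 : HasDerivWithinAt cir (Complex.I * cir t) Set.univ t :=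
    (hasDerivAt_cir t).hasDerivWithinAt
  have h3 := h1.comp_hasDerivWithinAt t h2 (fun s _ => cir_mem s)
  rw [hasDerivWithinAt_univ] at h3
  refine h3.congr_deriv ?_
  rw [evD_apply, ev_Ang a (norm_cir t).le]
  simp only [map_mul, Complex.conj_I]
  ring

theorem norm_Ang_le (a : Y (p + 1)) : ‖Ang p a‖ ≤ ‖a‖ := by
  refine ((Ang p).le_opNorm a).trans ?_
  calc _ ≤ 1 * ‖a‖ := by gcongr; exact norm_lift_le _ _ _ _
    _ = _ := one_mul _

/-- The restriction of a series to the circle has bounded derivatives. -/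
theorem BC_ev : ∀ (p : ℕ) (a : Y p), BC p ‖a‖ (fun t => ev a (cir t))
  | 0, a => ⟨continuous_ev_cir a, fun t => norm_ev_le a (norm_cir t).le⟩
  | p + 1, a => ⟨fun t => norm_ev_le a (norm_cir t).le, fun t => ev (Ang p a) (cir t),
      hasDerivAt_ev_cir a, (BC_ev p (Ang p a)).mono_const (norm_Ang_le a)⟩

/-- The mean value over the circle, as a functional on series. -/
def cmL (p : ℕ) : Y p →L[ℂ] ℂ :=
  LinearMap.mkContinuous
    { toFun := fun a => cm fun t => ev a (cir t)
      map_add' := fun a b => by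
        rw [← cm_add (continuous_ev_cir a) (continuous_ev_cir b)]
        congr 1
        funext t
        exact ev_add a b (norm_cir t).le
      map_smul' := fun c a => by
        simp only [ev_smul, RingHom.id_apply, smul_eq_mul]
        exact cm_const_mul c _ } 1 fun a => by
    rw [one_mul]
    exact norm_cm_le fun t => norm_ev_le a (norm_cir t).le

/-- The index of the `k`-th harmonic. -/
def hx (k : ℤ) : Ix := (k.toNat, (-k).toNat)

theorem conj_cir (t : ℝ) : conj (cir t) = Complex.exp (-(t * Complex.I)) := by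
  unfold cir
  rw [← Complex.exp_conj]
  congr 1
  simp

theorem mon_cir (i : Ix) (t : ℝ) :
    mon i (cir t) = Complex.exp ((((i.1 : ℤ) - (i.2 : ℤ) : ℤ) : ℂ) * t * Complex.I) := by
  unfold mon
  rw [conj_cir, cir, ← Complex.exp_nat_mul, ← Complex.exp_nat_mul, ← Complex.exp_add]
  congr 1
  push_cast
  ring

theorem cm_exp (k : ℤ) : cm (fun t => Complex.exp (k * t * Complex.I)) = if k = 0 then 1 else 0 := by
  by_cases hk : k = 0
  · subst hk
    rw [if_pos rfl]
    simpa using cm_const 1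
  · rw [if_neg hk]
    have hk' : (k : ℂ) ≠ 0 := by exact_mod_cast hk
    have h1 : ∀ t : ℝ, HasDerivAt (fun t : ℝ => (1 / (k * Complex.I)) *
        Complex.exp (k * t * Complex.I)) (Complex.exp (k * t * Complex.I)) t := by
      intro t
      have h2 : HasDerivAt (fun t : ℝ => (k : ℂ) * t * Complex.I) (k * Complex.I) t := by
        have h3 : HasDerivAt (fun t : ℝ => (t : ℂ)) 1 t := Complex.ofRealCLM.hasDerivAt
        have h4 := (h3.const_mul (k : ℂ)).mul_const Complex.I
        rw [mul_one] at h4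
        exact h4
      refine (h2.cexp.const_mul (1 / (k * Complex.I))).congr_deriv ?_
      field_simp
    have h2 : Function.Periodic (fun t : ℝ => (1 / (k * Complex.I)) *
        Complex.exp (k * t * Complex.I)) (2 * π) := by
      intro t
      have h3 := exp_periodic (-k) t
      simp only [Int.cast_neg, neg_mul, neg_neg] at h3
      show (1 / (k * Complex.I)) * Complex.exp (k * ((t + 2 * π : ℝ) : ℂ) * Complex.I) = _
      rw [h3]
    exact cm_deriv h2 h1 (by fun_prop)

/-- `Bd` is the mean value over the circle. -/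
theorem Bd_eq_cm (a : Y p) : Bd p a = cm fun t => ev a (cir t) := by
  have : Bd p = cmL p := Y.clm_ext fun i => by
    show Bd p (e p i) = cm fun t => ev (e p i) (cir t)
    simp only [ev_e, mon_cir, Bd_e, cm_exp]
    by_cases h : i.1 = i.2
    · rw [if_pos h, if_pos]
      omega
    · rw [if_neg h, if_neg]
      omega
  rw [this]
  rfl

theorem wt_hx (q : ℕ) (k : ℤ) : wt q (hx k) = (1 + |(k : ℝ)|) ^ q := by
  unfold wt hx
  congr 1
  have h1 : ((k.toNat : ℝ)) + ((-k).toNat : ℝ) = |(k : ℝ)| := by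
    have h2 : (k.toNat : ℤ) + ((-k).toNat : ℤ) = |k| := by
      rcases le_total k 0 with h | h
      · rw [abs_of_nonpos h]; omega
      · rw [abs_of_nonneg h]; omega
    have h3 := congrArg (fun n : ℤ => (n : ℝ)) h2
    simp only [Int.cast_add, Int.cast_natCast, Int.cast_abs] at h3
    exact h3
  simp only
  rw [add_assoc, h1]

theorem swap_hx (k : ℤ) : (hx k).swap = hx (-k) := by
  unfold hx
  rw [neg_neg]
  rfl

theorem mon_hx (k : ℤ) (t : ℝ) : mon (hx k) (cir t) = Complex.exp (k * t * Complex.I) := by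
  rw [mon_cir]
  have h : ((hx k).1 : ℤ) - ((hx k).2 : ℤ) = k := by unfold hx; simp only; omega
  rw [h]

/-- The `k`-th term of the harmonic function with normal derivative `h`. -/
def neuT (q : ℕ) (h : ℝ → ℂ) (k : ℤ) : Y q := (fc h k / ((|(k : ℝ)| : ℝ) : ℂ)) • e q (hx k)

/-- The harmonic function with normal derivative `h` (minus its mean value) and mean value `0`. -/
def Neu (q : ℕ) (h : ℝ → ℂ) : Y q := ∑' k : ℤ, neuT q h k

theorem norm_neuT_le {h : ℝ → ℂ} {M : ℝ} {k : ℤ} (hk : |(k : ℝ)| ^ (q + 1) * ‖fc h k‖ ≤ M) :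
    ‖neuT q h k‖ ≤ 2 ^ q * M * (1 / (k : ℝ) ^ 2) := by
  unfold neuT
  by_cases h0 : k = 0
  · subst h0
    simp
  have h1 : 1 ≤ |(k : ℝ)| := by
    have : 1 ≤ |k| := Int.one_le_abs h0
    exact_mod_cast this
  have hM : 0 ≤ M := le_trans (by positivity) hk
  rw [norm_smul, norm_e, norm_div, Complex.norm_real, Real.norm_eq_abs, abs_abs, wt_hx]
  have h2 : (1 + |(k : ℝ)|) ^ q ≤ (2 * |(k : ℝ)|) ^ q := by
    refine pow_le_pow_left₀ (by positivity) (by linarith) q
  have h3 : 0 < |(k : ℝ)| := by linarith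
  rw [← sq_abs (k : ℝ), mul_one_div, le_div_iff₀ (by positivity)]
  calc ‖fc h k‖ / |(k : ℝ)| * (1 + |(k : ℝ)|) ^ q * |(k : ℝ)| ^ 2
      ≤ ‖fc h k‖ / |(k : ℝ)| * (2 * |(k : ℝ)|) ^ q * |(k : ℝ)| ^ 2 := by gcongr
    _ = 2 ^ q * (|(k : ℝ)| ^ (q + 1) * ‖fc h k‖) := by
      rw [mul_pow]
      field_simp
      ring
    _ ≤ 2 ^ q * M := by gcongr

theorem summable_int_sq : Summable fun k : ℤ => 1 / (k : ℝ) ^ 2 :=
  Real.summable_one_div_int_pow.2 (by norm_num)

theorem summable_neuT {h : ℝ → ℂ} {M : ℝ} (hk : ∀ k : ℤ, |(k : ℝ)| ^ (q + 1) * ‖fc h k‖ ≤ M) :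
    Summable (neuT q h) :=
  Summable.of_norm_bounded (summable_int_sq.mul_left (2 ^ q * M)) fun k => norm_neuT_le (hk k)

theorem BC.summable_neuT {h : ℝ → ℂ} {M : ℝ} (hh : BC (q + 1) M h)
    (hp : Function.Periodic h (2 * π)) : Summable (neuT q h) :=
  Vale.Agent.P071.summable_neuT fun k => fc_decay hh hp k

theorem BC.hasSum_neu {h : ℝ → ℂ} {M : ℝ} (hh : BC (q + 1) M h)
    (hp : Function.Periodic h (2 * π)) : HasSum (neuT q h) (Neu q h) :=
  (hh.summable_neuT hp).hasSum

/-- A functional vanishing on all terms vanishes. -/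
theorem clm_Neu_eq_zero {F : Type*} [NormedAddCommGroup F] [NormedSpace ℂ F] (T : Y q →L[ℂ] F)
    {h : ℝ → ℂ} {M : ℝ} (hh : BC (q + 1) M h) (hp : Function.Periodic h (2 * π))
    (hT : ∀ k : ℤ, k ≠ 0 → T (e q (hx k)) = 0) : T (Neu q h) = 0 := by
  unfold Neu
  rw [T.map_tsum (hh.summable_neuT hp)]
  rw [← tsum_zero (β := ℤ)]
  refine tsum_congr fun k => ?_
  unfold neuT
  rw [map_smul]
  by_cases hk : k = 0
  · subst hk; simp
  · rw [hT k hk, smul_zero]

theorem lap_hx (k : ℤ) : lap p (e (p + 1 + 1) (hx k)) = 0 := by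
  rw [lap_apply, dzb_e, map_smul, dz_e, smul_smul, smul_smul]
  have : ((hx k).2 : ℂ) = 0 ∨ ((hx k).1 : ℂ) = 0 := by
    unfold hx
    simp only [Nat.cast_eq_zero]
    omega
  rcases this with h | h
  · rw [h]; simp
  · simp only [h]; simp

theorem lap_Neu {h : ℝ → ℂ} {M : ℝ} (hh : BC (p + 1 + 1 + 1) M h)
    (hp : Function.Periodic h (2 * π)) : lap p (Neu (p + 1 + 1) h) = 0 :=
  clm_Neu_eq_zero _ hh hp fun k _ => lap_hx k

theorem Rad_neuT (h : ℝ → ℂ) {k : ℤ} (hk : k ≠ 0) :
    Rad q (neuT (q + 1) h k) = fc h k • e q (hx k) := by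
  unfold neuT
  rw [map_smul, Rad_e, smul_smul]
  congr 1
  have h1 : ((hx k).1 : ℂ) + ((hx k).2 : ℂ) = ((|(k : ℝ)| : ℝ) : ℂ) := by
    have h2 := wt_hx 1 k
    unfold wt at h2
    rw [pow_one, pow_one] at h2
    have h3 : ((hx k).1 : ℝ) + ((hx k).2 : ℝ) = |(k : ℝ)| := by linarith
    rw [← h3]
    push_cast
    rfl
  rw [h1]
  have h4 : ((|(k : ℝ)| : ℝ) : ℂ) ≠ 0 := by
    rw [Complex.ofReal_ne_zero, abs_ne_zero]
    exact_mod_cast hk
  field_simp

/-- The normal derivative. -/
theorem ev_Rad_Neu {h : ℝ → ℂ} {M : ℝ} (hh : BC (q + 1 + 1) M h)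
    (hp : Function.Periodic h (2 * π)) (t : ℝ) :
    ev (Rad q (Neu (q + 1) h)) (cir t) = h t - cm h := by
  have h1 : HasSum (fun k : ℤ => ev (Rad q (neuT (q + 1) h k)) (cir t))
      (ev (Rad q (Neu (q + 1) h)) (cir t)) := by
    have := (hh.hasSum_neu hp).mapL ((evL q (cir t) (norm_cir t).le).comp (Rad q))
    exact this
  have h2 := hasSum_fc (hh.mono (by omega : 2 ≤ q + 1 + 1)) hp t
  have h3 : HasSum (fun k : ℤ => if k = 0 then fc h 0 else 0) (fc h 0) := by
    have := hasSum_ite_eq (0 : ℤ) (fc h 0)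
    exact this
  have h4 := h2.sub h3
  rw [fc_zero h] at h4
  refine h1.unique (h4.congr_fun fun k => ?_)
  by_cases hk : k = 0
  · subst hk
    unfold neuT
    simp [fc_zero]
  · rw [Rad_neuT h hk, ev_smul, ev_e, mon_hx, if_neg hk, sub_zero]

theorem cj_neuT (h : ℝ → ℂ) (k : ℤ) : cj (neuT q h k) = neuT q (fun t => conj (h t)) (-k) := by
  unfold neuT
  rw [cj_smul, cj_e, swap_hx, fc_conj, neg_neg]
  congr 1
  rw [map_div₀, Complex.conj_ofReal]
  congr 2
  push_cast
  rw [abs_neg]

theorem cj_Neu {h : ℝ → ℂ} {M : ℝ} (hh : BC (q + 1) M h) (hp : Function.Periodic h (2 * π)) :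
    cj (Neu q h) = Neu q (fun t => conj (h t)) := by
  have h1 : HasSum (fun k : ℤ => cjL q (neuT q h k)) (cjL q (Neu q h)) :=
    (hh.hasSum_neu hp).mapL (cjL q)
  have h2 : (fun k : ℤ => cjL q (neuT q h k)) =
      (neuT q (fun t => conj (h t))) ∘ (Equiv.neg ℤ) := by
    funext k
    rw [cjL_apply, cj_neuT]
    rfl
  rw [h2, (Equiv.neg ℤ).hasSum_iff, cjL_apply] at h1
  exact h1.tsum_eq.symm

/-- Green's identity for harmonic monomials. -/
theorem Dir_hx (a : Y (p + 1)) (k : ℤ) :
    Dir p a (e (p + 1) (hx k)) = 2 * Bd p (incl (Nat.le_succ p) a * Rad p (e (p + 1) (hx k))) := by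
  have : (DirL p).flip (e (p + 1) (hx k)) = (2 : ℂ) • (radL p).flip (e (p + 1) (hx k)) :=
    Y.clm_ext fun i => by
      show Dir p (e (p + 1) i) (e (p + 1) (hx k)) =
        2 * Bd p (incl (Nat.le_succ p) (e (p + 1) i) * Rad p (e (p + 1) (hx k)))
      rw [Dir_e, incl_e, Rad_e, ser_mul_smul, e_mul_e, map_smul, Bd_e, smul_eq_mul, Prod.fst_add,
        Prod.snd_add]
      by_cases h : i.1 + (hx k).1 = i.2 + (hx k).2
      · rw [if_pos h, if_pos h, mul_one]
        have hc : (i.1 : ℂ) + (hx k).1 = i.2 + (hx k).2 := by exact_mod_cast h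
        rcases le_total 0 k with hk | hk
        · have h1 : (hx k).2 = 0 := by unfold hx; simp only; omega
          rw [h1] at hc h ⊢
          by_cases h0 : i.2 = 0
          · have h2 : (hx k).1 = 0 := by omega
            rw [h2]; simp
          · have h3 : (i.2 : ℂ) ≠ 0 := by exact_mod_cast h0
            rw [hc]
            simp only [Nat.cast_zero, mul_zero, add_zero, zero_add]
            field_simp
        · have h1 : (hx k).1 = 0 := by unfold hx; simp only; omega
          rw [h1] at hc h ⊢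
          by_cases h0 : i.1 = 0
          · have h2 : (hx k).2 = 0 := by omega
            rw [h2]; simp
          · have h3 : (i.1 : ℂ) ≠ 0 := by exact_mod_cast h0
            simp only [Nat.cast_zero, mul_zero, add_zero, zero_add]
            field_simp
      · rw [if_neg h, if_neg h]
        ring
  exact congrArg (fun T : Y (p + 1) →L[ℂ] ℂ => T a) this

/-- Green's identity for the source operator. -/
theorem Dir_Neu (a : Y (p + 1)) {h : ℝ → ℂ} {M : ℝ} (hh : BC (p + 1 + 1) M h)
    (hp : Function.Periodic h (2 * π)) :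
    Dir p a (Neu (p + 1) h) = 2 * Bd p (incl (Nat.le_succ p) a * Rad p (Neu (p + 1) h)) := by
  have h0 : ∀ k : ℤ, k ≠ 0 → (DirL p a - (2 : ℂ) • radL p a) (e (p + 1) (hx k)) = 0 := by
    intro k _
    show Dir p a (e (p + 1) (hx k)) -
      2 * Bd p (incl (Nat.le_succ p) a * Rad p (e (p + 1) (hx k))) = 0
    rw [Dir_hx a k, sub_self]
  have h1 := clm_Neu_eq_zero (DirL p a - (2 : ℂ) • radL p a) hh hp h0
  exact sub_eq_zero.1 h1

/-- Green's identity for the source operator, as an integral over the circle. -/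
theorem Dir_Neu_cm (a : Y (p + 1)) {h : ℝ → ℂ} {M : ℝ} (hh : BC (p + 1 + 1) M h)
    (hp : Function.Periodic h (2 * π)) :
    Dir p a (Neu (p + 1) h) = 2 * cm fun t => ev a (cir t) * (h t - cm h) := by
  rw [Dir_Neu a hh hp, Bd_eq_cm]
  congr 2
  funext t
  rw [ev_mul _ _ (norm_cir t).le, ev_incl, ev_Rad_Neu hh hp]

/-- Sequential continuity of the source operator. -/
theorem tendsto_Neu {hs : ℕ → ℝ → ℂ} {h : ℝ → ℂ} {M : ℝ} (hb : ∀ j, BC (q + 1) M (hs j))
    (hp : ∀ j, Function.Periodic (hs j) (2 * π))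
    (hlim : ∀ t, Tendsto (fun j => hs j t) atTop (𝓝 (h t))) :
    Tendsto (fun j => Neu q (hs j)) atTop (𝓝 (Neu q h)) := by
  have h1 : ∀ k : ℤ, Tendsto (fun j => fc (hs j) k) atTop (𝓝 (fc h k)) := fun k =>
    tendsto_fc (fun j => (hb j).continuous) (fun j => (hb j).bound) hlim k
  unfold Neu
  refine tendsto_tsum_of_dominated_convergence (bound := fun k : ℤ => 2 ^ q * M * (1 / (k : ℝ) ^ 2))
    (summable_int_sq.mul_left _) (fun k => ?_) ?_
  · unfold neuT
    exact ((h1 k).div_const _).smul_const _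
  · exact Eventually.of_forall fun j k => norm_neuT_le (fc_decay (hb j) (hp j) k)

end Vale.Agent.P071
end
end

section

/-!
# The ring of series; positivity of the mean value
-/

open scoped ComplexConjugate Topology Real
open Metric Filter MeasureTheory Set

noncomputable section

namespace Vale.Agent.P071.B0

variable {p q : ℕ}

/-- The commutative ring structure on the series (use as a local instance). -/
@[reducible] def serRing (p : ℕ) : CommRing (Y p) :=
  { (inferInstance : AddCommGroup (Y p)) with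
    mul := fun a b => a * b
    one := one1 p
    left_distrib := ser_mul_add
    right_distrib := ser_add_mul
    zero_mul := ser_zero_mul
    mul_zero := ser_mul_zero
    mul_assoc := ser_mul_assoc
    one_mul := one1_mul
    mul_one := mul_one1
    mul_comm := ser_mul_comm }

attribute [local instance] serRing

theorem one_eq : (1 : Y p) = one1 p := rfl

theorem ser_smul_eq (c : ℂ) (a : Y p) : c • a = (c • one1 p) * a := by
  rw [ser_smul_mul, one1_mul]

theorem ev_im_eq_zero {a : Y p} (h : cj a = a) (z : ℂ) : (ev a z).im = 0 := by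
  have h1 := ev_cj a z
  rw [h] at h1
  exact Complex.conj_eq_iff_im.1 h1.symm

theorem ev_eq_re {a : Y p} (h : cj a = a) (z : ℂ) : ev a z = ((ev a z).re : ℂ) := by
  apply Complex.ext
  · simp
  · simp [ev_im_eq_zero h z]

theorem I_re_eq (a : Y p) : (I p a).re = (∫ z in ball (0 : ℂ) 1, (ev a z).re) / π := by
  rw [I_eq_integral]
  have h : (∫ z in ball (0 : ℂ) 1, ev a z).re = ∫ z in ball (0 : ℂ) 1, (ev a z).re := by
    have := integral_re (𝕜 := ℂ) (integrableOn_ev a)
    simpa using this.symm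
  rw [← h, Complex.div_ofReal_re]

theorem integrableOn_ev_re (a : Y p) : IntegrableOn (fun z => (ev a z).re) (ball 0 1) :=
  (integrableOn_ev a).re

/-- Positivity of the mean value. -/
theorem I_re_nonneg {a : Y p} (h : ∀ z, ‖z‖ < 1 → 0 ≤ (ev a z).re) : 0 ≤ (I p a).re := by
  rw [I_re_eq]
  refine div_nonneg ?_ Real.pi_pos.le
  exact setIntegral_nonneg measurableSet_ball fun z hz => h z (mem_ball_zero_iff.1 hz)

theorem I_re_mono {a b : Y p} (h : ∀ z, ‖z‖ < 1 → (ev a z).re ≤ (ev b z).re) :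
    (I p a).re ≤ (I p b).re := by
  have := I_re_nonneg (a := b - a) fun z hz => by
    rw [ev_sub _ _ hz.le, Complex.sub_re]
    linarith [h z hz]
  rw [map_sub, Complex.sub_re] at this
  linarith

/-- Comparison of mean values of series of different levels. -/
theorem I_re_mono' {a : Y p} {b : Y q} (h : ∀ z, ‖z‖ < 1 → (ev a z).re ≤ (ev b z).re) :
    (I p a).re ≤ (I q b).re := by
  rw [I_re_eq, I_re_eq]
  refine div_le_div_of_nonneg_right ?_ Real.pi_pos.le
  exact setIntegral_mono_on (integrableOn_ev_re a) (integrableOn_ev_re b) measurableSet_ball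
    fun z hz => h z (mem_ball_zero_iff.1 hz)

theorem I_congr_ev {a : Y p} {b : Y q} (h : ∀ z, ‖z‖ < 1 → ev a z = ev b z) : I p a = I q b := by
  rw [I_eq_integral, I_eq_integral]
  congr 1
  exact setIntegral_congr_fun measurableSet_ball fun z hz => h z (mem_ball_zero_iff.1 hz)

/-- The circle mean vanishes if the function vanishes on the circle. -/
theorem Bd_eq_zero {a : Y p} (h : ∀ z, ‖z‖ = 1 → ev a z = 0) : Bd p a = 0 := by
  rw [Bd_eq_integral]
  have : ∫ θ in (-π)..π, ev a (Complex.exp (θ * Complex.I)) = ∫ _θ in (-π)..π, (0 : ℂ) :=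
    intervalIntegral.integral_congr fun θ _ => h _ (Complex.norm_exp_ofReal_mul_I θ)
  rw [this]
  simp

end Vale.Agent.P071.B0
end
end

section

/-!
# Angular modes of the series
-/

open scoped ComplexConjugate Topology Real
open Metric Filter MeasureTheory Set

noncomputable section

namespace Vale.Agent.P071.B0

variable {p q : ℕ}

attribute [local instance] serRing

/-- The angular order of a monomial. -/
def ord (i : Ix) : ℤ := (i.1 : ℤ) - i.2

theorem ord_add (i j : Ix) : ord (i + j) = ord i + ord j := by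
  simp [ord]; ring

@[simp] theorem ord_swap (i : Ix) : ord i.swap = -ord i := by
  simp [ord]

theorem ord_eq_zero {i : Ix} : ord i = 0 ↔ i.1 = i.2 := by
  simp only [ord]
  omega

/-- Projection on the modes in `s`. -/
def Pr (p : ℕ) (s : ℤ → Prop) [DecidablePred s] : Y p →L[ℂ] Y p :=
  lift (fun i => if s (ord i) then e p i else 0) 1 zero_le_one fun i => by
    split_ifs
    · rw [norm_e, one_mul]
    · rw [norm_zero, one_mul]; exact (wt_pos p i).le

section

variable (s t : ℤ → Prop) [DecidablePred s] [DecidablePred t]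

@[simp] theorem Pr_e (i : Ix) : Pr p s (e p i) = if s (ord i) then e p i else 0 := lift_e _ _ _ _ _

theorem cf_Pr (a : Y p) (i : Ix) : cf (Pr p s a) i = if s (ord i) then cf a i else 0 := by
  have : (cfL p i).comp (Pr p s) = if s (ord i) then cfL p i else 0 := Y.clm_ext fun j => by
    rw [ContinuousLinearMap.comp_apply, Pr_e]
    by_cases h : i = j
    · subst h
      split_ifs <;> simp
    · by_cases h1 : s (ord i) <;> by_cases h2 : s (ord j) <;> simp [h1, h2, cf_e, h]
  have h2 := congrArg (fun T : Y p →L[ℂ] ℂ => T a) this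
  simp only [ContinuousLinearMap.comp_apply, cfL_apply] at h2
  rw [h2]
  split_ifs <;> simp

theorem Pr_Pr (a : Y p) : Pr p s (Pr p s a) = Pr p s a := by
  ext i
  simp only [cf_Pr]
  split_ifs <;> rfl

theorem Pr_Pr_of_disj (h : ∀ k, s k → ¬ t k) (a : Y p) : Pr p s (Pr p t a) = 0 := by
  ext i
  simp only [cf_Pr, cf_zero]
  split_ifs with h1 h2
  · exact absurd h2 (h _ h1)
  · rfl
  · rfl

theorem cj_Pr_of_even (hs : ∀ k, s (-k) ↔ s k) (a : Y p) : cj (Pr p s a) = Pr p s (cj a) := by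
  ext i
  simp only [cf_Pr, cf_cj, ord_swap, hs]
  split_ifs <;> simp

/-- Radial series. -/
def IsRad (w : Y p) : Prop := Pr p (fun k => k = 0) w = w

theorem isRad_of_cf {w : Y p} (h : ∀ i : Ix, i.1 ≠ i.2 → Vale.Agent.P071.cf w i = 0) : IsRad w := by
  unfold IsRad
  ext i
  rw [cf_Pr]
  split_ifs with h1
  · rfl
  · rw [h i (fun h2 => h1 (ord_eq_zero.2 h2))]

theorem Pr_mul_rad_aux (w a : Y p) : Pr p s (Pr p (fun k => k = 0) w * a) =
    Pr p (fun k => k = 0) w * Pr p s a := by
  have : (ContinuousLinearMap.compL ℂ (Y p) (Y p) (Y p) (Pr p s)) ∘L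
      ((mulL p).bilinearComp (Pr p (fun k => k = 0)) (ContinuousLinearMap.id ℂ _)) =
      (mulL p).bilinearComp (Pr p (fun k => k = 0)) (Pr p s) :=
    Y.clm_ext₂ fun i j => by
      show Pr p s (Pr p (fun k => k = 0) (e p i) * e p j) =
        Pr p (fun k => k = 0) (e p i) * Pr p s (e p j)
      rw [Pr_e, Pr_e]
      by_cases h : ord i = 0
      · rw [if_pos h, e_mul_e, Pr_e, ord_add, h, zero_add]
        split_ifs
        · rw [e_mul_e]
        · rw [ser_mul_zero]
      · rw [if_neg h, ser_zero_mul, ser_zero_mul, map_zero]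
  exact congrArg (fun T : Y p →L[ℂ] Y p →L[ℂ] Y p => T w a) this

theorem Pr_rad_mul {w : Y p} (hw : IsRad w) (a : Y p) : Pr p s (w * a) = w * Pr p s a := by
  have := Pr_mul_rad_aux s w a
  rwa [hw] at this

theorem I_Pr_mul (a b : Y p) : I p (Pr p s a * b) = I p (a * Pr p (fun k => s (-k)) b) := by
  have : (ContinuousLinearMap.compL ℂ (Y p) (Y p) ℂ (I p)) ∘L
      ((mulL p).bilinearComp (Pr p s) (ContinuousLinearMap.id ℂ _)) =
      (ContinuousLinearMap.compL ℂ (Y p) (Y p) ℂ (I p)) ∘L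
      ((mulL p).bilinearComp (ContinuousLinearMap.id ℂ _) (Pr p (fun k => s (-k)))) :=
    Y.clm_ext₂ fun i j => by
      show I p (Pr p s (e p i) * e p j) = I p (e p i * Pr p (fun k => s (-k)) (e p j))
      rw [Pr_e, Pr_e]
      by_cases h : ord i + ord j = 0
      · have h2 : -ord j = ord i := by omega
        rw [h2]
        split_ifs <;> simp
      · have h2 : ¬ (i.1 + j.1 = i.2 + j.2) := by
          rw [← ord_add, ord_eq_zero] at h
          exact h
        split_ifs <;> simp [h2]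
  exact congrArg (fun T : Y p →L[ℂ] Y p →L[ℂ] ℂ => T a b) this

theorem Dir_Pr (a b : Y (p + 1)) : Dir p (Pr (p + 1) s a) b =
    Dir p a (Pr (p + 1) (fun k => s (-k)) b) := by
  have : (DirL p).bilinearComp (Pr (p + 1) s) (ContinuousLinearMap.id ℂ _) =
      (DirL p).bilinearComp (ContinuousLinearMap.id ℂ _) (Pr (p + 1) (fun k => s (-k))) :=
    Y.clm_ext₂ fun i j => by
      show Dir p (Pr (p + 1) s (e (p + 1) i)) (e (p + 1) j) =
        Dir p (e (p + 1) i) (Pr (p + 1) (fun k => s (-k)) (e (p + 1) j))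
      rw [Pr_e, Pr_e]
      by_cases h : ord i + ord j = 0
      · have h2 : -ord j = ord i := by omega
        rw [h2]
        split_ifs
        · rfl
        · rw [← DirL_apply, ← DirL_apply, map_zero, map_zero]; rfl
      · have h2 : ¬ (i.1 + j.1 = i.2 + j.2) := by
          rw [← ord_add, ord_eq_zero] at h
          exact h
        have h3 : Dir p (e (p + 1) i) (e (p + 1) j) = 0 := by rw [Dir_e, if_neg h2]
        split_ifs <;> simp only [h3, ← DirL_apply, map_zero, zero_apply]
  exact congrArg (fun T : Y (p + 1) →L[ℂ] Y (p + 1) →L[ℂ] ℂ => T a b) this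

end

end Vale.Agent.P071.B0
end
end
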