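import Vale.Agent.P071.MathlibUsed

set_option linter.all false

section

/-!
# P071: Lipschitz planar domains have uniformly small boundary tails

`lip_tails`: for a bounded open Lipschitz set `Ω ⊆ ℂ` and `ε > 0` there is a compact `K ⊆ Ω` with
`∫_{Ω \ K} g² ≤ ε (∫_Ω g² + ∫_Ω |∇ g|²)` for every `C¹` function `g` on `Ω`.
-/

open MeasureTheory Set Metric Filter Topology
open scoped ENNReal NNReal ComplexConjugate

namespace Vale.P071

/-- Planar sets with Lipschitz boundary: near each boundary point the set is, after a rigid motion,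
the region above the graph of a Lipschitz function. -/
def IsLipschitzDomain (Ω : Set ℂ) : Prop :=
  ∀ p ∈ frontier Ω, ∃ (e : ℂ) (r : ℝ) (L : ℝ≥0) (h : ℝ → ℝ),
    ‖e‖ = 1 ∧ 0 < r ∧ LipschitzWith L h ∧
      ∀ z ∈ ball p r, z ∈ Ω ↔ h ((conj e * (z - p)).re) < (conj e * (z - p)).im

/-- The squared length of the gradient. -/
noncomputable def gradSq (g : ℂ → ℝ) (z : ℂ) : ℝ :=
  (fderiv ℝ g z 1) ^ 2 + (fderiv ℝ g z Complex.I) ^ 2

lemma gradSq_nonneg (g : ℂ → ℝ) (z : ℂ) : 0 ≤ gradSq g z := by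
  unfold gradSq; (clear * -; positivity)

/-- directional derivative bound -/
lemma fderiv_sq_le_gradSq (g : ℂ → ℝ) (z v : ℂ) (hv : ‖v‖ = 1) :
    (fderiv ℝ g z v) ^ 2 ≤ gradSq g z := by
  have h1 : v = v.re • (1 : ℂ) + v.im • Complex.I := by simp only [Complex.real_smul, mul_one, Complex.re_add_im]
  have h2 : fderiv ℝ g z v = v.re * fderiv ℝ g z 1 + v.im * fderiv ℝ g z Complex.I := by
    calc fderiv ℝ g z v = fderiv ℝ g z (v.re • (1 : ℂ) + v.im • Complex.I) := by rw [← h1]
      _ = v.re * fderiv ℝ g z 1 + v.im * fderiv ℝ g z Complex.I := by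
        rw [map_add, map_smul, map_smul, smul_eq_mul, smul_eq_mul]
  have h3 : v.re ^ 2 + v.im ^ 2 = 1 := by
    have := Complex.sq_norm v
    rw [hv, Complex.normSq_apply] at this
    linarith
  rw [h2]
  unfold gradSq
  nlinarith only [h3, sq_nonneg (v.re * fderiv ℝ g z Complex.I - v.im * fderiv ℝ g z 1)]

/-- Cauchy–Schwarz on an interval. -/
lemma sq_intervalIntegral_le {φ : ℝ → ℝ} {t : ℝ} (ht : 0 ≤ t) (hφ : ContinuousOn φ (Icc 0 t)) :
    (∫ τ in (0:ℝ)..t, φ τ) ^ 2 ≤ t * ∫ τ in (0:ℝ)..t, (φ τ) ^ 2 := by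
  rcases ht.eq_or_lt with rfl | ht'
  · simp
  set a := ∫ τ in (0:ℝ)..t, φ τ with ha
  have hu : uIcc 0 t = Icc 0 t := uIcc_of_le ht
  have i1 : IntervalIntegrable φ volume 0 t := by
    apply ContinuousOn.intervalIntegrable; rwa [hu]
  have i2 : IntervalIntegrable (fun τ => (φ τ) ^ 2) volume 0 t := by
    apply ContinuousOn.intervalIntegrable; rw [hu]; exact hφ.pow 2
  have h0 : 0 ≤ ∫ τ in (0:ℝ)..t, (t * φ τ - a) ^ 2 :=
    intervalIntegral.integral_nonneg ht fun x _ => sq_nonneg _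
  have h1 : ∫ τ in (0:ℝ)..t, (t * φ τ - a) ^ 2
      = t ^ 2 * (∫ τ in (0:ℝ)..t, (φ τ) ^ 2) - 2 * t * a * a + a ^ 2 * t := by
    have e1 : ∀ τ, (t * φ τ - a) ^ 2 = t ^ 2 * (φ τ) ^ 2 - 2 * t * a * φ τ + a ^ 2 := by
      intro τ; ring
    simp_rw [e1]
    rw [intervalIntegral.integral_add, intervalIntegral.integral_sub,
      intervalIntegral.integral_const_mul, intervalIntegral.integral_const_mul]
    · simp only [ha, intervalIntegral.integral_const, sub_zero, smul_eq_mul, add_right_inj]; ring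
    · exact i2.const_mul _
    · exact i1.const_mul _
    · exact (i2.const_mul _).sub (i1.const_mul _)
    · exact intervalIntegrable_const
  rw [h1] at h0
  have h2 : 0 ≤ t * (t * (∫ τ in (0:ℝ)..t, (φ τ) ^ 2) - a ^ 2) := by nlinarith only [h0]
  have h3 := nonneg_of_mul_nonneg_right h2 ht'
  linarith only [h3]

/-- the pointwise one-dimensional estimate, real form -/
lemma pointwise_real {Ω : Set ℂ} (hΩ : IsOpen Ω) {g : ℂ → ℝ} (hg : ContDiffOn ℝ 1 g Ω)
    {z v : ℂ} (hv : ‖v‖ = 1) {ρ : ℝ} (hρ : 0 < ρ)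
    (hsub : ∀ t ∈ Icc (0:ℝ) ρ, z + t * v ∈ Ω) :
    (g z) ^ 2 ≤ (2 / ρ) * (∫ t in (0:ℝ)..ρ, (g (z + t * v)) ^ 2)
      + (2 * ρ) * ∫ t in (0:ℝ)..ρ, gradSq g (z + t * v) := by
  have hcγ : Continuous (fun t : ℝ => z + (t : ℂ) * v) := by fun_prop
  have hcg : ContinuousOn (fun t : ℝ => g (z + t * v)) (Icc 0 ρ) :=
    hg.continuousOn.comp hcγ.continuousOn hsub
  have hfd : ContinuousOn (fderiv ℝ g) Ω := hg.continuousOn_fderiv_of_isOpen hΩ le_rfl
  have hcfd : ContinuousOn (fun t : ℝ => fderiv ℝ g (z + t * v)) (Icc 0 ρ) :=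
    hfd.comp hcγ.continuousOn hsub
  have hcD : ContinuousOn (fun t : ℝ => fderiv ℝ g (z + t * v) v) (Icc 0 ρ) :=
    hcfd.clm_apply continuousOn_const
  have hcG : ContinuousOn (fun t : ℝ => gradSq g (z + t * v)) (Icc 0 ρ) := by
    unfold gradSq
    exact ((hcfd.clm_apply continuousOn_const).pow 2).add
      ((hcfd.clm_apply continuousOn_const).pow 2)
  set A := ∫ t in (0:ℝ)..ρ, gradSq g (z + t * v) with hA
  have hu : uIcc 0 ρ = Icc 0 ρ := uIcc_of_le hρ.le
  have iG : IntervalIntegrable (fun t : ℝ => gradSq g (z + t * v)) volume 0 ρ := by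
    apply ContinuousOn.intervalIntegrable; rwa [hu]
  have ig : IntervalIntegrable (fun t : ℝ => (g (z + t * v)) ^ 2) volume 0 ρ := by
    apply ContinuousOn.intervalIntegrable; rw [hu]; exact hcg.pow 2
  -- pointwise in t
  have key : ∀ t ∈ Icc (0:ℝ) ρ, (g z) ^ 2 ≤ 2 * (g (z + t * v)) ^ 2 + 2 * ρ * A := by
    intro t ht
    have hsubt : Icc 0 t ⊆ Icc 0 ρ := Icc_subset_Icc le_rfl ht.2
    have hut : uIcc 0 t = Icc 0 t := uIcc_of_le ht.1
    have hftc : ∫ τ in (0:ℝ)..t, fderiv ℝ g (z + τ * v) v = g (z + t * v) - g z := by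
      have := intervalIntegral.integral_eq_sub_of_hasDerivAt
        (f := fun τ : ℝ => g (z + τ * v)) (f' := fun τ : ℝ => fderiv ℝ g (z + τ * v) v)
        (a := 0) (b := t) ?_ ?_
      · simpa only [Complex.ofReal_zero, zero_mul, add_zero] using this
      · intro τ hτ
        rw [hut] at hτ
        have hmem := hsub τ (hsubt hτ)
        have hd : HasFDerivAt g (fderiv ℝ g (z + τ * v)) (z + τ * v) :=
          ((hg.differentiableOn (by norm_num)).differentiableAt (hΩ.mem_nhds hmem)).hasFDerivAt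
        have hγ : HasDerivAt (fun τ : ℝ => z + (τ : ℂ) * v) v τ := by
          have h1 : HasDerivAt (fun τ : ℝ => (τ : ℂ)) 1 τ := Complex.ofRealCLM.hasDerivAt
          simpa using (h1.mul_const v).const_add z
        exact hd.comp_hasDerivAt τ hγ
      · apply ContinuousOn.intervalIntegrable; rw [hut]; exact hcD.mono hsubt
    have hcs := sq_intervalIntegral_le (φ := fun τ : ℝ => fderiv ℝ g (z + τ * v) v) ht.1
      (hcD.mono hsubt)
    rw [hftc] at hcs
    have hle : ∫ τ in (0:ℝ)..t, (fderiv ℝ g (z + τ * v) v) ^ 2 ≤ A := by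
      calc ∫ τ in (0:ℝ)..t, (fderiv ℝ g (z + τ * v) v) ^ 2
          ≤ ∫ τ in (0:ℝ)..t, gradSq g (z + τ * v) := by
            apply intervalIntegral.integral_mono_on ht.1
            · apply ContinuousOn.intervalIntegrable; rw [hut]; exact (hcD.mono hsubt).pow 2
            · apply ContinuousOn.intervalIntegrable; rw [hut]; exact hcG.mono hsubt
            · intro τ _; exact fderiv_sq_le_gradSq g _ v hv
        _ ≤ A := by
            apply intervalIntegral.integral_mono_interval le_rfl ht.1 ht.2 _ iG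
            exact Eventually.of_forall fun τ => gradSq_nonneg g _
    have hA0 : 0 ≤ ∫ τ in (0:ℝ)..t, (fderiv ℝ g (z + τ * v) v) ^ 2 :=
      intervalIntegral.integral_nonneg ht.1 fun x _ => sq_nonneg _
    have h3 : t * ∫ τ in (0:ℝ)..t, (fderiv ℝ g (z + τ * v) v) ^ 2 ≤ ρ * A :=
      mul_le_mul ht.2 hle hA0 hρ.le
    nlinarith only [hcs, h3, sq_nonneg (g z - 2 * g (z + t * v))]
  -- integrate
  have hint : ∫ _t in (0:ℝ)..ρ, (g z) ^ 2
      ≤ ∫ t in (0:ℝ)..ρ, (2 * (g (z + t * v)) ^ 2 + 2 * ρ * A) := by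
    apply intervalIntegral.integral_mono_on hρ.le intervalIntegrable_const
      ((ig.const_mul 2).add intervalIntegrable_const)
    intro t ht; exact key t ht
  rw [intervalIntegral.integral_add (ig.const_mul 2) intervalIntegrable_const,
    intervalIntegral.integral_const_mul, intervalIntegral.integral_const,
    intervalIntegral.integral_const] at hint
  simp only [sub_zero, smul_eq_mul] at hint
  have hfin : ρ * (g z) ^ 2 ≤ ρ * ((2 / ρ) * (∫ t in (0:ℝ)..ρ, (g (z + t * v)) ^ 2)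
      + (2 * ρ) * A) := by
    have : ρ * ((2 / ρ) * (∫ t in (0:ℝ)..ρ, (g (z + t * v)) ^ 2) + (2 * ρ) * A)
        = 2 * (∫ t in (0:ℝ)..ρ, (g (z + t * v)) ^ 2) + ρ * (2 * ρ * A) := by
      rw [mul_add, ← mul_assoc, mul_div_cancel₀ _ hρ.ne']
    rw [this]; exact hint
  exact le_of_mul_le_mul_left hfin hρ

/-- the pointwise one-dimensional estimate, `ENNReal` form -/
lemma pointwise_ennreal {Ω : Set ℂ} (hΩ : IsOpen Ω) {g : ℂ → ℝ} (hg : ContDiffOn ℝ 1 g Ω)
    {z v : ℂ} (hv : ‖v‖ = 1) {ρ : ℝ} (hρ : 0 < ρ)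
    (hsub : ∀ t ∈ Icc (0:ℝ) ρ, z + t * v ∈ Ω) :
    ENNReal.ofReal ((g z) ^ 2) ≤
      ENNReal.ofReal (2 / ρ) * (∫⁻ t in Ioc (0:ℝ) ρ, ENNReal.ofReal ((g (z + t * v)) ^ 2))
      + ENNReal.ofReal (2 * ρ) * ∫⁻ t in Ioc (0:ℝ) ρ, ENNReal.ofReal (gradSq g (z + t * v)) := by
  have hcγ : Continuous (fun t : ℝ => z + (t : ℂ) * v) := by fun_prop
  have hcg : ContinuousOn (fun t : ℝ => g (z + t * v)) (Icc 0 ρ) :=
    hg.continuousOn.comp hcγ.continuousOn hsub
  have hfd : ContinuousOn (fderiv ℝ g) Ω := hg.continuousOn_fderiv_of_isOpen hΩ le_rfl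
  have hcfd : ContinuousOn (fun t : ℝ => fderiv ℝ g (z + t * v)) (Icc 0 ρ) :=
    hfd.comp hcγ.continuousOn hsub
  have hcG : ContinuousOn (fun t : ℝ => gradSq g (z + t * v)) (Icc 0 ρ) := by
    unfold gradSq
    exact ((hcfd.clm_apply continuousOn_const).pow 2).add
      ((hcfd.clm_apply continuousOn_const).pow 2)
  have hu : uIcc 0 ρ = Icc 0 ρ := uIcc_of_le hρ.le
  have iG : IntervalIntegrable (fun t : ℝ => gradSq g (z + t * v)) volume 0 ρ := by
    apply ContinuousOn.intervalIntegrable; rwa [hu]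
  have ig : IntervalIntegrable (fun t : ℝ => (g (z + t * v)) ^ 2) volume 0 ρ := by
    apply ContinuousOn.intervalIntegrable; rw [hu]; exact hcg.pow 2
  have h := pointwise_real hΩ hg hv hρ hsub
  have e1 : ENNReal.ofReal (∫ t in (0:ℝ)..ρ, (g (z + t * v)) ^ 2)
      = ∫⁻ t in Ioc (0:ℝ) ρ, ENNReal.ofReal ((g (z + t * v)) ^ 2) := by
    rw [intervalIntegral.integral_of_le hρ.le]
    apply ofReal_integral_eq_lintegral_ofReal
    · exact (intervalIntegrable_iff_integrableOn_Ioc_of_le hρ.le).1 ig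
    · exact Eventually.of_forall fun t => sq_nonneg _
  have e2 : ENNReal.ofReal (∫ t in (0:ℝ)..ρ, gradSq g (z + t * v))
      = ∫⁻ t in Ioc (0:ℝ) ρ, ENNReal.ofReal (gradSq g (z + t * v)) := by
    rw [intervalIntegral.integral_of_le hρ.le]
    apply ofReal_integral_eq_lintegral_ofReal
    · exact (intervalIntegrable_iff_integrableOn_Ioc_of_le hρ.le).1 iG
    · exact Eventually.of_forall fun t => gradSq_nonneg _ _
  rw [← e1, ← e2, ← ENNReal.ofReal_mul (by (clear * - hρ; positivity)), ← ENNReal.ofReal_mul (by positivity),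
    ← ENNReal.ofReal_add]
  · exact ENNReal.ofReal_le_ofReal h
  · apply mul_nonneg (by positivity)
    exact intervalIntegral.integral_nonneg hρ.le fun x _ => sq_nonneg _
  · apply mul_nonneg (by positivity)
    exact intervalIntegral.integral_nonneg hρ.le fun x _ => gradSq_nonneg _ _

/-- Tonelli + translation invariance: the sliding estimate -/
lemma slide {Ω S : Set ℂ} (hS : MeasurableSet S) {v : ℂ} {ρ η : ℝ}
    (hsub : ∀ z ∈ S, ∀ t ∈ Icc (0:ℝ) ρ, z + t * v ∈ Ω)
    (hlen : ∀ w : ℂ, volume {t : ℝ | w - t * v ∈ S} ≤ ENNReal.ofReal η)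
    {F : ℂ → ℝ≥0∞} (hF : Measurable (Ω.indicator F)) :
    ∫⁻ z in S, ∫⁻ t in Ioc (0:ℝ) ρ, F (z + t * v) ≤ ENNReal.ofReal η * ∫⁻ z, Ω.indicator F z := by
  have step1 : ∫⁻ z in S, ∫⁻ t in Ioc (0:ℝ) ρ, F (z + t * v)
      = ∫⁻ z, ∫⁻ t in Ioc (0:ℝ) ρ, S.indicator 1 z * Ω.indicator F (z + t * v) := by
    rw [← lintegral_indicator hS]
    congr 1
    ext z
    by_cases hz : z ∈ S
    · simp only [indicator_of_mem hz, Pi.one_apply, one_mul]
      apply setLIntegral_congr_fun measurableSet_Ioc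
      intro t ht
      simp only
      rw [indicator_of_mem (hsub z hz t ⟨ht.1.le, ht.2⟩)]
    · simp only [hz, not_false_eq_true, indicator_of_notMem, zero_mul, lintegral_const, MeasurableSet.univ, Measure.restrict_apply, univ_inter, Real.volume_Ioc, sub_zero]
  have hm1 : Measurable (fun q : ℂ × ℝ => S.indicator (1 : ℂ → ℝ≥0∞) q.1
      * Ω.indicator F (q.1 + q.2 * v)) := by
    apply Measurable.mul
    · exact (measurable_one.indicator hS).comp measurable_fst
    · exact hF.comp (by fun_prop)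
  rw [step1, lintegral_lintegral_swap hm1.aemeasurable]
  have step2 : ∀ t : ℝ, ∫⁻ z : ℂ, S.indicator (1 : ℂ → ℝ≥0∞) z * Ω.indicator F (z + t * v)
      = ∫⁻ w : ℂ, S.indicator (1 : ℂ → ℝ≥0∞) (w - t * v) * Ω.indicator F w := by
    intro t
    have := lintegral_add_right_eq_self (μ := (volume : Measure ℂ))
      (fun w : ℂ => S.indicator (1 : ℂ → ℝ≥0∞) (w - t * v) * Ω.indicator F w) (t * v)
    simpa only [add_sub_cancel_right] using this
  simp_rw [step2]
  have hm2 : Measurable (fun q : ℝ × ℂ => S.indicator (1 : ℂ → ℝ≥0∞) (q.2 - q.1 * v)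
      * Ω.indicator F q.2) := by
    apply Measurable.mul
    · exact (measurable_one.indicator hS).comp (by fun_prop)
    · exact hF.comp measurable_snd
  rw [lintegral_lintegral_swap hm2.aemeasurable, ← lintegral_const_mul _ hF]
  apply lintegral_mono
  intro w
  simp only
  rw [lintegral_mul_const _ (by
    exact (measurable_one.indicator hS).comp (by fun_prop))]
  gcongr
  have hset : (fun t : ℝ => S.indicator (1 : ℂ → ℝ≥0∞) (w - t * v))
      = {t : ℝ | w - t * v ∈ S}.indicator 1 := by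
    ext t
    by_cases h : w - t * v ∈ S <;> simp [h]
  have hms : MeasurableSet {t : ℝ | w - t * v ∈ S} :=
    hS.preimage (f := fun t : ℝ => w - t * v) (by (clear * -; fun_prop))
  rw [hset]
  calc ∫⁻ t in Ioc (0:ℝ) ρ, {t : ℝ | w - t * v ∈ S}.indicator 1 t
      ≤ ∫⁻ t, {t : ℝ | w - t * v ∈ S}.indicator 1 t := lintegral_mono' Measure.restrict_le_self le_rfl
    _ = volume {t : ℝ | w - t * v ∈ S} := lintegral_indicator_one hms
    _ ≤ ENNReal.ofReal η := hlen w

/-- abstract strip estimate -/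
lemma strip_estimate {Ω S : Set ℂ} (hΩ : IsOpen Ω) (hS : MeasurableSet S) {v : ℂ} (hv : ‖v‖ = 1)
    {ρ η : ℝ} (hρ : 0 < ρ)
    (hsub : ∀ z ∈ S, ∀ t ∈ Icc (0:ℝ) ρ, z + t * v ∈ Ω)
    (hlen : ∀ w : ℂ, volume {t : ℝ | w - t * v ∈ S} ≤ ENNReal.ofReal η)
    {g : ℂ → ℝ} (hg : ContDiffOn ℝ 1 g Ω) :
    ∫⁻ z in S, ENNReal.ofReal ((g z) ^ 2) ≤
      ENNReal.ofReal η * (ENNReal.ofReal (2 / ρ) * (∫⁻ z in Ω, ENNReal.ofReal ((g z) ^ 2))
        + ENNReal.ofReal (2 * ρ) * ∫⁻ z in Ω, ENNReal.ofReal (gradSq g z)) := by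
  have hfd : ContinuousOn (fderiv ℝ g) Ω := hg.continuousOn_fderiv_of_isOpen hΩ le_rfl
  have hcG : ContinuousOn (fun z => gradSq g z) Ω := by
    unfold gradSq
    exact ((hfd.clm_apply continuousOn_const).pow 2).add
      ((hfd.clm_apply continuousOn_const).pow 2)
  have hF1 : Measurable (Ω.indicator (fun z => ENNReal.ofReal ((g z) ^ 2))) := by
    have hc : ContinuousOn (fun z => ENNReal.ofReal ((g z) ^ 2)) Ω :=
      ENNReal.continuous_ofReal.comp_continuousOn (hg.continuousOn.pow 2)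
    classical
    have := hc.measurable_piecewise (g := fun _ => (0 : ℝ≥0∞)) continuousOn_const hΩ.measurableSet
    rwa [← piecewise_eq_indicator]
  have hF2 : Measurable (Ω.indicator (fun z => ENNReal.ofReal (gradSq g z))) := by
    have hc : ContinuousOn (fun z => ENNReal.ofReal (gradSq g z)) Ω :=
      ENNReal.continuous_ofReal.comp_continuousOn hcG
    classical
    have := hc.measurable_piecewise (g := fun _ => (0 : ℝ≥0∞)) continuousOn_const hΩ.measurableSet
    rwa [← piecewise_eq_indicator]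
  have s1 := slide hS hsub hlen hF1
  have s2 := slide hS hsub hlen hF2
  rw [lintegral_indicator hΩ.measurableSet] at s1 s2
  have hpt : ∫⁻ z in S, ENNReal.ofReal ((g z) ^ 2) ≤
      ∫⁻ z in S, (ENNReal.ofReal (2 / ρ) * (∫⁻ t in Ioc (0:ℝ) ρ, ENNReal.ofReal ((g (z + t * v)) ^ 2))
      + ENNReal.ofReal (2 * ρ) * ∫⁻ t in Ioc (0:ℝ) ρ, ENNReal.ofReal (gradSq g (z + t * v))) := by
    apply setLIntegral_mono' hS
    intro z hz
    exact pointwise_ennreal hΩ hg hv hρ (hsub z hz)
  -- measurability of the inner integrals on `S`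
  have hm : ∀ {F : ℂ → ℝ≥0∞}, Measurable (Ω.indicator F) →
      AEMeasurable (fun z => ∫⁻ t in Ioc (0:ℝ) ρ, F (z + t * v)) (volume.restrict S) := by
    intro F hF
    have h1 : Measurable (fun z : ℂ => ∫⁻ t in Ioc (0:ℝ) ρ, Ω.indicator F (z + t * v)) := by
      apply Measurable.lintegral_prod_right' (f := fun q : ℂ × ℝ => Ω.indicator F (q.1 + q.2 * v))
      exact hF.comp (by fun_prop)
    refine h1.aemeasurable.congr ?_
    refine (ae_restrict_iff' hS).2 (Eventually.of_forall fun z hz => ?_)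
    apply setLIntegral_congr_fun measurableSet_Ioc
    intro t ht
    simp only
    rw [indicator_of_mem (hsub z hz t ⟨ht.1.le, ht.2⟩)]
  calc ∫⁻ z in S, ENNReal.ofReal ((g z) ^ 2)
      ≤ _ := hpt
    _ = ENNReal.ofReal (2 / ρ) * (∫⁻ z in S, ∫⁻ t in Ioc (0:ℝ) ρ, ENNReal.ofReal ((g (z + t * v)) ^ 2))
        + ENNReal.ofReal (2 * ρ) *
          ∫⁻ z in S, ∫⁻ t in Ioc (0:ℝ) ρ, ENNReal.ofReal (gradSq g (z + t * v)) := by
        rw [lintegral_add_left' ((hm hF1).const_mul _), lintegral_const_mul'' _ (hm hF1),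
          lintegral_const_mul'' _ (hm hF2)]
    _ ≤ ENNReal.ofReal (2 / ρ) * (ENNReal.ofReal η * ∫⁻ z in Ω, ENNReal.ofReal ((g z) ^ 2))
        + ENNReal.ofReal (2 * ρ) * (ENNReal.ofReal η * ∫⁻ z in Ω, ENNReal.ofReal (gradSq g z)) := by
        (clear * - s1 s2; gcongr)
    _ = _ := by ring

/-- Local charts at a boundary point of a Lipschitz domain, in the form needed for the strips. -/
lemma local_chart {Ω : Set ℂ} (hΩ : IsOpen Ω) (hL : IsLipschitzDomain Ω) {p : ℂ}
    (hp : p ∈ frontier Ω) :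
    ∃ (v : ℂ) (ρ : ℝ) (N : ℝ → Set ℂ), ‖v‖ = 1 ∧ 0 < ρ ∧ p ∈ N ρ ∧ (∀ η, 0 < η → IsOpen (N η)) ∧
      (∀ η, 0 < η → frontier Ω ∩ N ρ ⊆ N η) ∧
      (∀ η, 0 < η → η ≤ ρ → ∀ z ∈ Ω ∩ N η, ∀ t ∈ Icc (0:ℝ) ρ, z + t * v ∈ Ω) ∧
      (∀ η, 0 < η → η ≤ ρ → ∀ w : ℂ, volume {t : ℝ | w - t * v ∈ Ω ∩ N η} ≤ ENNReal.ofReal η) := by
  obtain ⟨e, r, L, h, he, hr, hLip, hmem⟩ := hL p hp
  set X : ℂ → ℝ := fun z => (conj e * (z - p)).re with hX
  set Y : ℂ → ℝ := fun z => (conj e * (z - p)).im with hY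
  have hXc : Continuous X := by fun_prop
  have hYc : Continuous Y := by (clear * -; fun_prop)
  have hhc : Continuous h := hLip.continuous
  have hXp : X p = 0 := by simp only [hX, Complex.mul_re, Complex.conj_re, Complex.sub_re, Complex.conj_im, Complex.sub_im, neg_mul, sub_neg_eq_add, sub_self, mul_zero, add_zero]
  have hYp : Y p = 0 := by simp only [hY, Complex.mul_im, Complex.conj_re, Complex.sub_im, Complex.conj_im, Complex.sub_re, neg_mul, sub_self, mul_zero, neg_zero, add_zero]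
  have hee : conj e * e = 1 := by
    rw [Complex.conj_mul', he]; norm_num
  have hpΩ : ∀ q ∈ frontier Ω, q ∉ Ω := fun q hq => by
    rw [hΩ.frontier_eq] at hq; exact hq.2
  have hclos : ∀ q ∈ frontier Ω, q ∈ ball p r → Y q = h (X q) := by
    intro q hq hqb
    have h1 : ¬ h (X q) < Y q := fun hlt => hpΩ q hq ((hmem q hqb).2 hlt)
    rcases lt_trichotomy (Y q) (h (X q)) with hlt | heq | hgt
    · exfalso
      have hopen : IsOpen ({z | Y z < h (X z)} ∩ ball p r) :=
        (isOpen_lt hYc (hhc.comp hXc)).inter isOpen_ball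
      have hq2 : q ∈ closure Ω := frontier_subset_closure hq
      rw [_root_.mem_closure_iff] at hq2
      obtain ⟨z, ⟨hz1, hz2⟩, hz3⟩ := hq2 _ hopen ⟨hlt, hqb⟩
      exact absurd ((hmem z hz2).1 hz3) (not_lt.2 (le_of_lt hz1))
    · exact heq
    · exact absurd hgt h1
  have hh0 : h 0 = 0 := by
    have := hclos p hp (mem_ball_self hr)
    rw [hXp, hYp] at this
    exact this.symm
  have hhb : ∀ x, |h x| ≤ L * |x| := by
    intro x
    have := hLip.dist_le_mul x 0
    simpa only [ge_iff_le, hh0, dist_zero_right, Real.norm_eq_abs] using this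
  have hLpos : (0:ℝ) < 1 + L := by (clear * -; positivity)
  set δ : ℝ := r / (4 * (1 + L)) with hδ
  have hδpos : 0 < δ := by (clear * - hr; positivity)
  set ρ : ℝ := r / 4 with hρ
  have hρpos : 0 < ρ := by positivity
  have hball : ∀ z, |X z| < δ → |Y z - h (X z)| < 2 * ρ → z ∈ ball p r := by
    intro z hx hy
    rw [mem_ball, dist_eq_norm]
    have h1 : ‖z - p‖ = ‖conj e * (z - p)‖ := by
      rw [norm_mul, Complex.norm_conj, he, one_mul]
    have h2 : ‖conj e * (z - p)‖ ≤ |X z| + |Y z| := Complex.norm_le_abs_re_add_abs_im _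
    have h3 : |Y z| ≤ |Y z - h (X z)| + |h (X z)| := by
      calc |Y z| = |(Y z - h (X z)) + h (X z)| := by ring_nf
        _ ≤ _ := abs_add_le _ _
    have h4 := hhb (X z)
    have h5 : (1 + L) * |X z| < r / 4 := by
      have := mul_lt_mul_of_pos_left hx hLpos
      have e1 : (1 + (L:ℝ)) * δ = r / 4 := by rw [hδ]; (clear * - hr; field_simp)
      linarith only [this, e1]
    rw [h1]
    linarith
  have hXv : ∀ (z : ℂ) (t : ℝ), X (z + t * (e * Complex.I)) = X z := by
    intro z t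
    have : conj e * (z + t * (e * Complex.I) - p) = conj e * (z - p) + t * Complex.I := by
      linear_combination (t * Complex.I) * hee
    simp only [hX]
    rw [this]; simp only [Complex.add_re, Complex.mul_re, Complex.conj_re, Complex.sub_re, Complex.conj_im, Complex.sub_im, neg_mul, sub_neg_eq_add, Complex.ofReal_re, Complex.I_re, mul_zero, Complex.ofReal_im, Complex.I_im, mul_one, sub_self, add_zero]
  have hYv : ∀ (z : ℂ) (t : ℝ), Y (z + t * (e * Complex.I)) = Y z + t := by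
    intro z t
    have : conj e * (z + t * (e * Complex.I) - p) = conj e * (z - p) + t * Complex.I := by
      linear_combination (t * Complex.I) * hee
    simp only [hY]
    rw [this]; simp only [Complex.add_im, Complex.mul_im, Complex.conj_re, Complex.sub_im, Complex.conj_im, Complex.sub_re, neg_mul, Complex.ofReal_re, Complex.I_im, mul_one, Complex.ofReal_im, Complex.I_re, mul_zero, add_zero]
  refine ⟨e * Complex.I, ρ, fun η => {z | |X z| < δ ∧ |Y z - h (X z)| < η}, ?_, hρpos, ?_, ?_, ?_,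
    ?_, ?_⟩
  · rw [norm_mul, he, Complex.norm_I, one_mul]
  · simp only [mem_ofPred_eq, hXp, abs_zero, hδpos, hYp, hh0, sub_self, hρpos, and_self]
  · intro η _
    exact (isOpen_lt (f := fun z => |X z|) (by fun_prop) continuous_const).inter
      (isOpen_lt (f := fun z => |Y z - h (X z)|) (by fun_prop) continuous_const)
  · rintro η hη z ⟨hz1, hz2, hz3⟩
    refine ⟨hz2, ?_⟩
    rw [hclos z hz1 (hball z hz2 (by linarith only [hρpos, hz3]))]
    simpa only [sub_self, abs_zero] using hη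
  · rintro η hη hηρ z ⟨hz1, hz2, hz3⟩ t ⟨ht0, ht1⟩
    have hzb := hball z hz2 (by linarith only [hρpos, hηρ, hz3])
    have hlt := (hmem z hzb).1 hz1
    change h (X z) < Y z at hlt
    rw [abs_lt] at hz3
    have hb : z + t * (e * Complex.I) ∈ ball p r := by
      apply hball
      · rw [hXv]; exact hz2
      · rw [hXv, hYv, abs_lt]; constructor <;> linarith only [hηρ, hz3, ht0, ht1]
    rw [hmem _ hb]
    change h (X _) < Y _
    rw [hXv, hYv]; linarith only [ht0, hlt]
  · rintro η hη hηρ w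
    have hsub : {t : ℝ | w - t * (e * Complex.I) ∈ Ω ∩ {z | |X z| < δ ∧ |Y z - h (X z)| < η}}
        ⊆ Ioo (Y w - h (X w) - η) (Y w - h (X w)) := by
      rintro t ⟨ht1, ht2, ht3⟩
      have hb := hball _ ht2 (by linarith only [hρpos, hηρ, ht3])
      have hlt := (hmem _ hb).1 ht1
      change h (X _) < Y _ at hlt
      have e1 : w - t * (e * Complex.I) = w + ((-t : ℝ) : ℂ) * (e * Complex.I) := by
        push_cast; ring
      rw [e1, hXv, hYv] at hlt ht3
      rw [abs_lt] at ht3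
      constructor <;> linarith only [hlt, ht3]
    calc volume _ ≤ volume (Ioo (Y w - h (X w) - η) (Y w - h (X w))) := measure_mono hsub
      _ = ENNReal.ofReal η := by rw [Real.volume_Ioo]; ring_nf

/-- **Uniform boundary tails on bounded Lipschitz domains**, `ENNReal` form. -/
theorem lip_tails_lintegral {Ω : Set ℂ} (hΩ : IsOpen Ω) (hb : Bornology.IsBounded Ω)
    (hL : IsLipschitzDomain Ω) {ε : ℝ} (hε : 0 < ε) :
    ∃ K : Set ℂ, IsCompact K ∧ K ⊆ Ω ∧ ∀ g : ℂ → ℝ, ContDiffOn ℝ 1 g Ω →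
      ∫⁻ z in Ω \ K, ENNReal.ofReal ((g z) ^ 2) ≤ ENNReal.ofReal ε *
        ((∫⁻ z in Ω, ENNReal.ofReal ((g z) ^ 2)) + ∫⁻ z in Ω, ENNReal.ofReal (gradSq g z)) := by
  have hfc : IsCompact (frontier Ω) :=
    (Metric.isCompact_of_isClosed_isBounded isClosed_frontier
      (hb.closure.subset frontier_subset_closure))
  choose v ρ N hv hρ hpN hNo hNf hN1 hN2 using fun (x : frontier Ω) => local_chart hΩ hL x.2
  obtain ⟨T, hT⟩ := hfc.elim_nhds_subcover' (fun x hx => N ⟨x, hx⟩ (ρ ⟨x, hx⟩))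
    (fun x hx => (hNo ⟨x, hx⟩ _ (hρ ⟨x, hx⟩)).mem_nhds (hpN ⟨x, hx⟩))
  set M : ℝ := T.card + 1 with hM
  have hMpos : 0 < M := by (clear * -; positivity)
  set η : frontier Ω → ℝ := fun x => min (ρ x) (ε / (M * (2 / ρ x + 2 * ρ x))) with hη
  have hηpos : ∀ x, 0 < η x := by
    intro x
    have := hρ x
    apply lt_min this
    (clear * - hε this; positivity)
  have hηρ : ∀ x, η x ≤ ρ x := fun x => min_le_left _ _
  have hηε : ∀ x, η x * (2 / ρ x + 2 * ρ x) ≤ ε / M := by
    intro x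
    have hx := hρ x
    have hc : 0 < 2 / ρ x + 2 * ρ x := by positivity
    calc η x * (2 / ρ x + 2 * ρ x) ≤ (ε / (M * (2 / ρ x + 2 * ρ x))) * (2 / ρ x + 2 * ρ x) := by
          gcongr; exact min_le_right _ _
      _ = ε / M := by field_simp
  set K : Set ℂ := closure Ω \ ⋃ x ∈ T, N x (η x) with hK
  have hUo : IsOpen (⋃ x ∈ T, N x (η x)) :=
    isOpen_biUnion fun x _ => hNo x _ (hηpos x)
  have hKc : IsCompact K := by
    apply Metric.isCompact_of_isClosed_isBounded
    · exact isClosed_closure.sdiff hUo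
    · exact hb.closure.subset sdiff_subset
  have hfr : frontier Ω ⊆ ⋃ x ∈ T, N x (η x) := by
    intro q hq
    have := hT hq
    simp only [mem_iUnion] at this ⊢
    obtain ⟨x, hx, hqx⟩ := this
    exact ⟨x, hx, hNf x _ (hηpos x) ⟨hq, hqx⟩⟩
  have hKΩ : K ⊆ Ω := by
    intro q hq
    by_contra hqΩ
    have : q ∈ frontier Ω := by rw [hΩ.frontier_eq]; exact ⟨hq.1, hqΩ⟩
    exact hq.2 (hfr this)
  refine ⟨K, hKc, hKΩ, ?_⟩
  intro g hg
  set A := ∫⁻ z in Ω, ENNReal.ofReal ((g z) ^ 2) with hA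
  set B := ∫⁻ z in Ω, ENNReal.ofReal (gradSq g z) with hB
  have hsub : Ω \ K ⊆ ⋃ x : T, Ω ∩ N x.1 (η x.1) := by
    rintro z ⟨hz1, hz2⟩
    have : z ∈ ⋃ x ∈ T, N x (η x) := by
      by_contra hcon
      exact hz2 ⟨subset_closure hz1, hcon⟩
    simp only [mem_iUnion] at this ⊢
    obtain ⟨x, hx, hzx⟩ := this
    exact ⟨⟨x, hx⟩, hz1, hzx⟩
  have hstrip : ∀ x : frontier Ω, ∫⁻ z in Ω ∩ N x (η x), ENNReal.ofReal ((g z) ^ 2)
      ≤ ENNReal.ofReal (ε / M) * (A + B) := by
    intro x
    have hx := hρ x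
    have h1 := strip_estimate (S := Ω ∩ N x (η x)) hΩ
      (hΩ.measurableSet.inter (hNo x _ (hηpos x)).measurableSet) (hv x) hx
      (hN1 x _ (hηpos x) (hηρ x)) (hN2 x _ (hηpos x) (hηρ x)) hg
    refine h1.trans ?_
    calc ENNReal.ofReal (η x) * (ENNReal.ofReal (2 / ρ x) * A + ENNReal.ofReal (2 * ρ x) * B)
        ≤ ENNReal.ofReal (η x) * (ENNReal.ofReal (2 / ρ x + 2 * ρ x) * A
            + ENNReal.ofReal (2 / ρ x + 2 * ρ x) * B) := by
          gcongr
          · have : 0 < 2 * ρ x := by (clear * - hx; positivity)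
            linarith only [hx]
          · have : 0 < 2 / ρ x := by positivity
            linarith only [this]
      _ = ENNReal.ofReal (η x * (2 / ρ x + 2 * ρ x)) * (A + B) := by
          rw [ENNReal.ofReal_mul (hηpos x).le]; ring
      _ ≤ _ := by gcongr; exact hηε x
  calc ∫⁻ z in Ω \ K, ENNReal.ofReal ((g z) ^ 2)
      ≤ ∫⁻ z in ⋃ x : T, Ω ∩ N x.1 (η x.1), ENNReal.ofReal ((g z) ^ 2) :=
        lintegral_mono_set hsub
    _ ≤ ∑' x : T, ∫⁻ z in Ω ∩ N x.1 (η x.1), ENNReal.ofReal ((g z) ^ 2) :=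
        lintegral_iUnion_le _ _
    _ ≤ ∑' _x : T, ENNReal.ofReal (ε / M) * (A + B) :=
        ENNReal.tsum_le_tsum fun x => hstrip x.1
    _ = T.card * (ENNReal.ofReal (ε / M) * (A + B)) := by
        rw [tsum_fintype]; simp only [Finset.univ_eq_attach, Finset.sum_const, Finset.card_attach, nsmul_eq_mul]
    _ = ENNReal.ofReal (T.card * (ε / M)) * (A + B) := by
        rw [ENNReal.ofReal_mul (by (clear * -; positivity)), ENNReal.ofReal_natCast, mul_assoc]
    _ ≤ ENNReal.ofReal ε * (A + B) := by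
        gcongr
        rw [hM]
        have : (T.card : ℝ) * (ε / (T.card + 1)) = ε * (T.card / (T.card + 1)) := by ring
        rw [this]
        have h2 : (T.card : ℝ) / (T.card + 1) ≤ 1 := by
          rw [div_le_one (by (clear * -; positivity))]; linarith only []
        nlinarith only [hε, h2]

/-- **Uniform boundary tails on bounded Lipschitz domains**, real form. -/
theorem lip_tails {Ω : Set ℂ} (hΩ : IsOpen Ω) (hb : Bornology.IsBounded Ω)
    (hL : IsLipschitzDomain Ω) {ε : ℝ} (hε : 0 < ε) :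
    ∃ K : Set ℂ, IsCompact K ∧ K ⊆ Ω ∧ ∀ g : ℂ → ℝ, ContDiffOn ℝ 1 g Ω →
      IntegrableOn (fun z => (g z) ^ 2) Ω → IntegrableOn (gradSq g) Ω →
      ∫ z in Ω \ K, (g z) ^ 2 ≤ ε * ((∫ z in Ω, (g z) ^ 2) + ∫ z in Ω, gradSq g z) := by
  obtain ⟨K, hKc, hKΩ, hK⟩ := lip_tails_lintegral hΩ hb hL hε
  refine ⟨K, hKc, hKΩ, fun g hg h1 h2 => ?_⟩
  have := hK g hg
  rw [← ofReal_integral_eq_lintegral_ofReal h1 (Eventually.of_forall fun z => sq_nonneg _),
    ← ofReal_integral_eq_lintegral_ofReal h2 (Eventually.of_forall fun z => gradSq_nonneg _ _),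
    ← ofReal_integral_eq_lintegral_ofReal (h1.mono_set sdiff_subset)
      (Eventually.of_forall fun z => sq_nonneg _),
    ← ENNReal.ofReal_add (integral_nonneg fun z => sq_nonneg _)
      (integral_nonneg fun z => gradSq_nonneg _ _),
    ← ENNReal.ofReal_mul hε.le] at this
  exact (ENNReal.ofReal_le_ofReal_iff (mul_nonneg hε.le (add_nonneg
    (integral_nonneg fun z => sq_nonneg _) (integral_nonneg fun z => gradSq_nonneg _ _)))).1 this

end Vale.P071
end

section

/-!
# P071: uniform tails for the weights `|f'(r z)|²`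

Conformal change of variables and uniform (in `r`) tails near the unit circle.
-/

open MeasureTheory Set Metric Filter Topology
open scoped ENNReal NNReal ComplexConjugate

namespace Vale.P071

/-! ### Conformal change of variables -/

lemma det_of_eq_mul (a : ℂ) (L : ℂ →L[ℝ] ℂ) (hL : ∀ v, L v = a * v) : L.det = ‖a‖ ^ 2 := by
  have h1 : L.det = LinearMap.det (L : ℂ →ₗ[ℝ] ℂ) := rfl
  rw [h1, ← LinearMap.det_toMatrix Complex.basisOneI, Matrix.det_fin_two]
  simp only [LinearMap.toMatrix_apply, ContinuousLinearMap.coe_coe, hL]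
  simp only [Complex.basisOneI, Fin.isValue, Complex.real_smul, Module.Basis.coe_ofEquivFun, LinearEquiv.symm_mk, LinearMap.coe_mk, AddHom.coe_mk, LinearEquiv.coe_mk, Pi.single_eq_same, Complex.ofReal_one, ne_eq, one_ne_zero, not_false_eq_true, Pi.single_eq_of_ne, Complex.ofReal_zero, zero_mul, add_zero, mul_one, Module.Basis.ofEquivFun_repr_apply, Matrix.cons_val_zero, zero_ne_one, one_mul, zero_add, Complex.mul_re, Complex.I_re, mul_zero, Complex.I_im, zero_sub, Complex.mul_im, Matrix.cons_val_one, Matrix.cons_val_fin_one, neg_mul, sub_neg_eq_add, ← Complex.normSq_eq_norm_sq, Complex.normSq_apply]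

lemma hasFDerivAt_real {f : ℂ → ℂ} {a z : ℂ} (h : HasDerivAt f a z) :
    HasFDerivAt f ((ContinuousLinearMap.toSpanSingleton ℂ a).restrictScalars ℝ) z :=
  h.hasFDerivAt.restrictScalars ℝ

/-- conformal transformation of the squared gradient -/
lemma gradSq_comp {G : ℂ → ℝ} {f : ℂ → ℂ} {a z : ℂ} (hG : DifferentiableAt ℝ G (f z))
    (hf : HasDerivAt f a z) : gradSq (fun x => G (f x)) z = ‖a‖ ^ 2 * gradSq G (f z) := by
  have h1 : HasFDerivAt (fun x => G (f x))
      ((fderiv ℝ G (f z)).comp ((ContinuousLinearMap.toSpanSingleton ℂ a).restrictScalars ℝ)) z :=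
    hG.hasFDerivAt.comp z (hasFDerivAt_real hf)
  unfold gradSq
  rw [h1.fderiv]
  have e1 : a = a.re • (1 : ℂ) + a.im • Complex.I := by simp only [Complex.real_smul, mul_one, Complex.re_add_im]
  have e2 : Complex.I * a = (-a.im) • (1 : ℂ) + a.re • Complex.I := by
    apply Complex.ext <;> simp
  simp only [ContinuousLinearMap.coe_comp, Function.comp, ContinuousLinearMap.coe_restrictScalars', ContinuousLinearMap.toSpanSingleton_apply, smul_eq_mul, one_mul]
  have e3 : fderiv ℝ G (f z) a = a.re * fderiv ℝ G (f z) 1 + a.im * fderiv ℝ G (f z) Complex.I := by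
    calc fderiv ℝ G (f z) a = fderiv ℝ G (f z) (a.re • (1 : ℂ) + a.im • Complex.I) := by rw [← e1]
      _ = _ := by rw [map_add, map_smul, map_smul, smul_eq_mul, smul_eq_mul]
  rw [e2, e3, map_add, map_smul, map_smul, smul_eq_mul, smul_eq_mul,
    ← Complex.normSq_eq_norm_sq, Complex.normSq_apply]
  ring

/-! ### The inverse of a Riemann map -/

section Inverse

variable {f : ℂ → ℂ}

lemma image_mem_nhds (hf : DifferentiableOn ℂ f (ball 0 1))
    (hd : ∀ z ∈ ball (0:ℂ) 1, deriv f z ≠ 0) {z : ℂ} (hz : z ∈ ball (0:ℂ) 1) {U : Set ℂ}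
    (hU : U ∈ 𝓝 z) : f '' U ∈ 𝓝 (f z) := by
  have hs : HasStrictDerivAt f (deriv f z) z :=
    (hf.analyticAt (isOpen_ball.mem_nhds hz)).hasStrictDerivAt
  rw [← hs.map_nhds_eq (hd z hz)]
  exact Filter.image_mem_map hU

lemma isOpen_image_ball (hf : DifferentiableOn ℂ f (ball 0 1))
    (hd : ∀ z ∈ ball (0:ℂ) 1, deriv f z ≠ 0) : IsOpen (f '' ball 0 1) := by
  rw [isOpen_iff_mem_nhds]
  rintro _ ⟨z, hz, rfl⟩
  exact image_mem_nhds hf hd hz (isOpen_ball.mem_nhds hz)

/-- the inverse of `f` on the unit disc -/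
noncomputable def invD (f : ℂ → ℂ) : ℂ → ℂ := Function.invFunOn f (ball 0 1)

lemma invD_apply (hinj : InjOn f (ball 0 1)) {z : ℂ} (hz : z ∈ ball (0:ℂ) 1) :
    invD f (f z) = z := hinj.leftInvOn_invFunOn hz

lemma invD_mem {w : ℂ} (hw : w ∈ f '' ball 0 1) : invD f w ∈ ball (0:ℂ) 1 :=
  Function.invFunOn_mem hw

lemma apply_invD {w : ℂ} (hw : w ∈ f '' ball 0 1) : f (invD f w) = w :=
  Function.invFunOn_eq hw

lemma invD_continuousAt (hf : DifferentiableOn ℂ f (ball 0 1)) (hinj : InjOn f (ball 0 1))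
    (hd : ∀ z ∈ ball (0:ℂ) 1, deriv f z ≠ 0) {z : ℂ} (hz : z ∈ ball (0:ℂ) 1) :
    ContinuousAt (invD f) (f z) := by
  intro U hU
  rw [invD_apply hinj hz] at hU
  rw [Filter.mem_map]
  have h2 : U ∩ ball 0 1 ∈ 𝓝 z := inter_mem hU (isOpen_ball.mem_nhds hz)
  filter_upwards [image_mem_nhds hf hd hz h2]
  rintro _ ⟨y, ⟨hy1, hy2⟩, rfl⟩
  rw [mem_preimage, invD_apply hinj hy2]
  exact hy1

lemma invD_hasDerivAt (hf : DifferentiableOn ℂ f (ball 0 1)) (hinj : InjOn f (ball 0 1))
    (hd : ∀ z ∈ ball (0:ℂ) 1, deriv f z ≠ 0) {z : ℂ} (hz : z ∈ ball (0:ℂ) 1) :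
    HasDerivAt (invD f) (deriv f z)⁻¹ (f z) := by
  apply HasDerivAt.of_local_left_inverse (invD_continuousAt hf hinj hd hz)
  · rw [invD_apply hinj hz]
    exact (hf.differentiableAt (isOpen_ball.mem_nhds hz)).hasDerivAt
  · exact hd z hz
  · filter_upwards [(isOpen_image_ball hf hd).mem_nhds (mem_image_of_mem f hz)] with w hw
    exact apply_invD hw

lemma invD_differentiableOn (hf : DifferentiableOn ℂ f (ball 0 1)) (hinj : InjOn f (ball 0 1))
    (hd : ∀ z ∈ ball (0:ℂ) 1, deriv f z ≠ 0) : DifferentiableOn ℂ (invD f) (f '' ball 0 1) := by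
  rintro _ ⟨z, hz, rfl⟩
  exact (invD_hasDerivAt hf hinj hd hz).differentiableAt.differentiableWithinAt

/-- compact subsets of the image are images of subsets of smaller discs -/
lemma exists_radius (hf : DifferentiableOn ℂ f (ball 0 1)) (hinj : InjOn f (ball 0 1))
    (hd : ∀ z ∈ ball (0:ℂ) 1, deriv f z ≠ 0) {K : Set ℂ} (hK : IsCompact K)
    (hKs : K ⊆ f '' ball 0 1) :
    ∃ ρ : ℝ, 0 < ρ ∧ ρ < 1 ∧ K ⊆ f '' ball 0 ρ := by
  have h1 : IsCompact (invD f '' K) :=
    hK.image_of_continuousOn ((invD_differentiableOn hf hinj hd).continuousOn.mono hKs)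
  have h2 : invD f '' K ⊆ ball 0 1 := by
    rintro _ ⟨w, hw, rfl⟩; exact invD_mem (hKs hw)
  obtain ⟨ρ, hρ, hs⟩ := exists_lt_subset_ball h1.isClosed h2
  refine ⟨max ρ (1 / 2), by (clear * -; positivity), max_lt hρ (by norm_num), ?_⟩
  intro w hw
  refine ⟨invD f w, ?_, apply_invD (hKs hw)⟩
  exact ball_subset_ball (le_max_left _ _) (hs (mem_image_of_mem _ hw))

/-! ### Tails of the pulled-back weight -/

end Inverse

/-! ### Rotations -/

/-! ### Poisson averaging -/

end Vale.P071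
end

section

/-!
# Wirtinger calculus

`HasW f p q z` says that `f` is real differentiable at `z` with `∂f/∂z = p`, `∂f/∂(conj z) = q`.
-/

open scoped ComplexConjugate

noncomputable section

namespace Vale.Agent.P071

/-- `f` is real differentiable at `z` with Wirtinger derivatives `∂ f = p`, `∂bar f = q`. -/
def HasW (f : ℂ → ℂ) (p q : ℂ) (z : ℂ) : Prop :=
  HasFDerivAt f (p • (ContinuousLinearMap.id ℝ ℂ) + q • (Complex.conjCLE : ℂ →L[ℝ] ℂ)) z

variable {f g : ℂ → ℂ} {p q p' q' z : ℂ}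

theorem HasW.hasFDerivAt (h : HasW f p q z) :
    HasFDerivAt f (p • (ContinuousLinearMap.id ℝ ℂ) + q • (Complex.conjCLE : ℂ →L[ℝ] ℂ)) z := h

theorem HasW.continuousAt (h : HasW f p q z) : ContinuousAt f z := HasFDerivAt.continuousAt h

theorem HasW.congr (h : HasW f p q z) (hp : p = p') (hq : q = q') : HasW f p' q' z := by
  subst hp; subst hq; exact h

theorem HasW.congr_of_eventuallyEq (h : HasW f p q z) (hfg : g =ᶠ[nhds z] f) : HasW g p q z :=
  HasFDerivAt.congr_of_eventuallyEq h hfg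

theorem hasW_const (c z : ℂ) : HasW (fun _ => c) 0 0 z := by
  unfold HasW
  refine (hasFDerivAt_const (𝕜 := ℝ) c z).congr_fderiv ?_
  ext w
  simp only [zero_apply, add_apply, smul_apply, ContinuousLinearMap.id_apply, smul_eq_mul, zero_mul, ContinuousLinearEquiv.coe_coe, ContinuousAlgEquiv.coeCLE_apply, Complex.conjCAE_apply, add_zero]

theorem hasW_id (z : ℂ) : HasW (fun w => w) 1 0 z := by
  unfold HasW
  refine (hasFDerivAt_id (𝕜 := ℝ) z).congr_fderiv ?_
  ext w
  simp only [ContinuousLinearMap.id_apply, one_smul, add_apply, smul_apply, ContinuousLinearEquiv.coe_coe, ContinuousAlgEquiv.coeCLE_apply, Complex.conjCAE_apply, smul_eq_mul, zero_mul, add_zero]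

theorem HasW.add (h : HasW f p q z) (h' : HasW g p' q' z) :
    HasW (fun w => f w + g w) (p + p') (q + q') z := by
  unfold HasW at *
  refine (HasFDerivAt.add h h').congr_fderiv ?_
  module

theorem HasW.sub (h : HasW f p q z) (h' : HasW g p' q' z) :
    HasW (fun w => f w - g w) (p - p') (q - q') z := by
  unfold HasW at *
  refine (HasFDerivAt.sub h h').congr_fderiv ?_
  module

theorem HasW.mul (h : HasW f p q z) (h' : HasW g p' q' z) :
    HasW (fun w => f w * g w) (p * g z + f z * p') (q * g z + f z * q') z := by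
  unfold HasW at *
  refine (HasFDerivAt.mul h h').congr_fderiv ?_
  ext w
  simp
  ring

theorem HasW.const_mul (h : HasW f p q z) (c : ℂ) :
    HasW (fun w => c * f w) (c * p) (c * q) z := by
  refine ((hasW_const c z).mul h).congr ?_ ?_ <;> ring

theorem HasW.inv (h : HasW f p q z) (hz : f z ≠ 0) :
    HasW (fun w => (f w)⁻¹) (-p / f z ^ 2) (-q / f z ^ 2) z := by
  unfold HasW at *
  have h1 : HasFDerivAt (fun w : ℂ => w⁻¹)
      (((1 : ℂ →L[ℂ] ℂ).smulRight (-(f z ^ 2)⁻¹)).restrictScalars ℝ) (f z) :=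
    ((hasDerivAt_inv hz).hasFDerivAt).restrictScalars ℝ
  refine (h1.comp z h).congr_fderiv ?_
  ext w
  simp only [ContinuousLinearMap.comp_add, add_apply, ContinuousLinearMap.comp_apply, smul_apply, ContinuousLinearMap.id_apply, smul_eq_mul, ContinuousLinearMap.coe_restrictScalars', ContinuousLinearMap.smulRight_apply, one_apply_eq_self, mul_neg, ContinuousLinearEquiv.coe_coe, ContinuousAlgEquiv.coeCLE_apply, Complex.conjCAE_apply]
  ring

theorem HasW.div (h : HasW f p q z) (h' : HasW g p' q' z) (hz : g z ≠ 0) :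
    HasW (fun w => f w / g w) ((p * g z - f z * p') / g z ^ 2)
      ((q * g z - f z * q') / g z ^ 2) z := by
  have h1 := h.mul (h'.inv hz)
  have h2 : (fun w => f w / g w) = fun w => f w * (g w)⁻¹ := by
    funext w; rw [div_eq_mul_inv]
  rw [h2]
  refine h1.congr ?_ ?_ <;> (field_simp; ring)

theorem HasW.conj (h : HasW f p q z) :
    HasW (fun w => conj (f w)) (conj q) (conj p) z := by
  unfold HasW at *
  have h1 : HasFDerivAt (fun w : ℂ => Complex.conjCLE w) (Complex.conjCLE : ℂ →L[ℝ] ℂ) (f z) :=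
    (Complex.conjCLE : ℂ →L[ℝ] ℂ).hasFDerivAt
  refine (h1.comp z h).congr_fderiv ?_
  ext w
  simp
  ring

/-- The Wirtinger derivatives are unique. -/
theorem HasW.unique (h : HasW f p q z) (h' : HasW f p' q' z) : p = p' ∧ q = q' := by
  unfold HasW at *
  have h1 := h.unique h'
  have h2 := congrArg (fun L : ℂ →L[ℝ] ℂ => L 1) h1
  have h3 := congrArg (fun L : ℂ →L[ℝ] ℂ => L Complex.I) h1
  simp at h2 h3
  have h4 : (p - q) * Complex.I = (p' - q') * Complex.I := by
    linear_combination h3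
  have h5 : p - q = p' - q' := mul_right_cancel₀ Complex.I_ne_zero h4
  constructor
  · linear_combination (h2 + h5) / 2
  · linear_combination (h2 - h5) / 2

/-- Derivative along a horizontal line. -/
theorem HasW.hasDerivAt_x (h : HasW f p q z) :
    HasDerivAt (fun t : ℝ => f (z + t)) (p + q) 0 := by
  unfold HasW at h
  have h1 : HasDerivAt (fun t : ℝ => z + (t : ℂ)) 1 0 := by
    simpa only [hasDerivAt_const_add_iff, Complex.ofRealCLM_apply, Complex.ofReal_one] using     (Complex.ofRealCLM.hasDerivAt (x := (0 : ℝ))).const_add z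
  have h2 : HasFDerivAt f (p • (ContinuousLinearMap.id ℝ ℂ) +
      q • (Complex.conjCLE : ℂ →L[ℝ] ℂ)) (z + ((0 : ℝ) : ℂ)) := by simpa using h
  have h3 := h2.comp_hasDerivAt (0 : ℝ) h1
  simp at h3
  exact h3

/-- Derivative along a vertical line. -/
theorem HasW.hasDerivAt_y (h : HasW f p q z) :
    HasDerivAt (fun t : ℝ => f (z + t * Complex.I)) ((p - q) * Complex.I) 0 := by
  unfold HasW at h
  have h1 : HasDerivAt (fun t : ℝ => z + (t : ℂ) * Complex.I) Complex.I 0 := by
    simpa using ((Complex.ofRealCLM.hasDerivAt (x := (0 : ℝ))).mul_const Complex.I).const_add z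
  have h2 : HasFDerivAt f (p • (ContinuousLinearMap.id ℝ ℂ) +
      q • (Complex.conjCLE : ℂ →L[ℝ] ℂ)) (z + ((0 : ℝ) : ℂ) * Complex.I) := by simpa using h
  have h3 := h2.comp_hasDerivAt (0 : ℝ) h1
  simp at h3
  refine h3.congr_deriv ?_
  ring

end Vale.Agent.P071
end
end

section

/-!
# The key identity: `τ = J/κ - ψ/2` has no local minimum where `J > 0`

Here `u, v` solve `Δu = -κ u`, `Δv = -κ v`, `J = v_x u_y - v_y u_x`, `ψ` is the stream function
of `u ∇v - v ∇u`.  All derivatives are Wirtinger derivatives; `p = ∂u`, `q = ∂v`,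
`∂bar p = -κ u / 4`, `J = 2 i (conj q * p - q * conj p)`, `∂ψ = i (u q - v p)`.
-/

open scoped ComplexConjugate Topology
open Filter

noncomputable section

namespace Vale.Agent.P071

theorem hasDerivAt_re {f : ℝ → ℂ} {c : ℂ} {t : ℝ} (h : HasDerivAt f c t) :
    HasDerivAt (fun s => (f s).re) c.re t := by
  exact (Complex.reCLM.hasFDerivAt (x := f t)).comp_hasDerivAt t h

theorem hasDerivAt_im {f : ℝ → ℂ} {c : ℂ} {t : ℝ} (h : HasDerivAt f c t) :
    HasDerivAt (fun s => (f s).im) c.im t := by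
  exact (Complex.imCLM.hasFDerivAt (x := f t)).comp_hasDerivAt t h

/-- Necessary second order condition at a local minimum. -/
theorem second_deriv_nonneg {f f' : ℝ → ℝ} {c : ℝ} (hf : ∀ᶠ t in 𝓝 (0 : ℝ), HasDerivAt f (f' t) t)
    (hf' : HasDerivAt f' c 0) (hmin : IsLocalMin f 0) : 0 ≤ c := by
  by_contra hc
  push Not at hc
  have h0 : f' 0 = 0 := hmin.hasDerivAt_eq_zero hf.self_of_nhds
  have h1 : ∀ᶠ t in 𝓝[>] (0 : ℝ), f' t < 0 := by
    have h2 := hf'.tendsto_slope_zero_right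
    have h3 : ∀ᶠ t in 𝓝[>] (0 : ℝ), t⁻¹ • (f' (0 + t) - f' 0) < 0 := h2.eventually_lt_const hc
    filter_upwards [h3, self_mem_nhdsWithin] with t ht ht0
    rw [h0, sub_zero, zero_add, smul_eq_mul] at ht
    have ht0' : (0 : ℝ) < t := ht0
    by_contra hcon
    push Not at hcon
    exact absurd ht (not_lt.2 (mul_nonneg (inv_nonneg.2 ht0'.le) hcon))
  obtain ⟨δ, hδ, hδ1⟩ := Metric.eventually_nhds_iff.1 hf
  obtain ⟨ε, hε, hε1⟩ := Metric.eventually_nhds_iff.1 hmin
  obtain ⟨η, hη, hη1⟩ := mem_nhdsGT_iff_exists_Ioc_subset.1 h1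
  set t := min (min (δ / 2) (ε / 2)) η with htdef
  have hη0 : (0 : ℝ) < η := hη
  have ht : 0 < t := by (clear * - hδ hε hη0; positivity)
  have htδ : t < δ := lt_of_le_of_lt ((min_le_left _ _).trans (min_le_left _ _)) (by linarith only [hδ])
  have htε : t < ε := lt_of_le_of_lt ((min_le_left _ _).trans (min_le_right _ _)) (by linarith)
  have htη : t ≤ η := min_le_right _ _
  have hder : ∀ s ∈ Set.Icc (0 : ℝ) t, HasDerivAt f (f' s) s := fun s hs =>
    hδ1 (by rw [Real.dist_eq, sub_zero, abs_of_nonneg hs.1]; linarith only [htδ, hs.2])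
  obtain ⟨ξ, hξ, hξ1⟩ := exists_hasDerivAt_eq_slope f f' ht
    (fun s hs => (hder s hs).continuousAt.continuousWithinAt)
    (fun s hs => hder s ⟨hs.1.le, hs.2.le⟩)
  have h4 : f' ξ < 0 := hη1 ⟨hξ.1, hξ.2.le.trans htη⟩
  have h5 : f 0 ≤ f t := hε1 (by rw [Real.dist_eq, sub_zero, abs_of_pos ht]; exact htε)
  rw [hξ1, sub_zero] at h4
  have h6 : 0 ≤ (f t - f 0) / t := div_nonneg (by linarith only [h5]) ht.le
  linarith only [h4, h6]

/-- First and second order necessary conditions at a local minimum, in Wirtinger form. -/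
theorem wirt_local_min {τ : ℂ → ℝ} {W : ℂ → ℂ} {m n z : ℂ}
    (h1 : ∀ᶠ w in 𝓝 z, HasW (fun w => (τ w : ℂ)) (W w) (conj (W w)) w)
    (h2 : HasW W m n z) (hmin : IsLocalMin τ z) : W z = 0 ∧ 0 ≤ n.re := by
  have hx : ∀ᶠ t : ℝ in 𝓝 (0 : ℝ), HasDerivAt (fun t : ℝ => τ (z + t)) (2 * (W (z + t)).re) t := by
    have hc : Tendsto (fun t : ℝ => z + (t : ℂ)) (𝓝 0) (𝓝 z) := by
      have : Continuous fun t : ℝ => z + (t : ℂ) := by (clear * -; fun_prop)
      simpa only [Complex.ofReal_zero, add_zero] using this.tendsto 0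
    filter_upwards [hc.eventually h1] with t ht
    have h3 := ht.hasDerivAt_x
    have h4 : HasDerivAt (fun s : ℝ => (τ (z + t + s) : ℂ)) (W (z + t) + conj (W (z + t))) 0 := h3
    have h5 : HasDerivAt (fun s : ℝ => τ (z + t + s)) (2 * (W (z + t)).re) 0 := by
      have h6 := hasDerivAt_re h4
      simp only [Complex.ofReal_re, Complex.add_re, Complex.conj_re] at h6
      refine h6.congr_deriv (by ring)
    have h7 : HasDerivAt (fun s : ℝ => s - t) 1 t := (hasDerivAt_id t).sub_const t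
    have h8 : HasDerivAt (fun s : ℝ => τ (z + t + s)) (2 * (W (z + t)).re) (t - t) := by
      rw [sub_self]; exact h5
    have h9 := HasDerivAt.comp t (h₂ := fun s : ℝ => τ (z + t + s)) (h := fun s : ℝ => s - t) h8 h7
    rw [mul_one] at h9
    refine h9.congr_of_eventuallyEq (Eventually.of_forall fun s => ?_)
    show τ (z + s) = τ (z + t + ((s - t : ℝ) : ℂ))
    congr 1
    push_cast
    ring
  have hy : ∀ᶠ t : ℝ in 𝓝 (0 : ℝ), HasDerivAt (fun t : ℝ => τ (z + t * Complex.I))
      (-2 * (W (z + t * Complex.I)).im) t := by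
    have hc : Tendsto (fun t : ℝ => z + (t : ℂ) * Complex.I) (𝓝 0) (𝓝 z) := by
      have : Continuous fun t : ℝ => z + (t : ℂ) * Complex.I := by fun_prop
      simpa only [Complex.ofReal_zero, zero_mul, add_zero] using this.tendsto 0
    filter_upwards [hc.eventually h1] with t ht
    have h3 := ht.hasDerivAt_y
    have h5 : HasDerivAt (fun s : ℝ => τ (z + t * Complex.I + s * Complex.I))
        (-2 * (W (z + t * Complex.I)).im) 0 := by
      have h6 := hasDerivAt_re h3
      simp only [Complex.ofReal_re] at h6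
      refine h6.congr_deriv ?_
      simp only [Complex.mul_re, Complex.sub_re, Complex.conj_re, sub_self, Complex.I_re, mul_zero, Complex.sub_im, Complex.conj_im, sub_neg_eq_add, Complex.I_im, mul_one, zero_sub, neg_add_rev, neg_mul]
      ring
    have h7 : HasDerivAt (fun s : ℝ => s - t) 1 t := (hasDerivAt_id t).sub_const t
    have h8 : HasDerivAt (fun s : ℝ => τ (z + t * Complex.I + s * Complex.I))
        (-2 * (W (z + t * Complex.I)).im) (t - t) := by
      rw [sub_self]; exact h5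
    have h9 := HasDerivAt.comp t (h₂ := fun s : ℝ => τ (z + t * Complex.I + s * Complex.I))
      (h := fun s : ℝ => s - t) h8 h7
    rw [mul_one] at h9
    refine h9.congr_of_eventuallyEq (Eventually.of_forall fun s => ?_)
    show τ (z + s * Complex.I) = τ (z + t * Complex.I + ((s - t : ℝ) : ℂ) * Complex.I)
    congr 1
    push_cast
    ring
  have hminx : IsLocalMin (fun t : ℝ => τ (z + t)) 0 := by
    have hc : Tendsto (fun t : ℝ => z + (t : ℂ)) (𝓝 0) (𝓝 z) := by
      have : Continuous fun t : ℝ => z + (t : ℂ) := by fun_prop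
      simpa only [Complex.ofReal_zero, add_zero] using this.tendsto 0
    have := hc.eventually hmin
    simpa only [IsLocalMin, IsMinFilter, Complex.ofReal_zero, add_zero] using this
  have hminy : IsLocalMin (fun t : ℝ => τ (z + t * Complex.I)) 0 := by
    have hc : Tendsto (fun t : ℝ => z + (t : ℂ) * Complex.I) (𝓝 0) (𝓝 z) := by
      have : Continuous fun t : ℝ => z + (t : ℂ) * Complex.I := by fun_prop
      simpa only [Complex.ofReal_zero, zero_mul, add_zero] using this.tendsto 0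
    have := hc.eventually hmin
    simpa only [IsLocalMin, IsMinFilter, Complex.ofReal_zero, zero_mul, add_zero] using this
  have hWx : HasDerivAt (fun t : ℝ => 2 * (W (z + t)).re) (2 * (m + n).re) 0 :=
    (hasDerivAt_re h2.hasDerivAt_x).const_mul 2
  have hWy : HasDerivAt (fun t : ℝ => -2 * (W (z + t * Complex.I)).im)
      (-2 * ((m - n) * Complex.I).im) 0 :=
    (hasDerivAt_im h2.hasDerivAt_y).const_mul (-2)
  have e1 := hminx.hasDerivAt_eq_zero hx.self_of_nhds
  have e2 := hminy.hasDerivAt_eq_zero hy.self_of_nhds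
  have e3 := second_deriv_nonneg hx hWx hminx
  have e4 := second_deriv_nonneg hy hWy hminy
  simp only [Complex.ofReal_zero, add_zero, mul_eq_zero, OfNat.ofNat_ne_zero, false_or, zero_mul, neg_mul, neg_eq_zero, Complex.add_re, Nat.ofNat_pos, mul_nonneg_iff_of_pos_left, Complex.mul_im, Complex.sub_re, Complex.I_im, mul_one, Complex.sub_im, Complex.I_re, mul_zero, Left.nonneg_neg_iff] at e1 e2 e3 e4
  refine ⟨Complex.ext (by simpa using e1) (by simpa using e2), by linarith only [e3, e4]⟩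

/-- The Jacobian `v_x u_y - v_y u_x`, in terms of `p = ∂u`, `q = ∂v`. -/
def jac (p q : ℂ) : ℝ := -4 * (conj q * p).im

theorem jac_eq (p q : ℂ) : (jac p q : ℂ) = 2 * Complex.I * (conj q * p - q * conj p) := by
  apply Complex.ext
  · simp only [jac, Complex.mul_im, Complex.conj_re, Complex.conj_im, neg_mul, Complex.ofReal_neg, Complex.ofReal_mul, Complex.ofReal_ofNat, Complex.ofReal_add, Complex.neg_re, Complex.mul_re, Complex.re_ofNat, Complex.add_re, Complex.ofReal_re, Complex.ofReal_im, mul_zero, sub_zero, Complex.im_ofNat, Complex.add_im, zero_mul, add_zero, Complex.neg_im, neg_zero, Complex.I_re, Complex.I_im, mul_one, sub_self, Complex.sub_re, sub_neg_eq_add, mul_neg, Complex.sub_im, zero_sub, neg_inj]; ring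
  · simp only [jac, Complex.mul_im, Complex.conj_re, Complex.conj_im, neg_mul, Complex.ofReal_neg, Complex.ofReal_mul, Complex.ofReal_ofNat, Complex.ofReal_add, Complex.neg_im, Complex.re_ofNat, Complex.add_im, Complex.ofReal_re, Complex.ofReal_im, mul_zero, zero_mul, add_zero, neg_zero, Complex.im_ofNat, Complex.add_re, Complex.mul_re, sub_zero, Complex.neg_re, Complex.I_re, Complex.I_im, mul_one, sub_self, Complex.sub_im, mul_neg, Complex.sub_re, sub_neg_eq_add]

/-- Pointwise algebra: at a critical point of `τ`, `Im (conj β α) ≥ 0`. -/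
theorem im_nonneg_of_crit {p q α β : ℂ} (hJ : 0 < jac p q) (hc : conj q * α = conj p * β) :
    0 ≤ (conj β * α).im := by
  have key : jac p q * (conj β * α).im =
      Complex.normSq (q * α - p * β) - Complex.normSq (conj q * α - conj p * β) := by
    simp only [jac, Complex.normSq_apply]
    simp only [Complex.mul_im, Complex.conj_re, Complex.conj_im, neg_mul, Complex.sub_re, Complex.mul_re, Complex.sub_im, sub_neg_eq_add]
    ring
  rw [hc, sub_self, map_zero, sub_zero] at key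
  have h1 : 0 ≤ jac p q * (conj β * α).im := key ▸ Complex.normSq_nonneg _
  by_contra hcon
  push Not at hcon
  nlinarith only [h1, hJ, hcon]

/-- Data of a pair of solutions near a point `z`. -/
structure PairAt (u v k ψ : ℂ → ℝ) (p q p1 q1 k1 : ℂ → ℂ) (z : ℂ) : Prop where
  hu : ∀ᶠ w in 𝓝 z, HasW (fun w => (u w : ℂ)) (p w) (conj (p w)) w
  hv : ∀ᶠ w in 𝓝 z, HasW (fun w => (v w : ℂ)) (q w) (conj (q w)) w
  hk : ∀ᶠ w in 𝓝 z, HasW (fun w => (k w : ℂ)) (k1 w) (conj (k1 w)) w
  hψ : ∀ᶠ w in 𝓝 z, HasW (fun w => (ψ w : ℂ)) (Complex.I * (u w * q w - v w * p w))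
    (conj (Complex.I * (u w * q w - v w * p w))) w
  hp : ∀ᶠ w in 𝓝 z, HasW p (p1 w) (-(k w * u w) / 4) w
  hq : ∀ᶠ w in 𝓝 z, HasW q (q1 w) (-(k w * v w) / 4) w
  hpos : 0 < k z

/-- `τ` has no local minimum at a point where `J > 0`. -/
theorem PairAt.not_isLocalMin {u v k ψ : ℂ → ℝ} {p q p1 q1 k1 : ℂ → ℂ} {z p2 q2 k2 : ℂ} {k11 : ℝ}
    (H : PairAt u v k ψ p q p1 q1 k1 z)
    (hp1 : HasW p1 p2 (-(k1 z * u z + k z * p z) / 4) z)
    (hq1 : HasW q1 q2 (-(k1 z * v z + k z * q z) / 4) z)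
    (hk1 : HasW k1 k2 (k11 : ℂ) z)
    (hlog : 0 < k z ^ 3 + 4 * (k11 * k z - Complex.normSq (k1 z)))
    (hJ : 0 < jac (p z) (q z)) :
    ¬ IsLocalMin (fun w => jac (p w) (q w) / k w - ψ w / 2) z := by
  intro hmin
  have hkz : (k z : ℂ) ≠ 0 := Complex.ofReal_ne_zero.2 H.hpos.ne'
  have hkne : ∀ᶠ w in 𝓝 z, (k w : ℂ) ≠ 0 :=
    (H.hk.self_of_nhds.continuousAt).eventually_ne hkz
  -- first derivatives
  let α : ℂ → ℂ := fun w => (p1 w * k w - p w * k1 w) / (k w) ^ 2
  let β : ℂ → ℂ := fun w => (q1 w * k w - q w * k1 w) / (k w) ^ 2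
  let W : ℂ → ℂ := fun w => 2 * Complex.I * (conj (q w) * α w - conj (p w) * β w)
  have hW : ∀ᶠ w in 𝓝 z, HasW (fun w => ((jac (p w) (q w) / k w - ψ w / 2 : ℝ) : ℂ))
      (W w) (conj (W w)) w := by
    filter_upwards [H.hu, H.hv, H.hk, H.hψ, H.hp, H.hq, hkne] with w hu hv hk hψ hp hq hkw
    have e1 : (fun w => ((jac (p w) (q w) / k w - ψ w / 2 : ℝ) : ℂ)) = fun w =>
        2 * Complex.I * ((conj (q w)) * (p w) - (q w) * (conj (p w))) / (k w) -
          (1 / 2) * (ψ w) := by
      funext w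
      push_cast
      rw [jac_eq]
      ring
    rw [e1]
    have hcp := hp.conj
    have hcq := hq.conj
    have h3 := ((((hcq.mul hp).sub (hq.mul hcp)).const_mul (2 * Complex.I)).div hk hkw).sub
      (hψ.const_mul (1 / 2))
    refine h3.congr ?_ ?_
    · simp only [W, α, β, map_div₀, map_neg, map_mul, Complex.conj_ofReal, map_ofNat]
      field_simp
      ring
    · simp only [W, α, β, map_div₀, map_neg, map_mul, map_sub, map_pow, Complex.conj_ofReal,
        map_ofNat, Complex.conj_conj, Complex.conj_I]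
      field_simp
      ring
  -- second derivatives
  have hkk := H.hk.self_of_nhds
  have hpp := H.hp.self_of_nhds
  have hqq := H.hq.self_of_nhds
  have hα := ((hp1.mul hkk).sub (hpp.mul hk1)).div (hkk.mul hkk) (mul_ne_zero hkz hkz)
  have hβ := ((hq1.mul hkk).sub (hqq.mul hk1)).div (hkk.mul hkk) (mul_ne_zero hkz hkz)
  have hWz := ((hqq.conj.mul hα).sub (hpp.conj.mul hβ)).const_mul (2 * Complex.I)
  obtain ⟨m, hWz'⟩ : ∃ m, HasW W m ((-4 * k z * (conj (β z) * α z).im -
      (k z ^ 3 + 4 * (k11 * k z - Complex.normSq (k1 z))) / (4 * k z ^ 3) * jac (p z) (q z) : ℝ)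
        : ℂ) z := by
    refine ⟨_, (hWz.congr_of_eventuallyEq (g := W) (Eventually.of_forall fun w => by
      simp only [W, α, β, pow_two])).congr rfl ?_⟩
    have e2 : ((conj (β z) * α z).im : ℂ) =
        (conj (β z) * α z - β z * conj (α z)) / (2 * Complex.I) := by
      rw [eq_div_iff (mul_ne_zero two_ne_zero Complex.I_ne_zero)]
      apply Complex.ext
      · simp
      · simp only [Complex.mul_im, Complex.conj_re, Complex.conj_im, neg_mul, Complex.ofReal_add, Complex.ofReal_mul, Complex.ofReal_neg, Complex.add_re, Complex.mul_re, Complex.ofReal_re, Complex.ofReal_im, mul_zero, sub_zero, Complex.neg_re, Complex.re_ofNat, Complex.I_im, mul_one, Complex.im_ofNat, Complex.I_re, add_zero, Complex.add_im, zero_mul, Complex.neg_im, neg_zero, sub_self, Complex.sub_im, mul_neg]; ring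
    have e3 : ((Complex.normSq (k1 z) : ℝ) : ℂ) = k1 z * conj (k1 z) := by
      rw [Complex.mul_conj]
    push_cast
    rw [jac_eq, e2, e3]
    simp only [map_div₀, map_sub, map_mul, Complex.conj_ofReal, map_pow, β, α]
    have hI : Complex.I ≠ 0 := Complex.I_ne_zero
    field_simp
    ring_nf
    simp only [Complex.I_sq]
    ring
  obtain ⟨hz0, hz1⟩ := wirt_local_min hW hWz' hmin
  have hcrit : conj (q z) * α z = conj (p z) * β z := by
    have h5 : (2 * Complex.I) ≠ 0 := mul_ne_zero two_ne_zero Complex.I_ne_zero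
    have h6 := (mul_eq_zero.1 hz0).resolve_left h5
    exact sub_eq_zero.1 h6
  have hIm := im_nonneg_of_crit hJ hcrit
  rw [Complex.ofReal_re] at hz1
  have hk0 := H.hpos
  have h8 : 0 ≤ 4 * k z * (conj (β z) * α z).im := by (clear * - hk0 hIm; positivity)
  have h9 : 0 < (k z ^ 3 + 4 * (k11 * k z - Complex.normSq (k1 z))) / (4 * k z ^ 3) *
      jac (p z) (q z) := by (clear * - hlog hk0 hJ; positivity)
  linarith

end Vale.Agent.P071
end
end

section

/-!
# Minimum principles on the disc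
-/

open scoped ComplexConjugate Topology
open Filter Metric

noncomputable section

namespace Vale.Agent.P071

/-- Abstract minimum principle on a compact set. -/
theorem min_principle {K : Set ℂ} (hK : IsCompact K) {τ : ℂ → ℝ} (hc : ContinuousOn τ K)
    (hb : ∀ z ∈ K, z ∉ interior K → 0 ≤ τ z)
    (hno : ∀ z ∈ interior K, τ z < 0 → ¬ IsLocalMin τ z) : ∀ z ∈ K, 0 ≤ τ z := by
  intro z hz
  obtain ⟨w, hw, hmin⟩ := hK.exists_isMinOn ⟨z, hz⟩ hc
  have hwz : τ w ≤ τ z := hmin hz
  by_contra hneg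
  push Not at hneg
  have hw0 : τ w < 0 := lt_of_le_of_lt hwz hneg
  by_cases hint : w ∈ interior K
  · refine hno w hint hw0 ?_
    filter_upwards [mem_interior_iff_mem_nhds.1 hint] with y hy
    exact hmin hy
  · exact absurd (hb w hw hint) (not_le.2 hw0)

/-- Minimum principle on the closed unit disc. -/
theorem min_principle_disc {τ : ℂ → ℝ} (hc : ContinuousOn τ (closedBall 0 1))
    (hb : ∀ z, ‖z‖ = 1 → 0 ≤ τ z) (hno : ∀ z, ‖z‖ < 1 → τ z < 0 → ¬ IsLocalMin τ z) :
    ∀ z, ‖z‖ ≤ 1 → 0 ≤ τ z := by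
  intro z hz
  refine min_principle (isCompact_closedBall (0 : ℂ) 1) hc (fun w hw hwi => ?_)
    (fun w hw => ?_) z (by simpa only [mem_closedBall, dist_zero_right] using hz)
  · rw [interior_closedBall (0 : ℂ) one_ne_zero, mem_ball_zero_iff, not_lt] at hwi
    exact hb w (le_antisymm (by simpa only [mem_closedBall, dist_zero_right] using hw) hwi)
  · rw [interior_closedBall (0 : ℂ) one_ne_zero, mem_ball_zero_iff] at hw
    exact hno w hw

/-- A real `C²` superharmonic function, in Wirtinger form, at the points of `U`. -/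
def SupHarm (ψ : ℂ → ℝ) (U : Set ℂ) : Prop :=
  ∃ W n : ℂ → ℂ, ∀ z ∈ U, HasW (fun w => (ψ w : ℂ)) (W z) (conj (W z)) z ∧
    (∃ m, HasW W m (n z) z) ∧ (n z).re ≤ 0

theorem SupHarm.mono {ψ : ℂ → ℝ} {U V : Set ℂ} (h : SupHarm ψ U) (hVU : V ⊆ U) : SupHarm ψ V := by
  obtain ⟨W, n, h⟩ := h
  exact ⟨W, n, fun z hz => h z (hVU hz)⟩

theorem not_isLocalMin_of_wirt {τ : ℂ → ℝ} {W : ℂ → ℂ} {m n z : ℂ}
    (h1 : ∀ᶠ w in 𝓝 z, HasW (fun w => (τ w : ℂ)) (W w) (conj (W w)) w)
    (h2 : HasW W m n z) (hn : n.re < 0) : ¬ IsLocalMin τ z := fun hmin =>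
  absurd (wirt_local_min h1 h2 hmin).2 (not_le.2 hn)

/-- Wirtinger derivatives of the barrier `1/|z-c|²`. -/
theorem hasW_barrier {c z : ℂ} (hz : z ≠ c) :
    HasW (fun w => ((1 / ‖w - c‖ ^ 2 : ℝ) : ℂ))
      (-1 / ((z - c) ^ 2 * conj (z - c))) (conj (-1 / ((z - c) ^ 2 * conj (z - c)))) z := by
  have hzc : z - c ≠ 0 := sub_ne_zero.2 hz
  have hzc' : conj (z - c) ≠ 0 := (map_ne_zero _).2 hzc
  have e : (fun w => ((1 / ‖w - c‖ ^ 2 : ℝ) : ℂ)) = fun w => ((w - c) * conj (w - c))⁻¹ := by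
    funext w
    rw [Complex.mul_conj, Complex.normSq_eq_norm_sq]
    push_cast
    rw [one_div]
  rw [e]
  have h1 : HasW (fun w => w - c) 1 0 z := by
    simpa using (hasW_id z).sub (hasW_const c z)
  have h2 := h1.conj
  have h3 := (h1.mul h2).inv (mul_ne_zero hzc hzc')
  refine h3.congr ?_ ?_
  · simp only [map_zero]
    field_simp
    ring
  · simp only [map_one, map_div₀, map_neg, map_mul, map_pow, Complex.conj_conj]
    field_simp
    ring

theorem hasW_barrier' {c z : ℂ} (hz : z ≠ c) :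
    ∃ m, HasW (fun w => -1 / ((w - c) ^ 2 * conj (w - c))) m
      ((1 / ‖z - c‖ ^ 4 : ℝ) : ℂ) z := by
  have hzc : z - c ≠ 0 := sub_ne_zero.2 hz
  have hzc' : conj (z - c) ≠ 0 := (map_ne_zero _).2 hzc
  have h1 : HasW (fun w => w - c) 1 0 z := by
    simpa using (hasW_id z).sub (hasW_const c z)
  have h2 := h1.conj
  have h3 := (hasW_const (-1) z).div ((h1.mul h1).mul h2) (mul_ne_zero (mul_ne_zero hzc hzc) hzc')
  refine ⟨_, (h3.congr_of_eventuallyEq (Eventually.of_forall fun w => ?_)).congr rfl ?_⟩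
  · simp only [pow_two]
  · have e4 : ((1 / ‖z - c‖ ^ 4 : ℝ) : ℂ) = 1 / ((z - c) * conj (z - c)) ^ 2 := by
      rw [Complex.mul_conj, Complex.normSq_eq_norm_sq]
      push_cast
      rw [← pow_mul]
    rw [e4]
    simp only [map_one]
    field_simp
    ring

/-- Hopf type lower bound on a ball for nonnegative superharmonic functions. -/
theorem hopf_ball {ψ : ℂ → ℝ} {c : ℂ} {R : ℝ} (hR : 0 < R)
    (hcont : ContinuousOn ψ (closedBall c R)) (hs : SupHarm ψ (ball c R))
    (h0 : ∀ z ∈ closedBall c R, 0 ≤ ψ z) (hc : 0 < ψ c) :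
    ∃ ε > 0, ∀ z ∈ closedBall c R, ε * (R ^ 2 - ‖z - c‖ ^ 2) ≤ ψ z := by
  obtain ⟨W, n, hW⟩ := hs
  -- positivity near the centre
  have hcc : ContinuousAt ψ c := hcont.continuousAt (closedBall_mem_nhds c hR)
  have hev : ∀ᶠ z in 𝓝 c, ψ c / 2 < ψ z := hcc.eventually (lt_mem_nhds (by linarith))
  obtain ⟨ρ', hρ', hρ1⟩ := Metric.eventually_nhds_iff.1 hev
  set ρ := min (ρ' / 2) (R / 2) with hρ
  have hρ0 : 0 < ρ := by (clear * - hρ' hR; positivity)
  have hρR : ρ < R := lt_of_le_of_lt (min_le_right _ _) (by linarith only [hR])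
  have hρρ' : ρ < ρ' := lt_of_le_of_lt (min_le_left _ _) (by linarith only [hρ'])
  set m := ψ c / 2 with hm
  have hm0 : 0 < m := by positivity
  have hin : ∀ z, ‖z - c‖ ≤ ρ → m ≤ ψ z := fun z hz =>
    (hρ1 (by rw [dist_eq_norm]; linarith only [hρρ', hz])).le
  set ε := m * ρ ^ 2 / R ^ 2 with hε
  have hε0 : 0 < ε := by positivity
  have hεm : ε ≤ m := by
    rw [hε, div_le_iff₀ (by positivity)]
    gcongr
  -- the comparison on the annulus
  have hann : ∀ z ∈ closedBall c R ∩ {z | ρ ≤ ‖z - c‖},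
      0 ≤ ψ z - ε * (R ^ 2 * (1 / ‖z - c‖ ^ 2) - 1) := by
    have hKc : IsCompact (closedBall c R ∩ {z | ρ ≤ ‖z - c‖}) :=
      (isCompact_closedBall c R).inter_right
        (isClosed_le continuous_const (by fun_prop))
    refine min_principle hKc ?_ ?_ ?_
    · refine (hcont.mono Set.inter_subset_left).sub (continuousOn_const.mul
        ((continuousOn_const.mul (continuousOn_const.div (by fun_prop) ?_)).sub
          continuousOn_const))
      intro z hz
      have : 0 < ‖z - c‖ := lt_of_lt_of_le hρ0 hz.2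
      (clear * - this; positivity)
    · intro z hz hzi
      have hz1 : ‖z - c‖ ≤ R := by simpa only [mem_closedBall, dist_eq_norm] using hz.1
      have hz2 : ρ ≤ ‖z - c‖ := hz.2
      have hzpos : 0 < ‖z - c‖ := lt_of_lt_of_le hρ0 hz2
      rcases lt_or_eq_of_le hz1 with h1 | h1
      · rcases lt_or_eq_of_le hz2 with h2 | h2
        · exfalso
          apply hzi
          have hopen : IsOpen (ball c R ∩ {z | ρ < ‖z - c‖}) :=
            isOpen_ball.inter (isOpen_lt continuous_const (by fun_prop))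
          refine interior_mono (s := ball c R ∩ {z | ρ < ‖z - c‖}) ?_ ?_
          · intro y hy
            exact ⟨ball_subset_closedBall hy.1, (show ρ < ‖y - c‖ from hy.2).le⟩
          · rw [hopen.interior_eq]
            exact ⟨by rw [mem_ball, dist_eq_norm]; exact h1, h2⟩
        · have h3 := hin z h2.symm.le
          have h4 : ε * (R ^ 2 * (1 / ‖z - c‖ ^ 2) - 1) ≤ m := by
            rw [← h2, hε]
            have : m * ρ ^ 2 / R ^ 2 * (R ^ 2 * (1 / ρ ^ 2) - 1) = m - m * ρ ^ 2 / R ^ 2 := by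
              (clear * - hρ0 hR hm0; field_simp)
            rw [this]
            have : 0 < m * ρ ^ 2 / R ^ 2 := by positivity
            linarith only [hε0]
          linarith only [h3, h4]
      · have h3 := h0 z hz.1
        rw [h1]
        have : R ^ 2 * (1 / R ^ 2) - 1 = 0 := by field_simp; ring
        rw [this]
        linarith only [h3]
    · intro z hz _
      have hz' : z ∈ closedBall c R ∩ {z | ρ ≤ ‖z - c‖} := interior_subset hz
      have hzb : z ∈ ball c R := by
        have : z ∈ interior (closedBall c R) := interior_mono Set.inter_subset_left hz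
        rwa [interior_closedBall c hR.ne'] at this
      have hzc : z ≠ c := by
        intro h
        have := hz'.2
        rw [h] at this
        simp only [Set.mem_ofPred_eq, sub_self, norm_zero] at this
        linarith only [hρ0, this]
      obtain ⟨m', hm'⟩ := hasW_barrier' hzc
      obtain ⟨⟨mm, hmm⟩, hnn⟩ := (hW z hzb).2
      have hev1 : ∀ᶠ w in 𝓝 z, w ∈ ball c R := isOpen_ball.mem_nhds hzb
      have hev2 : ∀ᶠ w in 𝓝 z, w ≠ c := isOpen_ne.mem_nhds hzc
      refine not_isLocalMin_of_wirt (W := fun w => W w - ε * R ^ 2 *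
        (-1 / ((w - c) ^ 2 * conj (w - c)))) (m := mm - ε * R ^ 2 * m')
        (n := n z - ε * R ^ 2 * ((1 / ‖z - c‖ ^ 4 : ℝ) : ℂ)) ?_ ?_ ?_
      · filter_upwards [hev1, hev2] with w hw1 hw2
        have h5 := (hW w hw1).1.sub (((hasW_barrier hw2).const_mul ((R : ℂ) ^ 2)).sub
          (hasW_const 1 w) |>.const_mul (ε : ℂ))
        have e5 : (fun w => ((ψ w - ε * (R ^ 2 * (1 / ‖w - c‖ ^ 2) - 1) : ℝ) : ℂ)) = fun w =>
            (ψ w : ℂ) - (ε : ℂ) * ((R : ℂ) ^ 2 * ((1 / ‖w - c‖ ^ 2 : ℝ) : ℂ) - 1) := by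
          funext w
          push_cast
          ring
        rw [e5]
        refine h5.congr ?_ ?_
        · ring
        · simp only [map_sub, map_mul, map_pow, Complex.conj_ofReal]
          ring
      · have h6 := hmm.sub (hm'.const_mul ((ε : ℂ) * (R : ℂ) ^ 2))
        exact h6
      · have h7 : 0 < ‖z - c‖ := norm_pos_iff.2 (sub_ne_zero.2 hzc)
        have h8 : 0 < ε * R ^ 2 * (1 / ‖z - c‖ ^ 4) := by (clear * - hc hρ' hR h7; positivity)
        have h9 : (n z - (ε : ℂ) * (R : ℂ) ^ 2 * ((1 / ‖z - c‖ ^ 4 : ℝ) : ℂ)).re =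
            (n z).re - ε * R ^ 2 * (1 / ‖z - c‖ ^ 4) := by
          have : (ε : ℂ) * (R : ℂ) ^ 2 * ((1 / ‖z - c‖ ^ 4 : ℝ) : ℂ) =
              ((ε * R ^ 2 * (1 / ‖z - c‖ ^ 4) : ℝ) : ℂ) := by push_cast; ring
          rw [this, Complex.sub_re, Complex.ofReal_re]
        rw [h9]
        linarith only [hnn, h8]
  refine ⟨ε / R ^ 2, by positivity, fun z hz => ?_⟩
  have hz1 : ‖z - c‖ ≤ R := by simpa only [mem_closedBall, dist_eq_norm] using hz
  have hsq : ‖z - c‖ ^ 2 ≤ R ^ 2 := by (clear * - hz1; gcongr)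
  rcases le_total ρ ‖z - c‖ with h | h
  · have h1 := hann z ⟨hz, h⟩
    have hpos : 0 < ‖z - c‖ := lt_of_lt_of_le hρ0 h
    have h2 : ε / R ^ 2 * (R ^ 2 - ‖z - c‖ ^ 2) ≤ ε * (R ^ 2 * (1 / ‖z - c‖ ^ 2) - 1) := by
      have e1 : ε * (R ^ 2 * (1 / ‖z - c‖ ^ 2) - 1) =
          ε / ‖z - c‖ ^ 2 * (R ^ 2 - ‖z - c‖ ^ 2) := by (clear * - hpos hε0; field_simp)
      rw [e1]
      have : 0 ≤ R ^ 2 - ‖z - c‖ ^ 2 := by linarith only [hsq]
      (clear * - hc hρ' hR hpos hsq; gcongr)
    linarith only [h1, h2]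
  · have h1 := hin z h
    have h2 : ε / R ^ 2 * (R ^ 2 - ‖z - c‖ ^ 2) ≤ ε := by
      rw [div_mul_eq_mul_div, div_le_iff₀ (by positivity)]
      have : 0 ≤ ‖z - c‖ ^ 2 := by (clear * -; positivity)
      nlinarith only [hε0]
    linarith only [hεm, h1, h2]

/-- Strong minimum principle and Hopf bound on the unit disc. -/
theorem hopf_disc {ψ : ℂ → ℝ} (hcont : ContinuousOn ψ (closedBall 0 1))
    (hs : SupHarm ψ (ball 0 1)) (h0 : ∀ z, ‖z‖ ≤ 1 → 0 ≤ ψ z)
    (hne : ∃ z, ‖z‖ < 1 ∧ 0 < ψ z) :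
    ∃ ε > 0, ∀ z, ‖z‖ ≤ 1 → ε * (1 - ‖z‖ ^ 2) ≤ ψ z := by
  have hcontb : ContinuousOn ψ (ball 0 1) := hcont.mono ball_subset_closedBall
  -- positivity everywhere
  have hpos : ball (0 : ℂ) 1 ⊆ {z | z ∈ ball (0 : ℂ) 1 ∧ 0 < ψ z} := by
    have hopen : IsOpen {z | z ∈ ball (0 : ℂ) 1 ∧ 0 < ψ z} :=
      hcontb.isOpen_inter_preimage isOpen_ball isOpen_Ioi
    refine (convex_ball (0 : ℂ) 1).isPreconnected.subset_of_closure_inter_subset hopen ?_ ?_
    · obtain ⟨z, hz, hz'⟩ := hne
      exact ⟨z, by simpa only [mem_ball, dist_zero_right] using hz, by simpa only [mem_ball, dist_zero_right] using hz, hz'⟩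
    · rintro z ⟨hz, hzb⟩
      refine ⟨hzb, ?_⟩
      have hz1 : ‖z‖ < 1 := by simpa only [mem_ball, dist_zero_right] using hzb
      obtain ⟨y, ⟨hyb, hy⟩, hyz⟩ := Metric.mem_closure_iff.1 hz ((1 - ‖z‖) / 2) (by linarith)
      have hy1 : ‖y‖ < 1 := by simpa only [mem_ball, dist_zero_right] using hyb
      have hyz' : ‖z - y‖ < (1 - ‖z‖) / 2 := by rw [← dist_eq_norm]; exact hyz
      have hR : ‖z - y‖ < 1 - ‖y‖ := by
        have := norm_sub_norm_le y z
        rw [norm_sub_rev] at this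
        linarith only [hyz', this]
      have hsub : closedBall y (1 - ‖y‖) ⊆ closedBall 0 1 := by
        intro w hw
        rw [mem_closedBall, dist_eq_norm] at hw
        rw [mem_closedBall, dist_zero_right]
        have := norm_sub_norm_le w y
        linarith only [hw, this]
      have hsub' : ball y (1 - ‖y‖) ⊆ ball 0 1 := by
        intro w hw
        rw [mem_ball, dist_eq_norm] at hw
        rw [mem_ball, dist_zero_right]
        have := norm_sub_norm_le w y
        linarith only [hw, this]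
      obtain ⟨ε, hε, h⟩ := hopf_ball (by linarith only [hy1]) (hcont.mono hsub) (hs.mono hsub')
        (fun w hw => h0 w (by simpa only [mem_closedBall, dist_zero_right] using hsub hw)) hy
      have h2 := h z (by rw [mem_closedBall, dist_eq_norm]; exact hR.le)
      have h3 : 0 < ε * ((1 - ‖y‖) ^ 2 - ‖z - y‖ ^ 2) := by
        have : ‖z - y‖ ^ 2 < (1 - ‖y‖) ^ 2 := by (clear * - hR; gcongr)
        have h4 : 0 < (1 - ‖y‖) ^ 2 - ‖z - y‖ ^ 2 := by linarith only [this]
        (clear * - hε this; positivity)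
      exact lt_of_lt_of_le h3 h2
  obtain ⟨ε, hε, h⟩ := hopf_ball one_pos hcont hs (fun w hw => h0 w (by simpa only [mem_closedBall, dist_zero_right] using hw))
    (hpos (mem_ball_self one_pos)).2
  refine ⟨ε, hε, fun z hz => ?_⟩
  simpa only [one_pow, sub_zero] using h z (by simpa using hz)

end Vale.Agent.P071
end
end

section

/-!
# Compact operators which are symmetric for a weaker inner product

`X` is a real Banach space, `B` a bounded symmetric positive definite bilinear form, `K` a compact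
operator, symmetric for `B`. Then `B (K u) (K u) ≤ ‖K‖ ^ 2 * B u u` (Lax), the supremum of the
Rayleigh quotient, if positive, is an eigenvalue, and the Fredholm alternative holds with the
orthogonality for `B`.
-/

noncomputable section

namespace Vale.Agent.P071

open Module End

variable {X : Type*} [NormedAddCommGroup X] [NormedSpace ℝ X]

/-- Bounded symmetric positive definite bilinear forms. -/
structure IsWeakInner (B : X →L[ℝ] X →L[ℝ] ℝ) : Prop where
  symm : ∀ u v, B u v = B v u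
  pos : ∀ u, u ≠ 0 → 0 < B u u

namespace IsWeakInner

variable {B : X →L[ℝ] X →L[ℝ] ℝ}

theorem nonneg (hB : IsWeakInner B) (u : X) : 0 ≤ B u u := by
  by_cases h : u = 0
  · simp [h]
  · exact (hB.pos u h).le

/-- Cauchy-Schwarz for positive semidefinite symmetric forms. -/
theorem cs_of_nonneg {D : X → X → ℝ} (hs : ∀ u v, D u v = D v u)
    (ha : ∀ u v w, D (u + v) w = D u w + D v w) (hm : ∀ (c : ℝ) u v, D (c • u) v = c * D u v)
    (hp : ∀ u, 0 ≤ D u u) (u v : X) : D u v ^ 2 ≤ D u u * D v v := by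
  have key : ∀ t : ℝ, 0 ≤ D v v * (t * t) + (2 * D u v) * t + D u u := by
    intro t
    have h := hp (u + t • v)
    have e : D (u + t • v) (u + t • v) = D v v * (t * t) + (2 * D u v) * t + D u u := by
      rw [ha, hm, hs u (u + t • v), hs v (u + t • v), ha, ha, hm, hm, hs v u]
      ring
    rwa [e] at h
  have := discrim_le_zero key
  unfold discrim at this
  linarith

theorem cs (hB : IsWeakInner B) (u v : X) : B u v ^ 2 ≤ B u u * B v v :=
  cs_of_nonneg (D := fun u v => B u v) hB.symm (fun u v w => by simp) (fun c u v => by simp)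
    hB.nonneg u v

/-- Lax: operators symmetric for `B` are bounded for `B`. -/
theorem lax (hB : IsWeakInner B) (S : X →L[ℝ] X) (hS : ∀ u v, B (S u) v = B u (S v)) (u : X) :
    B (S u) (S u) ≤ ‖S‖ ^ 2 * B u u := by
  by_cases hu : u = 0
  · simp [hu]
  have hpos : 0 < B u u := hB.pos u hu
  set a : ℕ → ℝ := fun j => B ((S ^ j) u) ((S ^ j) u) with ha
  have ha0 : ∀ j, 0 ≤ a j := fun j => hB.nonneg _
  -- log-convexity
  have hconv : ∀ j, a (j + 1) ^ 2 ≤ a j * a (j + 2) := by
    intro j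
    have h1 : a (j + 1) = B ((S ^ j) u) ((S ^ (j + 2)) u) := by
      simp only [ha]
      have e1 : (S ^ (j + 1)) u = S ((S ^ j) u) := by rw [pow_succ']; rfl
      have e2 : (S ^ (j + 2)) u = S ((S ^ (j + 1)) u) := by rw [pow_succ']; rfl
      rw [e2, e1, hS]
    rw [h1]
    exact hB.cs _ _
  -- growth
  have hgrow : ∀ j, (a 1 / a 0) * a j ≤ a (j + 1) := by
    have h0 : 0 < a 0 := by simpa only [ha, pow_apply_eq_iterate, Function.iterate_zero, id_eq] using hpos
    intro j
    induction j with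
    | zero => rw [div_mul_cancel₀ _ h0.ne']
    | succ j ih =>
      by_cases hj : a (j + 1) = 0
      · rw [hj, mul_zero]; exact ha0 _
      · have hj1 : 0 < a (j + 1) := lt_of_le_of_ne (ha0 _) (Ne.symm hj)
        have h2 := hconv j
        -- `a(j+1)^2 ≤ a j * a (j+2)` and `(a1/a0) a j ≤ a (j+1)`
        have h3 : (a 1 / a 0) * (a (j + 1) ^ 2) ≤ a (j + 1) * a (j + 2) := by
          calc (a 1 / a 0) * (a (j + 1) ^ 2) ≤ (a 1 / a 0) * (a j * a (j + 2)) := by
                gcongr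
                exact div_nonneg (ha0 _) h0.le
            _ = ((a 1 / a 0) * a j) * a (j + 2) := by ring
            _ ≤ a (j + 1) * a (j + 2) := by gcongr; exact ha0 _
        have h4 : a (j + 1) * ((a 1 / a 0) * a (j + 1)) ≤ a (j + 1) * a (j + 2) := by
          calc a (j + 1) * ((a 1 / a 0) * a (j + 1)) = (a 1 / a 0) * (a (j + 1) ^ 2) := by ring
            _ ≤ _ := h3
        exact le_of_mul_le_mul_left h4 hj1
  have hpow : ∀ j, (a 1 / a 0) ^ j * a 0 ≤ a j := by
    have h0 : 0 < a 0 := by simpa only [ha, pow_apply_eq_iterate, Function.iterate_zero, id_eq] using hpos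
    intro j
    induction j with
    | zero => simp
    | succ j ih =>
      calc (a 1 / a 0) ^ (j + 1) * a 0 = (a 1 / a 0) * ((a 1 / a 0) ^ j * a 0) := by ring
        _ ≤ (a 1 / a 0) * a j := by
            gcongr
            exact div_nonneg (ha0 _) h0.le
        _ ≤ a (j + 1) := hgrow j
  have hub : ∀ j, a j ≤ ‖B‖ * ‖u‖ ^ 2 * (‖S‖ ^ 2) ^ j := by
    intro j
    have h1 : ‖(S ^ j) u‖ ≤ ‖S‖ ^ j * ‖u‖ := by
      refine ((S ^ j).le_opNorm u).trans ?_
      gcongr
      rcases Nat.eq_zero_or_pos j with rfl | hj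
      · rw [pow_zero, pow_zero]
        exact ContinuousLinearMap.norm_id_le
      · exact norm_pow_le' S hj
    have h2 : ‖B ((S ^ j) u) ((S ^ j) u)‖ ≤ ‖B‖ * ‖(S ^ j) u‖ * ‖(S ^ j) u‖ :=
      B.le_opNorm₂ _ _
    calc a j ≤ ‖B ((S ^ j) u) ((S ^ j) u)‖ := Real.le_norm_self _
      _ ≤ ‖B‖ * ‖(S ^ j) u‖ * ‖(S ^ j) u‖ := h2
      _ ≤ ‖B‖ * (‖S‖ ^ j * ‖u‖) * (‖S‖ ^ j * ‖u‖) := by gcongr
      _ = ‖B‖ * ‖u‖ ^ 2 * (‖S‖ ^ 2) ^ j := by ring
  -- conclusion by comparing growth rates
  have h0 : 0 < a 0 := by simpa only [ha, pow_apply_eq_iterate, Function.iterate_zero, id_eq] using hpos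
  have hq : a 1 / a 0 ≤ ‖S‖ ^ 2 := by
    by_contra hlt
    push Not at hlt
    rcases eq_or_lt_of_le (sq_nonneg ‖S‖) with hz | hz
    · -- `‖S‖ = 0`
      have h1 := hub 1
      rw [← hz] at h1
      simp only [pow_one, mul_zero] at h1
      have h2 : a 1 = 0 := le_antisymm h1 (ha0 1)
      rw [h2, zero_div, ← hz] at hlt
      exact lt_irrefl _ hlt
    · set q := (a 1 / a 0) / ‖S‖ ^ 2 with hqdef
      have hq1 : 1 < q := by rw [hqdef, one_lt_div hz]; exact hlt
      have hb : ∀ j : ℕ, q ^ j ≤ ‖B‖ * ‖u‖ ^ 2 / a 0 := by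
        intro j
        have h1 := (hpow j).trans (hub j)
        have hz' : 0 < (‖S‖ ^ 2) ^ j := pow_pos hz j
        rw [hqdef, div_pow, div_le_div_iff₀ hz' h0]
        exact h1
      obtain ⟨j, hj⟩ := pow_unbounded_of_one_lt (‖B‖ * ‖u‖ ^ 2 / a 0) hq1
      exact absurd (hb j) (not_le.2 hj)
  have h1 : a 1 = B (S u) (S u) := by simp only [ha, pow_apply_eq_iterate, Function.iterate_one]
  have h2 : a 0 = B u u := by simp only [ha, pow_apply_eq_iterate, Function.iterate_zero, id_eq]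
  rw [h1, h2] at hq
  rwa [div_le_iff₀ hpos] at hq

variable [CompleteSpace X]

/-- The upper bound of the Rayleigh quotient, if it is the supremum, is an eigenvalue. -/
theorem hasEigenvalue_of_isLUB (hB : IsWeakInner B) {K : X →L[ℝ] X} (hKc : IsCompactOperator K)
    (hK : ∀ u v, B (K u) v = B u (K v)) {Λ : ℝ} (hΛ : 0 < Λ)
    (hle : ∀ u, B (K u) u ≤ Λ * B u u) (hnn : ∀ u, 0 ≤ B (K u) u)
    (hsup : ∀ ε > 0, ∃ u, u ≠ 0 ∧ (Λ - ε) * B u u < B (K u) u) :
    HasEigenvalue (K : End ℝ X) Λ := by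
  rcases hKc.hasEigenvalue_or_mem_resolventSet hΛ.ne' with h | h
  · exact h
  exfalso
  rw [spectrum.mem_resolventSet_iff] at h
  obtain ⟨S, hS⟩ := h
  set T : X →L[ℝ] X := algebraMap ℝ (X →L[ℝ] X) Λ - K with hT
  have hT' : ∀ w, T w = Λ • w - K w := fun w => by
    simp only [hT, Algebra.algebraMap_eq_smul_one, sub_apply, smul_apply, one_apply_eq_self]
  set R : X →L[ℝ] X := ((S⁻¹ : (X →L[ℝ] X)ˣ) : X →L[ℝ] X) with hR
  have hTS : (S : X →L[ℝ] X) = T := hS
  have hRT : ∀ w, R (T w) = w := fun w => by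
    have : (R * T) w = w := by rw [← hTS, hR]; simp only [Units.inv_mul, one_apply_eq_self]
    exact this
  have hTR : ∀ w, T (R w) = w := fun w => by
    have : (T * R) w = w := by rw [← hTS, hR]; simp only [Units.mul_inv, one_apply_eq_self]
    exact this
  have hTsymm : ∀ u v, B (T u) v = B u (T v) := fun u v => by
    rw [hT', hT']
    simp only [map_sub, map_smul, sub_apply, smul_apply, hK]
  have hRsymm : ∀ u v, B (R u) v = B u (R v) := fun u v => by
    conv_lhs => rw [← hTR v, ← hTsymm, hTR]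
  have hD : ∀ w, B (T w) (T w) ≤ Λ * B (T w) w := by
    intro w
    have hcs := cs_of_nonneg (D := fun u v => B (T u) v) (fun u v => by
        rw [hTsymm, hB.symm]) (fun u v w => by simp only [map_add, add_apply]) (fun c u v => by simp)
        (fun u => by
          rw [hT']
          simp only [map_sub, map_smul, sub_apply, smul_apply, smul_eq_mul]
          (clear * - hle; linarith [hle u])) w (T w)
    have h2 : B (T (T w)) (T w) ≤ Λ * B (T w) (T w) := by
      rw [hT' (T w)]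
      simp only [map_sub, map_smul, sub_apply, smul_apply, smul_eq_mul]
      linarith only [hnn (T w)]
    have h3 : 0 ≤ B (T w) w := by
      rw [hT' w]
      simp only [map_sub, map_smul, sub_apply, smul_apply, smul_eq_mul]
      linarith only [hle w]
    have h4 : B (T w) (T w) ^ 2 ≤ B (T w) w * (Λ * B (T w) (T w)) :=
      hcs.trans (mul_le_mul_of_nonneg_left h2 h3)
    by_cases h5 : B (T w) (T w) = 0
    · rw [h5]; (clear * - hΛ h3; positivity)
    · have h6 : 0 < B (T w) (T w) := lt_of_le_of_ne (hB.nonneg _) (Ne.symm h5)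
      have h7 : B (T w) (T w) * B (T w) (T w) ≤ B (T w) (T w) * (Λ * B (T w) w) := by
        calc _ = B (T w) (T w) ^ 2 := by ring
          _ ≤ _ := h4
          _ = _ := by ring
      exact le_of_mul_le_mul_left h7 h6
  have hmain : ∀ w, B w w ≤ ‖R‖ ^ 2 * Λ * (Λ * B w w - B (K w) w) := by
    intro w
    have h1 := hB.lax R hRsymm (T w)
    rw [hRT] at h1
    have h2 := hD w
    have h3 : B (T w) w = Λ * B w w - B (K w) w := by
      rw [hT' w]
      simp only [map_sub, map_smul, sub_apply, smul_apply, smul_eq_mul]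
    rw [h3] at h2
    calc B w w ≤ ‖R‖ ^ 2 * B (T w) (T w) := h1
      _ ≤ ‖R‖ ^ 2 * (Λ * (Λ * B w w - B (K w) w)) := by (clear * - h2; gcongr)
      _ = _ := by ring
  obtain ⟨u, hu, hu'⟩ := hsup (1 / (2 * (‖R‖ ^ 2 * Λ + 1))) (by (clear * - hΛ; positivity))
  have h1 := hmain u
  have hp := hB.pos u hu
  set c := ‖R‖ ^ 2 * Λ with hc
  have hc0 : 0 ≤ c := by (clear * - hΛ; positivity)
  have h2 : Λ * B u u - B (K u) u < 1 / (2 * (c + 1)) * B u u := by linarith only [hu']
  have h3 : c * (Λ * B u u - B (K u) u) ≤ c * (1 / (2 * (c + 1)) * B u u) := by (clear * - h2 hΛ; gcongr)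
  have h4 : c * (1 / (2 * (c + 1)) * B u u) ≤ 1 / 2 * B u u := by
    have : c * (1 / (2 * (c + 1))) ≤ 1 / 2 := by
      rw [mul_one_div, div_le_div_iff₀ (by (clear * - hΛ; positivity)) (by norm_num)]
      nlinarith only []
    calc c * (1 / (2 * (c + 1)) * B u u) = c * (1 / (2 * (c + 1))) * B u u := by ring
      _ ≤ _ := by (clear * - this hp; gcongr)
  linarith only [hp, h1, h3, h4]

end IsWeakInner

end Vale.Agent.P071
end
end
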