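import Vale.Agent.P071.MathlibUsed
import Vale.Agent.P071.Bdl.B2
import Vale.Agent.P071.Bdl.B3
import Vale.Agent.P071.Bdl.B1

set_option linter.all false

section

/-!
# The source `h = g(u) ∂_τ u`, `g(x) = ((D - x²)₊)^k`
-/

open scoped Topology Real ComplexConjugate
open Filter MeasureTheory Metric

noncomputable section

namespace Vale.Agent.P071

variable {p q : ℕ}

/-- The boundary values of (the real part of) a series. -/
def bv (u : Y p) (t : ℝ) : ℝ := (ev u (cir t)).re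

theorem BC_bv (u : Y p) : BC p ‖u‖ (bv u) := (BC_ev p u).re

theorem continuous_bv (u : Y p) : Continuous (bv u) :=
  Complex.continuous_re.comp (continuous_ev_cir u)

theorem bv_periodic (u : Y p) : Function.Periodic (bv u) (2 * π) := by
  intro t
  unfold bv
  rw [cir_periodic t]

theorem abs_bv_le (u : Y p) (t : ℝ) : |bv u t| ≤ ‖u‖ := (BC_bv u).bound t

theorem hasDerivAt_bv (u : Y (p + 1)) (t : ℝ) : HasDerivAt (bv u) (bv (Ang p u) t) t := by
  have h := hasDerivAt_ev_cir u t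
  have h2 := Complex.reCLM.hasFDerivAt.comp_hasDerivAt t h
  exact h2

theorem tendsto_bv {us : ℕ → Y p} {u : Y p} (h : Tendsto us atTop (𝓝 u)) (t : ℝ) :
    Tendsto (fun j => bv (us j) t) atTop (𝓝 (bv u t)) := by
  have h1 : Tendsto (fun j => evL p (cir t) (norm_cir t).le (us j)) atTop
      (𝓝 (evL p (cir t) (norm_cir t).le u)) := ((evL p (cir t) (norm_cir t).le).continuous.tendsto u).comp h
  exact (Complex.continuous_re.tendsto _).comp h1

/-! ### The profile -/

/-- The profile `g(x) = ((D - x²)₊)^k`. -/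
def gp (k : ℕ) (D x : ℝ) : ℝ := (max (D - x ^ 2) 0) ^ k

/-- `Γ(x) = ((D - x²)₊)^(k+1) / (2(k+1))`. -/
def Gam (k : ℕ) (D x : ℝ) : ℝ := (max (D - x ^ 2) 0) ^ (k + 1) / (2 * (k + 1))

theorem continuous_gp (k : ℕ) (D : ℝ) : Continuous (gp k D) := by unfold gp; fun_prop

theorem continuous_gp₂ (k : ℕ) : Continuous fun x : ℝ × ℝ => gp k x.1 x.2 := by unfold gp; fun_prop

/-! ### The source -/

/-- The source `h = g(u) ∂_τ u`. -/
def src (k : ℕ) (D : ℝ) (u : Y (p + 1)) (t : ℝ) : ℝ := gp k D (bv u t) * bv (Ang p u) t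

/-- The source as a complex valued function. -/
def srcC (k : ℕ) (D : ℝ) (u : Y (p + 1)) (t : ℝ) : ℂ := (src k D u t : ℂ)

theorem continuous_src (k : ℕ) (D : ℝ) (u : Y (p + 1)) : Continuous (src k D u) :=
  ((continuous_gp k D).comp (continuous_bv u)).mul (continuous_bv _)

theorem src_periodic (k : ℕ) (D : ℝ) (u : Y (p + 1)) : Function.Periodic (src k D u) (2 * π) := by
  intro t
  unfold src
  rw [bv_periodic u t, bv_periodic (Ang p u) t]

theorem srcC_periodic (k : ℕ) (D : ℝ) (u : Y (p + 1)) :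
    Function.Periodic (srcC k D u) (2 * π) := by
  intro t
  unfold srcC
  rw [src_periodic k D u t]

theorem conj_srcC (k : ℕ) (D : ℝ) (u : Y (p + 1)) (t : ℝ) : conj (srcC k D u t) = srcC k D u t :=
  Complex.conj_ofReal _

/-- Uniform bounds for the derivatives of the source. -/
theorem exists_BC_src {k n : ℕ} (hk : n + 1 ≤ k) (hn : n ≤ p) (R : ℝ) :
    ∃ C : ℝ, ∀ (D : ℝ) (u : Y (p + 1)), |D| ≤ R → ‖u‖ ≤ R → BC n C (src k D u) := by
  obtain ⟨C, hC⟩ := BC.posPow n k (R + 2 ^ n * (R * R)) hk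
  refine ⟨2 ^ n * (C * R), fun D u hD hu => ?_⟩
  have hU : BC n R (bv u) := ((BC_bv u).mono (by omega)).mono_const hu
  have hU' : BC n R (bv (Ang p u)) :=
    ((BC_bv (Ang p u)).mono hn).mono_const ((norm_Ang_le u).trans hu)
  have h1 : BC n (R + 2 ^ n * (R * R)) (fun t => D - bv u t * bv u t) := by
    have a1 : BC n R (fun _ : ℝ => D) :=
      (BC.const D).mono_const (by rw [Real.norm_eq_abs]; exact hD)
    exact a1.sub (hU.mul hU)
  have h2 := (hC _ h1).mul hU'
  have e : (fun t => (max (D - bv u t * bv u t) 0) ^ k * bv (Ang p u) t) = src k D u := by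
    funext t
    unfold src gp
    rw [sq]
  rw [e] at h2
  exact h2

theorem BC_src {k n : ℕ} (hk : n + 1 ≤ k) (hn : n ≤ p) (D : ℝ) (u : Y (p + 1)) :
    ∃ C : ℝ, BC n C (src k D u) := by
  obtain ⟨C, hC⟩ := exists_BC_src (p := p) hk hn (max |D| ‖u‖)
  exact ⟨C, hC D u (le_max_left _ _) (le_max_right _ _)⟩

theorem BC_srcC {k n : ℕ} (hk : n + 1 ≤ k) (hn : n ≤ p) (D : ℝ) (u : Y (p + 1)) :
    ∃ C : ℝ, BC n C (srcC k D u) := by
  obtain ⟨C, hC⟩ := BC_src hk hn D u
  exact ⟨C, hC.ofReal⟩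

/-- The source integrates to zero against functions of `u`. -/
theorem cm_src_mul (k : ℕ) (D : ℝ) (u : Y (p + 1)) {F : ℝ → ℝ} (hF : Continuous F) :
    cm (fun t => ((src k D u t * F (bv u t) : ℝ) : ℂ)) = 0 := by
  have hc : Continuous fun x => gp k D x * F x := (continuous_gp k D).mul hF
  have h1 : ∀ x, HasDerivAt (fun x => ∫ y in (0 : ℝ)..x, gp k D y * F y) (gp k D x * F x) x :=
    fun x => intervalIntegral.integral_hasDerivAt_right (hc.intervalIntegrable _ _)
      (hc.stronglyMeasurableAtFilter _ _) hc.continuousAt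
  have h2 : ∀ t, HasDerivAt (fun t => ((∫ y in (0 : ℝ)..(bv u t), gp k D y * F y : ℝ) : ℂ))
      (((src k D u t * F (bv u t) : ℝ) : ℂ)) t := by
    intro t
    have h3 := (h1 (bv u t)).comp t (hasDerivAt_bv u t)
    have h4 := Complex.ofRealCLM.hasFDerivAt.comp_hasDerivAt t h3
    refine h4.congr_deriv ?_
    show ((gp k D (bv u t) * F (bv u t) * bv (Ang p u) t : ℝ) : ℂ) = _
    unfold src
    congr 1
    ring
  refine cm_deriv (f := fun t => ((∫ y in (0 : ℝ)..(bv u t), gp k D y * F y : ℝ) : ℂ)) ?_ h2 ?_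
  · intro t
    show ((∫ y in (0 : ℝ)..(bv u (t + 2 * π)), gp k D y * F y : ℝ) : ℂ) = _
    rw [bv_periodic u t]
  · exact Complex.continuous_ofReal.comp
      ((continuous_src k D u).mul (hF.comp (continuous_bv u)))

theorem cm_srcC (k : ℕ) (D : ℝ) (u : Y (p + 1)) : cm (srcC k D u) = 0 := by
  have h := cm_src_mul k D u (F := fun _ => 1) continuous_const
  simp only [mul_one] at h
  exact h

theorem cm_srcC_mul_self (k : ℕ) (D : ℝ) (u : Y (p + 1)) :
    cm (fun t => srcC k D u t * ((bv u t : ℝ) : ℂ)) = 0 := by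
  have h := cm_src_mul k D u (F := fun x => x) continuous_id
  simpa only [srcC, Complex.ofReal_mul] using h

/-- The harmonic function with normal derivative the source. -/
def NS (q k : ℕ) (D : ℝ) (u : Y (p + 1)) : Y q := Neu q (srcC k D u)

theorem cj_NS {k : ℕ} (hk : q + 2 ≤ k) (hn : q + 1 ≤ p) (D : ℝ) (u : Y (p + 1)) :
    cj (NS q k D u) = NS q k D u := by
  obtain ⟨C, hC⟩ := BC_srcC (p := p) (n := q + 1) hk hn D u
  unfold NS
  rw [cj_Neu hC (srcC_periodic k D u)]
  simp only [conj_srcC]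

theorem lap_NS {k : ℕ} (hk : q + 1 + 1 + 2 ≤ k) (hn : q + 1 + 1 + 1 ≤ p) (D : ℝ)
    (u : Y (p + 1)) : lap q (NS (q + 1 + 1) k D u) = 0 := by
  obtain ⟨C, hC⟩ := BC_srcC (p := p) (n := q + 1 + 1 + 1) hk hn D u
  exact lap_Neu hC (srcC_periodic k D u)

/-- The normal derivative of `NS` is the source. -/
theorem ev_Rad_NS {k : ℕ} (hk : q + 1 + 2 ≤ k) (hn : q + 1 + 1 ≤ p) (D : ℝ)
    (u : Y (p + 1)) (t : ℝ) : ev (Rad q (NS (q + 1) k D u)) (cir t) = (src k D u t : ℂ) := by
  obtain ⟨C, hC⟩ := BC_srcC (p := p) (n := q + 1 + 1) hk hn D u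
  have h := ev_Rad_Neu hC (srcC_periodic k D u) t
  rw [cm_srcC, sub_zero] at h
  exact h

/-- The weak form of the source. -/
theorem Dir_NS {k : ℕ} (hk : q + 1 + 2 ≤ k) (hn : q + 1 + 1 ≤ p) (D : ℝ)
    (u : Y (p + 1)) (a : Y (q + 1)) :
    Dir q a (NS (q + 1) k D u) = 2 * cm fun t => ev a (cir t) * (src k D u t : ℂ) := by
  obtain ⟨C, hC⟩ := BC_srcC (p := p) (n := q + 1 + 1) hk hn D u
  have h := Dir_Neu_cm a hC (srcC_periodic k D u)
  rw [cm_srcC] at h
  simp only [sub_zero] at h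
  exact h

/-- The source operator is sequentially continuous. -/
theorem tendsto_NS {k : ℕ} (hk : q + 2 ≤ k) (hn : q + 1 ≤ p) {Ds : ℕ → ℝ} {D : ℝ}
    {us : ℕ → Y (p + 1)} {u : Y (p + 1)} (hD : Tendsto Ds atTop (𝓝 D))
    (hu : Tendsto us atTop (𝓝 u)) :
    Tendsto (fun j => NS q k (Ds j) (us j)) atTop (𝓝 (NS q k D u)) := by
  obtain ⟨R1, hR1⟩ := (hD.norm).bddAbove_range
  obtain ⟨R2, hR2⟩ := (hu.norm).bddAbove_range
  obtain ⟨C, hC⟩ := exists_BC_src (p := p) (n := q + 1) hk hn (max R1 R2)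
  have hA : Tendsto (fun j => Ang p (us j)) atTop (𝓝 (Ang p u)) :=
    ((Ang p).continuous.tendsto u).comp hu
  refine tendsto_Neu (M := C) (fun j => ?_) (fun j => srcC_periodic k _ _) fun t => ?_
  · refine (hC (Ds j) (us j) ?_ ?_).ofReal
    · exact (hR1 ⟨j, rfl⟩).trans (le_max_left _ _)
    · exact (hR2 ⟨j, rfl⟩).trans (le_max_right _ _)
  · unfold srcC src
    have h1 : Tendsto (fun j => (Ds j, bv (us j) t)) atTop (𝓝 (D, bv u t)) :=
      hD.prodMk_nhds (tendsto_bv hu t)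
    have h2 := ((continuous_gp₂ k).tendsto (D, bv u t)).comp h1
    exact (Complex.continuous_ofReal.tendsto _).comp (h2.mul (tendsto_bv hA t))

/-! ### The choice of `D` -/

/-- The function whose minimum over the circle is `D`. -/
def dfun (k : ℕ) (w : Y q) (u : Y (p + 1)) (t : ℝ) : ℝ :=
  (bv u t) ^ 2 + 4 * (k + 1) * (bv (Ang p u) t) ^ 2 / bv w t

/-- `D = min (u² + 4 (k+1) u_τ² / w)` over the circle. -/
def dmin (k : ℕ) (w : Y q) (u : Y (p + 1)) : ℝ := ⨅ t : ℝ, dfun k w u t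

section dmin

variable {k : ℕ} {w : Y q} {u : Y (p + 1)}

end dmin

/-! ### The stream function on the circle -/

/-! ### The function `N(x) = ∫₀¹ s g(s x) ds` -/

end Vale.Agent.P071
end
end

section

/-!
# Stokes' formula on discs, in complex notation

`∫_{B_R} 2 ∂bar G dA = R ∫_{-π}^{π} G(R e^{it}) e^{it} dt`.
-/

open scoped ComplexConjugate
open MeasureTheory Set Metric

noncomputable section

namespace Vale.Agent.P071

/-- polar coordinates -/
def pol (x : ℝ × ℝ) : ℂ := (x.1 : ℂ) * Complex.exp (x.2 * Complex.I)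

theorem norm_pol (x : ℝ × ℝ) : ‖pol x‖ = |x.1| := by
  unfold pol
  rw [norm_mul, Complex.norm_exp_ofReal_mul_I, mul_one, Complex.norm_real, Real.norm_eq_abs]

theorem continuous_pol : Continuous pol := by
  unfold pol; (clear * -; fun_prop)

/-- derivative of the angular factor -/
def angD (x : ℝ × ℝ) : ℝ × ℝ →L[ℝ] ℂ :=
  (ContinuousLinearMap.snd ℝ ℝ ℝ).smulRight (Complex.exp (x.2 * Complex.I) * Complex.I)

theorem hasFDerivAt_ang (x : ℝ × ℝ) :
    HasFDerivAt (fun y : ℝ × ℝ => Complex.exp (y.2 * Complex.I)) (angD x) x := by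
  have h1 : HasDerivAt (fun t : ℝ => Complex.exp (t * Complex.I))
      (Complex.exp (x.2 * Complex.I) * Complex.I) x.2 := by
    have h := ((Complex.ofRealCLM.hasDerivAt (x := x.2)).mul_const Complex.I).cexp
    simpa only [Complex.ofRealCLM_apply, Complex.ofReal_one, one_mul] using h
  have h2 := h1.hasFDerivAt.comp x (hasFDerivAt_snd (𝕜 := ℝ) (p := x))
  refine h2.congr_fderiv ?_
  ext <;> simp [angD]

/-- derivative of polar coordinates -/
def polD (x : ℝ × ℝ) : ℝ × ℝ →L[ℝ] ℂ :=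
  (ContinuousLinearMap.fst ℝ ℝ ℝ).smulRight (Complex.exp (x.2 * Complex.I)) +
    (ContinuousLinearMap.snd ℝ ℝ ℝ).smulRight
      ((x.1 : ℂ) * (Complex.exp (x.2 * Complex.I) * Complex.I))

theorem hasFDerivAt_pol (x : ℝ × ℝ) : HasFDerivAt pol (polD x) x := by
  have h1 : HasFDerivAt (fun y : ℝ × ℝ => (y.1 : ℂ))
      ((ContinuousLinearMap.fst ℝ ℝ ℝ).smulRight (1 : ℂ)) x := by
    have := Complex.ofRealCLM.hasFDerivAt.comp x (hasFDerivAt_fst (𝕜 := ℝ) (p := x))
    refine this.congr_fderiv ?_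
    ext <;> simp
  have h2 := h1.mul (hasFDerivAt_ang x)
  refine h2.congr_fderiv ?_
  ext <;> simp [polD, angD]

theorem stokes_rect {R : ℝ} (hR : 0 < R) {G P Q : ℂ → ℂ}
    (hG : ContinuousOn G (closedBall 0 R))
    (hd : ∀ z ∈ ball (0 : ℂ) R, HasW G (P z) (Q z) z)
    (hQ : IntegrableOn (fun x : ℝ × ℝ => (2 * (x.1 : ℂ) * Q (pol x)))
      (Icc 0 R ×ˢ Icc (-Real.pi) Real.pi)) :
    (∫ r in (0 : ℝ)..R, ∫ t in (-Real.pi)..Real.pi, 2 * (r : ℂ) * Q (pol (r, t))) =
      ∫ t in (-Real.pi)..Real.pi, (R : ℂ) * G (pol (R, t)) * Complex.exp (t * Complex.I) := by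
  have hpi : -Real.pi ≤ Real.pi := by linarith only [Real.pi_pos]
  set f : ℝ × ℝ → ℂ := fun x => (x.1 : ℂ) * (G (pol x) * Complex.exp (x.2 * Complex.I)) with hf
  set g : ℝ × ℝ → ℂ := fun x => Complex.I * (G (pol x) * Complex.exp (x.2 * Complex.I)) with hg
  set GP : ℝ × ℝ → (ℝ × ℝ →L[ℝ] ℂ) := fun x =>
    (P (pol x) • (ContinuousLinearMap.id ℝ ℂ) + Q (pol x) • (Complex.conjCLE : ℂ →L[ℝ] ℂ)).comp
      (polD x) with hGP
  set GE : ℝ × ℝ → (ℝ × ℝ →L[ℝ] ℂ) := fun x =>
    (G (pol x)) • angD x + (Complex.exp (x.2 * Complex.I)) • GP x with hGE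
  set f' : ℝ × ℝ → (ℝ × ℝ →L[ℝ] ℂ) := fun x =>
    (x.1 : ℂ) • GE x + (G (pol x) * Complex.exp (x.2 * Complex.I)) •
      ((ContinuousLinearMap.fst ℝ ℝ ℝ).smulRight (1 : ℂ)) with hf'
  set g' : ℝ × ℝ → (ℝ × ℝ →L[ℝ] ℂ) := fun x => Complex.I • GE x with hg'
  have hball : ∀ x ∈ Ioo (min 0 R) (max 0 R) ×ˢ Ioo (min (-Real.pi) Real.pi) (max (-Real.pi) Real.pi),
      pol x ∈ ball (0 : ℂ) R := by
    intro x hx
    rw [min_eq_left hR.le, max_eq_right hR.le] at hx
    rw [mem_ball_zero_iff, norm_pol, abs_of_pos hx.1.1]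
    exact hx.1.2
  have hGEd : ∀ x ∈ Ioo (min 0 R) (max 0 R) ×ˢ
      Ioo (min (-Real.pi) Real.pi) (max (-Real.pi) Real.pi),
      HasFDerivAt (fun x => G (pol x) * Complex.exp (x.2 * Complex.I)) (GE x) x := by
    intro x hx
    have h1 := (hd _ (hball x hx)).hasFDerivAt.comp x (hasFDerivAt_pol x)
    exact h1.mul (hasFDerivAt_ang x)
  have key : ∀ x : ℝ × ℝ, f' x (1, 0) + g' x (0, 1) = 2 * (x.1 : ℂ) * Q (pol x) := by
    intro x
    have hc : (starRingEnd ℂ) (Complex.exp (x.2 * Complex.I)) * Complex.exp (x.2 * Complex.I) = 1 := by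
      rw [mul_comm, Complex.mul_conj, Complex.normSq_eq_norm_sq, Complex.norm_exp_ofReal_mul_I]
      simp
    simp only [hf', hg', hGE, hGP, polD, angD, add_apply, smul_apply, smul_eq_mul,
      ContinuousLinearMap.smulRight_apply, ContinuousLinearMap.comp_apply,
      ContinuousLinearMap.id_apply, ContinuousLinearMap.coe_fst', ContinuousLinearMap.coe_snd',
      ContinuousLinearEquiv.coe_coe, Complex.conjCLE_apply, one_smul, zero_smul, add_zero, zero_add,
      map_mul, Complex.conj_I, Complex.conj_ofReal]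
    have hI : Complex.I * Complex.I = -1 := Complex.I_mul_I
    linear_combination (2 * (x.1 : ℂ) * Q (pol x)) * hc
      + (G (pol x) * Complex.exp (x.2 * Complex.I)
        + (x.1 : ℂ) * P (pol x) * Complex.exp (x.2 * Complex.I) ^ 2
        - (x.1 : ℂ) * Q (pol x) * Complex.exp (x.2 * Complex.I)
          * (starRingEnd ℂ) (Complex.exp (x.2 * Complex.I))) * hI
  have hcont : ContinuousOn (fun x : ℝ × ℝ => G (pol x) * Complex.exp (x.2 * Complex.I))
      (uIcc 0 R ×ˢ uIcc (-Real.pi) Real.pi) := by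
    refine ContinuousOn.mul (hG.comp continuous_pol.continuousOn ?_) (by fun_prop)
    intro x hx
    rw [uIcc_of_le hR.le] at hx
    rw [mem_closedBall_zero_iff, norm_pol, abs_of_nonneg hx.1.1]
    exact hx.1.2
  have h := integral2_divergence_prod_of_hasFDerivAt_off_countable f g f' g' 0 (-Real.pi) R Real.pi
    ∅ countable_empty
    (ContinuousOn.mul (by fun_prop) hcont)
    (ContinuousOn.mul (by fun_prop) hcont)
    (fun x hx => by
      have h1 : HasFDerivAt (fun y : ℝ × ℝ => (y.1 : ℂ))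
          ((ContinuousLinearMap.fst ℝ ℝ ℝ).smulRight (1 : ℂ)) x := by
        have := Complex.ofRealCLM.hasFDerivAt.comp x (hasFDerivAt_fst (𝕜 := ℝ) (p := x))
        refine this.congr_fderiv ?_
        ext <;> simp
      exact h1.mul (hGEd x hx.1))
    (fun x hx => (hGEd x hx.1).const_mul Complex.I)
    (by
      rw [uIcc_of_le hR.le, uIcc_of_le hpi]
      simpa only [key] using hQ)
  simp only [key] at h
  rw [h]
  have e1 : ∀ r : ℝ, g (r, Real.pi) = g (r, -Real.pi) := by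
    intro r
    simp only [hg, pol]
    have : Complex.exp ((Real.pi : ℂ) * Complex.I) = Complex.exp (((-Real.pi : ℝ) : ℂ) * Complex.I) := by
      rw [Complex.ofReal_neg, neg_mul, Complex.exp_neg, Complex.exp_pi_mul_I]; norm_num
    rw [this]
  simp only [e1, sub_self, zero_add, hf, Complex.ofReal_zero, zero_mul,
    intervalIntegral.integral_zero, sub_zero]
  refine intervalIntegral.integral_congr fun t _ => ?_
  ring

theorem polarCoord_symm_eq_pol (x : ℝ × ℝ) : Complex.polarCoord.symm x = pol x := by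
  rw [Complex.polarCoord_symm_apply, pol, Complex.exp_mul_I]
  push_cast
  rfl

/-- integral over a disc in polar coordinates -/
theorem integral_ball_polar {E : Type*} [NormedAddCommGroup E] [NormedSpace ℝ E] {R : ℝ}
    (F : ℂ → E) :
    ∫ z in ball (0 : ℂ) R, F z =
      ∫ x in Ioo 0 R ×ˢ Ioo (-Real.pi) Real.pi, x.1 • F (pol x) := by
  rw [← integral_indicator measurableSet_ball, ← Complex.integral_comp_polarCoord_symm]
  have htar : polarCoord.target = Ioi (0 : ℝ) ×ˢ Ioo (-Real.pi) Real.pi := rfl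
  rw [htar, ← integral_indicator (measurableSet_Ioi.prod measurableSet_Ioo),
    ← integral_indicator (measurableSet_Ioo.prod measurableSet_Ioo)]
  congr 1
  funext x
  by_cases h2 : x.2 ∈ Ioo (-Real.pi) Real.pi
  · by_cases h1 : 0 < x.1
    · by_cases h3 : x.1 < R
      · rw [indicator_of_mem (show x ∈ Ioi (0 : ℝ) ×ˢ Ioo (-Real.pi) Real.pi from ⟨h1, h2⟩),
          indicator_of_mem (show x ∈ Ioo 0 R ×ˢ Ioo (-Real.pi) Real.pi from ⟨⟨h1, h3⟩, h2⟩),
          polarCoord_symm_eq_pol, indicator_of_mem]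
        rw [mem_ball_zero_iff, norm_pol, abs_of_pos h1]; exact h3
      · rw [indicator_of_mem (show x ∈ Ioi (0 : ℝ) ×ˢ Ioo (-Real.pi) Real.pi from ⟨h1, h2⟩),
          indicator_of_notMem (s := Ioo 0 R ×ˢ Ioo (-Real.pi) Real.pi) (fun h => h3 h.1.2),
          polarCoord_symm_eq_pol, indicator_of_notMem, smul_zero]
        rw [mem_ball_zero_iff, norm_pol, abs_of_pos h1]; exact h3
    · rw [indicator_of_notMem (s := Ioi (0 : ℝ) ×ˢ Ioo (-Real.pi) Real.pi) (fun h => h1 h.1),
        indicator_of_notMem (s := Ioo 0 R ×ˢ Ioo (-Real.pi) Real.pi) (fun h => h1 h.1.1)]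
  · rw [indicator_of_notMem (s := Ioi (0 : ℝ) ×ˢ Ioo (-Real.pi) Real.pi) (fun h => h2 h.2),
      indicator_of_notMem (s := Ioo 0 R ×ˢ Ioo (-Real.pi) Real.pi) (fun h => h2 h.2)]

theorem pol_mem_ball {R : ℝ} {x : ℝ × ℝ} (hx : x ∈ Ioo 0 R ×ˢ Ioo (-Real.pi) Real.pi) :
    pol x ∈ ball (0 : ℂ) R := by
  rw [mem_ball_zero_iff, norm_pol, abs_of_pos hx.1.1]
  exact hx.1.2

theorem integrableOn_polar {R M : ℝ} {Q : ℂ → ℂ} (hQ : ContinuousOn Q (ball 0 R))
    (hM : ∀ z ∈ ball (0 : ℂ) R, ‖Q z‖ ≤ M) :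
    IntegrableOn (fun x : ℝ × ℝ => ((x.1 : ℂ) * Q (pol x)))
      (Ioo 0 R ×ˢ Ioo (-Real.pi) Real.pi) := by
  have hms : MeasurableSet (Ioo (0 : ℝ) R ×ˢ Ioo (-Real.pi) Real.pi) :=
    measurableSet_Ioo.prod measurableSet_Ioo
  have hfin : volume (Ioo (0 : ℝ) R ×ˢ Ioo (-Real.pi) Real.pi) < ⊤ := by
    have : volume (Ioo (0 : ℝ) R ×ˢ Ioo (-Real.pi) Real.pi) ≤
      volume (Icc (0 : ℝ) R ×ˢ Icc (-Real.pi) Real.pi) :=
      measure_mono (prod_mono Ioo_subset_Icc_self Ioo_subset_Icc_self)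
    exact lt_of_le_of_lt this (isCompact_Icc.prod isCompact_Icc).measure_lt_top
  have : IsFiniteMeasure (volume.restrict (Ioo (0 : ℝ) R ×ˢ Ioo (-Real.pi) Real.pi)) :=
    ⟨by rwa [Measure.restrict_apply_univ]⟩
  have hc : ContinuousOn (fun x : ℝ × ℝ => ((x.1 : ℂ) * Q (pol x)))
      (Ioo 0 R ×ˢ Ioo (-Real.pi) Real.pi) := by
    refine ContinuousOn.mul (by (clear * -; fun_prop)) (hQ.comp continuous_pol.continuousOn ?_)
    intro x hx
    exact pol_mem_ball hx
  refine Integrable.of_bound (hc.aestronglyMeasurable hms) (R * M) ?_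
  refine (ae_restrict_iff' hms).2 (Filter.Eventually.of_forall fun x hx => ?_)
  rw [norm_mul, Complex.norm_real, Real.norm_eq_abs, abs_of_pos hx.1.1]
  exact mul_le_mul hx.1.2.le (hM _ (pol_mem_ball hx)) (norm_nonneg _)
    (hx.1.1.trans hx.1.2).le

/-- **Stokes' formula on a disc.** -/
theorem stokes_ball {R M : ℝ} (hR : 0 < R) {G P Q : ℂ → ℂ}
    (hG : ContinuousOn G (closedBall 0 R))
    (hd : ∀ z ∈ ball (0 : ℂ) R, HasW G (P z) (Q z) z)
    (hQ : ContinuousOn Q (ball 0 R)) (hM : ∀ z ∈ ball (0 : ℂ) R, ‖Q z‖ ≤ M) :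
    ∫ z in ball (0 : ℂ) R, 2 * Q z =
      ∫ t in (-Real.pi)..Real.pi, (R : ℂ) * G (pol (R, t)) * Complex.exp (t * Complex.I) := by
  have hpi : -Real.pi ≤ Real.pi := by linarith only [Real.pi_pos]
  have hint := integrableOn_polar hQ hM
  have hint2 : IntegrableOn (fun x : ℝ × ℝ => (2 * (x.1 : ℂ) * Q (pol x)))
      (Ioo 0 R ×ˢ Ioo (-Real.pi) Real.pi) := by
    refine (hint.const_mul 2).congr (Filter.Eventually.of_forall fun x => ?_)
    simp only
    ring
  have hae : (Icc (0 : ℝ) R ×ˢ Icc (-Real.pi) Real.pi : Set (ℝ × ℝ)) =ᵐ[volume]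
      Ioo (0 : ℝ) R ×ˢ Ioo (-Real.pi) Real.pi :=
    Measure.set_prod_ae_eq Ioo_ae_eq_Icc.symm Ioo_ae_eq_Icc.symm
  have hint3 : IntegrableOn (fun x : ℝ × ℝ => (2 * (x.1 : ℂ) * Q (pol x)))
      (Icc 0 R ×ˢ Icc (-Real.pi) Real.pi) := hint2.congr_set_ae hae
  rw [← stokes_rect hR hG hd hint3, integral_ball_polar]
  have e1 : (∫ x in Ioo 0 R ×ˢ Ioo (-Real.pi) Real.pi, x.1 • (2 * Q (pol x))) =
      ∫ x in Ioo 0 R ×ˢ Ioo (-Real.pi) Real.pi, (2 * (x.1 : ℂ) * Q (pol x)) := by
    congr 1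
    funext x
    rw [Complex.real_smul]; ring
  rw [e1]
  rw [Measure.volume_eq_prod, setIntegral_prod _ hint2, intervalIntegral.integral_of_le hR.le,
    integral_Ioc_eq_integral_Ioo]
  refine setIntegral_congr_fun measurableSet_Ioo fun r _ => ?_
  simp only
  rw [intervalIntegral.integral_of_le hpi, integral_Ioc_eq_integral_Ioo]

/-- Stokes' formula on the unit disc. -/
theorem stokes_disc {M : ℝ} {G P Q : ℂ → ℂ}
    (hG : ContinuousOn G (closedBall 0 1))
    (hd : ∀ z ∈ ball (0 : ℂ) 1, HasW G (P z) (Q z) z)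
    (hQ : ContinuousOn Q (ball 0 1)) (hM : ∀ z ∈ ball (0 : ℂ) 1, ‖Q z‖ ≤ M) :
    ∫ z in ball (0 : ℂ) 1, 2 * Q z =
      ∫ t in (-Real.pi)..Real.pi, G (Complex.exp (t * Complex.I)) * Complex.exp (t * Complex.I) := by
  rw [stokes_ball one_pos hG hd hQ hM]
  simp only [Complex.ofReal_one, pol, one_mul]

end Vale.Agent.P071
end
end

section

/-!
# `C¹` functions on the closed disc and Green's identities
-/

open scoped ComplexConjugate
open MeasureTheory Set Metric

noncomputable section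

namespace Vale.Agent.P071

/-- `G` is `C¹` on the closed unit disc, with Wirtinger derivatives `P`, `Q`. -/
structure C1D (G P Q : ℂ → ℂ) : Prop where
  c0 : ContinuousOn G (closedBall 0 1)
  c1 : ContinuousOn P (closedBall 0 1)
  c2 : ContinuousOn Q (closedBall 0 1)
  d : ∀ z ∈ ball (0 : ℂ) 1, HasW G (P z) (Q z) z

namespace C1D

variable {G P Q G' P' Q' : ℂ → ℂ}

theorem congr (h : C1D G P Q) (hP : ∀ z ∈ closedBall (0 : ℂ) 1, P' z = P z)
    (hQ : ∀ z ∈ closedBall (0 : ℂ) 1, Q' z = Q z) : C1D G P' Q' :=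
  ⟨h.c0, h.c1.congr hP, h.c2.congr hQ, fun z hz =>
    (h.d z hz).congr (hP z (ball_subset_closedBall hz)).symm
      (hQ z (ball_subset_closedBall hz)).symm⟩

theorem const (c : ℂ) : C1D (fun _ => c) (fun _ => 0) (fun _ => 0) :=
  ⟨continuousOn_const, continuousOn_const, continuousOn_const, fun z _ => hasW_const c z⟩

theorem ident : C1D (fun z => z) (fun _ => 1) (fun _ => 0) :=
  ⟨continuousOn_id, continuousOn_const, continuousOn_const, fun z _ => hasW_id z⟩

theorem sub (h : C1D G P Q) (h' : C1D G' P' Q') :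
    C1D (fun z => G z - G' z) (fun z => P z - P' z) (fun z => Q z - Q' z) :=
  ⟨h.c0.sub h'.c0, h.c1.sub h'.c1, h.c2.sub h'.c2, fun z hz => (h.d z hz).sub (h'.d z hz)⟩

theorem mul (h : C1D G P Q) (h' : C1D G' P' Q') :
    C1D (fun z => G z * G' z) (fun z => P z * G' z + G z * P' z)
      (fun z => Q z * G' z + G z * Q' z) :=
  ⟨h.c0.mul h'.c0, (h.c1.mul h'.c0).add (h.c0.mul h'.c1), (h.c2.mul h'.c0).add (h.c0.mul h'.c2),
    fun z hz => (h.d z hz).mul (h'.d z hz)⟩

theorem const_mul (h : C1D G P Q) (c : ℂ) :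
    C1D (fun z => c * G z) (fun z => c * P z) (fun z => c * Q z) :=
  ⟨continuousOn_const.mul h.c0, continuousOn_const.mul h.c1, continuousOn_const.mul h.c2,
    fun z hz => (h.d z hz).const_mul c⟩

theorem cjg (h : C1D G P Q) :
    C1D (fun z => conj (G z)) (fun z => conj (Q z)) (fun z => conj (P z)) :=
  ⟨Complex.continuous_conj.comp_continuousOn h.c0, Complex.continuous_conj.comp_continuousOn h.c2,
    Complex.continuous_conj.comp_continuousOn h.c1, fun z hz => (h.d z hz).conj⟩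

theorem bdd {F : ℂ → ℂ} (h : ContinuousOn F (closedBall 0 1)) :
    ∃ M, ∀ z ∈ closedBall (0 : ℂ) 1, ‖F z‖ ≤ M := by
  obtain ⟨M, hM⟩ := (isCompact_closedBall (0 : ℂ) 1).exists_bound_of_continuousOn h
  exact ⟨M, hM⟩

theorem integrable {E : Type*} [NormedAddCommGroup E] {F : ℂ → E}
    (h : ContinuousOn F (closedBall 0 1)) :
    IntegrableOn F (ball (0 : ℂ) 1) :=
  (h.integrableOn_compact (isCompact_closedBall (0 : ℂ) 1)).mono_set ball_subset_closedBall

theorem circleCont {E : Type*} [TopologicalSpace E] {F : ℂ → E}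
    (h : ContinuousOn F (closedBall 0 1)) :
    Continuous (fun t : ℝ => F (Complex.exp (t * Complex.I))) := by
  refine h.comp_continuous (by (clear * -; fun_prop)) fun t => ?_
  rw [mem_closedBall_zero_iff, Complex.norm_exp_ofReal_mul_I]

/-- Stokes' formula with `∂bar`. -/
theorem stokes (h : C1D G P Q) :
    ∫ z in ball (0 : ℂ) 1, 2 * Q z =
      ∫ t in (-Real.pi)..Real.pi, G (Complex.exp (t * Complex.I)) * Complex.exp (t * Complex.I) := by
  obtain ⟨M, hM⟩ := bdd h.c2
  exact stokes_disc h.c0 h.d (h.c2.mono ball_subset_closedBall)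
    fun z hz => hM z (ball_subset_closedBall hz)

/-- Stokes' formula with `∂`. -/
theorem stokes' (h : C1D G P Q) :
    ∫ z in ball (0 : ℂ) 1, 2 * P z =
      ∫ t in (-Real.pi)..Real.pi,
        G (Complex.exp (t * Complex.I)) * Complex.exp (-(t * Complex.I)) := by
  have h1 := h.cjg.stokes
  have h2 := congrArg (starRingEnd ℂ) h1
  rw [← integral_conj] at h2
  have e1 : ∀ z, (starRingEnd ℂ) (2 * (starRingEnd ℂ) (P z)) = 2 * P z := fun z => by
    rw [map_mul, Complex.conj_conj, map_ofNat]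
  simp only [e1] at h2
  rw [h2, intervalIntegral.integral_of_le (by linarith [Real.pi_pos]),
    intervalIntegral.integral_of_le (by linarith only [Real.pi_pos]), ← integral_conj]
  refine setIntegral_congr_fun measurableSet_Ioc fun t _ => ?_
  simp only [map_mul, Complex.conj_conj, ← Complex.exp_conj, Complex.conj_I, Complex.conj_ofReal]
  rw [mul_neg]

end C1D

variable {p q : ℕ}

theorem hasW_ev (a : Y (p + 1)) {z : ℂ} (hz : ‖z‖ < 1) :
    HasW (ev a) (ev (dz p a) z) (ev (dzb p a) z) z := hasFDerivAt_ev a hz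

theorem c1d_ev (a : Y (p + 1)) : C1D (ev a) (ev (dz p a)) (ev (dzb p a)) :=
  ⟨continuousOn_ev a, continuousOn_ev _, continuousOn_ev _,
    fun _ hz => hasW_ev a (mem_ball_zero_iff.1 hz)⟩

/-- Wirtinger derivatives (up to the boundary) of a `C¹` function. -/
def wz (φ : ℂ → ℂ) (z : ℂ) : ℂ :=
  (fderivWithin ℝ φ (closedBall 0 1) z 1 - Complex.I * fderivWithin ℝ φ (closedBall 0 1) z
    Complex.I) / 2

/-- Wirtinger derivatives (up to the boundary) of a `C¹` function. -/
def wzb (φ : ℂ → ℂ) (z : ℂ) : ℂ :=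
  (fderivWithin ℝ φ (closedBall 0 1) z 1 + Complex.I * fderivWithin ℝ φ (closedBall 0 1) z
    Complex.I) / 2

theorem uniqueDiffOn_disc : UniqueDiffOn ℝ (closedBall (0 : ℂ) 1) :=
  uniqueDiffOn_convex (convex_closedBall 0 1) (by
    rw [interior_closedBall _ one_ne_zero]; exact ⟨0, mem_ball_self one_pos⟩)

theorem hasW_of_hasFDerivAt {φ : ℂ → ℂ} {L : ℂ →L[ℝ] ℂ} {z : ℂ} (h : HasFDerivAt φ L z) :
    HasW φ ((L 1 - Complex.I * L Complex.I) / 2) ((L 1 + Complex.I * L Complex.I) / 2) z := by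
  unfold HasW
  refine h.congr_fderiv ?_
  ext w
  have h1 : L w = w.re * L 1 + w.im * L Complex.I := by
    have h2 : w = w.re • (1 : ℂ) + w.im • Complex.I := by simp only [Complex.real_smul, mul_one, Complex.re_add_im]
    conv_lhs => rw [h2]
    rw [map_add, map_smul, map_smul]
    simp only [Complex.real_smul]
  have h3 : (starRingEnd ℂ) w = w.re - w.im * Complex.I := by
    apply Complex.ext <;> simp
  simp only [add_apply, smul_apply, ContinuousLinearMap.id_apply, smul_eq_mul,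
    ContinuousLinearEquiv.coe_coe, Complex.conjCLE_apply]
  rw [h1, h3]
  conv_rhs => rw [← Complex.re_add_im w]
  simp only [Complex.add_re, Complex.ofReal_re, Complex.mul_re, Complex.I_re, mul_zero, Complex.ofReal_im, Complex.I_im, mul_one, sub_self, add_zero, Complex.add_im, Complex.mul_im, zero_add]
  linear_combination ((w.im : ℂ) * L Complex.I) * Complex.I_mul_I

theorem c1d_of_contDiffOn {φ : ℂ → ℂ} (h : ContDiffOn ℝ 1 φ (closedBall 0 1)) :
    C1D φ (wz φ) (wzb φ) := by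
  have hc : ContinuousOn (fderivWithin ℝ φ (closedBall 0 1)) (closedBall 0 1) :=
    h.continuousOn_fderivWithin uniqueDiffOn_disc (by norm_num)
  have h1 : ContinuousOn (fun z => fderivWithin ℝ φ (closedBall 0 1) z 1) (closedBall 0 1) :=
    hc.clm_apply continuousOn_const
  have h2 : ContinuousOn (fun z => fderivWithin ℝ φ (closedBall 0 1) z Complex.I)
      (closedBall 0 1) := hc.clm_apply continuousOn_const
  refine ⟨h.continuousOn, ?_, ?_, fun z hz => ?_⟩
  · exact (h1.sub (continuousOn_const.mul h2)).div_const 2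
  · exact (h1.add (continuousOn_const.mul h2)).div_const 2
  · have hn : closedBall (0 : ℂ) 1 ∈ nhds z :=
      Filter.mem_of_superset (isOpen_ball.mem_nhds hz) ball_subset_closedBall
    have hd : HasFDerivAt φ (fderivWithin ℝ φ (closedBall 0 1) z) z :=
      ((h.differentiableOn (by norm_num)) z (ball_subset_closedBall hz)).hasFDerivWithinAt.hasFDerivAt hn
    exact hasW_of_hasFDerivAt hd

/-- **Green's identity** for a `C¹` function and a series. -/
theorem green {φ : ℂ → ℂ} {φz φb : ℂ → ℂ} (h : C1D φ φz φb) (w : Y (p + 1 + 1)) :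
    ∫ z in ball (0 : ℂ) 1, 2 * (φz z * ev (dzb (p + 1) w) z + φb z * ev (dz (p + 1) w) z) =
      -(∫ z in ball (0 : ℂ) 1, φ z * ev (lap p w) z) +
        ∫ t in (-Real.pi)..Real.pi, φ (Complex.exp (t * Complex.I)) *
          ev (Rad (p + 1) w) (Complex.exp (t * Complex.I)) := by
  have h1 := (h.mul (c1d_ev (dzb (p + 1) w))).stokes'
  have h2 := (h.mul (c1d_ev (dz (p + 1) w))).stokes
  have hlap : ∀ z ∈ ball (0 : ℂ) 1, ev (lap p w) z = 4 * ev (dz p (dzb (p + 1) w)) z := by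
    intro z _
    rw [lap_apply, ev_smul]
  have hcomm : dzb p (dz (p + 1) w) = dz p (dzb (p + 1) w) := (dz_dzb w).symm
  have i1 : IntegrableOn (fun z => φz z * ev (dzb (p + 1) w) z) (ball (0 : ℂ) 1) :=
    C1D.integrable (h.c1.mul (continuousOn_ev _))
  have i2 : IntegrableOn (fun z => φb z * ev (dz (p + 1) w) z) (ball (0 : ℂ) 1) :=
    C1D.integrable (h.c2.mul (continuousOn_ev _))
  have i3 : IntegrableOn (fun z => φ z * ev (dz p (dzb (p + 1) w)) z) (ball (0 : ℂ) 1) :=
    C1D.integrable (h.c0.mul (continuousOn_ev _))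
  have b1 : IntervalIntegrable (fun t : ℝ => φ (Complex.exp (t * Complex.I)) *
      ev (dzb (p + 1) w) (Complex.exp (t * Complex.I)) * Complex.exp (-(t * Complex.I)))
      volume (-Real.pi) Real.pi :=
    (((C1D.circleCont h.c0).mul (C1D.circleCont (continuousOn_ev _))).mul
      (by fun_prop)).intervalIntegrable _ _
  have b2 : IntervalIntegrable (fun t : ℝ => φ (Complex.exp (t * Complex.I)) *
      ev (dz (p + 1) w) (Complex.exp (t * Complex.I)) * Complex.exp (t * Complex.I))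
      volume (-Real.pi) Real.pi :=
    (((C1D.circleCont h.c0).mul (C1D.circleCont (continuousOn_ev _))).mul
      (by fun_prop)).intervalIntegrable _ _
  simp only [hcomm] at h2
  simp only [mul_add] at h1 h2 ⊢
  rw [integral_add (i1.const_mul 2) (i3.const_mul 2)] at h1
  rw [integral_add (i2.const_mul 2) (i3.const_mul 2)] at h2
  rw [integral_add (i1.const_mul 2) (i2.const_mul 2)]
  have e1 : ∫ z in ball (0 : ℂ) 1, φ z * ev (lap p w) z =
      2 * ∫ z in ball (0 : ℂ) 1, 2 * (φ z * ev (dz p (dzb (p + 1) w)) z) := by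
    rw [← integral_const_mul]
    refine setIntegral_congr_fun measurableSet_ball fun z hz => ?_
    rw [hlap z hz]; ring
  have e2 : (∫ t in (-Real.pi)..Real.pi, φ (Complex.exp (t * Complex.I)) *
          ev (Rad (p + 1) w) (Complex.exp (t * Complex.I))) =
      (∫ t in (-Real.pi)..Real.pi, φ (Complex.exp (t * Complex.I)) *
        ev (dzb (p + 1) w) (Complex.exp (t * Complex.I)) * Complex.exp (-(t * Complex.I))) +
      ∫ t in (-Real.pi)..Real.pi, φ (Complex.exp (t * Complex.I)) *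
        ev (dz (p + 1) w) (Complex.exp (t * Complex.I)) * Complex.exp (t * Complex.I) := by
    rw [← intervalIntegral.integral_add b1 b2]
    refine intervalIntegral.integral_congr fun t _ => ?_
    rw [ev_Rad _ (by rw [Complex.norm_exp_ofReal_mul_I])]
    have : (starRingEnd ℂ) (Complex.exp (t * Complex.I)) = Complex.exp (-(t * Complex.I)) := by
      rw [← Complex.exp_conj]; simp only [map_mul, Complex.conj_ofReal, Complex.conj_I, mul_neg]
    rw [this]; ring
  rw [e1, e2, ← h1, ← h2]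
  ring

/-- **Green's identity**, real notation. -/
theorem green_real {φ : ℂ → ℂ} (h : ContDiffOn ℝ 1 φ (closedBall 0 1)) (w : Y (p + 1 + 1)) :
    ∫ z in ball (0 : ℂ) 1, (fderiv ℝ φ z 1 * ev (dx (p + 1) w) z +
        fderiv ℝ φ z Complex.I * ev (dy (p + 1) w) z) =
      -(∫ z in ball (0 : ℂ) 1, φ z * ev (lap p w) z) +
        ∫ t in (-Real.pi)..Real.pi, φ (Complex.exp (t * Complex.I)) *
          ev (Rad (p + 1) w) (Complex.exp (t * Complex.I)) := by
  rw [← green (c1d_of_contDiffOn h) w]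
  refine setIntegral_congr_fun measurableSet_ball fun z hz => ?_
  have hn : closedBall (0 : ℂ) 1 ∈ nhds z :=
    Filter.mem_of_superset (isOpen_ball.mem_nhds hz) ball_subset_closedBall
  have hz' : ‖z‖ ≤ 1 := (mem_ball_zero_iff.1 hz).le
  rw [wz, wzb, fderivWithin_of_mem_nhds hn, dx_apply, dy_apply, ev_add _ _ hz', ev_smul,
    ev_sub _ _ hz']
  ring

end Vale.Agent.P071
end
end

section

/-!
# Explicit `∂bar`-antiderivative which is real on the circle

For `W ∈ Y (p+1)` the series `hF W = hL1 W + cj (hL2 W)` satisfies `2 ∂bar (hF W) = W` and is real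
on the unit circle.
-/

open scoped ComplexConjugate
open MeasureTheory Set Metric

noncomputable section

namespace Vale.Agent.P071

variable {p q : ℕ}

theorem half_inv_norm (n : ℕ) : ‖(1 / (2 * ((n : ℂ) + 1)) : ℂ)‖ ≤ 1 := by
  have : (1 / (2 * ((n : ℂ) + 1)) : ℂ) = ((1 / (2 * ((n : ℝ) + 1)) : ℝ) : ℂ) := by
    push_cast; rfl
  rw [this, Complex.norm_real, Real.norm_eq_abs, abs_of_pos (by (clear * -; positivity)),
    div_le_one (by positivity)]
  have : (0 : ℝ) ≤ n := Nat.cast_nonneg _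
  linarith only []

theorem wt_le_two (p : ℕ) (m n k : ℕ) (h : k ≤ m + n + 1) :
    (1 + (k : ℝ)) ^ p ≤ 2 ^ p * wt p (m, n) := by
  unfold wt
  rw [← mul_pow]
  refine pow_le_pow_left₀ (by positivity) ?_ _
  have h1 : (k : ℝ) ≤ m + n + 1 := by exact_mod_cast h
  have h2 : (0 : ℝ) ≤ m := Nat.cast_nonneg _
  have h3 : (0 : ℝ) ≤ n := Nat.cast_nonneg _
  simp only
  linarith only [h1]

/-- First operator. -/
def hL1 (p : ℕ) : Y p →L[ℂ] Y p :=
  lift (fun i => (1 / (2 * ((i.2 : ℂ) + 1)) : ℂ) • (e p (i.1, i.2 + 1) -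
    if i.2 + 1 ≤ i.1 then e p (i.1 - (i.2 + 1), 0) else 0)) (2 * 2 ^ p) (by positivity) fun i => by
    rw [norm_smul]
    have h1 : ‖e p (i.1, i.2 + 1)‖ ≤ 2 ^ p * wt p i := by
      rw [norm_e]
      have := wt_le_two p i.1 i.2 (i.1 + i.2 + 1) le_rfl
      refine le_trans (le_of_eq ?_) this
      unfold wt; push_cast; ring
    have h2 : ‖(if i.2 + 1 ≤ i.1 then e p (i.1 - (i.2 + 1), 0) else 0 : Y p)‖ ≤
        2 ^ p * wt p i := by
      split_ifs with h
      · rw [norm_e]
        have := wt_le_two p i.1 i.2 (i.1 - (i.2 + 1)) (by omega)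
        refine le_trans (le_of_eq ?_) this
        unfold wt; simp only [Nat.cast_zero, add_zero]
      · rw [norm_zero]; have := wt_pos p i; positivity
    calc _ ≤ 1 * ‖e p (i.1, i.2 + 1) -
          (if i.2 + 1 ≤ i.1 then e p (i.1 - (i.2 + 1), 0) else 0 : Y p)‖ := by
          gcongr; exact half_inv_norm _
      _ ≤ 1 * (2 ^ p * wt p i + 2 ^ p * wt p i) := by
          gcongr; exact (norm_sub_le _ _).trans (add_le_add h1 h2)
      _ = _ := by ring

/-- Second operator. -/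
def hL2 (p : ℕ) : Y p →L[ℂ] Y p :=
  lift (fun i => (1 / (2 * ((i.2 : ℂ) + 1)) : ℂ) • (if i.1 < i.2 + 1 then
    e p (0, i.2 + 1 - i.1) else 0)) (2 ^ p) (by positivity) fun i => by
    rw [norm_smul]
    have h2 : ‖(if i.1 < i.2 + 1 then e p (0, i.2 + 1 - i.1) else 0 : Y p)‖ ≤
        2 ^ p * wt p i := by
      split_ifs with h
      · rw [norm_e]
        have := wt_le_two p i.1 i.2 (i.2 + 1 - i.1) (by omega)
        refine le_trans (le_of_eq ?_) this
        unfold wt; simp only [Nat.cast_zero, add_zero]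
      · rw [norm_zero]; have := wt_pos p i; positivity
    calc _ ≤ 1 * ‖(if i.1 < i.2 + 1 then e p (0, i.2 + 1 - i.1) else 0 : Y p)‖ := by
          gcongr; exact half_inv_norm _
      _ ≤ 1 * (2 ^ p * wt p i) := by gcongr
      _ = _ := by ring

@[simp] theorem hL1_e (i : Ix) : hL1 p (e p i) = (1 / (2 * ((i.2 : ℂ) + 1)) : ℂ) •
    (e p (i.1, i.2 + 1) - if i.2 + 1 ≤ i.1 then e p (i.1 - (i.2 + 1), 0) else 0) :=
  lift_e _ _ _ _ _

@[simp] theorem hL2_e (i : Ix) : hL2 p (e p i) = (1 / (2 * ((i.2 : ℂ) + 1)) : ℂ) •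
    (if i.1 < i.2 + 1 then e p (0, i.2 + 1 - i.1) else 0) :=
  lift_e _ _ _ _ _

/-- The antiderivative. -/
def hF (p : ℕ) (W : Y p) : Y p := hL1 p W + cj (hL2 p W)

theorem dzb_hL1 (W : Y (p + 1)) :
    dzb p (hL1 (p + 1) W) = (1 / 2 : ℂ) • incl (Nat.le_succ p) W := by
  have : (dzb p).comp (hL1 (p + 1)) = (1 / 2 : ℂ) • incl (Nat.le_succ p) :=
    Y.clm_ext fun i => by
      have hn : ((i.2 : ℂ) + 1) ≠ 0 := Nat.cast_add_one_ne_zero _
      rw [ContinuousLinearMap.comp_apply, hL1_e, map_smul, map_sub, smul_apply,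
        incl_e, dzb_e]
      have h0 : dzb p (if i.2 + 1 ≤ i.1 then e (p + 1) (i.1 - (i.2 + 1), 0) else 0) = 0 := by
        split_ifs
        · rw [dzb_e]; simp only [CharP.cast_eq_zero, zero_tsub, zero_smul]
        · simp
      rw [h0, sub_zero]
      simp only [Nat.add_sub_cancel, smul_smul]
      congr 1
      push_cast
      (clear * - hn; field_simp)
  exact congrArg (fun T : Y (p + 1) →L[ℂ] Y p => T W) this

theorem dz_hL2 (W : Y (p + 1)) : dz p (hL2 (p + 1) W) = 0 := by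
  have : (dz p).comp (hL2 (p + 1)) = 0 :=
    Y.clm_ext fun i => by
      rw [ContinuousLinearMap.comp_apply, hL2_e, map_smul]
      have h0 : dz p (if i.1 < i.2 + 1 then e (p + 1) (0, i.2 + 1 - i.1) else 0) = 0 := by
        split_ifs
        · rw [dz_e]; simp only [CharP.cast_eq_zero, zero_tsub, zero_smul]
        · simp
      rw [h0]; simp only [one_div, mul_inv_rev, smul_zero, zero_apply]
  exact congrArg (fun T : Y (p + 1) →L[ℂ] Y p => T W) this

theorem dzb_hF (W : Y (p + 1)) : dzb p (hF (p + 1) W) = (1 / 2 : ℂ) • incl (Nat.le_succ p) W := by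
  unfold hF
  rw [map_add, dzb_hL1, ← cj_dz, dz_hL2, cj_zero, add_zero]

theorem mon_eq_of_circle {z : ℂ} (hz : ‖z‖ = 1) (m n k l : ℕ) (h : m + l = n + k) :
    mon (m, n) z = mon (k, l) z := by
  have h1 : z * conj z = 1 := by
    rw [Complex.mul_conj, Complex.normSq_eq_norm_sq, hz]; norm_num
  have hz0 : z ≠ 0 := by rintro rfl; simp at hz
  have hc : conj z = z⁻¹ := by
    field_simp; rw [mul_comm]; exact h1
  simp only [mon]
  rw [hc, inv_pow, inv_pow]
  field_simp
  rw [← pow_add, ← pow_add, h, add_comm]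

theorem ev_hL1_circle (W : Y p) {z : ℂ} (hz : ‖z‖ = 1) : ev (hL1 p W) z = ev (hL2 p W) z := by
  have : (evL p z hz.le).comp (hL1 p) = (evL p z hz.le).comp (hL2 p) :=
    Y.clm_ext fun i => by
      rw [ContinuousLinearMap.comp_apply, ContinuousLinearMap.comp_apply, hL1_e, hL2_e, map_smul,
        map_smul, map_sub]
      congr 1
      by_cases h : i.2 + 1 ≤ i.1
      · rw [if_pos h, if_neg (by omega), evL_e, evL_e, map_zero,
          mon_eq_of_circle hz i.1 (i.2 + 1) (i.1 - (i.2 + 1)) 0 (by omega), sub_self]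
      · rw [if_neg h, if_pos (by omega), evL_e, evL_e, map_zero, sub_zero,
          mon_eq_of_circle hz i.1 (i.2 + 1) 0 (i.2 + 1 - i.1) (by (clear * - h; omega))]
  exact congrArg (fun T : Y p →L[ℂ] ℂ => T W) this

theorem ev_Ang_hL1_circle (W : Y (p + 1)) {z : ℂ} (hz : ‖z‖ = 1) :
    ev (Ang p (hL1 (p + 1) W)) z = ev (Ang p (hL2 (p + 1) W)) z := by
  have : (evL p z hz.le).comp ((Ang p).comp (hL1 (p + 1))) =
      (evL p z hz.le).comp ((Ang p).comp (hL2 (p + 1))) :=
    Y.clm_ext fun i => by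
      simp only [ContinuousLinearMap.comp_apply, hL1_e, hL2_e, map_smul, map_sub]
      congr 1
      by_cases h : i.2 + 1 ≤ i.1
      · rw [if_pos h, if_neg (by omega), Ang_e, Ang_e, map_smul, map_smul, evL_e, evL_e, map_zero,
          map_zero, mon_eq_of_circle hz i.1 (i.2 + 1) (i.1 - (i.2 + 1)) 0 (by omega)]
        rw [Nat.cast_sub h]
        push_cast
        simp only [smul_eq_mul]
        ring
      · rw [if_neg h, if_pos (by omega), Ang_e, Ang_e, map_smul, map_smul, evL_e, evL_e, map_zero,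
          map_zero, mon_eq_of_circle hz i.1 (i.2 + 1) 0 (i.2 + 1 - i.1) (by omega)]
        rw [Nat.cast_sub (by omega : i.1 ≤ i.2 + 1)]
        push_cast
        simp only [smul_eq_mul]
        ring
  exact congrArg (fun T : Y (p + 1) →L[ℂ] ℂ => T W) this

/-- `hF W` is real on the circle. -/
theorem conj_ev_hF (W : Y p) {z : ℂ} (hz : ‖z‖ = 1) :
    conj (ev (hF p W) z) = ev (hF p W) z := by
  unfold hF
  rw [ev_add _ _ hz.le, ev_cj, ev_hL1_circle W hz]
  simp only [map_add, RingHomCompTriple.comp_apply, RingHom.id_apply, add_comm]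

/-- the tangential derivative of `hF W` is real on the circle. -/
theorem conj_ev_Ang_hF (W : Y (p + 1)) {z : ℂ} (hz : ‖z‖ = 1) :
    conj (ev (Ang p (hF (p + 1) W)) z) = ev (Ang p (hF (p + 1) W)) z := by
  unfold hF
  rw [map_add, ev_add _ _ hz.le, ← cj_Ang, ev_cj, ev_Ang_hL1_circle W hz]
  simp [add_comm]

end Vale.Agent.P071
end
end

section

/-!
# The energy identity, the trace inequality and the Hodge inequality
-/

open scoped ComplexConjugate
open MeasureTheory Set Metric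

noncomputable section

namespace Vale.Agent.P071

variable {p q : ℕ}

/-- Cauchy-Schwarz for integrals of real functions. -/
theorem cs_int {α : Type*} [MeasurableSpace α] {μ : Measure α} {f g : α → ℝ}
    (hf : Integrable (fun x => f x ^ 2) μ) (hg : Integrable (fun x => g x ^ 2) μ)
    (hfg : Integrable (fun x => f x * g x) μ) :
    (∫ x, f x * g x ∂μ) ^ 2 ≤ (∫ x, f x ^ 2 ∂μ) * ∫ x, g x ^ 2 ∂μ := by
  have key : ∀ t : ℝ, 0 ≤ (∫ x, g x ^ 2 ∂μ) * (t * t) + (2 * ∫ x, f x * g x ∂μ) * t +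
      ∫ x, f x ^ 2 ∂μ := by
    intro t
    have h0 : 0 ≤ ∫ x, (f x + t * g x) ^ 2 ∂μ := integral_nonneg fun x => sq_nonneg _
    have h1 : ∫ x, (f x + t * g x) ^ 2 ∂μ = (∫ x, g x ^ 2 ∂μ) * (t * t) +
        (2 * ∫ x, f x * g x ∂μ) * t + ∫ x, f x ^ 2 ∂μ := by
      have e : (fun x => (f x + t * g x) ^ 2) =
          fun x => ((t * t) * g x ^ 2 + (2 * t) * (f x * g x)) + f x ^ 2 := by
        funext x; ring
      have e1 := integral_add (μ := μ) (f := fun x => (t * t) * g x ^ 2 + (2 * t) * (f x * g x))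
        (g := fun x => f x ^ 2) ((hg.const_mul _).add (hfg.const_mul _)) hf
      have e2 := integral_add (μ := μ) (f := fun x => (t * t) * g x ^ 2)
        (g := fun x => (2 * t) * (f x * g x)) (hg.const_mul _) (hfg.const_mul _)
      rw [e, e1, e2, integral_const_mul, integral_const_mul]
      ring
    linarith only [h0, h1]
  have := discrim_le_zero key
  unfold discrim at this
  linarith

theorem cs_int_sqrt {α : Type*} [MeasurableSpace α] {μ : Measure α} {f g : α → ℝ}
    (hf : Integrable (fun x => f x ^ 2) μ) (hg : Integrable (fun x => g x ^ 2) μ)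
    (hfg : Integrable (fun x => f x * g x) μ) :
    |∫ x, f x * g x ∂μ| ≤ Real.sqrt (∫ x, f x ^ 2 ∂μ) * Real.sqrt (∫ x, g x ^ 2 ∂μ) := by
  rw [← Real.sqrt_mul (integral_nonneg fun x => sq_nonneg _)]
  exact Real.abs_le_sqrt (cs_int hf hg hfg)

/-- a point of the circle -/
abbrev cp (t : ℝ) : ℂ := Complex.exp (t * Complex.I)

theorem norm_cp (t : ℝ) : ‖cp t‖ = 1 := Complex.norm_exp_ofReal_mul_I t

theorem conj_cp (t : ℝ) : conj (cp t) = Complex.exp (-(t * Complex.I)) := by
  rw [cp, ← Complex.exp_conj]; simp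

theorem normSq_mul_conj' (z : ℂ) : conj z * z = ((Complex.normSq z : ℝ) : ℂ) := by
  rw [mul_comm, Complex.mul_conj]

theorem contNormSq {F : ℂ → ℂ} (h : ContinuousOn F (closedBall 0 1)) :
    ContinuousOn (fun z => Complex.normSq (F z)) (closedBall 0 1) :=
  Complex.continuous_normSq.comp_continuousOn h

/-- Energy identity: if `F` and its tangential derivative are real on the circle then the
integrals of `|∂F|²` and `|∂bar F|²` agree. -/
theorem energy_identity (F : Y (p + 1 + 1))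
    (h1 : ∀ z : ℂ, ‖z‖ = 1 → conj (ev F z) = ev F z)
    (h2 : ∀ z : ℂ, ‖z‖ = 1 → conj (ev (Ang (p + 1) F) z) = ev (Ang (p + 1) F) z) :
    ∫ z in ball (0 : ℂ) 1, Complex.normSq (ev (dz (p + 1) F) z) =
      ∫ z in ball (0 : ℂ) 1, Complex.normSq (ev (dzb (p + 1) F) z) := by
  have cF := c1d_ev F
  have s1 := (cF.cjg.mul (c1d_ev (dz (p + 1) F))).stokes
  have s2 := (cF.cjg.mul (c1d_ev (dzb (p + 1) F))).stokes'
  have hcomm : dzb p (dz (p + 1) F) = dz p (dzb (p + 1) F) := (dz_dzb F).symm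
  rw [hcomm] at s1
  have cM : ContinuousOn (fun z => conj (ev F z) * ev (dz p (dzb (p + 1) F)) z)
      (closedBall (0 : ℂ) 1) := cF.cjg.c0.mul (continuousOn_ev _)
  have cz := contNormSq (continuousOn_ev (dz (p + 1) F))
  have cb := contNormSq (continuousOn_ev (dzb (p + 1) F))
  have cz' : ContinuousOn (fun z => ((Complex.normSq (ev (dz (p + 1) F) z) : ℝ) : ℂ))
      (closedBall 0 1) := Complex.continuous_ofReal.comp_continuousOn cz
  have cb' : ContinuousOn (fun z => ((Complex.normSq (ev (dzb (p + 1) F) z) : ℝ) : ℂ))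
      (closedBall 0 1) := Complex.continuous_ofReal.comp_continuousOn cb
  have iM := C1D.integrable cM
  have iz := C1D.integrable cz'
  have ib := C1D.integrable cb'
  have b1 : Continuous (fun t : ℝ => conj (ev F (cp t)) * ev (dz (p + 1) F) (cp t) * cp t) :=
    ((C1D.circleCont cF.cjg.c0).mul (C1D.circleCont (continuousOn_ev _))).mul (by fun_prop)
  have b2 : Continuous (fun t : ℝ => conj (ev F (cp t)) * ev (dzb (p + 1) F) (cp t) *
      Complex.exp (-(t * Complex.I))) :=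
    ((C1D.circleCont cF.cjg.c0).mul (C1D.circleCont (continuousOn_ev _))).mul (by fun_prop)
  have e1 : (∫ z in ball (0 : ℂ) 1, 2 * (((Complex.normSq (ev (dz (p + 1) F) z) : ℝ) : ℂ) +
      conj (ev F z) * ev (dz p (dzb (p + 1) F)) z)) =
      ∫ t in (-Real.pi)..Real.pi, conj (ev F (cp t)) * ev (dz (p + 1) F) (cp t) * cp t := by
    rw [← s1]
    refine setIntegral_congr_fun measurableSet_ball fun z _ => ?_
    rw [normSq_mul_conj']
  have e2 : (∫ z in ball (0 : ℂ) 1, 2 * (((Complex.normSq (ev (dzb (p + 1) F) z) : ℝ) : ℂ) +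
      conj (ev F z) * ev (dz p (dzb (p + 1) F)) z)) =
      ∫ t in (-Real.pi)..Real.pi, conj (ev F (cp t)) * ev (dzb (p + 1) F) (cp t) *
        Complex.exp (-(t * Complex.I)) := by
    rw [← s2]
    refine setIntegral_congr_fun measurableSet_ball fun z _ => ?_
    rw [normSq_mul_conj']
  simp only [mul_add] at e1 e2
  rw [integral_add (iz.const_mul 2) (iM.const_mul 2), integral_const_mul] at e1
  rw [integral_add (ib.const_mul 2) (iM.const_mul 2), integral_const_mul] at e2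
  have e3 : (∫ t in (-Real.pi)..Real.pi, conj (ev F (cp t)) * ev (dz (p + 1) F) (cp t) * cp t) -
      (∫ t in (-Real.pi)..Real.pi, conj (ev F (cp t)) * ev (dzb (p + 1) F) (cp t) *
        Complex.exp (-(t * Complex.I))) =
      -Complex.I * ((∫ t in (-Real.pi)..Real.pi,
        (ev F (cp t)).re * (ev (Ang (p + 1) F) (cp t)).re : ℝ) : ℂ) := by
    rw [← intervalIntegral.integral_sub (b1.intervalIntegrable _ _) (b2.intervalIntegrable _ _),
      ← intervalIntegral.integral_ofReal, ← intervalIntegral.integral_const_mul]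
    refine intervalIntegral.integral_congr fun t _ => ?_
    have h3 := h1 (cp t) (norm_cp t)
    have h4 := h2 (cp t) (norm_cp t)
    have h5 : ((ev F (cp t)).re : ℂ) = ev F (cp t) := Complex.conj_eq_iff_re.1 h3
    have h6 : ((ev (Ang (p + 1) F) (cp t)).re : ℂ) = ev (Ang (p + 1) F) (cp t) :=
      Complex.conj_eq_iff_re.1 h4
    rw [Complex.ofReal_mul, h5, h6, h3, ev_Ang F (norm_cp t).le, conj_cp]
    linear_combination (ev F (cp t) * (cp t * ev (dz (p + 1) F) (cp t) -
      Complex.exp (-(t * Complex.I)) * ev (dzb (p + 1) F) (cp t))) * Complex.I_mul_I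
  have e4 : (2 * ∫ z in ball (0 : ℂ) 1, ((Complex.normSq (ev (dz (p + 1) F) z) : ℝ) : ℂ)) -
      (2 * ∫ z in ball (0 : ℂ) 1, ((Complex.normSq (ev (dzb (p + 1) F) z) : ℝ) : ℂ)) =
      -Complex.I * ((∫ t in (-Real.pi)..Real.pi,
        (ev F (cp t)).re * (ev (Ang (p + 1) F) (cp t)).re : ℝ) : ℂ) := by
    rw [← e3, ← e1, ← e2]; ring
  rw [integral_complex_ofReal, integral_complex_ofReal] at e4
  have e5 := congrArg Complex.re e4
  simp only [Complex.sub_re, Complex.mul_re, Complex.re_ofNat, Complex.ofReal_re, Complex.im_ofNat, Complex.ofReal_im, mul_zero, sub_zero, neg_mul, Complex.neg_re, Complex.I_re, zero_mul, Complex.I_im, sub_self, neg_zero] at e5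
  linarith only [e5]

/-- Trace inequality. -/
theorem trace_ineq (φ : Y (p + 1)) (hφ : cj φ = φ) :
    ∫ t in (-Real.pi)..Real.pi, (ev φ (cp t)).re ^ 2 ≤
      3 * (∫ z in ball (0 : ℂ) 1, (ev φ z).re ^ 2) +
        ∫ z in ball (0 : ℂ) 1, 4 * Complex.normSq (ev (dz p φ) z) := by
  have cφ := c1d_ev φ
  have s := ((cφ.mul cφ).mul C1D.ident.cjg).stokes
  have hreal : ∀ z, ((ev φ z).re : ℂ) = ev φ z := fun z => by
    have : conj (ev φ z) = ev φ z := by rw [← ev_cj, hφ]
    exact Complex.conj_eq_iff_re.1 this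
  have hzb : ∀ z, ev (dzb p φ) z = conj (ev (dz p φ) z) := fun z => by
    rw [← ev_cj, cj_dz, hφ]
  have e1 : (∫ t in (-Real.pi)..Real.pi, ev φ (cp t) * ev φ (cp t) * conj (cp t) * cp t) =
      ((∫ t in (-Real.pi)..Real.pi, (ev φ (cp t)).re ^ 2 : ℝ) : ℂ) := by
    rw [← intervalIntegral.integral_ofReal]
    refine intervalIntegral.integral_congr fun t _ => ?_
    have h1 : conj (cp t) * cp t = 1 := by
      rw [normSq_mul_conj', Complex.normSq_eq_norm_sq, norm_cp]; simp
    rw [mul_assoc, h1, mul_one, Complex.ofReal_pow, hreal, sq]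
  have e2 := s.trans e1
  have e3 := congrArg Complex.re e2
  rw [Complex.ofReal_re] at e3
  rw [← e3]
  have cQ := ((cφ.mul cφ).mul C1D.ident.cjg).c2
  have hre : (∫ z in ball (0 : ℂ) 1, 2 * ((ev (dzb p φ) z * ev φ z + ev φ z * ev (dzb p φ) z) *
      conj z + ev φ z * ev φ z * conj (1 : ℂ))).re =
      ∫ z in ball (0 : ℂ) 1, (2 * ((ev (dzb p φ) z * ev φ z + ev φ z * ev (dzb p φ) z) *
      conj z + ev φ z * ev φ z * conj (1 : ℂ))).re := by
    have := integral_re (𝕜 := ℂ) (f := fun z => 2 * ((ev (dzb p φ) z * ev φ z + ev φ z * ev (dzb p φ) z) *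
      conj z + ev φ z * ev φ z * conj (1 : ℂ))) (μ := volume.restrict (ball (0 : ℂ) 1))
      ((C1D.integrable cQ).const_mul 2)
    exact this.symm
  refine le_trans (le_of_eq hre) ?_
  have c1 : ContinuousOn (fun z => (ev φ z).re ^ 2) (closedBall (0 : ℂ) 1) :=
    (Complex.continuous_re.comp_continuousOn cφ.c0).pow 2
  have c2 : ContinuousOn (fun z => 4 * Complex.normSq (ev (dz p φ) z)) (closedBall (0 : ℂ) 1) :=
    continuousOn_const.mul (contNormSq (continuousOn_ev _))
  rw [← integral_const_mul, ← integral_add ((C1D.integrable c1).const_mul 3) (C1D.integrable c2)]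
  refine setIntegral_mono_on ?_ (((C1D.integrable c1).const_mul 3).add (C1D.integrable c2))
    measurableSet_ball fun z hz => ?_
  · have := ((C1D.integrable cQ).const_mul 2).re
    exact this
  · have hz1 : ‖z‖ ≤ 1 := (mem_ball_zero_iff.1 hz).le
    set r := (ev φ z).re with hr
    set A := ev (dz p φ) z with hA
    have h1 : (2 * ((ev (dzb p φ) z * ev φ z + ev φ z * ev (dzb p φ) z) *
      conj z + ev φ z * ev φ z * conj (1 : ℂ))).re = 4 * r * (A * z).re + 2 * r ^ 2 := by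
      rw [hzb z, ← hreal z]
      simp only [map_one, mul_one]
      have : (2 * ((conj A * (r : ℂ) + (r : ℂ) * conj A) * conj z + (r : ℂ) * (r : ℂ)) : ℂ) =
          ((4 * r : ℝ) : ℂ) * conj (A * z) + ((2 * r ^ 2 : ℝ) : ℂ) := by
        push_cast; rw [map_mul]; ring
      rw [this, Complex.add_re, Complex.re_ofReal_mul, Complex.conj_re, Complex.ofReal_re]
    rw [h1]
    have h2 : |(A * z).re| ≤ ‖A‖ := by
      refine (Complex.abs_re_le_norm _).trans ?_
      rw [norm_mul]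
      exact mul_le_of_le_one_right (norm_nonneg _) hz1
    have h3 : (A * z).re ^ 2 ≤ Complex.normSq A := by
      rw [Complex.normSq_eq_norm_sq, ← sq_abs]
      exact pow_le_pow_left₀ (abs_nonneg _) h2 2
    nlinarith only [h3, sq_nonneg (r - 2 * (A * z).re)]

theorem Ang_one1 : Ang p (one1 (p + 1)) = 0 := by
  rw [one1, Ang_e]; simp

theorem intC {F : ℂ → ℝ} (h : ContinuousOn F (closedBall 0 1)) :
    IntegrableOn F (ball (0 : ℂ) 1) := C1D.integrable h

/-- **Hodge inequality** with a boundary error term. -/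
theorem hodge_ineq {w : ℂ → ℝ} (hwc : ContinuousOn w (closedBall 0 1)) {κ : ℝ} (hκ : 0 < κ)
    (hw : ∀ z ∈ closedBall (0 : ℂ) 1, κ ≤ w z)
    (hN : ∀ φ : Y (p + 1 + 1), cj φ = φ → ∫ z in ball (0 : ℂ) 1, w z * (ev φ z).re = 0 →
      ∫ z in ball (0 : ℂ) 1, w z * (ev φ z).re ^ 2 ≤
        ∫ z in ball (0 : ℂ) 1, 4 * Complex.normSq (ev (dz (p + 1) φ) z))
    (hD : ∀ χ : Y (p + 1 + 1), cj χ = χ → (∀ z : ℂ, ‖z‖ = 1 → ev χ z = 0) →
      ∫ z in ball (0 : ℂ) 1, w z * (ev χ z).re ^ 2 ≤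
        ∫ z in ball (0 : ℂ) 1, 4 * Complex.normSq (ev (dz (p + 1) χ) z))
    (W : Y (p + 1 + 1)) :
    Real.sqrt (∫ z in ball (0 : ℂ) 1, Complex.normSq (ev W z)) ≤
      Real.sqrt (∫ z in ball (0 : ℂ) 1, 4 * Complex.normSq (ev (dz (p + 1) W) z) / w z) +
      Real.sqrt (3 / κ + 1) *
        Real.sqrt (∫ t in (-Real.pi)..Real.pi, (conj (ev W (cp t)) * cp t).re ^ 2) := by
  have hwpos : ∀ z ∈ closedBall (0 : ℂ) 1, 0 < w z := fun z hz => hκ.trans_le (hw z hz)
  -- the antiderivative, normalised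
  set F0 := hF (p + 1 + 1) W with hF0
  set c : ℝ := (∫ z in ball (0 : ℂ) 1, w z * (ev F0 z).re) / ∫ z in ball (0 : ℂ) 1, w z with hc
  set F : Y (p + 1 + 1) := F0 - (c : ℂ) • one1 (p + 1 + 1) with hFdef
  have hevF : ∀ z, ‖z‖ ≤ 1 → ev F z = ev F0 z - c := fun z hz => by
    rw [hFdef, ev_sub _ _ hz, ev_smul, ev_one1, mul_one]
  have hdzb : dzb (p + 1) F = (1 / 2 : ℂ) • incl (Nat.le_succ (p + 1)) W := by
    rw [hFdef, map_sub, map_smul, dzb_one1, smul_zero, sub_zero, hF0, dzb_hF]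
  have hFreal : ∀ z : ℂ, ‖z‖ = 1 → conj (ev F z) = ev F z := fun z hz => by
    rw [hevF z hz.le, map_sub, conj_ev_hF W hz, Complex.conj_ofReal]
  have hFang : ∀ z : ℂ, ‖z‖ = 1 → conj (ev (Ang (p + 1) F) z) = ev (Ang (p + 1) F) z :=
    fun z hz => by
      rw [hFdef, map_sub, map_smul, Ang_one1, smul_zero, sub_zero, conj_ev_Ang_hF W hz]
  have hen := energy_identity F hFreal hFang
  -- real and imaginary parts
  set φ : Y (p + 1 + 1) := (1 / 2 : ℂ) • (F + cj F) with hφ
  set χ : Y (p + 1 + 1) := (-Complex.I / 2 : ℂ) • (F - cj F) with hχ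
  have hφr : cj φ = φ := by
    rw [hφ, cj_smul, cj_add, cj_cj, add_comm (cj F)]
    congr 1
    rw [map_div₀, map_one, map_ofNat]
  have hχr : cj χ = χ := by
    rw [hχ, cj_smul, cj_sub, cj_cj, map_div₀, map_neg, Complex.conj_I, map_ofNat, neg_neg,
      ← neg_sub F, smul_neg, neg_div, neg_smul]
  have evφ : ∀ z, ‖z‖ ≤ 1 → ev φ z = ((ev F z).re : ℂ) := fun z hz => by
    rw [hφ, ev_smul, ev_add _ _ hz, ev_cj, Complex.add_conj]
    push_cast; ring
  have evχ : ∀ z, ‖z‖ ≤ 1 → ev χ z = ((ev F z).im : ℂ) := fun z hz => by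
    rw [hχ, ev_smul, ev_sub _ _ hz, ev_cj, Complex.sub_conj]
    push_cast
    linear_combination (-(ev F z).im : ℂ) * Complex.I_mul_I
  have hχ0 : ∀ z : ℂ, ‖z‖ = 1 → ev χ z = 0 := fun z hz => by
    rw [evχ z hz.le, Complex.conj_eq_iff_im.1 (hFreal z hz)]; simp
  have dzφ : ∀ z, ‖z‖ ≤ 1 → ev (dz (p + 1) φ) z =
      (ev (dz (p + 1) F) z + conj (ev (dzb (p + 1) F) z)) / 2 := fun z hz => by
    rw [hφ, map_smul, map_add, ev_smul, ev_add _ _ hz, ← cj_dzb, ev_cj]; ring
  have dzχ : ∀ z, ‖z‖ ≤ 1 → ev (dz (p + 1) χ) z =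
      -Complex.I * (ev (dz (p + 1) F) z - conj (ev (dzb (p + 1) F) z)) / 2 := fun z hz => by
    rw [hχ, map_smul, map_sub, ev_smul, ev_sub _ _ hz, ← cj_dzb, ev_cj]; ring
  -- continuity facts
  have cF := c1d_ev F
  have cre : ContinuousOn (fun z => (ev F z).re) (closedBall (0 : ℂ) 1) :=
    Complex.continuous_re.comp_continuousOn cF.c0
  have cim : ContinuousOn (fun z => (ev F z).im) (closedBall (0 : ℂ) 1) :=
    Complex.continuous_im.comp_continuousOn cF.c0
  have cA := contNormSq (continuousOn_ev (dz (p + 1) F))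
  have cB := contNormSq (continuousOn_ev (dzb (p + 1) F))
  have cW := contNormSq (continuousOn_ev W)
  set a2 := ∫ z in ball (0 : ℂ) 1, Complex.normSq (ev W z) with ha2
  have hBW : ∫ z in ball (0 : ℂ) 1, 4 * Complex.normSq (ev (dzb (p + 1) F) z) = a2 := by
    refine setIntegral_congr_fun measurableSet_ball fun z _ => ?_
    rw [hdzb, ev_smul, ev_incl, Complex.normSq_mul]
    have : Complex.normSq (1 / 2 : ℂ) = 1 / 4 := by
      rw [map_div₀, map_one, show (2 : ℂ) = ((2 : ℝ) : ℂ) by norm_num, Complex.normSq_ofReal]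
      norm_num
    rw [this]; ring
  -- total energy
  have hφe : ∫ z in ball (0 : ℂ) 1, 4 * Complex.normSq (ev (dz (p + 1) φ) z) +
      4 * Complex.normSq (ev (dz (p + 1) χ) z) = a2 := by
    rw [← hBW]
    have e1 : ∫ z in ball (0 : ℂ) 1, 4 * Complex.normSq (ev (dz (p + 1) φ) z) +
        4 * Complex.normSq (ev (dz (p + 1) χ) z) =
        ∫ z in ball (0 : ℂ) 1, (2 * Complex.normSq (ev (dz (p + 1) F) z) +
          2 * Complex.normSq (ev (dzb (p + 1) F) z)) := by
      refine setIntegral_congr_fun measurableSet_ball fun z hz => ?_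
      have hz1 : ‖z‖ ≤ 1 := (mem_ball_zero_iff.1 hz).le
      rw [dzφ z hz1, dzχ z hz1]
      simp only [Complex.normSq_apply, Complex.div_re, Complex.div_im, Complex.add_re,
        Complex.add_im, Complex.sub_re, Complex.sub_im, Complex.mul_re, Complex.mul_im,
        Complex.neg_re, Complex.neg_im, Complex.I_re, Complex.I_im, Complex.conj_re,
        Complex.conj_im]
      norm_num
      ring
    rw [e1, integral_add ((intC cA).const_mul 2) ((intC cB).const_mul 2), integral_const_mul,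
      integral_const_mul, integral_const_mul, hen]
    ring
  have cφe : ContinuousOn (fun z => 4 * Complex.normSq (ev (dz (p + 1) φ) z)) (closedBall 0 1) :=
    continuousOn_const.mul (contNormSq (continuousOn_ev _))
  have cχe : ContinuousOn (fun z => 4 * Complex.normSq (ev (dz (p + 1) χ) z)) (closedBall 0 1) :=
    continuousOn_const.mul (contNormSq (continuousOn_ev _))
  rw [integral_add (intC cφe) (intC cχe)] at hφe
  have hχnn : 0 ≤ ∫ z in ball (0 : ℂ) 1, 4 * Complex.normSq (ev (dz (p + 1) χ) z) :=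
    integral_nonneg fun z => mul_nonneg (by norm_num) (Complex.normSq_nonneg _)
  -- mean value
  have hwint : 0 < ∫ z in ball (0 : ℂ) 1, w z := by
    have h1 : ∫ z in ball (0 : ℂ) 1, κ ≤ ∫ z in ball (0 : ℂ) 1, w z :=
      setIntegral_mono_on (intC continuousOn_const) (intC hwc) measurableSet_ball
        fun z hz => hw z (ball_subset_closedBall hz)
    refine lt_of_lt_of_le ?_ h1
    rw [setIntegral_const, smul_eq_mul]
    refine mul_pos ?_ hκ
    exact ENNReal.toReal_pos (measure_ball_pos _ _ one_pos).ne' measure_ball_lt_top.ne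
  have hmean : ∫ z in ball (0 : ℂ) 1, w z * (ev φ z).re = 0 := by
    have e1 : ∫ z in ball (0 : ℂ) 1, w z * (ev φ z).re =
        ∫ z in ball (0 : ℂ) 1, (w z * (ev F0 z).re - c * w z) := by
      refine setIntegral_congr_fun measurableSet_ball fun z hz => ?_
      have hz1 : ‖z‖ ≤ 1 := (mem_ball_zero_iff.1 hz).le
      rw [evφ z hz1, hevF z hz1, Complex.ofReal_re, Complex.sub_re, Complex.ofReal_re]
      ring
    have cF0 : ContinuousOn (fun z => w z * (ev F0 z).re) (closedBall (0 : ℂ) 1) :=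
      hwc.mul (Complex.continuous_re.comp_continuousOn (continuousOn_ev F0))
    rw [e1, integral_sub (intC cF0) ((intC hwc).const_mul c), integral_const_mul, hc,
      div_mul_cancel₀ _ hwint.ne', sub_self]
  have n1 := hN φ hφr hmean
  have n2 := hD χ hχr hχ0
  have hwφ : ∫ z in ball (0 : ℂ) 1, w z * (ev φ z).re ^ 2 =
      ∫ z in ball (0 : ℂ) 1, w z * (ev F z).re ^ 2 := by
    refine setIntegral_congr_fun measurableSet_ball fun z hz => ?_
    rw [evφ z (mem_ball_zero_iff.1 hz).le, Complex.ofReal_re]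
  have hwχ : ∫ z in ball (0 : ℂ) 1, w z * (ev χ z).re ^ 2 =
      ∫ z in ball (0 : ℂ) 1, w z * (ev F z).im ^ 2 := by
    refine setIntegral_congr_fun measurableSet_ball fun z hz => ?_
    rw [evχ z (mem_ball_zero_iff.1 hz).le, Complex.ofReal_re]
  rw [hwφ] at n1
  rw [hwχ] at n2
  have cwre : ContinuousOn (fun z => w z * (ev F z).re ^ 2) (closedBall (0 : ℂ) 1) :=
    hwc.mul (cre.pow 2)
  have cwim : ContinuousOn (fun z => w z * (ev F z).im ^ 2) (closedBall (0 : ℂ) 1) :=
    hwc.mul (cim.pow 2)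
  have hwF : ∫ z in ball (0 : ℂ) 1, w z * Complex.normSq (ev F z) ≤ a2 := by
    have e1 : ∫ z in ball (0 : ℂ) 1, w z * Complex.normSq (ev F z) =
        ∫ z in ball (0 : ℂ) 1, (w z * (ev F z).re ^ 2 + w z * (ev F z).im ^ 2) := by
      refine setIntegral_congr_fun measurableSet_ball fun z _ => ?_
      rw [Complex.normSq_apply]; ring
    rw [e1, integral_add (intC cwre) (intC cwim)]
    linarith only [hφe, n1, n2]
  have ha2nn : 0 ≤ a2 := integral_nonneg fun z => Complex.normSq_nonneg _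
  -- trace
  have htr : ∫ t in (-Real.pi)..Real.pi, (ev F (cp t)).re ^ 2 ≤ (3 / κ + 1) * a2 := by
    have t1 := trace_ineq φ hφr
    have t2 : ∫ t in (-Real.pi)..Real.pi, (ev φ (cp t)).re ^ 2 =
        ∫ t in (-Real.pi)..Real.pi, (ev F (cp t)).re ^ 2 := by
      refine intervalIntegral.integral_congr fun t _ => ?_
      rw [evφ (cp t) (norm_cp t).le, Complex.ofReal_re]
    have t3 : ∫ z in ball (0 : ℂ) 1, (ev φ z).re ^ 2 =
        ∫ z in ball (0 : ℂ) 1, (ev F z).re ^ 2 := by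
      refine setIntegral_congr_fun measurableSet_ball fun z hz => ?_
      rw [evφ z (mem_ball_zero_iff.1 hz).le, Complex.ofReal_re]
    rw [t2, t3] at t1
    have t4 : κ * ∫ z in ball (0 : ℂ) 1, (ev F z).re ^ 2 ≤
        ∫ z in ball (0 : ℂ) 1, w z * (ev F z).re ^ 2 := by
      rw [← integral_const_mul]
      refine setIntegral_mono_on ((intC (cre.pow 2)).const_mul κ) (intC cwre) measurableSet_ball
        fun z hz => ?_
      exact mul_le_mul_of_nonneg_right (hw z (ball_subset_closedBall hz)) (sq_nonneg _)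
    have t5 : ∫ z in ball (0 : ℂ) 1, (ev F z).re ^ 2 ≤ a2 / κ := by
      rw [le_div_iff₀ hκ]
      linarith only [hφe, hχnn, n1, t4]
    calc _ ≤ _ := t1
      _ ≤ 3 * (a2 / κ) + a2 := by linarith only [hφe, hχnn, t5]
      _ = _ := by ring
  -- duality
  have s := ((c1d_ev W).cjg.mul cF).stokes
  have cWz := continuousOn_ev (dz (p + 1) W)
  have cP : ContinuousOn (fun z => conj (ev (dz (p + 1) W) z) * ev F z) (closedBall (0 : ℂ) 1) :=
    (Complex.continuous_conj.comp_continuousOn cWz).mul cF.c0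
  have cWc : ContinuousOn (fun z => ((Complex.normSq (ev W z) : ℝ) : ℂ)) (closedBall (0 : ℂ) 1) :=
    Complex.continuous_ofReal.comp_continuousOn cW
  have s1 : 2 * (∫ z in ball (0 : ℂ) 1, conj (ev (dz (p + 1) W) z) * ev F z) + (a2 : ℂ) =
      ∫ t in (-Real.pi)..Real.pi, conj (ev W (cp t)) * ev F (cp t) * cp t := by
    rw [← s, ha2, ← integral_complex_ofReal, ← integral_const_mul,
      ← integral_add ((C1D.integrable cP).const_mul 2) (C1D.integrable cWc)]
    refine setIntegral_congr_fun measurableSet_ball fun z _ => ?_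
    rw [hdzb, ev_smul, ev_incl, ← normSq_mul_conj']
    ring
  have s2 : (∫ t in (-Real.pi)..Real.pi, conj (ev W (cp t)) * ev F (cp t) * cp t).re =
      ∫ t in (-Real.pi)..Real.pi, (ev F (cp t)).re * (conj (ev W (cp t)) * cp t).re := by
    rw [intervalIntegral.integral_of_le (by linarith only [Real.pi_pos]),
      intervalIntegral.integral_of_le (by linarith only [Real.pi_pos])]
    have hcont : Continuous (fun t : ℝ => conj (ev W (cp t)) * ev F (cp t) * cp t) :=
      ((C1D.circleCont (c1d_ev W).cjg.c0).mul (C1D.circleCont cF.c0)).mul (by fun_prop)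
    have := integral_re (𝕜 := ℂ) (μ := volume.restrict (Ioc (-Real.pi) Real.pi))
      (f := fun t : ℝ => conj (ev W (cp t)) * ev F (cp t) * cp t)
      ((hcont.integrableOn_Icc).mono_set Ioc_subset_Icc_self)
    refine (this.symm).trans ?_
    refine setIntegral_congr_fun measurableSet_Ioc fun t _ => ?_
    have h5 : ((ev F (cp t)).re : ℂ) = ev F (cp t) :=
      Complex.conj_eq_iff_re.1 (hFreal (cp t) (norm_cp t))
    show (conj (ev W (cp t)) * ev F (cp t) * cp t).re = _
    rw [← h5, Complex.ofReal_re, ← Complex.re_ofReal_mul]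
    congr 1
    ring
  have s3 := congrArg Complex.re s1
  rw [s2, Complex.add_re, Complex.ofReal_re] at s3
  -- estimate of the boundary term
  have bc1 : Continuous (fun t : ℝ => (ev F (cp t)).re) :=
    Complex.continuous_re.comp (C1D.circleCont cF.c0)
  have bc2 : Continuous (fun t : ℝ => (conj (ev W (cp t)) * cp t).re) :=
    Complex.continuous_re.comp ((C1D.circleCont (c1d_ev W).cjg.c0).mul (by fun_prop))
  have hpi : -Real.pi ≤ Real.pi := by linarith only [Real.pi_pos]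
  have hb : |∫ t in (-Real.pi)..Real.pi, (ev F (cp t)).re * (conj (ev W (cp t)) * cp t).re| ≤
      Real.sqrt ((3 / κ + 1) * a2) *
        Real.sqrt (∫ t in (-Real.pi)..Real.pi, (conj (ev W (cp t)) * cp t).re ^ 2) := by
    rw [intervalIntegral.integral_of_le hpi] at htr ⊢
    rw [intervalIntegral.integral_of_le hpi]
    refine (cs_int_sqrt (((bc1.pow 2).integrableOn_Icc).mono_set Ioc_subset_Icc_self)
      (((bc2.pow 2).integrableOn_Icc).mono_set Ioc_subset_Icc_self)
      (((bc1.mul bc2).integrableOn_Icc).mono_set Ioc_subset_Icc_self)).trans ?_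
    (clear * - htr; gcongr)
  -- estimate of the interior term
  have hi : |(2 * ∫ z in ball (0 : ℂ) 1, conj (ev (dz (p + 1) W) z) * ev F z).re| ≤
      Real.sqrt (∫ z in ball (0 : ℂ) 1, 4 * Complex.normSq (ev (dz (p + 1) W) z) / w z) *
        Real.sqrt a2 := by
    have cf : ContinuousOn (fun z => 2 * ‖ev (dz (p + 1) W) z‖ / Real.sqrt (w z))
        (closedBall (0 : ℂ) 1) := by
      refine (continuousOn_const.mul cWz.norm).div (Real.continuous_sqrt.comp_continuousOn hwc)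
        fun z hz => (Real.sqrt_pos.2 (hwpos z hz)).ne'
    have cg : ContinuousOn (fun z => Real.sqrt (w z) * ‖ev F z‖) (closedBall (0 : ℂ) 1) :=
      (Real.continuous_sqrt.comp_continuousOn hwc).mul cF.c0.norm
    have h1 : |(2 * ∫ z in ball (0 : ℂ) 1, conj (ev (dz (p + 1) W) z) * ev F z).re| ≤
        ∫ z in ball (0 : ℂ) 1, (2 * ‖ev (dz (p + 1) W) z‖ / Real.sqrt (w z)) *
          (Real.sqrt (w z) * ‖ev F z‖) := by
      refine (Complex.abs_re_le_norm _).trans ?_
      rw [norm_mul]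
      have h2 : ‖∫ z in ball (0 : ℂ) 1, conj (ev (dz (p + 1) W) z) * ev F z‖ ≤
          ∫ z in ball (0 : ℂ) 1, ‖ev (dz (p + 1) W) z‖ * ‖ev F z‖ := by
        refine (norm_integral_le_integral_norm _).trans (le_of_eq ?_)
        refine setIntegral_congr_fun measurableSet_ball fun z _ => ?_
        rw [norm_mul, Complex.norm_conj]
      have h3 : ∫ z in ball (0 : ℂ) 1, (2 * ‖ev (dz (p + 1) W) z‖ / Real.sqrt (w z)) *
          (Real.sqrt (w z) * ‖ev F z‖) =
          2 * ∫ z in ball (0 : ℂ) 1, ‖ev (dz (p + 1) W) z‖ * ‖ev F z‖ := by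
        rw [← integral_const_mul]
        refine setIntegral_congr_fun measurableSet_ball fun z hz => ?_
        have := (Real.sqrt_pos.2 (hwpos z (ball_subset_closedBall hz))).ne'
        (clear * - this; field_simp)
      rw [h3]
      have : ‖(2 : ℂ)‖ = 2 := by norm_num
      rw [this]
      (clear * - h2; gcongr)
    refine h1.trans ((le_abs_self _).trans ?_)
    refine (cs_int_sqrt (intC (cf.pow 2)) (intC (cg.pow 2)) (intC (cf.mul cg))).trans ?_
    have h4 : ∫ z in ball (0 : ℂ) 1, (2 * ‖ev (dz (p + 1) W) z‖ / Real.sqrt (w z)) ^ 2 =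
        ∫ z in ball (0 : ℂ) 1, 4 * Complex.normSq (ev (dz (p + 1) W) z) / w z := by
      refine setIntegral_congr_fun measurableSet_ball fun z hz => ?_
      rw [div_pow, Real.sq_sqrt (hwpos z (ball_subset_closedBall hz)).le, mul_pow,
        Complex.normSq_eq_norm_sq]
      norm_num
    have h5 : ∫ z in ball (0 : ℂ) 1, (Real.sqrt (w z) * ‖ev F z‖) ^ 2 =
        ∫ z in ball (0 : ℂ) 1, w z * Complex.normSq (ev F z) := by
      refine setIntegral_congr_fun measurableSet_ball fun z hz => ?_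
      rw [mul_pow, Real.sq_sqrt (hwpos z (ball_subset_closedBall hz)).le,
        Complex.normSq_eq_norm_sq]
    rw [h4, h5]
    (clear * - hwF; gcongr)
  -- conclusion
  set A := Real.sqrt a2 with hA
  set B := Real.sqrt (∫ z in ball (0 : ℂ) 1, 4 * Complex.normSq (ev (dz (p + 1) W) z) / w z)
    with hB
  set E := Real.sqrt (∫ t in (-Real.pi)..Real.pi, (conj (ev W (cp t)) * cp t).re ^ 2) with hE
  have hAA : A * A = a2 := Real.mul_self_sqrt ha2nn
  have hsplit : Real.sqrt ((3 / κ + 1) * a2) = Real.sqrt (3 / κ + 1) * A :=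
    Real.sqrt_mul (by positivity) _
  rw [hsplit] at hb
  have hfin : A * A ≤ A * (B + Real.sqrt (3 / κ + 1) * E) := by
    have hb2 := (abs_le.1 hb).2
    have hi1 := (abs_le.1 hi).1
    rw [hAA]
    have e : A * (B + Real.sqrt (3 / κ + 1) * E) = Real.sqrt (3 / κ + 1) * A * E + B * A := by
      ring
    rw [e]
    linarith only [hb2, hi1, s3]
  have hAnn : 0 ≤ A := Real.sqrt_nonneg _
  rcases hAnn.eq_or_lt with h | h
  · rw [← h]
    exact add_nonneg (Real.sqrt_nonneg _) (mul_nonneg (Real.sqrt_nonneg _) (Real.sqrt_nonneg _))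
  · exact le_of_mul_le_mul_left hfin h

end Vale.Agent.P071
end
end

section

/-!
# The geometric series `1/(β - z)` and the weighted identity for `h = i(β+z)/(β-z)`
-/

open scoped ComplexConjugate
open MeasureTheory Set Metric

noncomputable section

namespace Vale.Agent.P071

variable {p q : ℕ}

theorem summable_geo (q : ℕ) {β : ℂ} (hβ : 1 < ‖β‖) :
    Summable fun k : ℕ => (β⁻¹) ^ (k + 1) • e q (k, 0) := by
  have hr : ‖(‖β‖⁻¹ : ℝ)‖ < 1 := by
    rw [norm_inv, norm_norm]; exact inv_lt_one_of_one_lt₀ hβ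
  have h1 := summable_pow_mul_geometric_of_norm_lt_one q hr
  have h2 := (summable_nat_add_iff 1).2 h1
  refine Summable.of_norm_bounded h2 fun k => ?_
  rw [norm_smul, norm_pow, norm_inv, norm_e, mul_comm]
  refine le_of_eq ?_
  unfold wt
  push_cast
  ring

/-- the series of `1/(β - z)` -/
def geo (q : ℕ) (β : ℂ) : Y q := ∑' k : ℕ, (β⁻¹) ^ (k + 1) • e q (k, 0)

theorem ev_geo {β : ℂ} (hβ : 1 < ‖β‖) {z : ℂ} (hz : ‖z‖ ≤ 1) :
    ev (geo q β) z = (β - z)⁻¹ := by
  have h1 := (summable_geo q hβ).hasSum.mapL (evL q z hz)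
  have h2 : evL q z hz (geo q β) = ∑' k : ℕ, evL q z hz ((β⁻¹) ^ (k + 1) • e q (k, 0)) :=
    h1.tsum_eq.symm
  rw [evL_apply] at h2
  rw [h2]
  have hβ0 : β ≠ 0 := by rintro rfl; simp only [norm_zero] at hβ; linarith only [hβ]
  have h3 : ∀ k : ℕ, evL q z hz ((β⁻¹) ^ (k + 1) • e q (k, 0)) = β⁻¹ * (β⁻¹ * z) ^ k := by
    intro k
    rw [map_smul, evL_e, smul_eq_mul]
    simp only [mon, pow_zero, mul_one]
    rw [mul_pow, pow_succ]; ring
  simp only [h3]
  have hn : ‖β⁻¹ * z‖ < 1 := by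
    rw [norm_mul, norm_inv]
    have hb : ‖β‖⁻¹ < 1 := inv_lt_one_of_one_lt₀ hβ
    have hb0 : 0 ≤ ‖β‖⁻¹ := by positivity
    nlinarith only [hb, hz, hb0]
  rw [tsum_mul_left, tsum_geometric_of_norm_lt_one hn]
  have hne : β - z ≠ 0 := by
    intro h
    have : β = z := sub_eq_zero.1 h
    rw [this] at hβ; linarith only [hβ, hz]
  have hne2 : 1 - β⁻¹ * z ≠ 0 := by
    intro h
    apply hne
    have h4 : β - z = β * (1 - β⁻¹ * z) := by field_simp
    rw [h4, h, mul_zero]
  field_simp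

theorem dzb_geo {β : ℂ} (hβ : 1 < ‖β‖) : dzb q (geo (q + 1) β) = 0 := by
  have h1 := (summable_geo (q + 1) hβ).hasSum.mapL (dzb q)
  have h2 : dzb q (geo (q + 1) β) = ∑' k : ℕ, dzb q ((β⁻¹) ^ (k + 1) • e (q + 1) (k, 0)) :=
    h1.tsum_eq.symm
  rw [h2]
  have h3 : ∀ k : ℕ, dzb q ((β⁻¹) ^ (k + 1) • e (q + 1) (k, 0)) = 0 := by
    intro k
    rw [map_smul, dzb_e]; simp
  simp only [h3, tsum_zero]

/-- the series of `h = i (β + z)/(β - z) = i (2 β /(β - z) - 1)` -/
def hser (q : ℕ) (β : ℂ) : Y q := Complex.I • ((2 * β) • geo q β - one1 q)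

/-- the function `h` -/
def hfun (β z : ℂ) : ℂ := Complex.I * (2 * β * (β - z)⁻¹ - 1)

/-- its derivative -/
def hfun' (β z : ℂ) : ℂ := 2 * Complex.I * β * ((β - z)⁻¹) ^ 2

theorem ev_hser {β : ℂ} (hβ : 1 < ‖β‖) {z : ℂ} (hz : ‖z‖ ≤ 1) :
    ev (hser q β) z = hfun β z := by
  unfold hser hfun
  rw [ev_smul, ev_sub _ _ hz, ev_smul, ev_geo hβ hz, ev_one1]

theorem dzb_hser {β : ℂ} (hβ : 1 < ‖β‖) : dzb q (hser (q + 1) β) = 0 := by
  unfold hser
  rw [map_smul, map_sub, map_smul, dzb_geo hβ]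
  simp

theorem sub_ne_zero_of_disc {β z : ℂ} (hβ : 1 < ‖β‖) (hz : ‖z‖ ≤ 1) : β - z ≠ 0 := by
  intro h
  have : β = z := sub_eq_zero.1 h
  rw [this] at hβ; linarith only [hβ, hz]

theorem c1d_inv {β : ℂ} (hβ : 1 < ‖β‖) :
    C1D (fun z => (β - z)⁻¹) (fun z => ((β - z)⁻¹) ^ 2) (fun _ => 0) := by
  have hc : ContinuousOn (fun z : ℂ => (β - z)⁻¹) (closedBall 0 1) :=
    (continuousOn_const.sub continuousOn_id).inv₀ fun z hz =>
      sub_ne_zero_of_disc hβ (mem_closedBall_zero_iff.1 hz)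
  refine ⟨hc, hc.pow 2, continuousOn_const, fun z hz => ?_⟩
  have hne := sub_ne_zero_of_disc hβ (mem_ball_zero_iff.1 hz).le
  have h1 : HasW (fun z => β - z) (-1) 0 z := by
    have := (hasW_const β z).sub (hasW_id z)
    exact this.congr (by ring) (by ring)
  refine (h1.inv hne).congr ?_ ?_
  · (clear * - hne; field_simp)
  · simp only [neg_zero, zero_div]

theorem c1d_h {β : ℂ} (hβ : 1 < ‖β‖) : C1D (hfun β) (hfun' β) (fun _ => 0) := by
  have h1 := (((c1d_inv hβ).const_mul (2 * β)).sub (C1D.const 1)).const_mul Complex.I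
  refine h1.congr (fun z _ => ?_) (fun z _ => ?_)
  · unfold hfun'; ring
  · ring

theorem c1d_h' {β : ℂ} (hβ : 1 < ‖β‖) :
    C1D (hfun' β) (fun z => 4 * Complex.I * β * ((β - z)⁻¹) ^ 3) (fun _ => 0) := by
  have h1 := ((c1d_inv hβ).mul (c1d_inv hβ)).const_mul (2 * Complex.I * β)
  have e : (fun z => 2 * Complex.I * β * ((β - z)⁻¹ * (β - z)⁻¹)) = hfun' β := by
    funext z; unfold hfun'; ring
  rw [e] at h1
  refine h1.congr (fun z _ => ?_) (fun z _ => ?_)
  · ring
  · ring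

/-- real part of Stokes' formula -/
theorem C1D.stokes_re' {G P Q : ℂ → ℂ} (h : C1D G P Q) :
    ∫ z in ball (0 : ℂ) 1, (2 * P z).re =
      ∫ t in (-Real.pi)..Real.pi, (G (cp t) * conj (cp t)).re := by
  have s := congrArg Complex.re h.stokes'
  have hi : IntegrableOn (fun z => 2 * P z) (ball (0 : ℂ) 1) :=
    (C1D.integrable h.c1).const_mul 2
  have e1 := integral_re (𝕜 := ℂ) (f := fun z => 2 * P z)
    (μ := volume.restrict (ball (0 : ℂ) 1)) hi
  refine (e1.trans s).trans ?_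
  rw [intervalIntegral.integral_of_le (by linarith only [Real.pi_pos]),
    intervalIntegral.integral_of_le (by linarith only [Real.pi_pos])]
  have hcont : Continuous (fun t : ℝ => G (cp t) * Complex.exp (-(t * Complex.I))) :=
    (C1D.circleCont h.c0).mul (by fun_prop)
  have e2 := integral_re (𝕜 := ℂ) (μ := volume.restrict (Ioc (-Real.pi) Real.pi))
    (f := fun t : ℝ => G (cp t) * Complex.exp (-(t * Complex.I)))
    ((hcont.integrableOn_Icc).mono_set Ioc_subset_Icc_self)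
  refine e2.symm.trans ?_
  refine setIntegral_congr_fun measurableSet_Ioc fun t _ => ?_
  show (G (cp t) * Complex.exp (-(t * Complex.I))).re = _
  rw [conj_cp]

/-- on the circle -/
theorem hfun_im {β z : ℂ} (hβ : 1 < ‖β‖) (hz : ‖z‖ = 1) :
    (hfun β z).im = (Complex.normSq β - 1) / Complex.normSq (β - z) := by
  have hne := sub_ne_zero_of_disc hβ hz.le
  have hn : Complex.normSq (β - z) ≠ 0 := by
    rwa [Ne, Complex.normSq_eq_zero]
  have hz2 : z.re * z.re + z.im * z.im = 1 := by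
    rw [← Complex.normSq_apply, Complex.normSq_eq_norm_sq, hz]; norm_num
  rw [eq_div_iff hn]
  unfold hfun
  rw [Complex.inv_def]
  simp only [Complex.mul_im, Complex.mul_re, Complex.sub_re, Complex.sub_im, Complex.I_re,
    Complex.I_im, Complex.one_re, Complex.one_im, Complex.ofReal_re, Complex.ofReal_im,
    Complex.conj_re, Complex.conj_im, Complex.re_ofNat, Complex.im_ofNat]
  field_simp
  simp only [Complex.normSq_apply, Complex.sub_re, Complex.sub_im]
  linear_combination (-1 : ℝ) * hz2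

/-- radial derivative of `|h|²/2` on the circle -/
theorem hfun_re {β z : ℂ} (hβ : 1 < ‖β‖) (hz : ‖z‖ = 1) :
    (hfun β z * conj (z * hfun' β z)).re =
      2 * (conj β * z).re * (Complex.normSq β - 1) / Complex.normSq (β - z) ^ 2 := by
  have hne := sub_ne_zero_of_disc hβ hz.le
  have hn : Complex.normSq (β - z) ≠ 0 := by
    rwa [Ne, Complex.normSq_eq_zero]
  have hz2 : z * conj z = 1 := by
    rw [Complex.mul_conj, Complex.normSq_eq_norm_sq, hz]; norm_num
  have hb2 : β * conj β = ((Complex.normSq β : ℝ) : ℂ) := Complex.mul_conj β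
  set g := (β - z)⁻¹ with hg
  have hg1 : (β - z) * g = 1 := mul_inv_cancel₀ hne
  have hg2 : g * conj g = (((Complex.normSq (β - z))⁻¹ : ℝ) : ℂ) := by
    rw [Complex.mul_conj, hg, map_inv₀]
  have e1 : hfun β z = Complex.I * ((β + z) * g) := by
    unfold hfun
    rw [← hg]
    linear_combination Complex.I * hg1
  have e2 : hfun β z * conj (z * hfun' β z) =
      ((2 * (Complex.normSq (β - z))⁻¹ ^ 2 : ℝ) : ℂ) *
        (((Complex.normSq β : ℝ) : ℂ) * (β * conj z) - z * conj β) := by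
    rw [e1]
    unfold hfun'
    rw [← hg]
    simp only [map_mul, map_ofNat, Complex.conj_I, map_pow]
    push_cast
    rw [show ((Complex.normSq (β - z) : ℝ) : ℂ)⁻¹ = g * conj g by
      rw [hg2]; push_cast; rfl, ← hb2]
    have e3 : (β + z) * g = (β ^ 2 - z ^ 2) * g ^ 2 := by
      linear_combination (-(β + z) * g) * hg1
    rw [e3]
    linear_combination (-2 * (β ^ 2 - z ^ 2) * g ^ 2 * conj z * conj β * conj g ^ 2) *
      Complex.I_mul_I + 2 * g ^ 2 * conj g ^ 2 * z * conj β * (-hz2)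
  rw [e2, Complex.re_ofReal_mul, Complex.sub_re, Complex.re_ofReal_mul]
  have h5 : (β * conj z).re = (conj β * z).re := by
    simp only [Complex.mul_re, Complex.conj_re, Complex.conj_im]; ring
  have h6 : (z * conj β).re = (conj β * z).re := by rw [mul_comm]
  rw [h5, h6]
  (clear * - hn; field_simp)

end Vale.Agent.P071
end
end

section

/-!
# Boundary zeros of first eigenfunctions are simple
-/

open scoped ComplexConjugate
open MeasureTheory Set Metric

noncomputable section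

namespace Vale.Agent.P071

variable {p q : ℕ}

section Ident

variable {u : Y (p + 1 + 1 + 1)} {w : ℂ → ℝ} {β : ℂ}

/-- `∇u` in complex notation -/
def gradS (u : Y (p + 1 + 1 + 1)) : Y (p + 1 + 1) := (2 : ℂ) • dzb (p + 1 + 1) u

theorem real_ev (hu : cj u = u) (z : ℂ) : ((ev u z).re : ℂ) = ev u z := by
  have : conj (ev u z) = ev u z := by rw [← ev_cj, hu]
  exact Complex.conj_eq_iff_re.1 this

theorem ev_dz_eq (hu : cj u = u) (z : ℂ) :
    2 * ev (dz (p + 1 + 1) u) z = conj (ev (gradS u) z) := by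
  rw [gradS, ev_smul, map_mul, map_ofNat, ← ev_cj, cj_dzb, hu]

theorem ev_dzb_eq (z : ℂ) : 2 * ev (dzb (p + 1 + 1) u) z = ev (gradS u) z := by
  rw [gradS, ev_smul]

theorem ev_dz_grad (z : ℂ) :
    2 * ev (dz (p + 1) (gradS u)) z = ev (lap (p + 1) u) z := by
  rw [gradS, map_smul, ev_smul, lap_apply, ev_smul]; ring

/-- On the circle, `z * conj (∇u)` is purely imaginary. -/
theorem rad_zero (hu : cj u = u) {z : ℂ} (hz : ‖z‖ = 1)
    (hnu : ev (Rad (p + 1 + 1) u) z = 0) : (ev (gradS u) z * conj z).re = 0 := by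
  have h1 := ev_Rad u hz.le
  rw [hnu] at h1
  have h2 := ev_dz_eq hu z
  have h3 := ev_dzb_eq (u := u) z
  have h4 : ev (gradS u) z * conj z + conj (ev (gradS u) z * conj z) = 0 := by
    rw [map_mul, Complex.conj_conj, ← h2, ← h3]
    linear_combination (-2) * h1
  rw [Complex.add_conj] at h4
  have h5 : (2 * (ev (gradS u) z * conj z).re : ℝ) = 0 := by exact_mod_cast h4
  linarith only [h5]

/-- The weighted identity. -/
theorem ident_h (hβ : 1 < ‖β‖) (hu : cj u = u) (hwc : ContinuousOn w (closedBall 0 1))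
    (hlap : ∀ z ∈ ball (0 : ℂ) 1, ev (lap (p + 1) u) z = -(w z * ev u z))
    (hnu : ∀ z : ℂ, ‖z‖ = 1 → ev (Rad (p + 1 + 1) u) z = 0) :
    (∫ z in ball (0 : ℂ) 1, Complex.normSq (hfun β z) * Complex.normSq (ev (gradS u) z)) -
      (∫ z in ball (0 : ℂ) 1, Complex.normSq (hfun β z) * (w z * (ev u z).re ^ 2)) =
    2 * (∫ z in ball (0 : ℂ) 1, (ev u z).re ^ 2 * Complex.normSq (hfun' β z)) -
      ∫ t in (-Real.pi)..Real.pi, (ev u (cp t)).re ^ 2 *
        (hfun β (cp t) * conj (cp t * hfun' β (cp t))).re := by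
  have ch := c1d_h hβ
  have ch' := c1d_h' hβ
  have cu := c1d_ev u
  have cg := c1d_ev (gradS u)
  -- first field
  have s1 := ((((ch.mul ch.cjg).mul cu).mul cg)).stokes_re'
  -- second field
  have s2 := ((((cu.mul cu).mul ch).mul ch'.cjg)).stokes_re'
  -- continuity of the pieces
  have creu : ContinuousOn (fun z => (ev u z).re) (closedBall (0 : ℂ) 1) :=
    Complex.continuous_re.comp_continuousOn cu.c0
  have cR : ContinuousOn (fun z => (ev u z).re *
      (hfun' β z * conj (hfun β z) * ev (gradS u) z).re) (closedBall (0 : ℂ) 1) :=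
    creu.mul (Complex.continuous_re.comp_continuousOn ((ch.c1.mul ch.cjg.c0).mul cg.c0))
  have c1 : ContinuousOn (fun z => Complex.normSq (hfun β z) * Complex.normSq (ev (gradS u) z))
      (closedBall (0 : ℂ) 1) := (contNormSq ch.c0).mul (contNormSq cg.c0)
  have c2 : ContinuousOn (fun z => Complex.normSq (hfun β z) * (w z * (ev u z).re ^ 2))
      (closedBall (0 : ℂ) 1) := (contNormSq ch.c0).mul (hwc.mul (creu.pow 2))
  have c3 : ContinuousOn (fun z => (ev u z).re ^ 2 * Complex.normSq (hfun' β z))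
      (closedBall (0 : ℂ) 1) := (creu.pow 2).mul (contNormSq ch'.c0)
  -- the first identity
  have i1 : 2 * (∫ z in ball (0 : ℂ) 1, (ev u z).re *
      (hfun' β z * conj (hfun β z) * ev (gradS u) z).re) +
      (∫ z in ball (0 : ℂ) 1, Complex.normSq (hfun β z) * Complex.normSq (ev (gradS u) z)) -
      (∫ z in ball (0 : ℂ) 1, Complex.normSq (hfun β z) * (w z * (ev u z).re ^ 2)) = 0 := by
    have c12 : ContinuousOn (fun z => 2 * ((ev u z).re *
        (hfun' β z * conj (hfun β z) * ev (gradS u) z).re) +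
        Complex.normSq (hfun β z) * Complex.normSq (ev (gradS u) z)) (closedBall (0 : ℂ) 1) :=
      (continuousOn_const.mul cR).add c1
    rw [← integral_const_mul, ← integral_add ((intC cR).const_mul 2) (intC c1),
      ← integral_sub (intC c12) (intC c2)]
    have e1 : ∫ t in (-Real.pi)..Real.pi, (hfun β (cp t) * conj (hfun β (cp t)) *
        ev u (cp t) * ev (gradS u) (cp t) * conj (cp t)).re = 0 := by
      rw [← intervalIntegral.integral_zero (a := -Real.pi) (b := Real.pi) (μ := volume)]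
      refine intervalIntegral.integral_congr fun t _ => ?_
      have h1 := rad_zero hu (norm_cp t) (hnu _ (norm_cp t))
      have h2 : hfun β (cp t) * conj (hfun β (cp t)) * ev u (cp t) * ev (gradS u) (cp t) *
          conj (cp t) = ((Complex.normSq (hfun β (cp t)) * (ev u (cp t)).re : ℝ) : ℂ) *
            (ev (gradS u) (cp t) * conj (cp t)) := by
        rw [Complex.mul_conj, Complex.ofReal_mul, real_ev hu]; ring
      rw [h2, Complex.re_ofReal_mul, h1, mul_zero]
    rw [← e1, ← s1]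
    refine setIntegral_congr_fun measurableSet_ball fun z hz => ?_
    have h1 := ev_dz_eq hu z
    have h2 := ev_dz_grad (u := u) z
    rw [hlap z hz] at h2
    have h3 := real_ev hu z
    have h4 : 2 * (((hfun' β z * conj (hfun β z) + hfun β z * conj ((fun _ : ℂ => (0 : ℂ)) z)) *
        ev u z + hfun β z * conj (hfun β z) * ev (dz (p + 1 + 1) u) z) * ev (gradS u) z +
        hfun β z * conj (hfun β z) * ev u z * ev (dz (p + 1) (gradS u)) z) =
        ((2 * (ev u z).re : ℝ) : ℂ) * (hfun' β z * conj (hfun β z) * ev (gradS u) z) +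
        ((Complex.normSq (hfun β z) * Complex.normSq (ev (gradS u) z) -
          Complex.normSq (hfun β z) * (w z * (ev u z).re ^ 2) : ℝ) : ℂ) := by
      simp only [map_zero, mul_zero, add_zero]
      push_cast
      rw [h3, ← Complex.mul_conj (hfun β z), ← Complex.mul_conj (ev (gradS u) z)]
      linear_combination (hfun β z * conj (hfun β z) * ev (gradS u) z) * h1 +
        (hfun β z * conj (hfun β z) * ev u z) * h2
    have h5 := congrArg Complex.re h4
    rw [Complex.add_re, Complex.re_ofReal_mul, Complex.ofReal_re] at h5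
    refine Eq.trans ?_ h5.symm
    ring
  -- the second identity
  have i2 : 2 * (∫ z in ball (0 : ℂ) 1, (ev u z).re *
      (hfun' β z * conj (hfun β z) * ev (gradS u) z).re) +
      2 * (∫ z in ball (0 : ℂ) 1, (ev u z).re ^ 2 * Complex.normSq (hfun' β z)) =
      ∫ t in (-Real.pi)..Real.pi, (ev u (cp t)).re ^ 2 *
        (hfun β (cp t) * conj (cp t * hfun' β (cp t))).re := by
    rw [← integral_const_mul, ← integral_const_mul,
      ← integral_add ((intC cR).const_mul 2) ((intC c3).const_mul 2)]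
    have e1 : ∫ t in (-Real.pi)..Real.pi, (ev u (cp t)).re ^ 2 *
        (hfun β (cp t) * conj (cp t * hfun' β (cp t))).re =
        ∫ t in (-Real.pi)..Real.pi, (ev u (cp t) * ev u (cp t) * hfun β (cp t) *
          conj (hfun' β (cp t)) * conj (cp t)).re := by
      refine intervalIntegral.integral_congr fun t _ => ?_
      have h2 : ev u (cp t) * ev u (cp t) * hfun β (cp t) *
          conj (hfun' β (cp t)) * conj (cp t) = (((ev u (cp t)).re ^ 2 : ℝ) : ℂ) *
            (hfun β (cp t) * conj (cp t * hfun' β (cp t))) := by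
        rw [Complex.ofReal_pow, real_ev hu, map_mul]; ring
      show _ = (ev u (cp t) * ev u (cp t) * hfun β (cp t) *
          conj (hfun' β (cp t)) * conj (cp t)).re
      rw [h2, Complex.re_ofReal_mul]
    rw [e1, ← s2]
    refine setIntegral_congr_fun measurableSet_ball fun z hz => ?_
    have h1 := ev_dz_eq hu z
    have h3 := real_ev hu z
    have h4 : 2 * (((ev (dz (p + 1 + 1) u) z * ev u z + ev u z * ev (dz (p + 1 + 1) u) z) *
        hfun β z + ev u z * ev u z * hfun' β z) * conj (hfun' β z) +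
        ev u z * ev u z * hfun β z * conj ((fun _ : ℂ => (0 : ℂ)) z)) =
        ((2 * (ev u z).re : ℝ) : ℂ) * conj (hfun' β z * conj (hfun β z) * ev (gradS u) z) +
        ((2 * ((ev u z).re ^ 2 * Complex.normSq (hfun' β z)) : ℝ) : ℂ) := by
      simp only [map_zero, mul_zero, add_zero]
      push_cast
      rw [h3, ← Complex.mul_conj (hfun' β z)]
      simp only [map_mul, Complex.conj_conj]
      linear_combination (2 * ev u z * hfun β z * conj (hfun' β z)) * h1
    have h5 := congrArg Complex.re h4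
    rw [Complex.add_re, Complex.re_ofReal_mul, Complex.ofReal_re, Complex.conj_re] at h5
    refine Eq.trans ?_ h5.symm
    ring
  linarith only [i1, i2]

end Ident

/-- `∇u` vanishes at most to first order... Lipschitz bounds at a boundary critical zero. -/
theorem lip_bounds {u : Y (p + 1 + 1 + 1)} (hu : cj u = u) {a : ℂ} (ha : ‖a‖ = 1)
    (h0 : ev u a = 0) (h1 : ev (gradS u) a = 0) :
    ∃ C : ℝ, 0 ≤ C ∧ (∀ z ∈ closedBall (0 : ℂ) 1, ‖ev (gradS u) z‖ ≤ C * ‖z - a‖) ∧
      (∀ z ∈ closedBall (0 : ℂ) 1, |(ev u z).re| ≤ C * ‖z - a‖ ^ 2) := by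
  have haD : a ∈ closedBall (0 : ℂ) 1 := mem_closedBall_zero_iff.2 ha.le
  obtain ⟨C, hC⟩ := (isCompact_closedBall (0 : ℂ) 1).exists_bound_of_continuousOn
    (continuousOn_evD (gradS u))
  have hC0 : 0 ≤ C := (norm_nonneg _).trans (hC a haD)
  have hg : ∀ z ∈ closedBall (0 : ℂ) 1, ‖ev (gradS u) z‖ ≤ C * ‖z - a‖ := by
    intro z hz
    have := (convex_closedBall (0 : ℂ) 1).norm_image_sub_le_of_norm_hasFDerivWithin_le
      (fun x hx => hasFDerivWithinAt_ev (gradS u) (mem_closedBall_zero_iff.1 hx)) hC haD hz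
    rwa [h1, sub_zero] at this
  refine ⟨C, hC0, hg, fun z hz => ?_⟩
  have hconv : Convex ℝ (closedBall (0 : ℂ) 1 ∩ closedBall a ‖z - a‖) :=
    (convex_closedBall _ _).inter (convex_closedBall _ _)
  have hb : ∀ x ∈ closedBall (0 : ℂ) 1 ∩ closedBall a ‖z - a‖, ‖evD u x‖ ≤ C * ‖z - a‖ := by
    intro x hx
    have hx1 : ‖x - a‖ ≤ ‖z - a‖ := by
      have := hx.2
      rwa [mem_closedBall, dist_eq_norm] at this
    have h2 : ‖evD u x‖ ≤ ‖ev (gradS u) x‖ := by
      have e1 : ‖ev (dz (p + 1 + 1) u) x‖ = ‖ev (gradS u) x‖ / 2 := by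
        have := congrArg norm (ev_dz_eq hu x)
        rw [norm_mul, Complex.norm_conj] at this
        have h2 : ‖(2 : ℂ)‖ = 2 := by norm_num
        rw [h2] at this
        linarith only [this]
      have e2 : ‖ev (dzb (p + 1 + 1) u) x‖ = ‖ev (gradS u) x‖ / 2 := by
        have := congrArg norm (ev_dzb_eq (u := u) x)
        rw [norm_mul] at this
        have h2 : ‖(2 : ℂ)‖ = 2 := by norm_num
        rw [h2] at this
        linarith only [this]
      unfold evD
      refine (norm_add_le _ _).trans ?_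
      rw [norm_smul, norm_smul, e1, e2]
      have h3 : ‖ContinuousLinearMap.id ℝ ℂ‖ ≤ 1 := ContinuousLinearMap.norm_id_le
      have h4 : ‖(Complex.conjCLE : ℂ →L[ℝ] ℂ)‖ ≤ 1 := Complex.conjCLE_norm.le
      have h5 : 0 ≤ ‖ev (gradS u) x‖ := norm_nonneg _
      nlinarith only [h3, h5, h4]
    refine h2.trans ((hg x hx.1).trans ?_)
    (clear * - hx1 hC0; gcongr)
  have hz' : z ∈ closedBall (0 : ℂ) 1 ∩ closedBall a ‖z - a‖ :=
    ⟨hz, by rw [mem_closedBall, dist_eq_norm]⟩
  have ha' : a ∈ closedBall (0 : ℂ) 1 ∩ closedBall a ‖z - a‖ :=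
    ⟨haD, mem_closedBall_self (norm_nonneg _)⟩
  have := hconv.norm_image_sub_le_of_norm_hasFDerivWithin_le
    (fun x hx => (hasFDerivWithinAt_ev u (mem_closedBall_zero_iff.1 hx.1)).mono inter_subset_left)
    hb ha' hz'
  rw [h0, sub_zero] at this
  calc |(ev u z).re| ≤ ‖ev u z‖ := Complex.abs_re_le_norm _
    _ ≤ C * ‖z - a‖ * ‖z - a‖ := this
    _ = _ := by ring

theorem hfun_eq {β z : ℂ} (hβ : 1 < ‖β‖) (hz : ‖z‖ ≤ 1) :
    hfun β z = Complex.I * ((β + z) * (β - z)⁻¹) := by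
  have hg1 : (β - z) * (β - z)⁻¹ = 1 := mul_inv_cancel₀ (sub_ne_zero_of_disc hβ hz)
  unfold hfun
  linear_combination Complex.I * hg1

/-- mean value of the imaginary part of `h` on the circle -/
theorem integral_hfun_im {β : ℂ} (hβ : 1 < ‖β‖) :
    ∫ t in (-Real.pi)..Real.pi, (hfun β (cp t)).im = 2 * Real.pi := by
  have s := (c1d_inv hβ).stokes
  simp only [mul_zero, integral_zero] at s
  have hc : Continuous (fun t : ℝ => (β - cp t)⁻¹ * cp t) :=
    (C1D.circleCont (c1d_inv hβ).c0).mul (by fun_prop)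
  have hpi : -Real.pi ≤ Real.pi := by linarith only [Real.pi_pos]
  have s2 : ∫ t in (-Real.pi)..Real.pi, ((β - cp t)⁻¹ * cp t).re = 0 := by
    rw [intervalIntegral.integral_of_le hpi] at s ⊢
    have e2 := integral_re (𝕜 := ℂ) (μ := volume.restrict (Ioc (-Real.pi) Real.pi))
      (f := fun t : ℝ => (β - cp t)⁻¹ * cp t)
      ((hc.integrableOn_Icc).mono_set Ioc_subset_Icc_self)
    refine e2.trans ?_
    rw [← s]; rfl
  have e1 : ∫ t in (-Real.pi)..Real.pi, (hfun β (cp t)).im =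
      ∫ t in (-Real.pi)..Real.pi, (1 + 2 * ((β - cp t)⁻¹ * cp t).re) := by
    refine intervalIntegral.integral_congr fun t _ => ?_
    have hne := sub_ne_zero_of_disc hβ (norm_cp t).le
    have hg1 : (β - cp t) * (β - cp t)⁻¹ = 1 := mul_inv_cancel₀ hne
    have h1 : hfun β (cp t) = Complex.I * (1 + ((2 : ℝ) : ℂ) * ((β - cp t)⁻¹ * cp t)) := by
      unfold hfun
      push_cast
      linear_combination (2 * Complex.I) * hg1
    show (hfun β (cp t)).im = _
    rw [h1, Complex.I_mul_im, Complex.add_re, Complex.one_re, Complex.re_ofReal_mul]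
  have hcr : Continuous (fun t : ℝ => ((β - cp t)⁻¹ * cp t).re) :=
    Complex.continuous_re.comp hc
  rw [e1, intervalIntegral.integral_add (by simp)
    ((hcr.const_mul 2).intervalIntegrable _ _), intervalIntegral.integral_const_mul, s2]
  simp only [intervalIntegral.integral_const, sub_neg_eq_add, smul_eq_mul, mul_one, mul_zero, add_zero]
  ring

theorem quant_bound {u : Y (p + 1 + 1 + 1)} {w : ℂ → ℝ} (hu : cj u = u)
    (hwc : ContinuousOn w (closedBall 0 1)) {κ M : ℝ} (hκ : 0 < κ)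
    (hw : ∀ z ∈ closedBall (0 : ℂ) 1, κ ≤ w z) (hM : ∀ z ∈ closedBall (0 : ℂ) 1, w z ≤ M)
    (hN : ∀ φ : Y (p + 1 + 1), cj φ = φ → ∫ z in ball (0 : ℂ) 1, w z * (ev φ z).re = 0 →
      ∫ z in ball (0 : ℂ) 1, w z * (ev φ z).re ^ 2 ≤
        ∫ z in ball (0 : ℂ) 1, 4 * Complex.normSq (ev (dz (p + 1) φ) z))
    (hD : ∀ χ : Y (p + 1 + 1), cj χ = χ → (∀ z : ℂ, ‖z‖ = 1 → ev χ z = 0) →
      ∫ z in ball (0 : ℂ) 1, w z * (ev χ z).re ^ 2 ≤
        ∫ z in ball (0 : ℂ) 1, 4 * Complex.normSq (ev (dz (p + 1) χ) z))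
    (hlap : ∀ z ∈ ball (0 : ℂ) 1, ev (lap (p + 1) u) z = -(w z * ev u z))
    (hnu : ∀ z : ℂ, ‖z‖ = 1 → ev (Rad (p + 1 + 1) u) z = 0)
    {a : ℂ} (ha : ‖a‖ = 1) {C : ℝ} (hC : 0 ≤ C)
    (hg : ∀ z ∈ closedBall (0 : ℂ) 1, ‖ev (gradS u) z‖ ≤ C * ‖z - a‖)
    (hv : ∀ z ∈ closedBall (0 : ℂ) 1, |(ev u z).re| ≤ C * ‖z - a‖ ^ 2)
    {s : ℝ} (hs : 0 < s) (hs1 : s ≤ 1) :
    (8 / 81) * (∫ z in ball (0 : ℂ) 1, (ev u z).re ^ 2) ≤
      Real.sqrt (3 / κ + 1) * Real.sqrt (8 * Real.pi * C ^ 2 * (2 * s + s ^ 2)) *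
        (Real.sqrt (36 * C ^ 2 * (volume (ball (0 : ℂ) 1)).toReal) +
          Real.sqrt (144 * C ^ 2 * M * (volume (ball (0 : ℂ) 1)).toReal)) +
        128 * Real.pi * C ^ 2 * (2 * s + s ^ 2) := by
  set V := (volume (ball (0 : ℂ) 1)).toReal with hV
  set β : ℂ := ((1 + s : ℝ) : ℂ) * a with hβdef
  have hβn : ‖β‖ = 1 + s := by
    rw [hβdef, norm_mul, ha, mul_one, Complex.norm_real, Real.norm_eq_abs,
      abs_of_pos (by linarith only [hs])]
  have hβ : 1 < ‖β‖ := by rw [hβn]; linarith only [hs]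
  have hβ2 : Complex.normSq β - 1 = 2 * s + s ^ 2 := by
    rw [Complex.normSq_eq_norm_sq, hβn]; ring
  have hMpos : 0 ≤ M := by
    have := hM 0 (mem_closedBall_self zero_le_one)
    have := hw 0 (mem_closedBall_self zero_le_one)
    linarith
  have hpi := Real.pi_pos
  have hpi' : -Real.pi ≤ Real.pi := by linarith only [hpi]
  -- geometry
  have hdist : ∀ z : ℂ, ‖z‖ ≤ 1 → ‖z - a‖ ≤ 2 * ‖β - z‖ := by
    intro z hz
    have h1 : ‖β - a‖ = s := by
      have : β - a = (s : ℂ) * a := by rw [hβdef]; push_cast; ring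
      rw [this, norm_mul, ha, mul_one, Complex.norm_real, Real.norm_eq_abs, abs_of_pos hs]
    have h2 : s ≤ ‖β - z‖ := by
      have := norm_sub_norm_le β z
      rw [hβn] at this; linarith only [hz, this]
    have h3 : ‖z - a‖ ≤ ‖z - β‖ + ‖β - a‖ := by
      have := norm_add_le (z - β) (β - a)
      rwa [sub_add_sub_cancel] at this
    rw [norm_sub_rev z β, h1] at h3
    linarith only [h2, h3]
  have hpos : ∀ z : ℂ, ‖z‖ ≤ 1 → 0 < ‖β - z‖ := fun z hz =>
    norm_pos_iff.2 (sub_ne_zero_of_disc hβ hz)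
  have hle3 : ∀ z : ℂ, ‖z‖ ≤ 1 → ‖β - z‖ ≤ 3 := fun z hz => by
    have := norm_sub_le β z; linarith only [hs1, hβn, hz, this]
  have hh : ∀ z : ℂ, ‖z‖ ≤ 1 → ‖hfun β z‖ * ‖β - z‖ ≤ 3 := by
    intro z hz
    rw [hfun_eq hβ hz, norm_mul, Complex.norm_I, one_mul, norm_mul, norm_inv, mul_assoc,
      inv_mul_cancel₀ (hpos z hz).ne', mul_one]
    have := norm_add_le β z; linarith only [hs1, hβn, hz, this]
  have hh' : ∀ z : ℂ, ‖z‖ ≤ 1 → 2 / 9 ≤ ‖hfun' β z‖ := by
    intro z hz
    have h1 : ‖hfun' β z‖ = 2 * ‖β‖ / ‖β - z‖ ^ 2 := by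
      unfold hfun'
      simp only [norm_mul, norm_pow, norm_inv, Complex.norm_I]
      norm_num
      rw [div_eq_mul_inv]
    rw [h1, le_div_iff₀ (by have := hpos z hz; (clear * - this; positivity))]
    have h2 : ‖β - z‖ ^ 2 ≤ 9 :=
      (pow_le_pow_left₀ (norm_nonneg _) (hle3 z hz) 2).trans (by norm_num)
    linarith only [h2, hβ]
  -- the series W
  set W : Y (p + 1 + 1) := cj (hser (p + 1 + 1) β) * gradS u with hWdef
  have evW : ∀ z, ‖z‖ ≤ 1 → ev W z = conj (hfun β z) * ev (gradS u) z := fun z hz => by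
    rw [hWdef, ev_mul _ _ hz, ev_cj, ev_hser hβ hz]
  have evdW : ∀ z, ‖z‖ < 1 → ev (dz (p + 1) W) z =
      conj (hfun β z) * (-(w z * ev u z) / 2) := fun z hz => by
    have hz' := hz.le
    rw [hWdef, dz_mul, ← cj_dzb, dzb_hser hβ, cj_zero, ser_zero_mul, zero_add, ev_mul _ _ hz',
      ev_incl, ev_cj, ev_hser hβ hz', ← hlap z (mem_ball_zero_iff.2 hz),
      ← ev_dz_grad (u := u) z]
    ring
  have hineq := hodge_ineq hwc hκ hw hN hD W
  -- N2
  have cu := c1d_ev u
  have creu : ContinuousOn (fun z => (ev u z).re) (closedBall (0 : ℂ) 1) :=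
    Complex.continuous_re.comp_continuousOn cu.c0
  have cg := c1d_ev (gradS u)
  have ch := c1d_h hβ
  have ch' := c1d_h' hβ
  have hN2 : ∫ z in ball (0 : ℂ) 1, Complex.normSq (ev W z) =
      ∫ z in ball (0 : ℂ) 1, Complex.normSq (hfun β z) * Complex.normSq (ev (gradS u) z) := by
    refine setIntegral_congr_fun measurableSet_ball fun z hz => ?_
    rw [evW z (mem_ball_zero_iff.1 hz).le, Complex.normSq_mul, Complex.normSq_conj]
  have hB2 : ∫ z in ball (0 : ℂ) 1, 4 * Complex.normSq (ev (dz (p + 1) W) z) / w z =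
      ∫ z in ball (0 : ℂ) 1, Complex.normSq (hfun β z) * (w z * (ev u z).re ^ 2) := by
    refine setIntegral_congr_fun measurableSet_ball fun z hz => ?_
    have hwz : w z ≠ 0 := (hκ.trans_le (hw z (ball_subset_closedBall hz))).ne'
    have h1 : (-(w z * ev u z) / 2 : ℂ) = ((-(w z * (ev u z).re) / 2 : ℝ) : ℂ) := by
      push_cast; rw [real_ev hu]
    rw [evdW z (mem_ball_zero_iff.1 hz), Complex.normSq_mul, Complex.normSq_conj, h1,
      Complex.normSq_ofReal]
    field_simp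
    ring
  rw [hN2, hB2] at hineq
  have hid := ident_h hβ hu hwc hlap hnu
  have c1 : ContinuousOn (fun z => Complex.normSq (hfun β z) * Complex.normSq (ev (gradS u) z))
      (closedBall (0 : ℂ) 1) := (contNormSq ch.c0).mul (contNormSq cg.c0)
  have c2 : ContinuousOn (fun z => Complex.normSq (hfun β z) * (w z * (ev u z).re ^ 2))
      (closedBall (0 : ℂ) 1) := (contNormSq ch.c0).mul (hwc.mul (creu.pow 2))
  have c3 : ContinuousOn (fun z => (ev u z).re ^ 2 * Complex.normSq (hfun' β z))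
      (closedBall (0 : ℂ) 1) := (creu.pow 2).mul (contNormSq ch'.c0)
  set N2 := ∫ z in ball (0 : ℂ) 1, Complex.normSq (hfun β z) * Complex.normSq (ev (gradS u) z)
    with hN2def
  set B2 := ∫ z in ball (0 : ℂ) 1, Complex.normSq (hfun β z) * (w z * (ev u z).re ^ 2)
    with hB2def
  have hN2le : N2 ≤ 36 * C ^ 2 * V := by
    have h1 : N2 ≤ ∫ _z in ball (0 : ℂ) 1, 36 * C ^ 2 := by
      refine setIntegral_mono_on (intC c1) (intC continuousOn_const) measurableSet_ball
        fun z hz => ?_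
      have hz1 := (mem_ball_zero_iff.1 hz).le
      rw [Complex.normSq_eq_norm_sq, Complex.normSq_eq_norm_sq, ← mul_pow]
      have h2 : ‖hfun β z‖ * ‖ev (gradS u) z‖ ≤ 6 * C := by
        calc _ ≤ ‖hfun β z‖ * (C * (2 * ‖β - z‖)) :=
              mul_le_mul_of_nonneg_left ((hg z (ball_subset_closedBall hz)).trans
                (mul_le_mul_of_nonneg_left (hdist z hz1) hC)) (norm_nonneg _)
          _ = (‖hfun β z‖ * ‖β - z‖) * (2 * C) := by ring
          _ ≤ 3 * (2 * C) := mul_le_mul_of_nonneg_right (hh z hz1) (by linarith only [hC])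
          _ = 6 * C := by ring
      calc _ ≤ (6 * C) ^ 2 := pow_le_pow_left₀ (by (clear * -; positivity)) h2 2
        _ = _ := by ring
    rw [setIntegral_const, smul_eq_mul] at h1
    calc N2 ≤ _ := h1
      _ = _ := by rw [Measure.real, ← hV]; ring
  have hB2le : B2 ≤ 144 * C ^ 2 * M * V := by
    have h1 : B2 ≤ ∫ _z in ball (0 : ℂ) 1, 144 * C ^ 2 * M := by
      refine setIntegral_mono_on (intC c2) (intC continuousOn_const) measurableSet_ball
        fun z hz => ?_
      have hz1 := (mem_ball_zero_iff.1 hz).le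
      have hzD := ball_subset_closedBall hz
      have h2 : ‖hfun β z‖ * |(ev u z).re| ≤ 12 * C := by
        have h3 : ‖z - a‖ ≤ 2 := by
          have := norm_sub_le z a; linarith only [ha, hz1, this]
        calc _ ≤ ‖hfun β z‖ * (C * (2 * (2 * ‖β - z‖))) := by
              refine mul_le_mul_of_nonneg_left ?_ (norm_nonneg _)
              refine (hv z hzD).trans ?_
              rw [sq]
              refine mul_le_mul_of_nonneg_left ?_ hC
              have := hdist z hz1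
              have : ‖z - a‖ * ‖z - a‖ ≤ 2 * (2 * ‖β - z‖) :=
                mul_le_mul h3 this (norm_nonneg (z - a)) two_pos.le
              exact this
          _ = (‖hfun β z‖ * ‖β - z‖) * (4 * C) := by ring
          _ ≤ 3 * (4 * C) := mul_le_mul_of_nonneg_right (hh z hz1) (by linarith only [hC])
          _ = 12 * C := by ring
      have h4 : Complex.normSq (hfun β z) * (w z * (ev u z).re ^ 2) =
          (‖hfun β z‖ * |(ev u z).re|) ^ 2 * w z := by
        rw [Complex.normSq_eq_norm_sq, mul_pow, sq_abs]; ring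
      rw [h4]
      have h5 : (‖hfun β z‖ * |(ev u z).re|) ^ 2 ≤ (12 * C) ^ 2 :=
        pow_le_pow_left₀ (by (clear * -; positivity)) h2 2
      calc _ ≤ (12 * C) ^ 2 * M := by
            have := hM z hzD
            have h6 : 0 ≤ w z := hκ.le.trans (hw z hzD)
            exact mul_le_mul h5 this h6 (sq_nonneg _)
        _ = _ := by ring
    rw [setIntegral_const, smul_eq_mul] at h1
    calc B2 ≤ _ := h1
      _ = _ := by rw [Measure.real, ← hV]; ring
  -- lower bound
  have hlow : (8 / 81) * (∫ z in ball (0 : ℂ) 1, (ev u z).re ^ 2) ≤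
      2 * ∫ z in ball (0 : ℂ) 1, (ev u z).re ^ 2 * Complex.normSq (hfun' β z) := by
    rw [← integral_const_mul, ← integral_const_mul]
    refine setIntegral_mono_on ((intC (creu.pow 2)).const_mul _) ((intC c3).const_mul 2)
      measurableSet_ball fun z hz => ?_
    have h1 := hh' z (mem_ball_zero_iff.1 hz).le
    have h2 : (4 / 81 : ℝ) ≤ Complex.normSq (hfun' β z) := by
      rw [Complex.normSq_eq_norm_sq]
      exact le_trans (by norm_num) (pow_le_pow_left₀ (by norm_num) h1 2)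
    have h3 := mul_le_mul_of_nonneg_left h2 (sq_nonneg (ev u z).re)
    linarith only [h3]
  -- boundary term
  have hbd : |∫ t in (-Real.pi)..Real.pi, (ev u (cp t)).re ^ 2 *
        (hfun β (cp t) * conj (cp t * hfun' β (cp t))).re| ≤
      128 * Real.pi * C ^ 2 * (2 * s + s ^ 2) := by
    have h1 : ∀ t ∈ Set.uIoc (-Real.pi) Real.pi, ‖(ev u (cp t)).re ^ 2 *
        (hfun β (cp t) * conj (cp t * hfun' β (cp t))).re‖ ≤ 64 * C ^ 2 * (2 * s + s ^ 2) := by
      intro t _
      have hz := norm_cp t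
      have hzD : cp t ∈ closedBall (0 : ℂ) 1 := mem_closedBall_zero_iff.2 hz.le
      rw [hfun_re hβ hz, hβ2, Complex.normSq_eq_norm_sq, norm_mul, Real.norm_eq_abs,
        Real.norm_eq_abs, abs_div, abs_mul, abs_mul, abs_pow]
      have h2 : |(conj β * cp t).re| ≤ 2 := by
        refine (Complex.abs_re_le_norm _).trans ?_
        rw [norm_mul, Complex.norm_conj, hz, hβn]; linarith only [hs1]
      have h3 : |(ev u (cp t)).re| ^ 2 ≤ 16 * C ^ 2 * ‖β - cp t‖ ^ 4 := by
        have h4 : |(ev u (cp t)).re| ≤ C * (2 * ‖β - cp t‖) ^ 2 :=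
          (hv _ hzD).trans (by gcongr; exact hdist _ hz.le)
        calc |(ev u (cp t)).re| ^ 2 ≤ (C * (2 * ‖β - cp t‖) ^ 2) ^ 2 :=
              pow_le_pow_left₀ (abs_nonneg _) h4 2
          _ = _ := by ring
      have h5 : |2 * s + s ^ 2| = 2 * s + s ^ 2 := abs_of_pos (by positivity)
      have h6 : |(‖β - cp t‖ ^ 2) ^ 2| = ‖β - cp t‖ ^ 4 := by
        rw [abs_of_nonneg (by (clear * -; positivity))]; ring
      rw [h5, h6, abs_two]
      have h7 := hpos _ hz.le
      calc |(ev u (cp t)).re| ^ 2 * (2 * |(conj β * cp t).re| * (2 * s + s ^ 2) /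
            ‖β - cp t‖ ^ 4) ≤ (16 * C ^ 2 * ‖β - cp t‖ ^ 4) *
            (2 * 2 * (2 * s + s ^ 2) / ‖β - cp t‖ ^ 4) := by (clear * - h3 h2 hs h7; gcongr)
        _ = 64 * C ^ 2 * (2 * s + s ^ 2) := by field_simp; ring
    have h2 := intervalIntegral.norm_integral_le_of_norm_le_const h1
    rw [Real.norm_eq_abs] at h2
    refine h2.trans (le_of_eq ?_)
    rw [abs_of_pos (by linarith only [hpi])]; ring
  -- boundary error
  have hE : ∫ t in (-Real.pi)..Real.pi, (conj (ev W (cp t)) * cp t).re ^ 2 ≤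
      8 * Real.pi * C ^ 2 * (2 * s + s ^ 2) := by
    have h0 : 8 * Real.pi * C ^ 2 * (2 * s + s ^ 2) =
        ∫ t in (-Real.pi)..Real.pi, 4 * C ^ 2 * (2 * s + s ^ 2) * (hfun β (cp t)).im := by
      rw [intervalIntegral.integral_const_mul, integral_hfun_im hβ]; ring
    rw [h0]
    have cW := (c1d_ev W).cjg
    have bc2 : Continuous (fun t : ℝ => (conj (ev W (cp t)) * cp t).re) :=
      Complex.continuous_re.comp ((C1D.circleCont cW.c0).mul (by fun_prop))
    have bc3 : Continuous (fun t : ℝ => (hfun β (cp t)).im) :=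
      Complex.continuous_im.comp (C1D.circleCont ch.c0)
    refine intervalIntegral.integral_mono_on hpi' ((bc2.pow 2).intervalIntegrable _ _)
      ((bc3.const_mul _).intervalIntegrable _ _) fun t _ => ?_
    have hz := norm_cp t
    have hzD : cp t ∈ closedBall (0 : ℂ) 1 := mem_closedBall_zero_iff.2 hz.le
    have h1 := rad_zero hu hz (hnu _ hz)
    set X := ev (gradS u) (cp t) * conj (cp t) with hX
    have h2 : conj (ev W (cp t)) * cp t = hfun β (cp t) * conj X := by
      rw [evW _ hz.le, hX]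
      simp only [map_mul, Complex.conj_conj]
      ring
    have h3 : (conj (ev W (cp t)) * cp t).re = (hfun β (cp t)).im * X.im := by
      rw [h2, Complex.mul_re, Complex.conj_re, Complex.conj_im, h1]; ring
    rw [h3, mul_pow]
    have h4 : X.im ^ 2 ≤ (C * (2 * ‖β - cp t‖)) ^ 2 := by
      rw [← sq_abs]
      refine pow_le_pow_left₀ (abs_nonneg _) ?_ 2
      refine (Complex.abs_im_le_norm _).trans ?_
      rw [hX, norm_mul, Complex.norm_conj, hz, mul_one]
      exact (hg _ hzD).trans (by gcongr; exact hdist _ hz.le)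
    have h5 := hfun_im hβ hz
    rw [hβ2] at h5
    have h6 : Complex.normSq (β - cp t) = ‖β - cp t‖ ^ 2 := Complex.normSq_eq_norm_sq _
    have h7 := hpos _ hz.le
    have h8 : (hfun β (cp t)).im * ‖β - cp t‖ ^ 2 = 2 * s + s ^ 2 := by
      rw [h5, h6]; (clear * - h7 hs; field_simp)
    have h9 : 0 ≤ (hfun β (cp t)).im := by
      rw [h5, h6]; (clear * - hs h7; positivity)
    calc (hfun β (cp t)).im ^ 2 * X.im ^ 2 ≤
          (hfun β (cp t)).im ^ 2 * (C * (2 * ‖β - cp t‖)) ^ 2 := by (clear * - h4; gcongr)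
      _ = 4 * C ^ 2 * ((hfun β (cp t)).im * ‖β - cp t‖ ^ 2) * (hfun β (cp t)).im := by ring
      _ = 4 * C ^ 2 * (2 * s + s ^ 2) * (hfun β (cp t)).im := by rw [h8]
  -- conclusion
  have hN2nn : 0 ≤ N2 := integral_nonneg fun z =>
    mul_nonneg (Complex.normSq_nonneg _) (Complex.normSq_nonneg _)
  have hB2nn : 0 ≤ B2 := by
    refine setIntegral_nonneg measurableSet_ball fun z hz => ?_
    have := hκ.le.trans (hw z (ball_subset_closedBall hz))
    have := Complex.normSq_nonneg (hfun β z)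
    (clear hu hwc M hM hN hD hlap hnu ha C hC hg hv hs hs1 V hV hβdef hβn hβ hβ2 hMpos hpi hpi' hdist hpos hle3 hh hh' W hWdef evW evdW cu creu cg ch ch' c1 c2 c3 N2 hN2 hN2def B2 hB2 hineq hid hB2def hN2le hB2le hlow hbd hE hN2nn; positivity)
  set E2 := ∫ t in (-Real.pi)..Real.pi, (conj (ev W (cp t)) * cp t).re ^ 2 with hE2
  have hfac : N2 - B2 ≤ Real.sqrt (3 / κ + 1) *
      Real.sqrt (8 * Real.pi * C ^ 2 * (2 * s + s ^ 2)) *
        (Real.sqrt (36 * C ^ 2 * V) + Real.sqrt (144 * C ^ 2 * M * V)) := by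
    have f1 : N2 - B2 = (Real.sqrt N2 - Real.sqrt B2) * (Real.sqrt N2 + Real.sqrt B2) := by
      have := Real.mul_self_sqrt hN2nn
      have := Real.mul_self_sqrt hB2nn
      (clear hu hwc M hM hN hD hlap hnu ha C hC hg hv hs hs1 V hV hβdef hβn hβ hβ2 hMpos hpi hpi' hdist hpos hle3 hh hh' W hWdef evW evdW cu creu cg ch ch' c1 c2 c3 hN2 hN2def hB2 hid hB2def hN2le hB2le hlow hbd E2 hineq hE hE2; linarith)
    have f2 : Real.sqrt N2 - Real.sqrt B2 ≤ Real.sqrt (3 / κ + 1) *
        Real.sqrt (8 * Real.pi * C ^ 2 * (2 * s + s ^ 2)) := by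
      have f3 : Real.sqrt (3 / κ + 1) * Real.sqrt E2 ≤ Real.sqrt (3 / κ + 1) *
        Real.sqrt (8 * Real.pi * C ^ 2 * (2 * s + s ^ 2)) := by
        (clear * - hE hκ; gcongr)
      linarith only [hineq, f3]
    have f4 : Real.sqrt N2 + Real.sqrt B2 ≤
        Real.sqrt (36 * C ^ 2 * V) + Real.sqrt (144 * C ^ 2 * M * V) :=
      add_le_add (Real.sqrt_le_sqrt hN2le) (Real.sqrt_le_sqrt hB2le)
    rw [f1]
    have f5 : 0 ≤ Real.sqrt N2 + Real.sqrt B2 :=
      add_nonneg (Real.sqrt_nonneg _) (Real.sqrt_nonneg _)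
    have f6 : 0 ≤ Real.sqrt (3 / κ + 1) *
        Real.sqrt (8 * Real.pi * C ^ 2 * (2 * s + s ^ 2)) :=
      mul_nonneg (Real.sqrt_nonneg _) (Real.sqrt_nonneg _)
    calc _ ≤ (Real.sqrt (3 / κ + 1) *
        Real.sqrt (8 * Real.pi * C ^ 2 * (2 * s + s ^ 2))) * (Real.sqrt N2 + Real.sqrt B2) :=
          mul_le_mul_of_nonneg_right f2 f5
      _ ≤ _ := mul_le_mul_of_nonneg_left f4 f6
  have hbd' := abs_le.1 hbd
  linarith only [hbd'.2, hfac, hlow, hid]

/-- **Boundary zeros of a first eigenfunction are not critical.** -/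
theorem no_critical_boundary_zero {u : Y (p + 1 + 1 + 1)} {w : ℂ → ℝ} (hu : cj u = u)
    (hwc : ContinuousOn w (closedBall 0 1)) (hw : ∀ z ∈ closedBall (0 : ℂ) 1, 0 < w z)
    (hN : ∀ φ : Y (p + 1 + 1), cj φ = φ → ∫ z in ball (0 : ℂ) 1, w z * (ev φ z).re = 0 →
      ∫ z in ball (0 : ℂ) 1, w z * (ev φ z).re ^ 2 ≤
        ∫ z in ball (0 : ℂ) 1, 4 * Complex.normSq (ev (dz (p + 1) φ) z))
    (hD : ∀ χ : Y (p + 1 + 1), cj χ = χ → (∀ z : ℂ, ‖z‖ = 1 → ev χ z = 0) →
      ∫ z in ball (0 : ℂ) 1, w z * (ev χ z).re ^ 2 ≤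
        ∫ z in ball (0 : ℂ) 1, 4 * Complex.normSq (ev (dz (p + 1) χ) z))
    (hlap : ∀ z ∈ ball (0 : ℂ) 1, ev (lap (p + 1) u) z = -(w z * ev u z))
    (hnu : ∀ z : ℂ, ‖z‖ = 1 → ev (Rad (p + 1 + 1) u) z = 0)
    (hne : ∃ z, ‖z‖ < 1 ∧ ev u z ≠ 0) {a : ℂ} (ha : ‖a‖ = 1) (h0 : ev u a = 0) :
    ev (gradS u) a ≠ 0 := by
  intro h1
  obtain ⟨C, hC, hg, hv⟩ := lip_bounds hu ha h0 h1
  have hcomp := isCompact_closedBall (0 : ℂ) 1
  have hnon : (closedBall (0 : ℂ) 1).Nonempty := ⟨0, mem_closedBall_self zero_le_one⟩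
  obtain ⟨z1, hz1, hmin⟩ := hcomp.exists_isMinOn hnon hwc
  obtain ⟨z2, hz2, hmax⟩ := hcomp.exists_isMaxOn hnon hwc
  set κ := w z1 with hκdef
  set M := w z2 with hMdef
  have hκ : 0 < κ := hw z1 hz1
  have hq := fun s (hs : 0 < s) (hs1 : s ≤ 1) => quant_bound hu hwc hκ
    (fun z hz => hmin hz) (fun z hz => hmax hz) hN hD hlap hnu ha hC hg hv hs hs1
  set L := (8 / 81) * (∫ z in ball (0 : ℂ) 1, (ev u z).re ^ 2) with hL
  -- limit s → 0
  have hlim : Filter.Tendsto (fun s : ℝ => Real.sqrt (3 / κ + 1) *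
      Real.sqrt (8 * Real.pi * C ^ 2 * (2 * s + s ^ 2)) *
        (Real.sqrt (36 * C ^ 2 * (volume (ball (0 : ℂ) 1)).toReal) +
          Real.sqrt (144 * C ^ 2 * M * (volume (ball (0 : ℂ) 1)).toReal)) +
        128 * Real.pi * C ^ 2 * (2 * s + s ^ 2)) (nhdsWithin 0 (Ioi 0)) (nhds 0) := by
    have hcont : Continuous (fun s : ℝ => Real.sqrt (3 / κ + 1) *
      Real.sqrt (8 * Real.pi * C ^ 2 * (2 * s + s ^ 2)) *
        (Real.sqrt (36 * C ^ 2 * (volume (ball (0 : ℂ) 1)).toReal) +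
          Real.sqrt (144 * C ^ 2 * M * (volume (ball (0 : ℂ) 1)).toReal)) +
        128 * Real.pi * C ^ 2 * (2 * s + s ^ 2)) := by fun_prop
    have := hcont.tendsto 0
    simp only [mul_zero, ne_eq, OfNat.ofNat_ne_zero, not_false_eq_true, zero_pow, add_zero,
      Real.sqrt_zero, zero_mul] at this
    exact this.mono_left nhdsWithin_le_nhds
  have hLle : L ≤ 0 := by
    refine ge_of_tendsto hlim ?_
    have : Ioc (0 : ℝ) 1 ∈ nhdsWithin (0 : ℝ) (Ioi 0) := Ioc_mem_nhdsGT one_pos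
    filter_upwards [this] with s hs using hq s hs.1 hs.2
  -- positivity of L
  obtain ⟨z0, hz0, hne0⟩ := hne
  have cu := c1d_ev u
  have creu : ContinuousOn (fun z => (ev u z).re ^ 2) (closedBall (0 : ℂ) 1) :=
    (Complex.continuous_re.comp_continuousOn cu.c0).pow 2
  have hpos : 0 < ∫ z in ball (0 : ℂ) 1, (ev u z).re ^ 2 := by
    rw [setIntegral_pos_iff_support_of_nonneg_ae]
    · have hz0B : z0 ∈ ball (0 : ℂ) 1 := mem_ball_zero_iff.2 hz0
      have hne1 : (ev u z0).re ≠ 0 := by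
        intro h
        apply hne0
        rw [← real_ev hu, h]; simp
      have hopen : IsOpen ({z ∈ ball (0 : ℂ) 1 | (ev u z).re ^ 2 ≠ 0}) := by
        have h1 := (creu.mono ball_subset_closedBall).isOpen_inter_preimage isOpen_ball
          (isOpen_ne (x := (0 : ℝ)))
        exact h1
      have hmem : z0 ∈ {z ∈ ball (0 : ℂ) 1 | (ev u z).re ^ 2 ≠ 0} := ⟨hz0B, pow_ne_zero 2 hne1⟩
      refine lt_of_lt_of_le (hopen.measure_pos volume ⟨z0, hmem⟩) (measure_mono ?_)
      intro z hz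
      exact ⟨hz.2, hz.1⟩
    · exact Filter.Eventually.of_forall fun z => sq_nonneg _
    · exact intC creu
  have : 0 < L := by (clear * - hpos; positivity)
  linarith

end Vale.Agent.P071
end
end

section

/-!
# Picone: a positive supersolution gives the Dirichlet inequality
-/

open scoped ComplexConjugate Topology
open MeasureTheory Set Metric Filter

noncomputable section

namespace Vale.Agent.P071

variable {p : ℕ}

/-- functions vanishing on the circle are `O(1 - |z|)`. -/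
theorem exists_dist_bound (a : Y (p + 1)) (ha0 : ∀ z : ℂ, ‖z‖ = 1 → ev a z = 0) :
    ∃ C : ℝ, 0 ≤ C ∧ ∀ z ∈ closedBall (0 : ℂ) 1, ‖ev a z‖ ≤ C * (1 - ‖z‖) := by
  obtain ⟨C, hC⟩ := (isCompact_closedBall (0 : ℂ) 1).exists_bound_of_continuousOn
    (continuousOn_evD a)
  have hC0 : 0 ≤ C := (norm_nonneg _).trans (hC 0 (mem_closedBall_self zero_le_one))
  refine ⟨C, hC0, fun z hz => ?_⟩
  have hz1 : ‖z‖ ≤ 1 := mem_closedBall_zero_iff.1 hz
  obtain ⟨y, hy1, hy2⟩ : ∃ y : ℂ, ‖y‖ = 1 ∧ ‖z - y‖ = 1 - ‖z‖ := by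
    by_cases h : z = 0
    · exact ⟨1, by simp only [norm_one], by simp only [h, zero_sub, norm_neg, norm_one, norm_zero, sub_zero]⟩
    · have hn : ‖z‖ ≠ 0 := norm_ne_zero_iff.2 h
      refine ⟨((‖z‖⁻¹ : ℝ) : ℂ) * z, ?_, ?_⟩
      · rw [norm_mul, Complex.norm_real, norm_inv, norm_norm, inv_mul_cancel₀ hn]
      · have : z - ((‖z‖⁻¹ : ℝ) : ℂ) * z = ((1 - ‖z‖⁻¹ : ℝ) : ℂ) * z := by push_cast; ring
        rw [this, norm_mul, Complex.norm_real, Real.norm_eq_abs, abs_of_nonpos]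
        · field_simp; ring
        · have := (one_le_inv₀ (norm_pos_iff.2 h)).2 hz1
          linarith only [this]
  have := (convex_closedBall (0 : ℂ) 1).norm_image_sub_le_of_norm_hasFDerivWithin_le
    (fun x hx => hasFDerivWithinAt_ev a (mem_closedBall_zero_iff.1 hx)) hC
    (mem_closedBall_zero_iff.2 hy1.le) hz
  rwa [ha0 y hy1, sub_zero, hy2] at this

theorem picone_alg (x ψ J w : ℝ) (A W : ℂ) (hψ : 0 < ψ) (h : w * ψ ≤ 2 * J) :
    (4 * (2 * (x : ℂ) * conj A * ((ψ : ℂ)⁻¹ * W) + (x : ℂ) ^ 2 *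
      (-(conj W) / (ψ : ℂ) ^ 2 * W + (ψ : ℂ)⁻¹ * ((-J / 2 : ℝ) : ℂ)))).re ≤
      4 * Complex.normSq A - w * x ^ 2 := by
  have e1 : (4 * (2 * (x : ℂ) * conj A * ((ψ : ℂ)⁻¹ * W) + (x : ℂ) ^ 2 *
      (-(conj W) / (ψ : ℂ) ^ 2 * W + (ψ : ℂ)⁻¹ * ((-J / 2 : ℝ) : ℂ)))) =
      ((8 * (x / ψ) : ℝ) : ℂ) * (conj A * W) +
        ((-4 * (x / ψ) ^ 2 * Complex.normSq W - 2 * x ^ 2 * J / ψ : ℝ) : ℂ) := by
    push_cast
    rw [← Complex.mul_conj W]
    field_simp
    ring
  rw [e1, Complex.add_re, Complex.re_ofReal_mul, Complex.ofReal_re]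
  have e2 : (4 * Complex.normSq A - w * x ^ 2) - (8 * (x / ψ) * (conj A * W).re +
      (-4 * (x / ψ) ^ 2 * Complex.normSq W - 2 * x ^ 2 * J / ψ)) =
      4 * Complex.normSq (A - ((x / ψ : ℝ) : ℂ) * W) + x ^ 2 * (2 * J - w * ψ) / ψ := by
    simp only [Complex.normSq_apply, Complex.sub_re, Complex.sub_im, Complex.mul_re,
      Complex.mul_im, Complex.conj_re, Complex.conj_im, Complex.ofReal_re, Complex.ofReal_im]
    field_simp
    ring
  have e3 : 0 ≤ 4 * Complex.normSq (A - ((x / ψ : ℝ) : ℂ) * W) + x ^ 2 * (2 * J - w * ψ) / ψ := by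
    have h1 := Complex.normSq_nonneg (A - ((x / ψ : ℝ) : ℂ) * W)
    have h2 : 0 ≤ x ^ 2 * (2 * J - w * ψ) / ψ :=
      div_nonneg (mul_nonneg (sq_nonneg _) (by linarith only [h])) hψ.le
    linarith only [h1, h2]
  linarith only [e2, e3]

/-- **Picone's inequality on the disc.** -/
theorem picone_disc {w ψ J : ℂ → ℝ} {W : ℂ → ℂ} (hwc : ContinuousOn w (closedBall 0 1))
    (hψc : ContinuousOn ψ (closedBall 0 1)) (hWc : ContinuousOn W (closedBall 0 1))
    (hJc : ContinuousOn J (ball 0 1))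
    (hψd : ∀ z ∈ ball (0 : ℂ) 1, HasW (fun z => (ψ z : ℂ)) (W z) (conj (W z)) z)
    (hWd : ∀ z ∈ ball (0 : ℂ) 1, ∃ m, HasW W m ((-J z / 2 : ℝ) : ℂ) z)
    (hwJ : ∀ z ∈ ball (0 : ℂ) 1, w z * ψ z ≤ 2 * J z)
    {ε : ℝ} (hε : 0 < ε) (hlow : ∀ z ∈ closedBall (0 : ℂ) 1, ε * (1 - ‖z‖ ^ 2) ≤ ψ z)
    (a : Y (p + 1)) (ha : cj a = a) (ha0 : ∀ z : ℂ, ‖z‖ = 1 → ev a z = 0) :
    ∫ z in ball (0 : ℂ) 1, w z * (ev a z).re ^ 2 ≤
      ∫ z in ball (0 : ℂ) 1, 4 * Complex.normSq (ev (dz p a) z) := by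
  obtain ⟨C, hC, hCb⟩ := exists_dist_bound a ha0
  obtain ⟨M, hM⟩ := (isCompact_closedBall (0 : ℂ) 1).exists_bound_of_continuousOn hWc
  have hM0 : 0 ≤ M := (norm_nonneg _).trans (hM 0 (mem_closedBall_self zero_le_one))
  choose! m hm using hWd
  have hreal : ∀ z, ((ev a z).re : ℂ) = ev a z := fun z => by
    have : conj (ev a z) = ev a z := by rw [← ev_cj, ha]
    exact Complex.conj_eq_iff_re.1 this
  have hzb : ∀ z, ev (dzb p a) z = conj (ev (dz p a) z) := fun z => by
    rw [← ev_cj, cj_dz, ha]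
  have hψpos : ∀ z ∈ ball (0 : ℂ) 1, 0 < ψ z := fun z hz => by
    refine lt_of_lt_of_le ?_ (hlow z (ball_subset_closedBall hz))
    have : ‖z‖ ^ 2 < 1 := pow_lt_one₀ (norm_nonneg _) (mem_ball_zero_iff.1 hz) two_ne_zero
    have : 0 < 1 - ‖z‖ ^ 2 := by linarith only [this]
    positivity
  set G : ℂ → ℂ := fun z => (ev a z * ev a z) * ((ψ z : ℂ)⁻¹ * W z) with hG
  set Q : ℂ → ℂ := fun z => 2 * ((ev a z).re : ℂ) * conj (ev (dz p a) z) * ((ψ z : ℂ)⁻¹ * W z) +
    ((ev a z).re : ℂ) ^ 2 * (-(conj (W z)) / (ψ z : ℂ) ^ 2 * W z +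
      (ψ z : ℂ)⁻¹ * ((-J z / 2 : ℝ) : ℂ)) with hQ
  -- derivative of G
  have hGd : ∀ z ∈ ball (0 : ℂ) 1, ∃ P, HasW G P (Q z) z := by
    intro z hz
    have hz1 := mem_ball_zero_iff.1 hz
    have h1 := hasW_ev a hz1
    have h2 : HasW (fun z => (ψ z : ℂ)⁻¹) _ _ z :=
      (hψd z hz).inv (Complex.ofReal_ne_zero.2 (hψpos z hz).ne')
    have h3 := (h1.mul h1).mul (h2.mul (hm z hz))
    refine ⟨_, h3.congr rfl ?_⟩
    rw [hQ]
    simp only
    rw [hzb z, hreal z]
    ring
  choose! P hP using hGd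
  -- continuity of Q, G on the open disc
  have cψi : ContinuousOn (fun z => (ψ z : ℂ)⁻¹) (ball (0 : ℂ) 1) := by
    refine (Complex.continuous_ofReal.comp_continuousOn
      (hψc.mono ball_subset_closedBall)).inv₀ fun z hz => ?_
    exact Complex.ofReal_ne_zero.2 (hψpos z hz).ne'
  have ca := (continuousOn_ev a).mono (ball_subset_closedBall (x := (0 : ℂ)) (ε := 1))
  have cda := (continuousOn_ev (dz p a)).mono (ball_subset_closedBall (x := (0 : ℂ)) (ε := 1))
  have cW := hWc.mono (ball_subset_closedBall (x := (0 : ℂ)) (ε := 1))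
  have cG : ContinuousOn G (ball (0 : ℂ) 1) := (ca.mul ca).mul (cψi.mul cW)
  have cre : ContinuousOn (fun z => ((ev a z).re : ℂ)) (ball (0 : ℂ) 1) :=
    Complex.continuous_ofReal.comp_continuousOn (Complex.continuous_re.comp_continuousOn ca)
  have cQ : ContinuousOn Q (ball (0 : ℂ) 1) := by
    have q1 : ContinuousOn (fun z => 2 * ((ev a z).re : ℂ) * conj (ev (dz p a) z) *
        ((ψ z : ℂ)⁻¹ * W z)) (ball (0 : ℂ) 1) :=
      ((continuousOn_const.mul cre).mul (Complex.continuous_conj.comp_continuousOn cda)).mul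
        (cψi.mul cW)
    have q2 : ContinuousOn (fun z => -(conj (W z)) / (ψ z : ℂ) ^ 2 * W z) (ball (0 : ℂ) 1) := by
      have : ContinuousOn (fun z => -(conj (W z)) * ((ψ z : ℂ)⁻¹) ^ 2 * W z) (ball (0 : ℂ) 1) :=
        ((Complex.continuous_conj.comp_continuousOn cW).neg.mul (cψi.pow 2)).mul cW
      refine this.congr fun z _ => ?_
      simp only [div_eq_mul_inv, inv_pow]
    have q3 : ContinuousOn (fun z => (ψ z : ℂ)⁻¹ * ((-J z / 2 : ℝ) : ℂ)) (ball (0 : ℂ) 1) :=
      cψi.mul (Complex.continuous_ofReal.comp_continuousOn (hJc.neg.div_const 2))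
    exact q1.add ((cre.pow 2).mul (q2.add q3))
  -- the function to integrate
  set f : ℂ → ℝ := fun z => 4 * Complex.normSq (ev (dz p a) z) - w z * (ev a z).re ^ 2 with hf
  have c1 : ContinuousOn (fun z => 4 * Complex.normSq (ev (dz p a) z)) (closedBall (0 : ℂ) 1) :=
    continuousOn_const.mul (contNormSq (continuousOn_ev _))
  have c2 : ContinuousOn (fun z => w z * (ev a z).re ^ 2) (closedBall (0 : ℂ) 1) :=
    hwc.mul ((Complex.continuous_re.comp_continuousOn (continuousOn_ev a)).pow 2)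
  have cf : ContinuousOn f (closedBall (0 : ℂ) 1) := c1.sub c2
  have hpi := Real.pi_pos
  -- main estimate on smaller discs
  have key : ∀ ρ : ℝ, 0 < ρ → ρ < 1 →
      -(4 * Real.pi * C ^ 2 * M / ε * (1 - ρ)) ≤ ∫ z in ball (0 : ℂ) ρ, f z := by
    intro ρ hρ0 hρ1
    have hsub : closedBall (0 : ℂ) ρ ⊆ ball (0 : ℂ) 1 := closedBall_subset_ball hρ1
    have hsub' : ball (0 : ℂ) ρ ⊆ ball (0 : ℂ) 1 := ball_subset_ball hρ1.le
    obtain ⟨K, hK⟩ := (isCompact_closedBall (0 : ℂ) ρ).exists_bound_of_continuousOn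
      (cQ.mono hsub)
    have hst := stokes_ball hρ0 (cG.mono hsub) (fun z hz => hP z (hsub' hz))
      (cQ.mono hsub') (fun z hz => hK z (ball_subset_closedBall hz))
    have hbound : ‖∫ t in (-Real.pi)..Real.pi, (ρ : ℂ) * G (pol (ρ, t)) *
        Complex.exp (t * Complex.I)‖ ≤ C ^ 2 * M / ε * (1 - ρ) * |Real.pi - -Real.pi| := by
      refine intervalIntegral.norm_integral_le_of_norm_le_const fun t _ => ?_
      set z := pol (ρ, t) with hz
      have hzn : ‖z‖ = ρ := by rw [hz, norm_pol]; exact abs_of_pos hρ0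
      have hzD : z ∈ closedBall (0 : ℂ) 1 := mem_closedBall_zero_iff.2 (by rw [hzn]; exact hρ1.le)
      rw [norm_mul, norm_mul, Complex.norm_exp_ofReal_mul_I, mul_one, Complex.norm_real,
        Real.norm_eq_abs, abs_of_pos hρ0, hG]
      simp only
      rw [norm_mul, norm_mul, norm_mul, norm_inv, Complex.norm_real, Real.norm_eq_abs]
      have h1 : ‖ev a z‖ ≤ C * (1 - ρ) := by rw [← hzn]; exact hCb z hzD
      have h2 : ε * (1 - ρ) ≤ ψ z := by
        refine le_trans ?_ (hlow z hzD)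
        rw [hzn]
        have : 1 - ρ ≤ 1 - ρ ^ 2 := by nlinarith only [hρ0, hρ1]
        (clear * - this hε; gcongr)
      have h1ρ : 0 < 1 - ρ := by linarith only [hρ1]
      have h3 : 0 < ε * (1 - ρ) := by (clear * - hε hρ1; positivity)
      have h4 : |ψ z|⁻¹ ≤ (ε * (1 - ρ))⁻¹ := by
        rw [abs_of_pos (h3.trans_le h2)]
        exact inv_anti₀ h3 h2
      calc ρ * (‖ev a z‖ * ‖ev a z‖ * (|ψ z|⁻¹ * ‖W z‖)) ≤
            1 * ((C * (1 - ρ)) * (C * (1 - ρ)) * ((ε * (1 - ρ))⁻¹ * M)) := by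
            have := hM z hzD
            (clear * - hρ1 h1 hC h4 this hε; gcongr)
        _ = C ^ 2 * M / ε * (1 - ρ) := by (clear * - hε h1ρ; field_simp)
    rw [← hst] at hbound
    have hQi : IntegrableOn Q (ball (0 : ℂ) ρ) :=
      ((cQ.mono hsub).integrableOn_compact (isCompact_closedBall (0 : ℂ) ρ)).mono_set
        ball_subset_closedBall
    have hre : (∫ z in ball (0 : ℂ) ρ, 2 * Q z).re = ∫ z in ball (0 : ℂ) ρ, (2 * Q z).re := by
      have := integral_re (𝕜 := ℂ) (f := fun z => 2 * Q z)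
        (μ := volume.restrict (ball (0 : ℂ) ρ)) (hQi.const_mul 2)
      exact this.symm
    have hfi : IntegrableOn f (ball (0 : ℂ) ρ) := (intC cf).mono_set hsub'
    have hQre : IntegrableOn (fun z => (2 * Q z).re) (ball (0 : ℂ) ρ) := (hQi.const_mul 2).re
    have h5 : 2 * ∫ z in ball (0 : ℂ) ρ, (2 * Q z).re ≤ ∫ z in ball (0 : ℂ) ρ, f z := by
      rw [← integral_const_mul]
      refine setIntegral_mono_on (hQre.const_mul 2) hfi measurableSet_ball fun z hz => ?_
      have h6 := picone_alg (ev a z).re (ψ z) (J z) (w z) (ev (dz p a) z) (W z)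
        (hψpos z (hsub' hz)) (hwJ z (hsub' hz))
      have h7 : 2 * (2 * Q z).re = (4 * Q z).re := by
        simp only [Complex.mul_re, Complex.re_ofNat, Complex.im_ofNat]; ring
      rw [h7]
      exact h6
    have h8 := (abs_le.1 ((Complex.abs_re_le_norm _).trans hbound)).1
    rw [hre] at h8
    have h9 : |Real.pi - -Real.pi| = 2 * Real.pi := by
      rw [abs_of_pos (by linarith only [hpi])]; ring
    rw [h9] at h8
    have h10 : -(4 * Real.pi * C ^ 2 * M / ε * (1 - ρ)) =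
        2 * -(C ^ 2 * M / ε * (1 - ρ) * (2 * Real.pi)) := by ring
    rw [h10]
    linarith only [h5, h8]
  -- the limit
  have hball : ⋃ n : ℕ, ball (0 : ℂ) (1 - 1 / ((n : ℝ) + 2)) = ball (0 : ℂ) 1 := by
    apply subset_antisymm
    · refine iUnion_subset fun n => ball_subset_ball ?_
      have : (0 : ℝ) < 1 / ((n : ℝ) + 2) := by (clear * -; positivity)
      linarith only [this]
    · intro z hz
      have hz1 := mem_ball_zero_iff.1 hz
      obtain ⟨n, hn⟩ := exists_nat_one_div_lt (sub_pos.2 hz1)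
      refine mem_iUnion.2 ⟨n, mem_ball_zero_iff.2 ?_⟩
      have h1 : 1 / ((n : ℝ) + 2) ≤ 1 / ((n : ℝ) + 1) := by
        apply one_div_le_one_div_of_le <;> linarith only []
      linarith only [hn, h1]
  have hmono : Monotone fun n : ℕ => ball (0 : ℂ) (1 - 1 / ((n : ℝ) + 2)) := by
    intro m n hmn
    refine ball_subset_ball ?_
    have h1 : (m : ℝ) ≤ n := by exact_mod_cast hmn
    have h2 : 1 / ((n : ℝ) + 2) ≤ 1 / ((m : ℝ) + 2) := by
      apply one_div_le_one_div_of_le <;> linarith only [h1]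
    linarith only [h2]
  have hlim := tendsto_setIntegral_of_monotone (μ := volume) (f := f)
    (fun n : ℕ => (measurableSet_ball : MeasurableSet (ball (0 : ℂ) (1 - 1 / ((n : ℝ) + 2)))))
    hmono (by rw [hball]; exact intC cf)
  rw [hball] at hlim
  have hlim2 : Tendsto (fun n : ℕ => -(4 * Real.pi * C ^ 2 * M / ε *
      (1 - (1 - 1 / ((n : ℝ) + 2))))) atTop (𝓝 0) := by
    have h1 : Tendsto (fun n : ℕ => 1 / ((n : ℝ) + 2)) atTop (𝓝 0) := by
      have := tendsto_one_div_add_atTop_nhds_zero_nat (𝕜 := ℝ)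
      have h2 := (tendsto_add_atTop_iff_nat 1).2 this
      refine h2.congr fun n => ?_
      push_cast
      congr 1
      ring
    have h2 := (h1.const_mul (4 * Real.pi * C ^ 2 * M / ε)).neg
    rw [mul_zero, neg_zero] at h2
    refine h2.congr fun n => ?_
    congr 2
    ring
  have hnn : 0 ≤ ∫ z in ball (0 : ℂ) 1, f z := by
    refine le_of_tendsto_of_tendsto' hlim2 hlim fun n => key _ ?_ ?_
    · have : 1 / ((n : ℝ) + 2) ≤ 1 / 2 := by
        apply one_div_le_one_div_of_le <;> linarith only []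
      linarith only [this]
    · have : (0 : ℝ) < 1 / ((n : ℝ) + 2) := by (clear * -; positivity)
      linarith only [this]
  rw [hf, integral_sub (intC c1) (intC c2)] at hnn
  linarith only [hnn]

end Vale.Agent.P071
end
end

section

/-!
# Curvature of the weights `K(z) = |F(t z)|^2 rho(f(t z))`

`4 (K K_{z zbar} - |K_z|^2) = |t|^2 |F|^6 (rho lap rho - |grad rho|^2)(f) `.
-/

open scoped ComplexConjugate Topology ContDiff
open Metric Filter

noncomputable section

namespace Vale.Agent.P071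

variable {p : ℕ}

/-- Wirtinger form of a real derivative. -/
theorem hasW_of_real {g : ℂ → ℝ} {L : ℂ →L[ℝ] ℝ} {z : ℂ} (h : HasFDerivAt g L z) :
    HasW (fun w => (g w : ℂ)) (((L 1 : ℂ) - Complex.I * (L Complex.I : ℂ)) / 2)
      (((L 1 : ℂ) + Complex.I * (L Complex.I : ℂ)) / 2) z := by
  unfold HasW
  have h1 : HasFDerivAt (fun w => (g w : ℂ)) (Complex.ofRealCLM.comp L) z :=
    Complex.ofRealCLM.hasFDerivAt.comp z h
  refine h1.congr_fderiv ?_
  ext w
  have h2 : L w = w.re * L 1 + w.im * L Complex.I := by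
    conv_lhs => rw [show w = w.re • (1 : ℂ) + w.im • Complex.I by
      simp only [Complex.real_smul, mul_one, Complex.re_add_im]]
    rw [map_add, map_smul, map_smul]
    simp only [smul_eq_mul]
  simp only [ContinuousLinearMap.comp_apply, Complex.ofRealCLM_apply,
    ContinuousLinearMap.add_apply, ContinuousLinearMap.smul_apply, ContinuousLinearMap.id_apply,
    smul_eq_mul, ContinuousLinearEquiv.coe_coe, Complex.conjCLE_apply]
  rw [h2]
  apply Complex.ext
  · simp only [Complex.ofReal_add, Complex.ofReal_mul, Complex.add_re, Complex.mul_re, Complex.ofReal_re, Complex.ofReal_im, mul_zero, sub_zero, Complex.div_ofNat_re, Complex.sub_re, Complex.I_re, zero_mul, Complex.I_im, sub_self, Complex.div_ofNat_im, Complex.sub_im, Complex.mul_im, one_mul, zero_add, zero_sub, add_zero, Complex.conj_re, Complex.add_im, Complex.conj_im, mul_neg, sub_neg_eq_add]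
    ring
  · simp only [Complex.ofReal_add, Complex.ofReal_mul, Complex.add_im, Complex.mul_im, Complex.ofReal_re, Complex.ofReal_im, mul_zero, zero_mul, add_zero, Complex.div_ofNat_re, Complex.sub_re, Complex.mul_re, Complex.I_re, Complex.I_im, sub_self, sub_zero, Complex.div_ofNat_im, Complex.sub_im, one_mul, zero_add, zero_sub, Complex.add_re, Complex.conj_im, mul_neg, Complex.conj_re]
    ring

/-- Holomorphic functions. -/
theorem hasW_of_holo {g : ℂ → ℂ} {g' z : ℂ} (h : HasDerivAt g g' z) : HasW g g' 0 z := by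
  unfold HasW
  refine (h.hasFDerivAt.restrictScalars ℝ).congr_fderiv ?_
  ext w
  simp only [ContinuousLinearMap.coe_restrictScalars', ContinuousLinearMap.toSpanSingleton_apply, smul_eq_mul, mul_comm, add_apply, smul_apply, ContinuousLinearMap.id_apply, ContinuousLinearEquiv.coe_coe, ContinuousAlgEquiv.coeCLE_apply, Complex.conjCAE_apply, zero_mul, add_zero]

/-- Composition with a holomorphic function. -/
theorem HasW.comp_holo {φ g : ℂ → ℂ} {a b g' z : ℂ} (hφ : HasW φ a b (g z))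
    (hg : HasDerivAt g g' z) : HasW (fun w => φ (g w)) (a * g') (b * conj g') z := by
  unfold HasW at *
  have h1 := hφ.comp z (hg.hasFDerivAt.restrictScalars ℝ)
  refine HasFDerivAt.congr_fderiv (f := fun w => φ (g w)) h1 ?_
  ext w
  simp
  ring

/-- `(px ρ - i py ρ) / 2`. -/
def wzr (ρ : ℂ → ℝ) (x : ℂ) : ℂ := ((px ρ x : ℂ) - Complex.I * (py ρ x : ℂ)) / 2

theorem hasW_rho {ρ : ℂ → ℝ} (h : ContDiff ℝ 2 ρ) (x : ℂ) :
    HasW (fun w => (ρ w : ℂ)) (wzr ρ x) (conj (wzr ρ x)) x := by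
  have h1 : DifferentiableAt ℝ ρ x := (h.differentiable (by norm_num)) x
  refine (hasW_of_real h1.hasFDerivAt).congr rfl ?_
  simp only [wzr, px, py, map_div₀, map_sub, map_mul, Complex.conj_I, Complex.conj_ofReal,
    map_ofNat]
  ring

theorem hasW_wzr {ρ : ℂ → ℝ} (h : ContDiff ℝ 2 ρ) (x : ℂ) :
    ∃ m : ℂ, HasW (wzr ρ) m ((Lim.lap ρ x / 4 : ℝ) : ℂ) x := by
  have hx : ContDiff ℝ 1 (px ρ) := (h.fderiv_right (m := 1) (by norm_num)).clm_apply contDiff_const
  have hy : ContDiff ℝ 1 (py ρ) := (h.fderiv_right (m := 1) (by norm_num)).clm_apply contDiff_const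
  have dx : DifferentiableAt ℝ (px ρ) x := (hx.differentiable one_ne_zero) x
  have dy : DifferentiableAt ℝ (py ρ) x := (hy.differentiable one_ne_zero) x
  have hsym : fderiv ℝ (px ρ) x Complex.I = fderiv ℝ (py ρ) x 1 := by
    have h2 : IsSymmSndFDerivAt ℝ ρ x := h.contDiffAt.isSymmSndFDerivAt (by simp)
    have h3 : DifferentiableAt ℝ (fderiv ℝ ρ) x :=
      ((h.fderiv_right (m := 1) (by norm_num)).differentiable one_ne_zero) x
    have e1 : ∀ v w : ℂ, fderiv ℝ (fun y => fderiv ℝ ρ y v) x w = fderiv ℝ (fderiv ℝ ρ) x w v := by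
      intro v w
      have h4 := h3.hasFDerivAt.clm_apply (hasFDerivAt_const v x)
      rw [h4.fderiv]
      simp only [ContinuousLinearMap.comp_zero, zero_add, ContinuousLinearMap.flip_apply]
    show fderiv ℝ (fun y => fderiv ℝ ρ y 1) x Complex.I =
      fderiv ℝ (fun y => fderiv ℝ ρ y Complex.I) x 1
    rw [e1, e1]
    exact h2.eq Complex.I 1
  have h1 := ((hasW_of_real dx.hasFDerivAt).sub
    ((hasW_of_real dy.hasFDerivAt).const_mul Complex.I)).const_mul (1 / 2)
  have e : (fun w => (1 / 2 : ℂ) * (((px ρ w : ℝ) : ℂ) - Complex.I * ((py ρ w : ℝ) : ℂ))) = wzr ρ := by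
    funext w; simp only [wzr]; ring
  rw [e] at h1
  refine ⟨_, h1.congr rfl ?_⟩
  rw [hsym]
  simp only [Lim.lap]
  have e2 : px (px ρ) x = fderiv ℝ (px ρ) x 1 := rfl
  have e3 : py (py ρ) x = fderiv ℝ (py ρ) x Complex.I := rfl
  rw [e2, e3]
  push_cast
  ring_nf
  rw [Complex.I_sq]
  ring

theorem contDiff_of_isPolyFun {ρ : ℂ → ℝ} (h : Lim.IsPolyFun ρ) : ContDiff ℝ ∞ ρ := by
  obtain ⟨N, c, hc⟩ := h
  have h1 : ρ = fun x => (∑ m ∈ Finset.range N, ∑ n ∈ Finset.range N,
      c m n * x ^ m * (conj x) ^ n).re := by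
    funext x; rw [← hc, Complex.ofReal_re]
  rw [h1]
  have h2 : ContDiff ℝ ∞ (fun x : ℂ => ∑ m ∈ Finset.range N, ∑ n ∈ Finset.range N,
      c m n * x ^ m * (conj x) ^ n) := by
    refine ContDiff.sum fun m _ => ContDiff.sum fun n _ => ?_
    have h3 : ContDiff ℝ ∞ (fun x : ℂ => conj x) := Complex.conjCLE.contDiff
    exact (contDiff_const.mul (contDiff_id.pow m)).mul (h3.pow n)
  exact Complex.reCLM.contDiff.comp h2

theorem hasW_evD (a : Y (p + 1)) {z : ℂ} (hz : ‖z‖ < 1) :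
    HasW (ev a) (ev (dz p a) z) (ev (dzb p a) z) z := by
  unfold HasW
  refine (hasFDerivAt_ev a hz).congr_fderiv ?_
  ext w
  rw [evD_apply]
  simp

theorem Conf_diffF {f F : ℂ → ℂ} (hf : Lim.Conf f F) : DifferentiableOn ℂ F (ball 0 1) := by
  have h1 : DifferentiableOn ℂ f (ball 0 1) := fun z hz =>
    (hf.deriv z hz).differentiableAt.differentiableWithinAt
  have h2 : DifferentiableOn ℂ (deriv f) (ball 0 1) := h1.deriv isOpen_ball
  exact h2.congr fun z hz => (hf.deriv z hz).deriv.symm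

theorem Conf_difff {f F : ℂ → ℂ} (hf : Lim.Conf f F) : DifferentiableOn ℂ f (ball 0 1) :=
  fun z hz => (hf.deriv z hz).differentiableAt.differentiableWithinAt

/-- **Curvature of the weights.** -/
theorem curv_of_ev {f F : ℂ → ℂ} (hf : Lim.Conf f F) {ρ : ℂ → ℝ} (hρs : ContDiff ℝ 2 ρ)
    {t : ℂ} (ht : ‖t‖ < 1) {k : Y (p + 1 + 1)}
    (hk : ∀ z : ℂ, ‖z‖ < 1 → ev k z = ((‖F (t * z)‖ ^ 2 * ρ (f (t * z)) : ℝ) : ℂ))
    {z : ℂ} (hz : ‖z‖ < 1) :
    (ev (dzb p (dz (p + 1) k)) z).re * (ev k z).re - Complex.normSq (ev (dz (p + 1) k) z) =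
    ‖t‖ ^ 2 * ‖F (t * z)‖ ^ 6 *
      (ρ (f (t * z)) * Lim.lap ρ (f (t * z)) - Lim.gsq ρ (f (t * z))) / 4 := by
  have hdF := Conf_diffF hf
  have hdf := Conf_difff hf
  have hin : ∀ w : ℂ, ‖w‖ < 1 → t * w ∈ ball (0 : ℂ) 1 := by
    intro w hw
    rw [mem_ball_zero_iff, norm_mul]
    nlinarith only [hw, ht, norm_nonneg w]
  have hlin : ∀ w : ℂ, HasDerivAt (fun y : ℂ => t * y) t w := fun w => by
    simpa using (hasDerivAt_id w).const_mul t
  have hg : ∀ w : ℂ, ‖w‖ < 1 → HasDerivAt (fun y => f (t * y)) (t * F (t * w)) w := by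
    intro w hw
    have := (hf.deriv (t * w) (hin w hw)).comp w (hlin w)
    rw [mul_comm] at this
    exact this
  have hG : ∀ w : ℂ, ‖w‖ < 1 →
      HasDerivAt (fun y => F (t * y)) (t * deriv F (t * w)) w := by
    intro w hw
    have h1 : HasDerivAt F (deriv F (t * w)) (t * w) :=
      (hdF.differentiableAt (isOpen_ball.mem_nhds (hin w hw))).hasDerivAt
    have := h1.comp w (hlin w)
    rw [mul_comm] at this
    exact this
  -- the function, its first derivative
  set G : ℂ → ℂ := fun y => F (t * y) with hGdef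
  set G1 : ℂ → ℂ := fun y => t * deriv F (t * y) with hG1def
  set Kz : ℂ → ℂ := fun w => conj (G w) * (G1 w * ((ρ (f (t * w)) : ℝ) : ℂ) +
    t * G w ^ 2 * wzr ρ (f (t * w))) with hKz
  have hKW : ∀ w : ℂ, ‖w‖ < 1 →
      HasW (fun y => G y * conj (G y) * ((ρ (f (t * y)) : ℝ) : ℂ)) (Kz w)
        (conj (Kz w)) w := by
    intro w hw
    have a1 := hasW_of_holo (hG w hw)
    have a2 := a1.conj
    have a3 := HasW.comp_holo (φ := fun x => ((ρ x : ℝ) : ℂ)) (g := fun y => f (t * y))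
      (hasW_rho hρs (f (t * w))) (hg w hw)
    refine ((a1.mul a2).mul a3).congr ?_ ?_
    · simp only [hKz, hGdef, hG1def, map_zero]
      ring
    · simp only [hGdef, map_mul, hKz, hG1def, Complex.conj_conj, map_add, Complex.conj_ofReal, map_pow]
      ring
  have hev : ∀ w : ℂ, ‖w‖ < 1 → ev k w = G w * conj (G w) * ((ρ (f (t * w)) : ℝ) : ℂ) := by
    intro w hw
    rw [hk w hw, Complex.mul_conj, Complex.normSq_eq_norm_sq]
    push_cast
    rfl
  have hball : ∀ w : ℂ, ‖w‖ < 1 → ball (0 : ℂ) 1 ∈ 𝓝 w := fun w hw =>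
    isOpen_ball.mem_nhds (by simpa only [mem_ball, dist_zero_right] using hw)
  have hdz : ∀ w : ℂ, ‖w‖ < 1 → ev (dz (p + 1) k) w = Kz w := by
    intro w hw
    have b1 := hasW_evD k hw
    have b2 : HasW (ev k) (Kz w) (conj (Kz w)) w :=
      (hKW w hw).congr_of_eventuallyEq (by
        filter_upwards [hball w hw] with y hy
        exact hev y (by simpa only [mem_ball, dist_zero_right] using hy))
    exact (b1.unique b2).1
  obtain ⟨m2, hm2⟩ := hasW_wzr hρs (f (t * z))
  have hKz2 : ∃ m : ℂ, HasW Kz m (conj (G1 z) * (G1 z * ((ρ (f (t * z)) : ℝ) : ℂ) +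
      t * G z ^ 2 * wzr ρ (f (t * z))) + conj (G z) * (G1 z * (conj (wzr ρ (f (t * z))) *
      conj (t * G z)) + t * G z ^ 2 * (((Lim.lap ρ (f (t * z)) / 4 : ℝ) : ℂ) *
      conj (t * G z)))) z := by
    have c1 := hasW_of_holo (hG z hz)
    have c2 := c1.conj
    have c3 := HasW.comp_holo (φ := fun x => ((ρ x : ℝ) : ℂ)) (g := fun y => f (t * y))
      (hasW_rho hρs (f (t * z))) (hg z hz)
    have c4 := HasW.comp_holo (φ := wzr ρ) (g := fun y => f (t * y)) hm2 (hg z hz)
    have c5 : HasDerivAt G1 (deriv G1 z) z := by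
      have d1 : DifferentiableOn ℂ (deriv F) (ball 0 1) := hdF.deriv isOpen_ball
      have d2 : DifferentiableAt ℂ (deriv F) (t * z) :=
        d1.differentiableAt (isOpen_ball.mem_nhds (hin z hz))
      have d3 : DifferentiableAt ℂ G1 z := by
        have := d2.comp z (hlin z).differentiableAt
        exact this.const_mul t
      exact d3.hasDerivAt
    have c6 := hasW_of_holo c5
    have c7 := c2.mul ((c6.mul c3).add (((c1.mul c1).const_mul t).mul c4))
    refine ⟨_, (c7.congr_of_eventuallyEq (g := Kz) (Eventually.of_forall fun w => ?_)).congr rfl ?_⟩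
    · simp only [hKz, hGdef]
      ring
    · simp only [hGdef]
      ring
  obtain ⟨m3, hm3⟩ := hKz2
  have hzb : ev (dzb p (dz (p + 1) k)) z = conj (G1 z) * (G1 z * ((ρ (f (t * z)) : ℝ) : ℂ) +
      t * G z ^ 2 * wzr ρ (f (t * z))) + conj (G z) * (G1 z * (conj (wzr ρ (f (t * z))) *
      conj (t * G z)) + t * G z ^ 2 * (((Lim.lap ρ (f (t * z)) / 4 : ℝ) : ℂ) *
      conj (t * G z))) := by
    have b1 := hasW_evD (dz (p + 1) k) hz
    have b2 := hm3.congr_of_eventuallyEq (g := ev (dz (p + 1) k)) (by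
      filter_upwards [hball z hz] with y hy
      exact hdz y (by simpa only [mem_ball, dist_zero_right] using hy))
    exact (b1.unique b2).2
  -- algebra
  have hK0 := hev z hz
  have hreal : ((ev k z).re : ℂ) = ev k z := by
    rw [hK0, Complex.mul_conj]
    rw [← Complex.ofReal_mul, Complex.ofReal_re]
  have key : ((ev (dzb p (dz (p + 1) k)) z) * ev k z - ev (dz (p + 1) k) z *
      conj (ev (dz (p + 1) k) z)) = ((‖t‖ ^ 2 * ‖F (t * z)‖ ^ 6 *
      (ρ (f (t * z)) * Lim.lap ρ (f (t * z)) - Lim.gsq ρ (f (t * z))) / 4 : ℝ) : ℂ) := by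
    rw [hzb, hdz z hz, hK0]
    have w1 : wzr ρ (f (t * z)) * conj (wzr ρ (f (t * z))) =
        ((Lim.gsq ρ (f (t * z)) / 4 : ℝ) : ℂ) := by
      simp only [wzr, map_div₀, map_sub, map_mul, Complex.conj_I, Complex.conj_ofReal, map_ofNat,
        Lim.gsq]
      push_cast
      ring_nf
      rw [Complex.I_sq]
      ring
    have w2 : t * conj t = ((‖t‖ ^ 2 : ℝ) : ℂ) := by
      rw [Complex.mul_conj, Complex.normSq_eq_norm_sq]
    have w3 : G z * conj (G z) = ((‖F (t * z)‖ ^ 2 : ℝ) : ℂ) := by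
      rw [Complex.mul_conj, Complex.normSq_eq_norm_sq]
    have w4 : ((‖t‖ ^ 2 * ‖F (t * z)‖ ^ 6 *
      (ρ (f (t * z)) * Lim.lap ρ (f (t * z)) - Lim.gsq ρ (f (t * z))) / 4 : ℝ) : ℂ) =
      (t * conj t) * (G z * conj (G z)) ^ 3 * (((ρ (f (t * z)) : ℝ) : ℂ) *
        ((Lim.lap ρ (f (t * z)) / 4 : ℝ) : ℂ) - wzr ρ (f (t * z)) * conj (wzr ρ (f (t * z)))) := by
      rw [w1, w2, w3]
      push_cast
      ring
    rw [w4]
    simp only [map_mul, hKz, Complex.conj_conj, map_add, Complex.conj_ofReal, map_pow]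
    ring
  have key2 := congrArg Complex.re key
  rw [Complex.ofReal_re, Complex.sub_re, Complex.mul_conj, Complex.ofReal_re, ← hreal,
    Complex.mul_re, Complex.ofReal_re, Complex.ofReal_im, mul_zero, sub_zero] at key2
  exact key2

/-- **The curvature condition** (`AdW.curv` for `p = 6`) for a weight `w` whose value is
`lam |F(t z)|^2 rho(f(t z))`, from `rho lap rho - |grad rho|^2 >= -m rho^3` and `m |t|^2 < lam`. -/
theorem curv_pos_of_ev {f F : ℂ → ℂ} (hf : Lim.Conf f F) {ρ : ℂ → ℝ} (hρs : ContDiff ℝ 2 ρ)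
    {t : ℂ} (ht : ‖t‖ < 1) {lam m : ℝ} (hlam : 0 < lam) (hml : m * ‖t‖ ^ 2 < lam)
    {w : Y (p + 1 + 1)}
    (hw : ∀ z : ℂ, ‖z‖ < 1 → ev w z = ((lam * (‖F (t * z)‖ ^ 2 * ρ (f (t * z))) : ℝ) : ℂ))
    {z : ℂ} (hz : ‖z‖ < 1) (hpos : 0 < ρ (f (t * z)))
    (hcurv : -m * ρ (f (t * z)) ^ 3 ≤
      ρ (f (t * z)) * Lim.lap ρ (f (t * z)) - Lim.gsq ρ (f (t * z))) :
    0 < (ev w z).re ^ 3 + 4 * ((ev (dzb p (dz (p + 1) w)) z).re * (ev w z).re -
      Complex.normSq (ev (dz (p + 1) w) z)) := by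
  have hl0 : (lam : ℂ) ≠ 0 := Complex.ofReal_ne_zero.2 hlam.ne'
  set k : Y (p + 1 + 1) := (lam : ℂ)⁻¹ • w with hkdef
  have hwk : w = (lam : ℂ) • k := by
    rw [hkdef, smul_smul, mul_inv_cancel₀ hl0, one_smul]
  have hk : ∀ z : ℂ, ‖z‖ < 1 → ev k z = ((‖F (t * z)‖ ^ 2 * ρ (f (t * z)) : ℝ) : ℂ) := by
    intro y hy
    rw [hkdef, ev_smul, hw y hy, Complex.ofReal_mul lam, ← mul_assoc, inv_mul_cancel₀ hl0, one_mul]
  have h1 := curv_of_ev hf hρs ht hk hz
  have hF : F (t * z) ≠ 0 := hf.ne_zero _ (by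
    rw [mem_ball_zero_iff, norm_mul]
    nlinarith only [hz, ht, norm_nonneg z])
  have hF' : 0 < ‖F (t * z)‖ := norm_pos_iff.2 hF
  have h2 : (ev k z).re = ‖F (t * z)‖ ^ 2 * ρ (f (t * z)) := by
    rw [hk z hz, Complex.ofReal_re]
  rw [hwk]
  simp only [map_smul, ev_smul, Complex.re_ofReal_mul, Complex.normSq_mul, Complex.normSq_ofReal]
  have h3 : (lam * (ev k z).re) ^ 3 +
      4 * (lam * (ev (dzb p (dz (p + 1) k)) z).re *
        (lam * (ev k z).re) -
        lam * lam * Complex.normSq (ev (dz (p + 1) k) z)) =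
      lam ^ 2 * (lam * (ev k z).re ^ 3 + 4 *
        ((ev (dzb p (dz (p + 1) k)) z).re * (ev k z).re -
        Complex.normSq (ev (dz (p + 1) k) z))) := by ring
  rw [h3, h1, h2]
  have h4 : lam * (‖F (t * z)‖ ^ 2 * ρ (f (t * z))) ^ 3 + 4 * (‖t‖ ^ 2 * ‖F (t * z)‖ ^ 6 *
      (ρ (f (t * z)) * Lim.lap ρ (f (t * z)) - Lim.gsq ρ (f (t * z))) / 4) =
      ‖F (t * z)‖ ^ 6 * (lam * ρ (f (t * z)) ^ 3 + ‖t‖ ^ 2 *
        (ρ (f (t * z)) * Lim.lap ρ (f (t * z)) - Lim.gsq ρ (f (t * z)))) := by ring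
  rw [h4]
  have h5 : 0 < lam * ρ (f (t * z)) ^ 3 + ‖t‖ ^ 2 *
        (ρ (f (t * z)) * Lim.lap ρ (f (t * z)) - Lim.gsq ρ (f (t * z))) := by
    have h6 := mul_le_mul_of_nonneg_left hcurv (sq_nonneg ‖t‖)
    have h7 : 0 < ρ (f (t * z)) ^ 3 := by positivity
    nlinarith only [h6, hml, h7]
  (clear * - hlam hF h5; positivity)

end Vale.Agent.P071
end
end
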