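import Vale.Agent.P071.MathlibUsed
import Vale.Agent.P071.Bdl.B3
import Vale.Agent.P071.Bdl.B2
import Vale.Agent.P071.Bdl.B1

set_option linter.all false

section

/-!
# Mollification in the plane
-/

open MeasureTheory Filter Topology
open scoped ContDiff InnerProductSpace ENNReal Convolution

namespace Vale.Agent.P071.Lim.Mol

/-- A sequence of bump functions shrinking to the origin. -/
noncomputable def bump (n : ℕ) : ContDiffBump (0 : ℂ) where
  rIn := 1 / (2 * ((n : ℝ) + 1))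
  rOut := 1 / ((n : ℝ) + 1)
  rIn_pos := by positivity
  rIn_lt_rOut := by
    have : (0 : ℝ) < (n : ℝ) + 1 := by positivity
    rw [div_lt_div_iff₀ (by positivity) this]
    linarith

/-- The normalized kernel. -/
noncomputable def ker (n : ℕ) : ℂ → ℝ := (bump n).normed volume

/-- Mollification. -/
noncomputable def moll (n : ℕ) (f : ℂ → ℝ) (x : ℂ) : ℝ := ∫ y, ker n (x - y) * f y

lemma ker_contDiff (n : ℕ) : ContDiff ℝ ∞ (ker n) := (bump n).contDiff_normed

lemma ker_cs (n : ℕ) : HasCompactSupport (ker n) := (bump n).hasCompactSupport_normed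

lemma ker_nonneg (n : ℕ) (x : ℂ) : 0 ≤ ker n x := (bump n).nonneg_normed x

lemma ker_int (n : ℕ) : ∫ x, ker n x = 1 := (bump n).integral_normed

lemma ker_zero {n : ℕ} {x : ℂ} (hx : 1 / ((n : ℝ) + 1) < ‖x‖) : ker n x = 0 := by
  have h := (bump n).tsupport_normed_eq (μ := volume)
  by_contra hne
  have h2 : x ∈ tsupport ((bump n).normed volume) := subset_tsupport _ hne
  rw [h, Metric.mem_closedBall, dist_zero_right] at h2
  have : (bump n).rOut = 1 / ((n : ℝ) + 1) := rfl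
  linarith only [hx, h2, this]

lemma moll_eq_conv (n : ℕ) (f : ℂ → ℝ) :
    moll n f = (ker n) ⋆[ContinuousLinearMap.lsmul ℝ ℝ, volume] f := by
  funext x
  rw [convolution_eq_swap]
  simp only [moll, ContinuousLinearMap.lsmul_apply, smul_eq_mul]

lemma moll_contDiff (n : ℕ) {f : ℂ → ℝ} (hf : LocallyIntegrable f) :
    ContDiff ℝ ∞ (moll n f) := by
  rw [moll_eq_conv]
  exact (ker_cs n).contDiff_convolution_left _ (ker_contDiff n) hf

lemma moll_zero {n : ℕ} {f : ℂ → ℝ} {R : ℝ} (hf : ∀ᵐ y : ℂ, R < ‖y‖ → f y = 0) {x : ℂ}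
    (hx : R + 1 / ((n : ℝ) + 1) < ‖x‖) : moll n f x = 0 := by
  unfold moll
  apply integral_eq_zero_of_ae
  filter_upwards [hf] with y hy
  by_cases h : R < ‖y‖
  · simp [hy h]
  · have : 1 / ((n : ℝ) + 1) < ‖x - y‖ := by
      have := norm_sub_norm_le x y
      linarith only [hx, h, this]
    simp [ker_zero this]

lemma ker_sub_contDiff (n : ℕ) (x : ℂ) : ContDiff ℝ ∞ (fun y => ker n (x - y)) :=
  (ker_contDiff n).comp (contDiff_const.sub contDiff_id)

lemma ker_sub_cs (n : ℕ) (x : ℂ) : HasCompactSupport (fun y => ker n (x - y)) := by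
  apply HasCompactSupport.intro (isCompact_closedBall x (1 / ((n : ℝ) + 1)))
  intro y hy
  rw [Metric.mem_closedBall, dist_eq_norm, not_le, norm_sub_rev] at hy
  exact ker_zero hy

lemma moll_eq_conv' (n : ℕ) (f : ℂ → ℝ) :
    moll n f = f ⋆[ContinuousLinearMap.mul ℝ ℝ, volume] (ker n) := by
  funext x
  rw [convolution_def]
  simp only [moll, ContinuousLinearMap.mul_apply']
  congr 1
  funext t
  ring

/-- Derivative of the mollification, from a local weak derivative. -/
lemma moll_deriv (n : ℕ) {e : ℂ} {f g : ℂ → ℝ} (hf : LocallyIntegrable f) (x : ℂ)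
    (h : ∫ y, f y * fderiv ℝ (fun y => ker n (x - y)) y e = - ∫ y, g y * ker n (x - y)) :
    fderiv ℝ (moll n f) x e = moll n g x := by
  have h1 := (ker_cs n).hasFDerivAt_convolution_right (ContinuousLinearMap.mul ℝ ℝ) hf
    ((ker_contDiff n).of_le (by norm_cast)) x (μ := volume)
  rw [← moll_eq_conv'] at h1
  rw [h1.fderiv, convolution_precompR_apply _ hf ((ker_cs n).fderiv ℝ)
    (((ker_contDiff n).of_le (by norm_cast) : ContDiff ℝ 1 (ker n)).continuous_fderiv (by norm_num)),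
    convolution_def]
  have h2 := h
  have h3 : ∀ y, fderiv ℝ (fun y => ker n (x - y)) y e = - fderiv ℝ (ker n) (x - y) e := by
    intro y
    have hd : HasFDerivAt (ker n) (fderiv ℝ (ker n) (x - y)) (x - y) :=
      (((ker_contDiff n).differentiable (by simp)) (x - y)).hasFDerivAt
    have hs : HasFDerivAt (fun y : ℂ => x - y) (-ContinuousLinearMap.id ℝ ℂ) y :=
      (hasFDerivAt_id y).const_sub x
    have := hd.comp y hs
    have e' : (fun y => ker n (x - y)) = ker n ∘ (fun y => x - y) := rfl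
    rw [e', this.fderiv]
    simp only [ContinuousLinearMap.comp_neg, ContinuousLinearMap.comp_id, neg_apply]
  simp_rw [h3] at h2
  simp only [mul_neg, integral_neg, neg_inj] at h2
  simp only [ContinuousLinearMap.mul_apply']
  rw [h2]
  unfold moll
  congr 1
  funext y
  ring

lemma cs_lintegral {a b : ℂ → ℝ≥0∞} (ha : AEMeasurable a) (hb : AEMeasurable b) :
    (∫⁻ y, a y * b y) ^ 2 ≤ (∫⁻ y, a y) * (∫⁻ y, a y * (b y) ^ 2) := by
  have h := ENNReal.lintegral_mul_le_Lp_mul_Lq (volume : Measure ℂ)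
    (Real.HolderConjugate.two_two) (f := fun y => (a y) ^ (1/2 : ℝ))
    (g := fun y => (a y) ^ (1/2 : ℝ) * b y) (ha.pow_const _) ((ha.pow_const _).mul hb)
  have e1 : ∀ y, (a y) ^ (1/2 : ℝ) * ((a y) ^ (1/2 : ℝ) * b y) = a y * b y := by
    intro y
    rw [← mul_assoc, ← ENNReal.rpow_add_of_nonneg _ _ (by norm_num) (by norm_num)]
    norm_num
  have e2 : ∀ y, ((a y) ^ (1/2 : ℝ)) ^ (2 : ℝ) = a y := by
    intro y
    rw [← ENNReal.rpow_mul]
    norm_num
  have e3 : ∀ y, ((a y) ^ (1/2 : ℝ) * b y) ^ (2 : ℝ) = a y * (b y) ^ 2 := by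
    intro y
    rw [ENNReal.mul_rpow_of_nonneg _ _ (by norm_num), e2]
    norm_num
  simp only [Pi.mul_apply, e1, e2, e3] at h
  calc (∫⁻ y, a y * b y) ^ 2
      ≤ ((∫⁻ y, a y) ^ (1 / 2 : ℝ) * (∫⁻ y, a y * (b y) ^ 2) ^ (1 / 2 : ℝ)) ^ 2 := by
        gcongr
    _ = (∫⁻ y, a y) * (∫⁻ y, a y * (b y) ^ 2) := by
        rw [mul_pow, ← ENNReal.rpow_natCast, ← ENNReal.rpow_natCast, ← ENNReal.rpow_mul,
          ← ENNReal.rpow_mul]
        norm_num

lemma ker_lint (n : ℕ) : ∫⁻ x, ‖ker n x‖ₑ = 1 := by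
  have h1 : Integrable (ker n) := (ker_contDiff n).continuous.integrable_of_hasCompactSupport
    (ker_cs n)
  have h2 := ofReal_integral_norm_eq_lintegral_enorm h1
  rw [← h2]
  simp_rw [Real.norm_of_nonneg (ker_nonneg n _)]
  rw [ker_int]
  simp

lemma ker_enorm_meas (n : ℕ) : Measurable (fun p : ℂ × ℂ => ‖ker n (p.1 - p.2)‖ₑ) :=
  (((ker_contDiff n).continuous.comp (continuous_fst.sub continuous_snd)).enorm).measurable

lemma moll_lint_le (n : ℕ) {f : ℂ → ℝ} (hf : AEStronglyMeasurable f volume) :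
    ∫⁻ x, ‖moll n f x‖ₑ ^ 2 ≤ ∫⁻ x, ‖f x‖ₑ ^ 2 := by
  have h1 : ∀ x, ‖moll n f x‖ₑ ^ 2 ≤ ∫⁻ y, ‖ker n (x - y)‖ₑ * ‖f y‖ₑ ^ 2 := by
    intro x
    have hm : Measurable (fun y => ‖ker n (x - y)‖ₑ) :=
      (((ker_contDiff n).continuous.comp (continuous_const.sub continuous_id)).enorm).measurable
    calc ‖moll n f x‖ₑ ^ 2 ≤ (∫⁻ y, ‖ker n (x - y)‖ₑ * ‖f y‖ₑ) ^ 2 := by
          gcongr
          refine (enorm_integral_le_lintegral_enorm _).trans ?_
          simp only [enorm_mul, le_refl]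
      _ ≤ (∫⁻ y, ‖ker n (x - y)‖ₑ) * (∫⁻ y, ‖ker n (x - y)‖ₑ * ‖f y‖ₑ ^ 2) :=
          cs_lintegral hm.aemeasurable hf.enorm
      _ = ∫⁻ y, ‖ker n (x - y)‖ₑ * ‖f y‖ₑ ^ 2 := by
          have : ∫⁻ y, ‖ker n (x - y)‖ₑ = 1 := by
            rw [lintegral_sub_left_eq_self (fun y => ‖ker n y‖ₑ) x]
            exact ker_lint n
          rw [this, one_mul]
  calc ∫⁻ x, ‖moll n f x‖ₑ ^ 2 ≤ ∫⁻ x, ∫⁻ y, ‖ker n (x - y)‖ₑ * ‖f y‖ₑ ^ 2 :=
        lintegral_mono h1
    _ = ∫⁻ y, ∫⁻ x, ‖ker n (x - y)‖ₑ * ‖f y‖ₑ ^ 2 := by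
        apply lintegral_lintegral_swap
        apply AEMeasurable.mul (ker_enorm_meas n).aemeasurable
        exact (hf.enorm.pow_const 2).comp_snd
    _ = ∫⁻ y, ‖f y‖ₑ ^ 2 := by
        congr 1
        funext y
        have hm : Measurable (fun x => ‖ker n (x - y)‖ₑ) :=
          (((ker_contDiff n).continuous.comp (continuous_id.sub continuous_const)).enorm).measurable
        rw [lintegral_mul_const _ hm,
          lintegral_sub_right_eq_self (fun x => ‖ker n x‖ₑ) y, ker_lint, one_mul]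

lemma moll_memLp (n : ℕ) {f : ℂ → ℝ} (hf : MemLp f 2) : MemLp (moll n f) 2 := by
  have hl : LocallyIntegrable f := hf.locallyIntegrable (by norm_num)
  refine ⟨(moll_contDiff n hl).continuous.aestronglyMeasurable, ?_⟩
  have h := moll_lint_le n hf.1
  rw [eLpNorm_lt_top_iff_lintegral_rpow_enorm_lt_top (by norm_num) (by norm_num)]
  have h2 := hf.2
  rw [eLpNorm_lt_top_iff_lintegral_rpow_enorm_lt_top (by norm_num) (by norm_num)] at h2
  simp only [ENNReal.toReal_ofNat] at h2 ⊢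
  norm_num at h2 ⊢
  exact lt_of_le_of_lt h h2

lemma moll_eLpNorm_le (n : ℕ) {f : ℂ → ℝ} (hf : AEStronglyMeasurable f volume) :
    eLpNorm (moll n f) 2 volume ≤ eLpNorm f 2 volume := by
  rw [eLpNorm_eq_lintegral_rpow_enorm_toReal (by norm_num) (by norm_num),
    eLpNorm_eq_lintegral_rpow_enorm_toReal (by norm_num) (by norm_num)]
  have h := moll_lint_le n hf
  apply ENNReal.rpow_le_rpow _ (by norm_num)
  simpa only [ENNReal.toReal_ofNat, ENNReal.rpow_ofNat] using h

lemma ker_mul_integrable (n : ℕ) {f : ℂ → ℝ} (hf : LocallyIntegrable f) (x : ℂ) :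
    Integrable (fun y => ker n (x - y) * f y) := by
  have := hf.integrable_smul_left_of_hasCompactSupport (ker_sub_contDiff n x).continuous
    (ker_sub_cs n x)
  simpa only [smul_eq_mul] using this

lemma moll_sub (n : ℕ) {f g : ℂ → ℝ} (hf : LocallyIntegrable f) (hg : LocallyIntegrable g)
    (x : ℂ) : moll n (fun y => f y - g y) x = moll n f x - moll n g x := by
  unfold moll
  rw [← integral_sub (ker_mul_integrable n hf x) (ker_mul_integrable n hg x)]
  congr 1
  funext y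
  ring

lemma ker_sub_int (n : ℕ) (x : ℂ) : ∫ y, ker n (x - y) = 1 := by
  have h := integral_sub_left_eq_self (ker n) (volume : Measure ℂ) x
  rw [h]
  exact ker_int n

lemma moll_dist_le (n : ℕ) {g : ℂ → ℝ} (hg : Continuous g) {δ η : ℝ} (hδ : 1 / ((n : ℝ) + 1) < δ)
    (hη : ∀ x y, dist x y < δ → |g x - g y| ≤ η) (x : ℂ) : |moll n g x - g x| ≤ η := by
  have hl : LocallyIntegrable g := hg.locallyIntegrable
  have e1 : moll n g x - g x = ∫ y, ker n (x - y) * (g y - g x) := by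
    have : g x = ∫ y, ker n (x - y) * g x := by
      rw [integral_mul_const, ker_sub_int, one_mul]
    conv_lhs => rw [this]
    unfold moll
    rw [← integral_sub (ker_mul_integrable n hl x)]
    · congr 1
      funext y
      ring
    · exact ((ker_sub_contDiff n x).continuous.integrable_of_hasCompactSupport
        (ker_sub_cs n x)).mul_const _
  rw [e1]
  have hi : Integrable (fun y => ker n (x - y)) :=
    (ker_sub_contDiff n x).continuous.integrable_of_hasCompactSupport (ker_sub_cs n x)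
  calc |∫ y, ker n (x - y) * (g y - g x)| ≤ ∫ y, ker n (x - y) * η := by
        rw [← Real.norm_eq_abs]
        refine norm_integral_le_of_norm_le (hi.mul_const η) ?_
        refine Eventually.of_forall fun y => ?_
        rw [Real.norm_eq_abs, abs_mul, abs_of_nonneg (ker_nonneg n _)]
        by_cases h : dist y x < δ
        · exact mul_le_mul_of_nonneg_left (hη y x h) (ker_nonneg n _)
        · have : ker n (x - y) = 0 := by
            apply ker_zero
            rw [dist_eq_norm, norm_sub_rev] at h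
            linarith only [hδ, h]
          simp [this]
    _ = η := by rw [integral_mul_const, ker_sub_int, one_mul]

lemma moll_tendsto_of_test {g : ℂ → ℝ} (hg : Continuous g) (hc : HasCompactSupport g) :
    Tendsto (fun n => eLpNorm (fun x => moll n g x - g x) 2 volume) atTop (𝓝 0) := by
  obtain ⟨R, hR⟩ : ∃ R : ℝ, ∀ x, R < ‖x‖ → g x = 0 := by
    obtain ⟨R, hR⟩ := hc.isCompact.isBounded.subset_closedBall (0 : ℂ)
    refine ⟨R, fun x hx => ?_⟩
    by_contra hne
    have := hR (subset_tsupport g hne)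
    rw [Metric.mem_closedBall, dist_zero_right] at this
    linarith
  have huc : UniformContinuous g := hc.uniformContinuous_of_continuous hg
  set V := volume (Metric.closedBall (0 : ℂ) (R + 1)) with hV
  have hVt : V ≠ ⊤ := (isCompact_closedBall (0 : ℂ) (R + 1)).measure_lt_top.ne
  rw [ENNReal.tendsto_nhds_zero]
  intro ε hε
  obtain ⟨η, hη, hηε⟩ : ∃ η : ℝ, 0 < η ∧ ENNReal.ofReal η * V ^ (1 / 2 : ℝ) ≤ ε := by
    have hc : V ^ (1 / 2 : ℝ) ≠ ⊤ := ENNReal.rpow_ne_top_of_nonneg (by norm_num) hVt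
    set c := (V ^ (1 / 2 : ℝ)).toReal with hcdef
    have hc0 : 0 ≤ c := ENNReal.toReal_nonneg
    have hm : min ε 1 ≠ ⊤ := ne_top_of_le_ne_top ENNReal.one_ne_top (min_le_right _ _)
    have hm0 : 0 < (min ε 1).toReal := ENNReal.toReal_pos (lt_min hε one_pos).ne' hm
    refine ⟨(min ε 1).toReal / (c + 1), by (clear * - hm0; positivity), ?_⟩
    rw [← ENNReal.ofReal_toReal hc, ← hcdef, ← ENNReal.ofReal_mul (by positivity)]
    calc ENNReal.ofReal ((min ε 1).toReal / (c + 1) * c) ≤ ENNReal.ofReal ((min ε 1).toReal) := by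
          apply ENNReal.ofReal_le_ofReal
          rw [div_mul_eq_mul_div, div_le_iff₀ (by positivity)]
          nlinarith only [hm0]
      _ = min ε 1 := ENNReal.ofReal_toReal hm
      _ ≤ ε := min_le_left _ _
  obtain ⟨δ, hδ, hδ2⟩ := Metric.uniformContinuous_iff.mp huc η hη
  have h1 : ∀ᶠ n : ℕ in atTop, 1 / ((n : ℝ) + 1) < δ :=
    tendsto_one_div_add_atTop_nhds_zero_nat.eventually_lt_const hδ
  filter_upwards [h1] with n hn
  have h2 : ∀ x, |moll n g x - g x| ≤ η := by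
    apply moll_dist_le n hg hn
    intro x y hxy
    exact (hδ2 hxy).le
  have h3 : ∀ x, x ∉ Metric.closedBall (0 : ℂ) (R + 1) → moll n g x - g x = 0 := by
    intro x hx
    rw [Metric.mem_closedBall, dist_zero_right, not_le] at hx
    have h4 : 1 / ((n : ℝ) + 1) ≤ 1 := by
      rw [div_le_one (by (clear * -; positivity))]
      have : (0:ℝ) ≤ n := by (clear * -; positivity)
      linarith only []
    rw [moll_zero (R := R) (Eventually.of_forall hR) (by linarith only [hx, h4]), hR x (by linarith only [hx])]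
    simp
  have h5 := eLpNorm_sub_le_of_dist_bdd (volume : Measure ℂ) (p := 2) (by norm_num)
    (Metric.isClosed_closedBall (x := (0 : ℂ)) (ε := R + 1)).measurableSet hη.le
    (f := fun x => moll n g x - g x) (g := fun _ => 0)
    (fun x => by simpa only [dist_zero_right, Real.norm_eq_abs] using h2 x)
    (fun x hx => by by_contra hne; exact hx (h3 x hne))
    (fun x hx => by simp at hx)
  calc eLpNorm (fun x => moll n g x - g x) 2 volume
      = eLpNorm ((fun x => moll n g x - g x) - fun _ => 0) 2 volume := by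
        congr 1; funext x; simp
    _ ≤ ENNReal.ofReal η * V ^ (1 / 2 : ℝ) := by
        simpa only [ENNReal.toReal_ofNat] using h5
    _ ≤ ε := hηε

/-- Mollifications converge in `L²`. -/
theorem moll_tendsto {f : ℂ → ℝ} (hf : MemLp f 2) :
    Tendsto (fun n => eLpNorm (fun x => moll n f x - f x) 2 volume) atTop (𝓝 0) := by
  rw [ENNReal.tendsto_nhds_zero]
  intro ε hε
  by_cases hεt : ε = ⊤
  · simp only [hεt, le_top, eventually_atTop, implies_true, exists_const]
  have hε3 : 0 < (ε / 3).toReal := ENNReal.toReal_pos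
    (ENNReal.div_pos hε.ne' (by norm_num)).ne' (ENNReal.div_ne_top hεt (by norm_num))
  obtain ⟨g, hgc, hgs, hg⟩ := hf.exist_eLpNorm_sub_le (by norm_num) (by norm_num) hε3
  rw [ENNReal.ofReal_toReal (ENNReal.div_ne_top hεt (by norm_num))] at hg
  have h1 := moll_tendsto_of_test hgs.continuous hgc
  rw [ENNReal.tendsto_nhds_zero] at h1
  have hgm : MemLp g 2 := hgs.continuous.memLp_of_hasCompactSupport hgc
  filter_upwards [h1 (ε / 3) (ENNReal.div_pos hε.ne' (by norm_num))] with n hn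
  have hlf := hf.locallyIntegrable (by norm_num)
  have hlg := hgm.locallyIntegrable (by norm_num)
  have e : (fun x => moll n f x - f x)
      = (fun x => moll n (fun y => f y - g y) x) + (fun x => moll n g x - g x)
        - (fun x => f x - g x) := by
    funext x
    simp only [Pi.add_apply, Pi.sub_apply]
    rw [moll_sub n hlf hlg]
    ring
  have hm1 : AEStronglyMeasurable (fun x => moll n (fun y => f y - g y) x) volume :=
    (moll_contDiff n (hlf.sub hlg)).continuous.aestronglyMeasurable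
  have hm2 : AEStronglyMeasurable (fun x => moll n g x - g x) volume :=
    ((moll_contDiff n hlg).continuous.sub hgs.continuous).aestronglyMeasurable
  have hm3 : AEStronglyMeasurable (fun x => f x - g x) volume := (hf.sub hgm).1
  rw [e]
  calc eLpNorm ((fun x => moll n (fun y => f y - g y) x) + (fun x => moll n g x - g x)
        - (fun x => f x - g x)) 2 volume
      ≤ eLpNorm ((fun x => moll n (fun y => f y - g y) x) + (fun x => moll n g x - g x)) 2 volume
        + eLpNorm (fun x => f x - g x) 2 volume := eLpNorm_sub_le (hm1.add hm2) hm3 (by norm_num)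
    _ ≤ (eLpNorm (fun x => moll n (fun y => f y - g y) x) 2 volume
        + eLpNorm (fun x => moll n g x - g x) 2 volume)
        + eLpNorm (fun x => f x - g x) 2 volume := by
          gcongr
          exact eLpNorm_add_le hm1 hm2 (by norm_num)
    _ ≤ (ε / 3 + ε / 3) + ε / 3 := by
          gcongr
          · exact (moll_eLpNorm_le n hm3).trans hg
          · exact hg
    _ = ε := ENNReal.add_thirds ε

end Vale.Agent.P071.Lim.Mol
end

section

/-!
# Consequences of the key identity, and the open step calculus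
-/

open scoped ComplexConjugate Topology
open Filter Metric

noncomputable section

namespace Vale.Agent.P071

section Pair

variable {u v k ψ : ℂ → ℝ} {p q p1 q1 k1 : ℂ → ℂ}

/-- `∂bar ∂ ψ = -J/2`. -/
theorem PairAt.hasW_psi {z : ℂ} (H : PairAt u v k ψ p q p1 q1 k1 z) :
    ∃ m, HasW (fun w => Complex.I * (u w * q w - v w * p w)) m
      ((-(jac (p z) (q z)) / 2 : ℝ) : ℂ) z := by
  have hu := H.hu.self_of_nhds
  have hv := H.hv.self_of_nhds
  have hp := H.hp.self_of_nhds
  have hq := H.hq.self_of_nhds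
  refine ⟨_, (((hu.mul hq).sub (hv.mul hp)).const_mul Complex.I).congr rfl ?_⟩
  push_cast
  rw [jac_eq]
  ring

theorem supHarm_psi {U : Set ℂ} (H : ∀ z ∈ U, PairAt u v k ψ p q p1 q1 k1 z)
    (hJ : ∀ z ∈ U, 0 ≤ jac (p z) (q z)) : SupHarm ψ U := by
  refine ⟨fun w => Complex.I * (u w * q w - v w * p w),
    fun z => ((-(jac (p z) (q z)) / 2 : ℝ) : ℂ), fun z hz => ⟨?_, (H z hz).hasW_psi, ?_⟩⟩
  · exact (H z hz).hψ.self_of_nhds
  · rw [Complex.ofReal_re]
    have := hJ z hz
    linarith only [this]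

/-- If `J > 0` in the disc and `τ ≥ 0` on the circle then `J ≥ (k/2) ψ`. -/
theorem jac_ge (H : ∀ z, ‖z‖ < 1 → PairAt u v k ψ p q p1 q1 k1 z)
    (hp1 : ∀ z, ‖z‖ < 1 → ∃ m, HasW p1 m (-(k1 z * u z + k z * p z) / 4) z)
    (hq1 : ∀ z, ‖z‖ < 1 → ∃ m, HasW q1 m (-(k1 z * v z + k z * q z) / 4) z)
    (hk1 : ∀ z, ‖z‖ < 1 → ∃ (m : ℂ) (k11 : ℝ), HasW k1 m (k11 : ℂ) z ∧
      0 < k z ^ 3 + 4 * (k11 * k z - Complex.normSq (k1 z)))
    (hJ : ∀ z, ‖z‖ < 1 → 0 < jac (p z) (q z))
    (hkpos : ∀ z, ‖z‖ ≤ 1 → 0 < k z)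
    (hcont : ContinuousOn (fun w => jac (p w) (q w) / k w - ψ w / 2) (closedBall 0 1))
    (hb : ∀ z, ‖z‖ = 1 → k z / 2 * ψ z ≤ jac (p z) (q z)) :
    ∀ z, ‖z‖ ≤ 1 → k z / 2 * ψ z ≤ jac (p z) (q z) := by
  have hτ := min_principle_disc hcont (fun z hz => by
      have h1 := hb z hz
      have h2 := hkpos z hz.le
      have h3 : ψ z / 2 ≤ jac (p z) (q z) / k z := by
        rw [le_div_iff₀ h2]; linarith only [h1]
      linarith only [h3])
    (fun z hz _ => by
      obtain ⟨m1, h1⟩ := hp1 z hz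
      obtain ⟨m2, h2⟩ := hq1 z hz
      obtain ⟨m3, k11, h3, h4⟩ := hk1 z hz
      exact (H z hz).not_isLocalMin h1 h2 h3 h4 (hJ z hz))
  intro z hz
  have h1 := hτ z hz
  have h2 := hkpos z hz
  have h3 : ψ z / 2 ≤ jac (p z) (q z) / k z := by linarith
  rw [le_div_iff₀ h2] at h3
  linarith

/-- If `J ≥ (k/2) ψ` and `ψ ≥ 0`, then `J ≥ c (1 - |z|²)`, unless `ψ = 0`. -/
theorem jac_lower (H : ∀ z, ‖z‖ < 1 → PairAt u v k ψ p q p1 q1 k1 z)
    (hkpos : ∃ κ > 0, ∀ z, ‖z‖ ≤ 1 → κ ≤ k z)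
    (hge : ∀ z, ‖z‖ ≤ 1 → k z / 2 * ψ z ≤ jac (p z) (q z))
    (hψ0 : ∀ z, ‖z‖ ≤ 1 → 0 ≤ ψ z) (hcont : ContinuousOn ψ (closedBall 0 1))
    (hne : ∃ z, ‖z‖ < 1 ∧ 0 < ψ z) :
    ∃ ε > 0, ∀ z, ‖z‖ ≤ 1 → ε * (1 - ‖z‖ ^ 2) ≤ jac (p z) (q z) := by
  obtain ⟨κ, hκ, hk⟩ := hkpos
  have hJ : ∀ z ∈ ball (0 : ℂ) 1, 0 ≤ jac (p z) (q z) := fun z hz => by
    have hz' : ‖z‖ ≤ 1 := (mem_ball_zero_iff.1 hz).le
    exact le_trans (mul_nonneg (by linarith only [hκ, hk z hz']) (hψ0 z hz')) (hge z hz')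
  obtain ⟨ε, hε, h⟩ := hopf_disc hcont
    (supHarm_psi (fun z hz => H z (mem_ball_zero_iff.1 hz)) hJ) hψ0 hne
  refine ⟨κ / 2 * ε, by positivity, fun z hz => ?_⟩
  calc κ / 2 * ε * (1 - ‖z‖ ^ 2) = κ / 2 * (ε * (1 - ‖z‖ ^ 2)) := by ring
    _ ≤ κ / 2 * ψ z := by gcongr; exact h z hz
    _ ≤ k z / 2 * ψ z := by
        have := hψ0 z hz
        have := hk z hz
        gcongr
    _ ≤ jac (p z) (q z) := hge z hz

end Pair

/-! ### The open step -/

/-- `C¹`-stability of positivity in the open disc: if `F n → F` and the radial derivatives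
`G n → G` uniformly on the closed disc, `F n ≥ 0` on the circle and `F ≥ ε (1 - |z|²)`, then
`F n > 0` in the open disc for large `n`. -/
theorem open_step {F G : ℕ → ℂ → ℝ} {F' G' : ℂ → ℝ}
    (hFc : ∀ n, ContinuousOn (F n) (closedBall 0 1)) (hF'c : ContinuousOn F' (closedBall 0 1))
    (hder : ∀ n z, ‖z‖ < 1 → HasDerivAt (fun t : ℝ => F n (t * z)) (G n z) 1)
    (hder' : ∀ z, ‖z‖ < 1 → HasDerivAt (fun t : ℝ => F' (t * z)) (G' z) 1)
    (hG'c : ContinuousOn G' (closedBall 0 1))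
    (hF : TendstoUniformlyOn F F' atTop (closedBall 0 1))
    (hG : TendstoUniformlyOn G G' atTop (closedBall 0 1))
    (hb : ∀ n z, ‖z‖ = 1 → 0 ≤ F n z)
    {ε : ℝ} (hε : 0 < ε) (hlow : ∀ z, ‖z‖ ≤ 1 → ε * (1 - ‖z‖ ^ 2) ≤ F' z) :
    ∀ᶠ n in atTop, ∀ z, ‖z‖ < 1 → 0 < F n z := by
  -- mean value along radii
  have hmv : ∀ {f g : ℂ → ℝ}, ContinuousOn f (closedBall 0 1) →
      (∀ z, ‖z‖ < 1 → HasDerivAt (fun t : ℝ => f (t * z)) (g z) 1) →
      ∀ y : ℂ, ‖y‖ = 1 → ∀ s ∈ Set.Ioo (0 : ℝ) 1, ∃ t ∈ Set.Ioo s 1,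
        f y - f (s * y) = g (t * y) / t * (1 - s) := by
    intro f g hfc hfd y hy s hs
    have hnorm : ∀ t : ℝ, 0 ≤ t → ‖(t : ℂ) * y‖ = t := fun t ht => by
      rw [norm_mul, hy, mul_one, Complex.norm_real, Real.norm_eq_abs, abs_of_nonneg ht]
    have hd : ∀ t ∈ Set.Ioo s 1, HasDerivAt (fun t : ℝ => f (t * y)) (g (t * y) / t) t := by
      intro t ht
      have ht0 : 0 < t := hs.1.trans ht.1
      have h1 := hfd (t * y) (by rw [hnorm t ht0.le]; exact ht.2)
      have h2 : HasDerivAt (fun r : ℝ => r / t) (1 / t) t := by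
        simpa only [one_div, id_eq] using (hasDerivAt_id t).div_const t
      have h3 : HasDerivAt (fun r : ℝ => f (r * (t * y))) (g (t * y)) (t / t) := by
        rw [div_self ht0.ne']; exact h1
      have h4 := HasDerivAt.comp t (h₂ := fun r : ℝ => f (r * (t * y))) (h := fun r : ℝ => r / t)
        h3 h2
      refine (h4.congr_of_eventuallyEq (Eventually.of_forall fun r => ?_)).congr_deriv (by ring)
      show f (r * y) = f (((r / t : ℝ) : ℂ) * (t * y))
      congr 1
      have : (t : ℂ) ≠ 0 := Complex.ofReal_ne_zero.2 ht0.ne'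
      push_cast
      (clear * - this; field_simp)
    have hcc : ContinuousOn (fun t : ℝ => f (t * y)) (Set.Icc s 1) := by
      refine hfc.comp (by (clear * -; fun_prop)) fun t ht => ?_
      rw [mem_closedBall_zero_iff, hnorm t (hs.1.le.trans ht.1)]
      exact ht.2
    obtain ⟨t, ht, h5⟩ := exists_hasDerivAt_eq_slope (fun t : ℝ => f (t * y))
      (fun t => g (t * y) / t) hs.2 hcc hd
    refine ⟨t, ht, ?_⟩
    have h6 : (1 - s) ≠ 0 := by linarith only [hs.2]
    rw [h5, div_mul_cancel₀ _ h6]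
    simp
  -- the limit derivative at boundary zeros
  have hzero : ∀ y : ℂ, ‖y‖ = 1 → F' y ≤ 0 → G' y ≤ -ε := by
    intro y hy hFy
    by_contra hcon
    push Not at hcon
    have hyc : ContinuousWithinAt G' (closedBall 0 1) y :=
      hG'c y (by rw [mem_closedBall_zero_iff, hy])
    have hnorm : ∀ t : ℝ, 0 ≤ t → ‖(t : ℂ) * y‖ = t := fun t ht => by
      rw [norm_mul, hy, mul_one, Complex.norm_real, Real.norm_eq_abs, abs_of_nonneg ht]
    have ht1 : Tendsto (fun t : ℝ => (t : ℂ) * y) (𝓝[Set.Icc 0 1] 1) (𝓝[closedBall 0 1] y) := by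
      refine tendsto_nhdsWithin_iff.2 ⟨?_, ?_⟩
      · have : Continuous fun t : ℝ => (t : ℂ) * y := by fun_prop
        have h := this.tendsto 1
        simp only [Complex.ofReal_one, one_mul] at h
        exact h.mono_left nhdsWithin_le_nhds
      · filter_upwards [self_mem_nhdsWithin] with t ht
        rw [mem_closedBall_zero_iff, hnorm t ht.1]
        exact ht.2
    have h2 : Tendsto (fun t : ℝ => G' (t * y) / t) (𝓝[Set.Icc 0 1] 1) (𝓝 (G' y / 1)) := by
      refine (hyc.tendsto.comp ht1).div ?_ one_ne_zero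
      exact (continuous_id.tendsto (1 : ℝ)).mono_left nhdsWithin_le_nhds
    rw [div_one] at h2
    have h3 : ∀ᶠ t : ℝ in 𝓝[Set.Icc (0 : ℝ) 1] 1, -ε < G' (t * y) / t :=
      h2.eventually (lt_mem_nhds hcon)
    obtain ⟨δ, hδ, hδ1⟩ := Metric.mem_nhdsWithin_iff.1 h3
    set s := max (1 / 2) (1 - δ / 2) with hs
    have hs0 : 0 < s := lt_of_lt_of_le (by norm_num) (le_max_left _ _)
    have hs1 : s < 1 := max_lt (by norm_num) (by linarith only [hδ])
    obtain ⟨t, ht, h4⟩ := hmv hF'c hder' y hy s ⟨hs0, hs1⟩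
    have h5 : -ε < G' (t * y) / t := by
      refine hδ1 ⟨?_, (hs0.trans ht.1).le, ht.2.le⟩
      rw [mem_ball, Real.dist_eq, abs_sub_comm, abs_of_pos (by linarith only [ht.2])]
      have := le_max_right (1 / 2) (1 - δ / 2)
      linarith only [hs1, this, ht.1]
    have h6 := hlow (s * y) (by rw [hnorm s hs0.le]; exact hs1.le)
    rw [hnorm s hs0.le] at h6
    have h7 : G' (t * y) / t * (1 - s) > -ε * (1 - s) := by
      apply mul_lt_mul_of_pos_right h5; linarith only [hs1]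
    have h8 := mul_pos (mul_pos hε (by linarith only [hs1] : 0 < 1 - s)) hs0
    linarith
  -- contradiction argument
  by_contra hcon
  have hfr : ∃ᶠ n in atTop, ∃ z, ‖z‖ < 1 ∧ F n z ≤ 0 := by
    refine (Filter.not_eventually.1 hcon).mono fun n hn => ?_
    push Not at hn
    exact hn
  obtain ⟨φ, hφ, hφ1⟩ := Filter.extraction_of_frequently_atTop hfr
  choose z hz hFz using hφ1
  obtain ⟨y, hy, θ, hθ, hlim⟩ := (isCompact_closedBall (0 : ℂ) 1).tendsto_subseq
    (fun n => show z n ∈ closedBall 0 1 by rw [mem_closedBall_zero_iff]; exact (hz n).le)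
  have hy1 : ‖y‖ ≤ 1 := by simpa only [mem_closedBall, dist_zero_right] using hy
  have hmem : ∀ n, z (θ n) ∈ closedBall (0 : ℂ) 1 := fun n => by
    rw [mem_closedBall_zero_iff]; exact (hz _).le
  have hφθ : Tendsto (fun n => φ (θ n)) atTop atTop := hφ.tendsto_atTop.comp hθ.tendsto_atTop
  have hlimw : Tendsto (fun n => z (θ n)) atTop (𝓝[closedBall 0 1] y) :=
    tendsto_nhdsWithin_iff.2 ⟨hlim, Eventually.of_forall hmem⟩
  -- F' y ≤ 0
  have hF1 : Tendsto (fun n => F (φ (θ n)) (z (θ n))) atTop (𝓝 (F' y)) := by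
    have h1 := (hF'c y hy).tendsto.comp hlimw
    have h2 : Tendsto (fun n => F (φ (θ n)) (z (θ n)) - F' (z (θ n))) atTop (𝓝 0) := by
      rw [Metric.tendsto_atTop]
      intro e he
      obtain ⟨N, hN⟩ := (hφθ.eventually (Metric.tendstoUniformlyOn_iff.1 hF e he)).exists_forall_of_atTop
      refine ⟨N, fun n hn => ?_⟩
      have := hN n hn (z (θ n)) (hmem n)
      rw [Real.dist_eq, sub_zero]
      rw [dist_comm, Real.dist_eq] at this
      exact this
    have h3 := h2.add h1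
    simp only [Function.comp_def, sub_add_cancel, zero_add] at h3
    exact h3
  have hF2 : F' y ≤ 0 := le_of_tendsto hF1 (Eventually.of_forall fun n => hFz (θ n))
  have hyn : ‖y‖ = 1 := by
    by_contra hne
    have hlt : ‖y‖ < 1 := lt_of_le_of_ne hy1 hne
    have h1 := hlow y hy1
    have h2 : 0 < ε * (1 - ‖y‖ ^ 2) := by
      have : ‖y‖ ^ 2 < 1 := by nlinarith only [hlt, norm_nonneg y]
      have h3 : 0 < 1 - ‖y‖ ^ 2 := by linarith
      (clear * - hε this; positivity)
    linarith only [hF2, h1, h2]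
  have hGy := hzero y hyn hF2
  -- G n < 0 near y
  have hG1 : ∀ᶠ w in 𝓝[closedBall (0 : ℂ) 1] y, G' w < -ε / 2 :=
    (hG'c y hy).tendsto.eventually (gt_mem_nhds (by linarith only [hε, hGy]))
  obtain ⟨δ, hδ, hδ1⟩ := Metric.mem_nhdsWithin_iff.1 hG1
  have hG2 : ∀ᶠ n in atTop, ∀ w ∈ closedBall (0 : ℂ) 1, dist (G' w) (G n w) < ε / 2 :=
    Metric.tendstoUniformlyOn_iff.1 hG (ε / 2) (by linarith only [hε])
  have hev := ((hφθ.eventually hG2).and ((Metric.tendsto_nhds.1 hlim (min (δ / 2) (1 / 2))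
    (by (clear * - hδ; positivity))))).exists
  obtain ⟨n, hn1, hn2⟩ := hev
  simp only [Function.comp_def] at hn2
  set w := z (θ n) with hw
  have hwy : ‖w - y‖ < min (δ / 2) (1 / 2) := by rw [← dist_eq_norm]; exact hn2
  have hwδ : ‖w - y‖ < δ / 2 := lt_of_lt_of_le hwy (min_le_left _ _)
  have hwh : ‖w - y‖ < 1 / 2 := lt_of_lt_of_le hwy (min_le_right _ _)
  have hw1 : ‖w‖ < 1 := hz (θ n)
  have hw0 : 0 < ‖w‖ := by
    have := norm_sub_norm_le y w
    rw [norm_sub_rev] at this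
    linarith only [hyn, hwh, this]
  have hw1' : 1 - ‖w‖ ≤ ‖w - y‖ := by
    have := norm_sub_norm_le y w
    rw [norm_sub_rev] at this
    linarith only [hyn, this]
  set y' : ℂ := w / ‖w‖ with hy'
  have hwc : (‖w‖ : ℂ) ≠ 0 := Complex.ofReal_ne_zero.2 hw0.ne'
  have hy'n : ‖y'‖ = 1 := by
    rw [hy', norm_div, Complex.norm_real, norm_norm, div_self hw0.ne']
  have hwy' : (‖w‖ : ℂ) * y' = w := by rw [hy']; (clear * - hwc; field_simp)
  obtain ⟨t, ht, h8⟩ := hmv (hFc (φ (θ n))) (hder (φ (θ n))) y' hy'n ‖w‖ ⟨hw0, hw1⟩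
  rw [hwy'] at h8
  have ht0 : 0 < t := hw0.trans ht.1
  have htn : ‖(t : ℂ) * y'‖ = t := by
    rw [norm_mul, hy'n, mul_one, Complex.norm_real, Real.norm_eq_abs, abs_of_pos ht0]
  have htw : ‖(t : ℂ) * y' - w‖ ≤ 1 - ‖w‖ := by
    have : (t : ℂ) * y' - w = ((t - ‖w‖ : ℝ) : ℂ) * y' := by
      push_cast
      rw [sub_mul, hwy']
    rw [this, norm_mul, hy'n, mul_one, Complex.norm_real, Real.norm_eq_abs,
      abs_of_pos (by linarith only [ht.1])]
    linarith only [ht.2]
  have hmemt : (t : ℂ) * y' ∈ closedBall (0 : ℂ) 1 := by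
    rw [mem_closedBall_zero_iff, htn]; exact ht.2.le
  have h9 : G' (t * y') < -ε / 2 := by
    refine hδ1 ⟨?_, hmemt⟩
    rw [mem_ball, dist_eq_norm]
    calc ‖(t : ℂ) * y' - y‖ = ‖((t : ℂ) * y' - w) + (w - y)‖ := by ring_nf
      _ ≤ ‖(t : ℂ) * y' - w‖ + ‖w - y‖ := norm_add_le _ _
      _ < δ := by linarith only [hwδ, hw1', htw]
  have h10 := hn1 (t * y') hmemt
  rw [Real.dist_eq] at h10
  have h11 : G (φ (θ n)) (t * y') < 0 := by
    have := (abs_lt.1 h10).1
    linarith only [h9, this]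
  have h12 : 0 ≤ F (φ (θ n)) y' := hb _ y' hy'n
  have h13 : F (φ (θ n)) w ≤ 0 := hFz (θ n)
  have h14 : G (φ (θ n)) (t * y') / t * (1 - ‖w‖) < 0 := by
    have h15 : G (φ (θ n)) (t * y') / t < 0 := div_neg_of_neg_of_pos h11 ht0
    have h16 : 0 < 1 - ‖w‖ := by linarith only [hw1]
    exact mul_neg_of_neg_of_pos h15 h16
  linarith only [h8, h12, h13, h14]

end Vale.Agent.P071
end
end

section

/-!
# Block G (the continuity method): definitions

Weights `w : Y 8` are normalised so that the first nonzero Neumann eigenvalue of `-Δu = w u` on the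
unit disc is `1`. First eigenfunctions are `u : Y 8`, companions are `v : Y 4`.
-/

open scoped ComplexConjugate Topology Real
open Filter Metric MeasureTheory

noncomputable section

namespace Vale.Agent.P071.G

variable {p : ℕ}

/-- The real value of a (real) series. -/
def rv (a : Y p) (z : ℂ) : ℝ := (ev a z).re

/-- The inclusions `Y 8 → Y 4` etc. -/
abbrev i84 : Y 8 →L[ℂ] Y 4 := incl (by norm_num)
abbrev i43 : Y 4 →L[ℂ] Y 3 := incl (by norm_num)
abbrev i86 : Y 8 →L[ℂ] Y 6 := incl (by norm_num)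
abbrev i82 : Y 8 →L[ℂ] Y 2 := incl (by norm_num)
abbrev i42 : Y 4 →L[ℂ] Y 2 := incl (by norm_num)

/-- `w u v` paired: `(1/π) ∫_D w u v`. -/
def ip (w : Y 8) (a b : Y 4) : ℂ := I 4 (i84 w * (a * b))

/-- Admissible weights: real, positive on the closed disc, `Δ log w + w > 0` in the disc, and the
Neumann Poincare inequality with constant `1`. -/
structure AdW (w : Y 8) : Prop where
  real : cj w = w
  pos : ∀ z : ℂ, ‖z‖ ≤ 1 → 0 < rv w z
  curv : ∀ z : ℂ, ‖z‖ < 1 → 0 < rv w z ^ 3 +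
    4 * ((ev (dzb 6 (dz 7 w)) z).re * rv w z - Complex.normSq (ev (dz 7 w) z))
  poinc : ∀ a : Y 4, cj a = a → I 4 (i84 w * a) = 0 → (ip w a a).re ≤ (Dir 3 a a).re

/-- `u` is a real solution of `-Δu = w u` in the disc with zero normal derivative. -/
structure IsV (w u : Y 8) : Prop where
  real : cj u = u
  eqn : lap 6 u = -(i86 w * i86 u)
  neu : ∀ z : ℂ, ‖z‖ = 1 → ev (Rad 7 u) z = 0

/-- `v` is a real solution of `-Δv = w v` in the disc with normal derivative `h`. -/
structure IsC (w : Y 8) (v : Y 4) (h : ℂ → ℝ) : Prop where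
  real : cj v = v
  eqn : lap 2 v = -(i82 w * i42 v)
  neu : ∀ z : ℂ, ‖z‖ = 1 → ev (Rad 3 v) z = (h z : ℂ)

/-- `d² = min over the circle of u² + 28 u_τ² / w`. -/
def D2 (w u : Y 8) : ℝ :=
  sInf ((fun z : ℂ => rv u z ^ 2 + 28 * rv (Ang 7 u) z ^ 2 / rv w z) '' sphere (0 : ℂ) 1)

/-- The profile `g(x) = ((d² - x²)_+)^6`. -/
def gg (d x : ℝ) : ℝ := max (d - x ^ 2) 0 ^ 6

/-- `Γ(x) = ∫_{|x|}^∞ t g(t) dt = ((d² - x²)_+)^7 / 14`. -/
def Gam (d x : ℝ) : ℝ := max (d - x ^ 2) 0 ^ 7 / 14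

/-- The source `h = g(u) u_τ`. -/
def src (w u : Y 8) (z : ℂ) : ℝ := gg (D2 w u) (rv u z) * rv (Ang 7 u) z

/-- `J = v_x u_y - v_y u_x`. -/
def J (u v : Y 4) (z : ℂ) : ℝ := jac (ev (dz 3 u) z) (ev (dz 3 v) z)

/-- The primitive of a closed form `α dz + β d(conj z)`: the coefficients. -/
def prim (α β : Y 3) : Y 4 :=
  mk fun i => if i = 0 then 0 else
    ((if i.1 = 0 then 0 else cf α (i.1 - 1, i.2)) + (if i.2 = 0 then 0 else cf β (i.1, i.2 - 1))) /
      ((i.1 : ℂ) + i.2)

/-- `α = i (u ∂v - v ∂u)`. -/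
def alpha (u v : Y 4) : Y 3 := Complex.I • (i43 u * dz 3 v - i43 v * dz 3 u)

/-- The stream function of `u ∇v - v ∇u`, up to a constant. -/
def psi0 (u v : Y 4) : Y 4 := prim (alpha u v) (cj (alpha u v))

/-- The stream function `ψ`, normalised by `ψ = c Γ(u)` on the circle. -/
def psi (w u : Y 8) (v : Y 4) (c : ℝ) (z : ℂ) : ℝ :=
  rv (psi0 (i84 u) v) z - rv (psi0 (i84 u) v) 1 + c * Gam (D2 w u) (rv u 1)

/-- Good triples: `J ≥ (w/2) ψ` on the closed disc and `ψ > 0` inside. -/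
structure Good (w u : Y 8) (v : Y 4) (c : ℝ) : Prop where
  ge : ∀ z : ℂ, ‖z‖ ≤ 1 → rv w z / 2 * psi w u v c z ≤ J (i84 u) v z
  pos : ∀ z : ℂ, ‖z‖ < 1 → 0 < psi w u v c z

/-- `σ(u,v) = ∮ g(u) u_τ v`. -/
def sig (w u : Y 8) (v : Y 4) : ℝ :=
  ∫ t in (-π)..π, src w u (Complex.exp (t * Complex.I)) * rv v (Complex.exp (t * Complex.I))

/-- Triples: `u` an eigenfunction, `v` a solution with normal derivative `c h`. -/
structure Tri (w u : Y 8) (v : Y 4) (c : ℝ) : Prop where
  hu : IsV w u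
  hv : IsC w v (fun z => c * src w u z)
  hc : 0 ≤ c

/-- Admissible normalised triples. -/
structure Adm (w u : Y 8) (v : Y 4) (c : ℝ) : Prop extends Tri w u v c where
  norm_u : ‖u‖ = 1
  zero : ∃ z : ℂ, ‖z‖ = 1 ∧ rv u z = 0
  orth : ip w (i84 u) v = 0
  norm_v : ‖v‖ + c = 1
  sig : 0 ≤ sig w u v

/-- The Dirichlet inequality. -/
def DI (w : Y 8) : Prop := ∀ a : Y 4, cj a = a → (∀ z : ℂ, ‖z‖ = 1 → ev a z = 0) →
  (ip w a a).re ≤ (Dir 3 a a).re

/-- Good weights. -/
def GoodW (w : Y 8) : Prop := ∃ (u : Y 8) (v : Y 4) (c : ℝ), Adm w u v c ∧ Good w u v c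

end Vale.Agent.P071.G
end
end

section

/-!
# Block G, task G-PRIM: primitives of closed forms and the stream function
-/

open scoped ComplexConjugate Topology Real
open Filter Metric MeasureTheory

noncomputable section

namespace Vale.Agent.P071.G

/-! ### The primitive as a sum of two continuous linear maps -/

theorem primA_bound (i : Ix) :
    ‖(1 / ((i.1 : ℂ) + 1 + i.2)) • e 4 (i.1 + 1, i.2)‖ ≤ 16 * wt 3 i := by
  rw [norm_smul, norm_e, norm_div, norm_one]
  have h1 : ‖((i.1 : ℂ) + 1 + i.2)‖ = (i.1 : ℝ) + 1 + i.2 := by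
    have : ((i.1 : ℂ) + 1 + i.2) = (((i.1 + 1 + i.2 : ℕ) : ℝ) : ℂ) := by push_cast; ring
    rw [this, Complex.norm_real, Real.norm_eq_abs, abs_of_nonneg (Nat.cast_nonneg _)]
    push_cast
    ring
  rw [h1]
  unfold wt
  have h2 : (0 : ℝ) ≤ i.1 := Nat.cast_nonneg _
  have h3 : (0 : ℝ) ≤ i.2 := Nat.cast_nonneg _
  have h4 : (0 : ℝ) < (i.1 : ℝ) + 1 + i.2 := by linarith only []
  rw [div_mul_eq_mul_div, one_mul, div_le_iff₀ h4]
  push_cast
  calc (1 + ((i.1 : ℝ) + 1) + i.2) ^ 4 ≤ (2 * (1 + (i.1 : ℝ) + i.2)) ^ 4 := by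
        gcongr
        linarith only []
    _ = 16 * (1 + (i.1 : ℝ) + i.2) ^ 3 * ((i.1 : ℝ) + 1 + i.2) := by ring

theorem primB_bound (i : Ix) :
    ‖(1 / ((i.1 : ℂ) + 1 + i.2)) • e 4 (i.1, i.2 + 1)‖ ≤ 16 * wt 3 i := by
  refine le_trans (le_of_eq ?_) (primA_bound i)
  rw [norm_smul, norm_smul, norm_e, norm_e]
  congr 1
  unfold wt
  push_cast
  ring

/-- first part of the primitive -/
def primA : Y 3 →L[ℂ] Y 4 :=
  lift (fun i => (1 / ((i.1 : ℂ) + 1 + i.2)) • e 4 (i.1 + 1, i.2)) 16 (by norm_num) primA_bound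

/-- second part of the primitive -/
def primB : Y 3 →L[ℂ] Y 4 :=
  lift (fun i => (1 / ((i.1 : ℂ) + 1 + i.2)) • e 4 (i.1, i.2 + 1)) 16 (by norm_num) primB_bound

theorem primA_e (i : Ix) : primA (e 3 i) = (1 / ((i.1 : ℂ) + 1 + i.2)) • e 4 (i.1 + 1, i.2) :=
  lift_e _ _ _ _ _

theorem primB_e (i : Ix) : primB (e 3 i) = (1 / ((i.1 : ℂ) + 1 + i.2)) • e 4 (i.1, i.2 + 1) :=
  lift_e _ _ _ _ _

theorem cf_primA (α : Y 3) (i : Ix) :
    cf (primA α) i = (if i.1 = 0 then 0 else cf α (i.1 - 1, i.2)) / ((i.1 : ℂ) + i.2) := by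
  rcases i with ⟨m, n⟩
  rcases m with _ | m
  · have : (cfL 4 (0, n)).comp primA = 0 := Y.clm_ext fun j => by
      rw [ContinuousLinearMap.comp_apply, primA_e, map_smul, cfL_apply, cf_e, if_neg]
      · simp
      · intro h
        have := congrArg Prod.fst h
        simp at this
    have h2 := congrArg (fun T : Y 3 →L[ℂ] ℂ => T α) this
    simpa only [↓reduceIte, CharP.cast_eq_zero, zero_add, zero_div, ContinuousLinearMap.comp_apply, cfL_apply,     zero_apply] using h2
  · have : (cfL 4 (m + 1, n)).comp primA = (1 / ((m : ℂ) + 1 + n)) • cfL 3 (m, n) :=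
      Y.clm_ext fun j => by
        rw [ContinuousLinearMap.comp_apply, primA_e, map_smul, cfL_apply, cf_e, smul_apply,
          cfL_apply, cf_e]
        rcases j with ⟨a, b⟩
        by_cases h : m = a ∧ n = b
        · rw [h.1, h.2]
          simp
        · rw [if_neg, if_neg]
          · simp
          · intro h'
            exact h ⟨congrArg Prod.fst h', congrArg Prod.snd h'⟩
          · intro h'
            have h1 := congrArg Prod.fst h'
            have h2 := congrArg Prod.snd h'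
            simp only [Nat.add_right_cancel_iff] at h1 h2
            exact h ⟨h1, h2⟩
    have h2 := congrArg (fun T : Y 3 →L[ℂ] ℂ => T α) this
    simp only [ContinuousLinearMap.comp_apply, cfL_apply, smul_apply, smul_eq_mul] at h2
    rw [h2]
    simp only [Nat.add_sub_cancel, Nat.add_eq_zero_iff, one_ne_zero, and_false, if_false]
    push_cast
    ring

theorem cf_primB (β : Y 3) (i : Ix) :
    cf (primB β) i = (if i.2 = 0 then 0 else cf β (i.1, i.2 - 1)) / ((i.1 : ℂ) + i.2) := by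
  rcases i with ⟨m, n⟩
  rcases n with _ | n
  · have : (cfL 4 (m, 0)).comp primB = 0 := Y.clm_ext fun j => by
      rw [ContinuousLinearMap.comp_apply, primB_e, map_smul, cfL_apply, cf_e, if_neg]
      · simp
      · intro h
        have := congrArg Prod.snd h
        simp at this
    have h2 := congrArg (fun T : Y 3 →L[ℂ] ℂ => T β) this
    simpa using h2
  · have : (cfL 4 (m, n + 1)).comp primB = (1 / ((m : ℂ) + 1 + n)) • cfL 3 (m, n) :=
      Y.clm_ext fun j => by
        rw [ContinuousLinearMap.comp_apply, primB_e, map_smul, cfL_apply, cf_e, smul_apply,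
          cfL_apply, cf_e]
        rcases j with ⟨a, b⟩
        by_cases h : m = a ∧ n = b
        · rw [h.1, h.2]
          simp
        · rw [if_neg, if_neg]
          · simp
          · intro h'
            exact h ⟨congrArg Prod.fst h', congrArg Prod.snd h'⟩
          · intro h'
            have h1 := congrArg Prod.fst h'
            have h2 := congrArg Prod.snd h'
            simp only [Nat.add_right_cancel_iff] at h1 h2
            exact h ⟨h1, h2⟩
    have h2 := congrArg (fun T : Y 3 →L[ℂ] ℂ => T β) this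
    simp only [ContinuousLinearMap.comp_apply, cfL_apply, smul_apply, smul_eq_mul] at h2
    rw [h2]
    simp only [Nat.add_sub_cancel, Nat.add_eq_zero_iff, one_ne_zero, and_false, if_false]
    push_cast
    ring

theorem prim_eq (α β : Y 3) : prim α β = primA α + primB β := by
  rw [← (hasSum_cf (primA α + primB β)).tsum_eq]
  unfold prim mk
  refine tsum_congr fun i => ?_
  congr 1
  rw [cf_add, cf_primA, cf_primB]
  by_cases h : i = 0
  · subst h
    simp only [↓reduceIte, Prod.fst_zero, CharP.cast_eq_zero, Prod.snd_zero, add_zero, div_zero]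
  · simp only [if_neg h, add_div]

theorem cf_prim (α β : Y 3) (i : Ix) : cf (prim α β) i =
    ((if i.1 = 0 then 0 else cf α (i.1 - 1, i.2)) +
      (if i.2 = 0 then 0 else cf β (i.1, i.2 - 1))) / ((i.1 : ℂ) + i.2) := by
  rw [prim_eq, cf_add, cf_primA, cf_primB, add_div]

theorem prim_add (α α' β β' : Y 3) : prim (α + α') (β + β') = prim α β + prim α' β' := by
  simp only [prim_eq, map_add]
  abel

theorem prim_smul (c : ℂ) (α β : Y 3) : prim (c • α) (c • β) = c • prim α β := by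
  simp only [prim_eq, map_smul, smul_add]

theorem cj_prim (α β : Y 3) : cj (prim α β) = prim (cj β) (cj α) := by
  ext i
  rw [cf_cj, cf_prim, cf_prim]
  rcases i with ⟨m, n⟩
  simp only [Prod.swap_prod_mk, map_div₀, map_add, Complex.conj_natCast, cf_cj]
  rw [apply_ite conj, apply_ite conj, map_zero, add_comm (n : ℂ), add_comm (ite _ _ _)]

theorem dz_prim_aux {α β : Y 3} (h : dzb 2 α = dz 2 β) : dz 3 (prim α β) = α := by
  ext i
  rcases i with ⟨m, n⟩
  rw [cf_dz, cf_prim]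
  simp only [Nat.add_sub_cancel, Nat.add_eq_zero_iff, one_ne_zero, and_false, if_false]
  rcases n with _ | n
  · simp only [if_true, add_zero, Nat.cast_zero]
    push_cast
    rw [mul_div_cancel₀]
    exact Nat.cast_add_one_ne_zero m
  · simp only [Nat.add_sub_cancel, Nat.add_eq_zero_iff, one_ne_zero, and_false, if_false]
    have h1 := congrArg (fun a => cf a (m, n)) h
    simp only [cf_dz, cf_dzb] at h1
    have h2 : ((m + 1 : ℕ) : ℂ) + ((n + 1 : ℕ) : ℂ) ≠ 0 := by
      rw [← Nat.cast_add]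
      exact Nat.cast_ne_zero.mpr (by omega)
    rw [mul_div_assoc', div_eq_iff h2]
    push_cast
    linear_combination -h1

theorem dz_prim {α β : Y 3} (h : dzb 2 α = dz 2 β) :
    dz 3 (prim α β) = α ∧ dzb 3 (prim α β) = β := by
  refine ⟨dz_prim_aux h, ?_⟩
  have h1 : dzb 2 (cj β) = dz 2 (cj α) := by
    rw [← cj_dz, ← cj_dzb, h]
  have h2 := dz_prim_aux h1
  rw [← cj_prim, ← cj_dzb] at h2
  have h3 := congrArg cj h2
  rw [cj_cj, cj_cj] at h3
  exact h3

/-! ### The form `alpha` -/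

theorem dz_i84 (u : Y 8) : dz 3 (i84 u) = incl (by norm_num) (dz 7 u) :=
  dz_incl (p := 3) (q := 7) (by norm_num) u

theorem dzb_i43 (u : Y 4) : dzb 2 (i43 u) = incl (by norm_num) (dzb 3 u) :=
  dzb_incl (p := 2) (q := 3) (by norm_num) u

/-- the derivative of the form `alpha`, pointwise -/
theorem ev_dzb_alpha (u v : Y 4) {z : ℂ} (hz : ‖z‖ ≤ 1) :
    ev (dzb 2 (alpha u v)) z = Complex.I * (ev (dzb 3 u) z * ev (dz 3 v) z +
      ev u z * ev (dzb 2 (dz 3 v)) z - (ev (dzb 3 v) z * ev (dz 3 u) z +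
      ev v z * ev (dzb 2 (dz 3 u)) z)) := by
  unfold alpha
  rw [map_smul, map_sub, dzb_mul, dzb_mul, dzb_i43, dzb_i43, ev_smul, ev_sub _ _ hz,
    ev_add _ _ hz, ev_add _ _ hz, ev_mul _ _ hz, ev_mul _ _ hz, ev_mul _ _ hz, ev_mul _ _ hz]
  simp only [ev_incl]

/-- The form `α dz + conj α d(conj z)` is closed for two solutions of the same equation. -/
theorem alpha_closed {w u : Y 8} {v : Y 4} {h : ℂ → ℝ} (hu : IsV w u) (hv : IsC w v h) :
    dzb 2 (alpha (i84 u) v) = dz 2 (cj (alpha (i84 u) v)) := by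
  rw [← cj_dzb]
  refine Y.ext_ev fun z hz => ?_
  have hz' := hz.le
  rw [ev_cj, ev_dzb_alpha _ _ hz']
  have e1 : conj (ev (i84 u) z) = ev (i84 u) z := by
    rw [← ev_cj, cj_incl, hu.real]
  have e2 : conj (ev v z) = ev v z := by
    rw [← ev_cj, hv.real]
  have e3 : ev (dzb 3 (i84 u)) z = conj (ev (dz 3 (i84 u)) z) := by
    rw [← ev_cj, cj_dz, cj_incl, hu.real]
  have e4 : ev (dzb 3 v) z = conj (ev (dz 3 v) z) := by
    rw [← ev_cj, cj_dz, hv.real]
  have e5 : 4 * ev (dzb 2 (dz 3 v)) z = -(ev w z * ev v z) := by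
    have h1 := congrArg (fun a => ev a z) hv.eqn
    simp only [lap_apply, ev_smul, ev_neg, ev_mul _ _ hz', ev_incl, dz_dzb] at h1
    exact h1
  have e6 : 4 * ev (dzb 2 (dz 3 (i84 u))) z = -(ev w z * ev (i84 u) z) := by
    have h1 := congrArg (fun a => ev a z) hu.eqn
    simp only [lap_apply, ev_smul, ev_neg, ev_mul _ _ hz', ev_incl, dz_dzb] at h1
    have h2 : dzb 2 (dz 3 (i84 u)) = incl (by norm_num) (dzb 6 (dz 7 u)) := by
      rw [dz_i84]
      exact dzb_incl (p := 2) (q := 6) (by norm_num) _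
    rw [h2, ev_incl, ev_incl]
    exact h1
  have e7 : conj (ev (dzb 2 (dz 3 v)) z) * ev (i84 u) z =
      conj (ev (dzb 2 (dz 3 (i84 u))) z) * ev v z := by
    have h1 := congrArg conj e5
    have h2 := congrArg conj e6
    simp only [map_mul, Complex.conj_ofNat, map_neg, e2, e1] at h1 h2
    linear_combination (h1 * ev (i84 u) z - h2 * ev v z) / 4
  rw [e3, e4]
  simp only [map_mul, map_sub, map_add, Complex.conj_I, Complex.conj_conj, e1, e2]
  linear_combination Complex.I / 4 * (e5 * ev (i84 u) z - e6 * ev v z) + Complex.I * e7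

theorem cj_psi0 {w u : Y 8} {v : Y 4} {h : ℂ → ℝ} (hu : IsV w u) (hv : IsC w v h) :
    cj (psi0 (i84 u) v) = psi0 (i84 u) v := by
  unfold psi0
  rw [cj_prim, cj_cj]

theorem ev_eq_rv {p : ℕ} {a : Y p} (h : cj a = a) (z : ℂ) : ev a z = (rv a z : ℂ) := by
  have h1 : conj (ev a z) = ev a z := by rw [← ev_cj, h]
  exact (Complex.conj_eq_iff_re.mp h1).symm

/-- `∂ψ = i (u ∂v - v ∂u)` in the open disc. -/
theorem hasW_psi {w u : Y 8} {v : Y 4} {h : ℂ → ℝ} (hu : IsV w u) (hv : IsC w v h) (c : ℝ)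
    {z : ℂ} (hz : ‖z‖ < 1) :
    HasW (fun z => (psi w u v c z : ℂ))
      (Complex.I * (rv u z * ev (dz 3 v) z - rv v z * ev (dz 7 u) z))
      (conj (Complex.I * (rv u z * ev (dz 3 v) z - rv v z * ev (dz 7 u) z))) z := by
  have h1 : HasW (ev (psi0 (i84 u) v)) (ev (dz 3 (psi0 (i84 u) v)) z)
      (ev (dzb 3 (psi0 (i84 u) v)) z) z := hasFDerivAt_ev (psi0 (i84 u) v) hz
  obtain ⟨h2, h3⟩ := dz_prim (alpha_closed hu hv)
  have h2' : dz 3 (psi0 (i84 u) v) = alpha (i84 u) v := h2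
  have h3' : dzb 3 (psi0 (i84 u) v) = cj (alpha (i84 u) v) := h3
  have h4 : ev (alpha (i84 u) v) z =
      Complex.I * (rv u z * ev (dz 3 v) z - rv v z * ev (dz 7 u) z) := by
    unfold alpha
    rw [ev_smul, ev_sub _ _ hz.le, ev_mul _ _ hz.le, ev_mul _ _ hz.le, dz_i84]
    simp only [ev_incl]
    rw [ev_eq_rv hu.real, ev_eq_rv hv.real]
  rw [h2', h3', ev_cj, h4] at h1
  have h5 := h1.add (hasW_const
    (((-rv (psi0 (i84 u) v) 1 + c * Gam (D2 w u) (rv u 1) : ℝ) : ℂ)) z)
  rw [add_zero, add_zero] at h5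
  have h6 : (fun z => (psi w u v c z : ℂ)) = fun z => ev (psi0 (i84 u) v) z +
      ((-rv (psi0 (i84 u) v) 1 + c * Gam (D2 w u) (rv u 1) : ℝ) : ℂ) := by
    funext y
    rw [ev_eq_rv (cj_psi0 hu hv)]
    unfold psi
    push_cast
    ring
  rw [h6]
  exact h5

theorem continuousOn_rv {p : ℕ} (a : Y p) : ContinuousOn (rv a) (closedBall 0 1) :=
  Complex.continuous_re.comp_continuousOn (continuousOn_ev a)

theorem continuousOn_psi (w u : Y 8) (v : Y 4) (c : ℝ) :
    ContinuousOn (psi w u v c) (closedBall 0 1) := by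
  unfold psi
  exact ((continuousOn_rv _).sub continuousOn_const).add continuousOn_const

theorem alpha_add_smul (u v φ : Y 4) (t : ℂ) :
    alpha u (v + t • φ) = alpha u v + t • alpha u φ := by
  unfold alpha
  simp only [map_add, map_smul, ser_mul_add, ser_add_mul, ser_mul_smul, ser_smul_mul, smul_sub,
    smul_add, smul_comm t]
  abel

theorem psi0_add_smul (u v φ : Y 4) (t : ℝ) :
    psi0 u (v + (t : ℂ) • φ) = psi0 u v + (t : ℂ) • psi0 u φ := by
  unfold psi0
  rw [alpha_add_smul, cj_add, cj_smul, Complex.conj_ofReal, prim_add, prim_smul]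

/-- Linearity of `ψ` in the second slot. -/
theorem psi_add_smul (w u : Y 8) (v φ : Y 4) (c t : ℝ) (z : ℂ) (hz : ‖z‖ ≤ 1) :
    psi w u (v + (t : ℂ) • φ) c z = psi w u v c z + t * psi w u φ 0 z := by
  have h : ∀ y : ℂ, ‖y‖ ≤ 1 → rv (psi0 (i84 u) (v + (t : ℂ) • φ)) y =
      rv (psi0 (i84 u) v) y + t * rv (psi0 (i84 u) φ) y := by
    intro y hy
    unfold rv
    rw [psi0_add_smul, ev_add _ _ hy, ev_smul, Complex.add_re, Complex.re_ofReal_mul]
  unfold psi
  rw [h z hz, h 1 (by simp)]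
  ring

theorem tendsto_bilin {E F H : Type*} [NormedAddCommGroup E] [NormedSpace ℂ E]
    [NormedAddCommGroup F] [NormedSpace ℂ F] [NormedAddCommGroup H] [NormedSpace ℂ H]
    (B : E →L[ℂ] F →L[ℂ] H) {a : ℕ → E} {b : ℕ → F} {a' : E} {b' : F}
    (ha : Tendsto a atTop (𝓝 a')) (hb : Tendsto b atTop (𝓝 b')) :
    Tendsto (fun n => B (a n) (b n)) atTop (𝓝 (B a' b')) := by
  have h := (B.continuous₂.tendsto (a', b')).comp (ha.prodMk_nhds hb)
  exact h

theorem tendsto_ser_mul {p : ℕ} {a b : ℕ → Y p} {a' b' : Y p} (ha : Tendsto a atTop (𝓝 a'))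
    (hb : Tendsto b atTop (𝓝 b')) : Tendsto (fun n => a n * b n) atTop (𝓝 (a' * b')) :=
  tendsto_bilin (mulL p) ha hb

theorem tendsto_alpha {u v : ℕ → Y 4} {u' v' : Y 4} (hu : Tendsto u atTop (𝓝 u'))
    (hv : Tendsto v atTop (𝓝 v')) :
    Tendsto (fun n => alpha (u n) (v n)) atTop (𝓝 (alpha u' v')) := by
  unfold alpha
  have h1 : Tendsto (fun n => i43 (u n)) atTop (𝓝 (i43 u')) := (i43.continuous.tendsto u').comp hu
  have h2 : Tendsto (fun n => i43 (v n)) atTop (𝓝 (i43 v')) := (i43.continuous.tendsto v').comp hv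
  have h3 : Tendsto (fun n => dz 3 (u n)) atTop (𝓝 (dz 3 u')) :=
    ((dz 3).continuous.tendsto u').comp hu
  have h4 : Tendsto (fun n => dz 3 (v n)) atTop (𝓝 (dz 3 v')) :=
    ((dz 3).continuous.tendsto v').comp hv
  have h5 := (tendsto_ser_mul h1 h4).sub (tendsto_ser_mul h2 h3)
  exact h5.const_smul Complex.I

/-- Uniform convergence of `psi0`. -/
theorem tendsto_psi0 {u v : ℕ → Y 4} {u' v' : Y 4} (hu : Tendsto u atTop (𝓝 u'))
    (hv : Tendsto v atTop (𝓝 v')) :
    Tendsto (fun n => psi0 (u n) (v n)) atTop (𝓝 (psi0 u' v')) := by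
  have h1 := tendsto_alpha hu hv
  have h2 : Tendsto (fun n => cj (alpha (u n) (v n))) atTop (𝓝 (cj (alpha u' v'))) :=
    (continuous_cj.tendsto (alpha u' v')).comp h1
  have h3 : Tendsto (fun n => primA (alpha (u n) (v n))) atTop (𝓝 (primA (alpha u' v'))) :=
    (primA.continuous.tendsto (alpha u' v')).comp h1
  have h4 : Tendsto (fun n => primB (cj (alpha (u n) (v n)))) atTop
      (𝓝 (primB (cj (alpha u' v')))) :=
    (primB.continuous.tendsto (cj (alpha u' v'))).comp h2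
  unfold psi0
  simp only [prim_eq]
  exact h3.add h4

end Vale.Agent.P071.G
end
end

section

/-!
# Block G, task G-BDY: the circle
-/

open scoped ComplexConjugate Topology Real
open Filter Metric MeasureTheory

noncomputable section

namespace Vale.Agent.P071.G

namespace BdyAux

variable {p : ℕ}

/-- The function whose minimum over the circle is `D2`. -/
def phi (w u : Y 8) (z : ℂ) : ℝ := rv u z ^ 2 + 28 * rv (Ang 7 u) z ^ 2 / rv w z

theorem continuousOn_rv (a : Y p) : ContinuousOn (rv a) (closedBall 0 1) :=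
  Complex.continuous_re.comp_continuousOn (continuousOn_ev a)

theorem sphere_sub : sphere (0 : ℂ) 1 ⊆ closedBall 0 1 := sphere_subset_closedBall

theorem pos_sphere {w : Y 8} (hw : AdW w) {z : ℂ} (hz : ‖z‖ = 1) : 0 < rv w z :=
  hw.pos z hz.le

theorem phi_nonneg {w : Y 8} (hw : AdW w) (u : Y 8) {z : ℂ} (hz : ‖z‖ = 1) : 0 ≤ phi w u z := by
  have := pos_sphere hw hz
  unfold phi
  (clear * - this; positivity)

theorem continuousOn_phi {w : Y 8} (hw : AdW w) (u : Y 8) :
    ContinuousOn (phi w u) (sphere 0 1) := by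
  unfold phi
  have h1 := (continuousOn_rv u).mono sphere_sub
  have h2 := (continuousOn_rv (Ang 7 u)).mono sphere_sub
  have h3 := (continuousOn_rv w).mono sphere_sub
  refine (h1.pow 2).add (((h2.pow 2).const_mul 28).div h3 ?_)
  intro z hz
  exact (pos_sphere hw (mem_sphere_zero_iff_norm.1 hz)).ne'

theorem sphere_nonempty : (sphere (0 : ℂ) 1).Nonempty := ⟨1, by simp only [mem_sphere_iff_norm, sub_zero, norm_one]⟩

theorem D2_eq (w u : Y 8) : D2 w u = sInf (phi w u '' sphere (0 : ℂ) 1) := rfl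

theorem bdd {w : Y 8} (hw : AdW w) (u : Y 8) : BddBelow (phi w u '' sphere (0 : ℂ) 1) := by
  refine ⟨0, ?_⟩
  rintro _ ⟨z, hz, rfl⟩
  exact phi_nonneg hw u (mem_sphere_zero_iff_norm.1 hz)

theorem exists_min {w : Y 8} (hw : AdW w) (u : Y 8) : ∃ z : ℂ, ‖z‖ = 1 ∧ phi w u z = D2 w u := by
  have hK : IsCompact (phi w u '' sphere (0 : ℂ) 1) :=
    (isCompact_sphere 0 1).image_of_continuousOn (continuousOn_phi hw u)
  have h := hK.sInf_mem (sphere_nonempty.image _)
  obtain ⟨z, hz, h⟩ := h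
  exact ⟨z, mem_sphere_zero_iff_norm.1 hz, h⟩

theorem norm_rv_le (a : Y p) {z : ℂ} (hz : ‖z‖ ≤ 1) : |rv a z| ≤ ‖a‖ :=
  (Complex.abs_re_le_norm _).trans (norm_ev_le a hz)

theorem rv_sub (a b : Y p) {z : ℂ} (hz : ‖z‖ ≤ 1) : rv (a - b) z = rv a z - rv b z := by
  unfold rv
  rw [ev_sub _ _ hz, Complex.sub_re]

/-- Joint continuity of the values on the circle. -/
theorem continuous_rv (p : ℕ) :
    Continuous fun x : Y p × sphere (0 : ℂ) 1 => rv x.1 (x.2 : ℂ) := by
  rw [continuous_iff_continuousAt]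
  rintro ⟨a, z⟩
  have h1 : Continuous fun y : sphere (0 : ℂ) 1 => rv a (y : ℂ) := by
    have := (continuousOn_rv a).mono sphere_sub
    exact this.domRestrict
  have h2 : Tendsto (fun x : Y p × sphere (0 : ℂ) 1 => rv a (x.2 : ℂ)) (𝓝 (a, z))
      (𝓝 (rv a (z : ℂ))) := (h1.comp continuous_snd).tendsto (a, z)
  have h3 : Tendsto (fun x : Y p × sphere (0 : ℂ) 1 => rv (x.1 - a) (x.2 : ℂ)) (𝓝 (a, z))
      (𝓝 0) := by
    have h4 : Tendsto (fun x : Y p × sphere (0 : ℂ) 1 => ‖x.1 - a‖) (𝓝 (a, z)) (𝓝 0) := by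
      have : Continuous fun x : Y p × sphere (0 : ℂ) 1 => ‖x.1 - a‖ := by fun_prop
      simpa only [sub_self, norm_zero] using this.tendsto (a, z)
    refine squeeze_zero_norm (fun x => ?_) h4
    rw [Real.norm_eq_abs]
    exact norm_rv_le _ (mem_sphere_zero_iff_norm.1 x.2.2).le
  have h5 := h2.add h3
  rw [add_zero] at h5
  refine h5.congr fun x => ?_
  rw [rv_sub _ _ (mem_sphere_zero_iff_norm.1 x.2.2).le]
  ring

/-- The truncated version of `phi`. -/
def phiT (κ : ℝ) (x : Y 8 × Y 8) (z : sphere (0 : ℂ) 1) : ℝ :=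
  rv x.2 (z : ℂ) ^ 2 + 28 * rv (Ang 7 x.2) (z : ℂ) ^ 2 / max (rv x.1 (z : ℂ)) κ

theorem continuous_phiT {κ : ℝ} (hκ : 0 < κ) : Continuous ↿(phiT κ) := by
  have h1 : Continuous fun x : (Y 8 × Y 8) × sphere (0 : ℂ) 1 => rv x.1.2 (x.2 : ℂ) := by
    have h := (continuous_rv 8).comp (((continuous_snd (X := Y 8) (Y := Y 8)).comp
      (continuous_fst (X := Y 8 × Y 8) (Y := sphere (0 : ℂ) 1))).prodMk
      (continuous_snd (X := Y 8 × Y 8) (Y := sphere (0 : ℂ) 1)))
    exact h
  have h2 : Continuous fun x : (Y 8 × Y 8) × sphere (0 : ℂ) 1 =>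
      rv (Ang 7 x.1.2) (x.2 : ℂ) := by
    have h := (continuous_rv 7).comp (((Ang 7).continuous.comp
      ((continuous_snd (X := Y 8) (Y := Y 8)).comp
      (continuous_fst (X := Y 8 × Y 8) (Y := sphere (0 : ℂ) 1)))).prodMk
      (continuous_snd (X := Y 8 × Y 8) (Y := sphere (0 : ℂ) 1)))
    exact h
  have h3 : Continuous fun x : (Y 8 × Y 8) × sphere (0 : ℂ) 1 => rv x.1.1 (x.2 : ℂ) := by
    have h := (continuous_rv 8).comp (((continuous_fst (X := Y 8) (Y := Y 8)).comp
      (continuous_fst (X := Y 8 × Y 8) (Y := sphere (0 : ℂ) 1))).prodMk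
      (continuous_snd (X := Y 8 × Y 8) (Y := sphere (0 : ℂ) 1)))
    exact h
  refine (h1.pow 2).add (((h2.pow 2).const_mul 28).div (h3.max continuous_const) fun x => ?_)
  exact (lt_of_lt_of_le hκ (le_max_right _ _)).ne'

theorem sInf_phiT {κ : ℝ} {w u : Y 8} (h : ∀ z : ℂ, ‖z‖ = 1 → κ ≤ rv w z) :
    sInf (phiT κ (w, u) '' Set.univ) = D2 w u := by
  rw [D2_eq]
  congr 1
  ext y
  constructor
  · rintro ⟨z, -, rfl⟩
    refine ⟨z, z.2, ?_⟩
    unfold phi phiT
    rw [max_eq_left (h z (mem_sphere_zero_iff_norm.1 z.2))]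
  · rintro ⟨z, hz, rfl⟩
    refine ⟨⟨z, hz⟩, Set.mem_univ _, ?_⟩
    unfold phi phiT
    rw [max_eq_left (h z (mem_sphere_zero_iff_norm.1 hz))]

theorem exists_lower {w : Y 8} (hw : AdW w) : ∃ κ > 0, ∀ z : ℂ, ‖z‖ ≤ 1 → κ ≤ rv w z := by
  obtain ⟨z, hz, h⟩ := (isCompact_closedBall (0 : ℂ) 1).exists_isMinOn
    ⟨0, by simp only [mem_closedBall, dist_self, zero_le_one]⟩ (continuousOn_rv w)
  exact ⟨rv w z, hw.pos z (mem_closedBall_zero_iff.1 hz), fun y hy =>
    h (mem_closedBall_zero_iff.2 hy)⟩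

end BdyAux

open BdyAux

theorem D2_le {w : Y 8} (hw : AdW w) (u : Y 8) {z : ℂ} (hz : ‖z‖ = 1) :
    D2 w u ≤ rv u z ^ 2 + 28 * rv (Ang 7 u) z ^ 2 / rv w z :=
  csInf_le (bdd hw u) ⟨z, mem_sphere_zero_iff_norm.2 hz, rfl⟩

/-- `d > 0` iff the zeros of `u` on the circle are simple. -/
theorem D2_pos {w : Y 8} (hw : AdW w) {u : Y 8}
    (h : ∀ z : ℂ, ‖z‖ = 1 → rv u z = 0 → rv (Ang 7 u) z ≠ 0) : 0 < D2 w u := by
  obtain ⟨z, hz, h1⟩ := exists_min hw u
  rw [← h1]
  have h2 := pos_sphere hw hz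
  unfold phi
  by_cases h3 : rv u z = 0
  · have h4 := h z hz h3
    (clear * - h4 h2; positivity)
  · positivity

theorem D2_neg (w u : Y 8) : D2 w (-u) = D2 w u := by
  rw [D2_eq, D2_eq]
  have : phi w (-u) = phi w u := by
    funext z
    simp only [phi, rv, ev_neg, Complex.neg_re, even_two, Even.neg_pow, Nat.reduceAdd, map_neg]
  rw [this]

theorem src_neg (w u : Y 8) (z : ℂ) : src w (-u) z = -src w u z := by
  unfold src
  rw [D2_neg]
  simp only [gg, rv, ev_neg, Complex.neg_re, even_two, Even.neg_pow, Nat.reduceAdd, map_neg, mul_neg]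

/-- Continuity of `d²`. -/
theorem tendsto_D2 {w : Y 8} (hw : AdW w) {wn un : ℕ → Y 8} {u : Y 8}
    (hwn : Tendsto wn atTop (𝓝 w)) (hun : Tendsto un atTop (𝓝 u)) :
    Tendsto (fun n => D2 (wn n) (un n)) atTop (𝓝 (D2 w u)) := by
  obtain ⟨κ, hκ, hl⟩ := exists_lower hw
  have hκ2 : 0 < κ / 2 := by positivity
  have hc := (isCompact_univ (X := sphere (0 : ℂ) 1)).continuous_sInf (continuous_phiT hκ2)
  have h1 : Tendsto (fun n => sInf (phiT (κ / 2) (wn n, un n) '' Set.univ)) atTop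
      (𝓝 (sInf (phiT (κ / 2) (w, u) '' Set.univ))) :=
    (hc.tendsto (w, u)).comp (hwn.prodMk_nhds hun)
  rw [sInf_phiT fun z hz => by linarith only [hκ, hl z hz.le]] at h1
  refine h1.congr' ?_
  have h2 : ∀ᶠ n in atTop, ‖wn n - w‖ < κ / 2 := by
    have := (hwn.sub_const w).norm
    rw [sub_self, norm_zero] at this
    exact this.eventually_lt_const hκ2
  filter_upwards [h2] with n hn
  refine sInf_phiT fun z hz => ?_
  have h3 := norm_rv_le (wn n - w) hz.le
  rw [rv_sub _ _ hz.le] at h3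
  have h4 := abs_le.1 h3
  linarith only [hn, h4, hl z hz.le]

namespace BdyAux

variable {p : ℕ}

theorem ev_dz84 (u : Y 8) (z : ℂ) : ev (dz 3 (i84 u)) z = ev (dz 7 u) z := by
  have h : dz 3 (i84 u) = incl (by norm_num) (dz 7 u) := dz_incl (by norm_num : 3 ≤ 7) u
  rw [h, ev_incl]

theorem ev_real {a : Y p} (h : cj a = a) (z : ℂ) : ev a z = (rv a z : ℂ) := by
  have h1 : conj (ev a z) = ev a z := by rw [← ev_cj, h]
  exact (Complex.conj_eq_iff_re.1 h1).symm

theorem ev_dzb_real {a : Y (p + 1)} (h : cj a = a) (z : ℂ) :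
    ev (dzb p a) z = conj (ev (dz p a) z) := by
  rw [← ev_cj, cj_dz, h]

theorem rad_real {a : Y (p + 1)} (h : cj a = a) {z : ℂ} (hz : ‖z‖ ≤ 1) :
    ev (Rad p a) z = ((2 * (z * ev (dz p a) z).re : ℝ) : ℂ) := by
  rw [ev_Rad a hz, ev_dzb_real h, ← map_mul]
  apply Complex.ext
  · simp
    ring
  · simp only [map_mul, Complex.add_im, Complex.mul_im, Complex.conj_re, Complex.conj_im, mul_neg, neg_mul, Complex.mul_re, Complex.ofReal_mul, Complex.ofReal_ofNat, Complex.ofReal_sub, Complex.re_ofNat, Complex.sub_im, Complex.ofReal_re, Complex.ofReal_im, mul_zero, zero_mul, add_zero, sub_self, Complex.im_ofNat, Complex.sub_re, sub_zero]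
    ring

theorem ang_real {a : Y (p + 1)} (h : cj a = a) {z : ℂ} (hz : ‖z‖ ≤ 1) :
    ev (Ang p a) z = ((-2 * (z * ev (dz p a) z).im : ℝ) : ℂ) := by
  rw [ev_Ang a hz, ev_dzb_real h, ← map_mul]
  apply Complex.ext
  · simp only [map_mul, Complex.mul_re, Complex.I_re, Complex.sub_re, Complex.conj_re, Complex.conj_im, mul_neg, neg_mul, neg_neg, sub_self, mul_zero, Complex.I_im, Complex.sub_im, Complex.mul_im, one_mul, zero_sub, neg_sub, Complex.ofReal_neg, Complex.ofReal_mul, Complex.ofReal_ofNat, Complex.ofReal_add, Complex.neg_re, Complex.re_ofNat, Complex.add_re, Complex.ofReal_re, Complex.ofReal_im, sub_zero, Complex.im_ofNat, Complex.add_im, zero_mul, add_zero]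
    ring
  · simp only [map_mul, Complex.mul_im, Complex.I_re, Complex.sub_im, Complex.conj_re, Complex.conj_im, mul_neg, neg_mul, zero_mul, Complex.I_im, Complex.sub_re, Complex.mul_re, neg_neg, sub_self, mul_zero, add_zero, Complex.ofReal_neg, Complex.ofReal_mul, Complex.ofReal_ofNat, Complex.ofReal_add, Complex.neg_im, Complex.re_ofNat, Complex.add_im, Complex.ofReal_re, Complex.ofReal_im, Complex.im_ofNat, Complex.add_re, sub_zero, neg_zero]

theorem rv_ang {a : Y (p + 1)} (h : cj a = a) {z : ℂ} (hz : ‖z‖ ≤ 1) :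
    rv (Ang p a) z = -2 * (z * ev (dz p a) z).im := by
  unfold rv
  rw [ang_real h hz, Complex.ofReal_re]

/-- The Jacobian in polar coordinates. -/
theorem jac_polar (P Q : ℂ) {z : ℂ} (hz : ‖z‖ = 1) : jac P Q = jac (z * P) (z * Q) := by
  have h1 : conj z * z = 1 := by
    rw [mul_comm, Complex.mul_conj, Complex.normSq_eq_norm_sq, hz]
    norm_num
  unfold jac
  have : conj (z * Q) * (z * P) = conj Q * P := by
    rw [map_mul]
    linear_combination conj Q * P * h1
  rw [this]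

theorem u_nu {w u : Y 8} (hu : IsV w u) {z : ℂ} (hz : ‖z‖ = 1) :
    (z * ev (dz 7 u) z).re = 0 := by
  have h1 := hu.neu z hz
  rw [rad_real hu.real hz.le] at h1
  have h2 := Complex.ofReal_eq_zero.1 h1
  linarith only [h2]

theorem v_nu {w : Y 8} {v : Y 4} {h : ℂ → ℝ} (hv : IsC w v h) {z : ℂ} (hz : ‖z‖ = 1) :
    2 * (z * ev (dz 3 v) z).re = h z := by
  have h1 := hv.neu z hz
  rw [rad_real hv.real hz.le] at h1
  exact Complex.ofReal_inj.1 h1

/-- Derivative along the circle. -/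
theorem hasDerivAt_circle (a : Y (p + 1)) (t : ℝ) :
    HasDerivAt (fun s : ℝ => ev a (Complex.exp (s * Complex.I)))
      (ev (Ang p a) (Complex.exp (t * Complex.I))) t := by
  have hn : ∀ s : ℝ, ‖Complex.exp (s * Complex.I)‖ = 1 := Complex.norm_exp_ofReal_mul_I
  have h1 : HasDerivAt (fun s : ℝ => Complex.exp (s * Complex.I))
      (Complex.exp (t * Complex.I) * Complex.I) t := by
    have h2 : HasDerivAt (fun s : ℝ => (s : ℂ) * Complex.I) Complex.I t := by
      simpa only [Complex.ofRealCLM_apply, Complex.ofReal_one, one_mul] using     (Complex.ofRealCLM.hasDerivAt (x := t)).mul_const Complex.I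
    exact h2.cexp
  have h3 := hasFDerivWithinAt_ev a (hn t).le
  have h4 := h3.comp_hasDerivWithinAt (s := Set.univ) t h1.hasDerivWithinAt
    (fun s _ => mem_closedBall_zero_iff.2 (hn s).le)
  rw [hasDerivWithinAt_univ] at h4
  refine h4.congr_deriv ?_
  rw [evD_apply, ev_Ang a (hn t).le, map_mul, Complex.conj_I]
  ring

theorem hasDerivAt_rv_circle (a : Y (p + 1)) (t : ℝ) :
    HasDerivAt (fun s : ℝ => rv a (Complex.exp (s * Complex.I)))
      (rv (Ang p a) (Complex.exp (t * Complex.I))) t :=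
  hasDerivAt_re (hasDerivAt_circle a t)

theorem hasDerivAt_max_pow (y : ℝ) :
    HasDerivAt (fun x : ℝ => max x 0 ^ 7) (7 * max y 0 ^ 6) y := by
  have key : ∀ y : ℝ, y ≠ 0 → HasDerivAt (fun x : ℝ => max x 0 ^ 7) (7 * max y 0 ^ 6) y := by
    intro y hy
    rcases lt_or_gt_of_ne hy with h | h
    · have h1 : (fun x : ℝ => max x 0 ^ 7) =ᶠ[𝓝 y] fun _ => 0 := by
        filter_upwards [eventually_lt_nhds h] with x hx
        rw [max_eq_right hx.le]
        norm_num
      rw [max_eq_right h.le]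
      refine (HasDerivAt.congr_of_eventuallyEq (hasDerivAt_const y (0 : ℝ)) h1).congr_deriv ?_
      norm_num
    · have h1 : (fun x : ℝ => max x 0 ^ 7) =ᶠ[𝓝 y] fun x => x ^ 7 := by
        filter_upwards [eventually_gt_nhds h] with x hx
        rw [max_eq_left hx.le]
      rw [max_eq_left h.le]
      refine (HasDerivAt.congr_of_eventuallyEq (hasDerivAt_pow 7 y) h1).congr_deriv ?_
      norm_num
  by_cases hy : y = 0
  · subst hy
    refine hasDerivAt_of_hasDerivAt_of_ne (f := fun x : ℝ => max x 0 ^ 7)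
      (g := fun x : ℝ => 7 * max x 0 ^ 6) (fun y hy => key y hy) ?_ ?_
    · exact (by fun_prop : Continuous fun x : ℝ => max x 0 ^ 7).continuousAt
    · exact (by fun_prop : Continuous fun x : ℝ => 7 * max x 0 ^ 6).continuousAt
  · exact key y hy

theorem hasDerivAt_Gam {f : ℝ → ℝ} {f' t : ℝ} (d : ℝ) (h : HasDerivAt f f' t) :
    HasDerivAt (fun s => Gam d (f s)) (-(f t * gg d (f t)) * f') t := by
  have h1 : HasDerivAt (fun s => d - f s ^ 2) (-(2 * f t * f')) t := by
    refine ((h.pow 2).const_sub d).congr_deriv ?_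
    simp only [Nat.cast_ofNat, Nat.add_one_sub_one, pow_one]
  have h2 := (hasDerivAt_max_pow (d - f t ^ 2)).comp t h1
  have h3 := h2.div_const 14
  refine h3.congr_deriv ?_
  unfold gg
  ring

end BdyAux

/-- The circle values of `J`. -/
theorem J_circle {w u : Y 8} {v : Y 4} {c : ℝ} (h : Tri w u v c) {z : ℂ} (hz : ‖z‖ = 1) :
    J (i84 u) v z = c * gg (D2 w u) (rv u z) * rv (Ang 7 u) z ^ 2 := by
  have h1 := u_nu h.hu hz
  have h2 := v_nu h.hv hz
  unfold src at h2
  rw [rv_ang h.hu.real hz.le] at h2 ⊢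
  unfold J
  rw [ev_dz84, jac_polar _ _ hz]
  generalize z * ev (dz 7 u) z = P at h1 h2 ⊢
  generalize z * ev (dz 3 v) z = Q at h2 ⊢
  unfold jac
  simp only [Complex.mul_im, Complex.conj_re, Complex.conj_im]
  rw [h1]
  linear_combination (-2 * P.im) * h2

/-- The circle values of `ψ`. -/
theorem psi_circle {w u : Y 8} {v : Y 4} {c : ℝ} (h : Tri w u v c) {z : ℂ} (hz : ‖z‖ = 1) :
    psi w u v c z = c * Gam (D2 w u) (rv u z) := by
  obtain ⟨h5, h6⟩ := dz_prim (alpha_closed h.hu h.hv)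
  have hd : ∀ t : ℝ, HasDerivAt (fun s : ℝ => psi w u v c (Complex.exp (s * Complex.I)) -
      c * Gam (D2 w u) (rv u (Complex.exp (s * Complex.I)))) 0 t := by
    intro t
    have hn : ‖Complex.exp (t * Complex.I)‖ = 1 := Complex.norm_exp_ofReal_mul_I t
    have h1 := hasDerivAt_rv_circle (psi0 (i84 u) v) t
    have h2 := (hasDerivAt_Gam (D2 w u) (hasDerivAt_rv_circle u t)).const_mul c
    have h3 := ((h1.sub_const (rv (psi0 (i84 u) v) 1)).add_const
      (c * Gam (D2 w u) (rv u 1))).sub h2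
    refine h3.congr_deriv ?_
    have e1 := u_nu h.hu hn
    have e2 := v_nu h.hv hn
    unfold src at e2
    generalize Complex.exp (t * Complex.I) = z at hn e1 e2 ⊢
    have e3 := rv_ang h.hu.real hn.le
    have e4 : rv (Ang 3 (psi0 (i84 u) v)) z =
        -(2 * (rv u z * (z * ev (dz 3 v) z).re - rv v z * (z * ev (dz 7 u) z).re)) := by
      unfold rv
      rw [ev_Ang _ hn.le]
      unfold psi0
      rw [h5, h6, ev_cj]
      unfold alpha
      rw [ev_smul, ev_sub _ _ hn.le, ev_mul _ _ hn.le, ev_mul _ _ hn.le, ev_incl, ev_incl,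
        ev_incl, ev_dz84, BdyAux.ev_real h.hu.real, BdyAux.ev_real h.hv.real]
      simp only [Nat.reduceAdd, map_mul, Complex.conj_I, map_sub, Complex.conj_ofReal, neg_mul, mul_neg, sub_neg_eq_add, Complex.mul_re, Complex.I_re, Complex.add_re, Complex.sub_re, Complex.ofReal_re, Complex.ofReal_im, zero_mul, sub_zero, Complex.I_im, Complex.sub_im, Complex.mul_im, add_zero, one_mul, zero_sub, neg_sub, zero_add, Complex.conj_re, Complex.conj_im, neg_zero, neg_add_rev, neg_neg, sub_add_add_cancel, Complex.add_im]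
      ring
    rw [e4, e1]
    linear_combination (-rv u z) * e2
  have hconst := is_const_of_deriv_eq_zero (fun t => (hd t).differentiableAt)
    (fun t => (hd t).deriv)
  obtain ⟨θ, rfl⟩ := (Complex.norm_eq_one_iff z).1 hz
  have h1 := hconst θ 0
  simp only [Complex.ofReal_zero, zero_mul, Complex.exp_zero] at h1
  have h2 : psi w u v c 1 = c * Gam (D2 w u) (rv u 1) := by
    unfold psi
    ring
  rw [h2, sub_self] at h1
  linarith only [h1]

theorem psi_circle_nonneg {w u : Y 8} {v : Y 4} {c : ℝ} (h : Tri w u v c) {z : ℂ}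
    (hz : ‖z‖ = 1) : 0 ≤ psi w u v c z := by
  rw [psi_circle h hz]
  have := h.hc
  unfold Gam
  have h2 : 0 ≤ max (D2 w u - rv u z ^ 2) 0 := le_max_right _ _
  (clear * - this; positivity)

/-- On the circle `J ≥ (w/2) ψ`: automatic by the choice of `d`. -/
theorem J_ge_circle {w u : Y 8} {v : Y 4} {c : ℝ} (hw : AdW w) (h : Tri w u v c) {z : ℂ}
    (hz : ‖z‖ = 1) : rv w z / 2 * psi w u v c z ≤ J (i84 u) v z := by
  rw [psi_circle h hz, J_circle h hz]
  have hc := h.hc
  have hp := pos_sphere hw hz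
  have h1 := D2_le hw u hz
  unfold Gam gg
  rcases le_total (D2 w u - rv u z ^ 2) 0 with h2 | h2
  · rw [max_eq_right h2]
    simp
  · rw [max_eq_left h2]
    have h3 : D2 w u - rv u z ^ 2 ≤ 28 * rv (Ang 7 u) z ^ 2 / rv w z := by linarith only [h1]
    rw [le_div_iff₀ hp] at h3
    have h4 : 0 ≤ c * (D2 w u - rv u z ^ 2) ^ 6 := by (clear * - hc; positivity)
    nlinarith only [h3, h4]

/-- Uniform convergence of `ψ`. -/
theorem tendsto_psi {w : Y 8} (hw : AdW w) {wn un : ℕ → Y 8} {u : Y 8}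
    {vn : ℕ → Y 4} {v : Y 4} {cn : ℕ → ℝ} {c : ℝ}
    (hwn : Tendsto wn atTop (𝓝 w)) (hun : Tendsto un atTop (𝓝 u))
    (hvn : Tendsto vn atTop (𝓝 v)) (hcn : Tendsto cn atTop (𝓝 c)) :
    TendstoUniformlyOn (fun n => psi (wn n) (un n) (vn n) (cn n)) (psi w u v c) atTop
      (closedBall 0 1) := by
  have h1 : Tendsto (fun n => psi0 (i84 (un n)) (vn n)) atTop (𝓝 (psi0 (i84 u) v)) :=
    tendsto_psi0 ((i84.continuous.tendsto u).comp hun) hvn
  have h2 := tendsto_D2 hw hwn hun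
  have h3 : Tendsto (fun n => rv (un n) 1) atTop (𝓝 (rv u 1)) := by
    have hc : Continuous fun a : Y 8 => rv a 1 := by
      have : (fun a : Y 8 => rv a 1) = fun a => (evL 8 1 (by simp) a).re := rfl
      rw [this]
      (clear * -; fun_prop)
    exact (hc.tendsto u).comp hun
  have h4 : Tendsto (fun n => cn n * Gam (D2 (wn n) (un n)) (rv (un n) 1)) atTop
      (𝓝 (c * Gam (D2 w u) (rv u 1))) := by
    refine hcn.mul ?_
    have h5 : Tendsto (fun n => max (D2 (wn n) (un n) - rv (un n) 1 ^ 2) 0) atTop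
        (𝓝 (max (D2 w u - rv u 1 ^ 2) 0)) := (h2.sub (h3.pow 2)).max tendsto_const_nhds
    exact (h5.pow 7).div_const 14
  have h5 : Tendsto (fun n => 2 * ‖psi0 (i84 (un n)) (vn n) - psi0 (i84 u) v‖ +
      |cn n * Gam (D2 (wn n) (un n)) (rv (un n) 1) - c * Gam (D2 w u) (rv u 1)|) atTop (𝓝 0) := by
    have h6 := ((h1.sub_const (psi0 (i84 u) v)).norm.const_mul 2).add
      ((h4.sub_const (c * Gam (D2 w u) (rv u 1))).abs)
    simpa only [sub_self, norm_zero, mul_zero, abs_zero, add_zero] using h6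
  rw [Metric.tendstoUniformlyOn_iff]
  intro ε hε
  filter_upwards [h5.eventually_lt_const hε] with n hn z hz
  refine lt_of_le_of_lt ?_ hn
  have hz' : ‖z‖ ≤ 1 := mem_closedBall_zero_iff.1 hz
  have e1 := norm_rv_le (psi0 (i84 (un n)) (vn n) - psi0 (i84 u) v) hz'
  have e2 := norm_rv_le (psi0 (i84 (un n)) (vn n) - psi0 (i84 u) v) (z := 1) (by simp)
  rw [rv_sub _ _ hz'] at e1
  rw [rv_sub _ _ (by simp)] at e2
  rw [dist_comm, Real.dist_eq]
  unfold psi
  generalize cn n * Gam (D2 (wn n) (un n)) (rv (un n) 1) = A at *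
  generalize c * Gam (D2 w u) (rv u 1) = B at *
  generalize ‖psi0 (i84 (un n)) (vn n) - psi0 (i84 u) v‖ = N at *
  have e3 := abs_le.1 e1
  have e4 := abs_le.1 e2
  have e5 := le_abs_self (A - B)
  have e6 := neg_abs_le (A - B)
  rw [abs_le]
  constructor <;> linarith only [e3, e4, e5, e6]

end Vale.Agent.P071.G
end
end

section

/-!
# Block G, task G-STEP: minimum principle, open step, closed step
-/

open scoped ComplexConjugate Topology Real
open Filter Metric MeasureTheory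

noncomputable section

namespace Vale.Agent.P071.G

namespace St

variable {p : ℕ}

theorem hasW_ev (a : Y (p + 1)) {z : ℂ} (hz : ‖z‖ < 1) :
    HasW (ev a) (ev (dz p a) z) (ev (dzb p a) z) z :=
  hasFDerivAt_ev a hz

theorem conj_ev {a : Y p} (h : cj a = a) (z : ℂ) : conj (ev a z) = ev a z := by
  rw [← ev_cj, h]

theorem rv_eq {a : Y p} (h : cj a = a) (z : ℂ) : (rv a z : ℂ) = ev a z :=
  Complex.conj_eq_iff_re.1 (conj_ev h z)

theorem ev_dzb {a : Y (p + 1)} (h : cj a = a) (z : ℂ) :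
    ev (dzb p a) z = conj (ev (dz p a) z) := by
  rw [← ev_cj, cj_dz, h]

theorem hasW_rv {a : Y (p + 1)} (h : cj a = a) {z : ℂ} (hz : ‖z‖ < 1) :
    HasW (fun z => (rv a z : ℂ)) (ev (dz p a) z) (conj (ev (dz p a) z)) z := by
  have h1 := hasW_ev a hz
  rw [ev_dzb h] at h1
  have h2 : (fun z => (rv a z : ℂ)) = ev a := by
    funext z
    exact rv_eq h z
  rw [h2]
  exact h1

theorem mem_nhds {z : ℂ} (hz : ‖z‖ < 1) : ∀ᶠ w in 𝓝 z, ‖w‖ < 1 := by
  have : IsOpen {w : ℂ | ‖w‖ < 1} := isOpen_lt continuous_norm continuous_const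
  exact this.mem_nhds hz

theorem ev_dz_i84 (u : Y 8) (z : ℂ) : ev (dz 3 (i84 u)) z = ev (dz 7 u) z := by
  have := dz_incl (p := 3) (q := 7) (by norm_num) u
  rw [this, ev_incl]

theorem lap_u {w u : Y 8} (hu : IsV w u) :
    dzb 6 (dz 7 u) = -((1 / 4 : ℂ) • (i86 w * i86 u)) := by
  have h1 := hu.eqn
  rw [lap_apply, dz_dzb] at h1
  have h2 : dzb 6 (dz 7 u) = (1 / 4 : ℂ) • ((4 : ℂ) • dzb 6 (dz 7 u)) := by
    rw [smul_smul]; norm_num
  rw [h2, h1, smul_neg]

theorem lap_v {w : Y 8} {v : Y 4} {h : ℂ → ℝ} (hv : IsC w v h) :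
    dzb 2 (dz 3 v) = -((1 / 4 : ℂ) • (i82 w * i42 v)) := by
  have h1 := hv.eqn
  rw [lap_apply, dz_dzb] at h1
  have h2 : dzb 2 (dz 3 v) = (1 / 4 : ℂ) • ((4 : ℂ) • dzb 2 (dz 3 v)) := by
    rw [smul_smul]; norm_num
  rw [h2, h1, smul_neg]

theorem ev_lap_u {w u : Y 8} (hw : cj w = w) (hu : IsV w u) {z : ℂ} (hz : ‖z‖ ≤ 1) :
    ev (dzb 6 (dz 7 u)) z = -(rv w z * rv u z) / 4 := by
  rw [lap_u hu, ev_neg, ev_smul, ev_mul _ _ hz, ev_incl, ev_incl, rv_eq hw, rv_eq hu.real]
  ring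

theorem ev_lap_v {w : Y 8} {v : Y 4} {h : ℂ → ℝ} (hw : cj w = w) (hv : IsC w v h) {z : ℂ}
    (hz : ‖z‖ ≤ 1) : ev (dzb 2 (dz 3 v)) z = -(rv w z * rv v z) / 4 := by
  rw [lap_v hv, ev_neg, ev_smul, ev_mul _ _ hz, ev_incl, ev_incl, rv_eq hw, rv_eq hv.real]
  ring

theorem ev_lap_u' {w u : Y 8} (hw : cj w = w) (hu : IsV w u) {z : ℂ} (hz : ‖z‖ ≤ 1) :
    ev (dzb 5 (dz 6 (dz 7 u))) z =
      -(ev (dz 7 w) z * rv u z + rv w z * ev (dz 7 u) z) / 4 := by
  rw [← dz_dzb, lap_u hu, map_neg, map_smul, dz_mul, ev_neg, ev_smul, ev_add _ _ hz,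
    ev_mul _ _ hz, ev_mul _ _ hz, ev_incl, ev_incl, ev_incl, ev_incl, rv_eq hw, rv_eq hu.real]
  have e1 : ev (dz 5 (i86 w)) z = ev (dz 7 w) z := by
    have := dz_incl (p := 5) (q := 7) (by norm_num) w
    rw [this, ev_incl]
  have e2 : ev (dz 5 (i86 u)) z = ev (dz 7 u) z := by
    have := dz_incl (p := 5) (q := 7) (by norm_num) u
    rw [this, ev_incl]
  rw [e1, e2]
  ring

theorem ev_lap_v' {w : Y 8} {v : Y 4} {h : ℂ → ℝ} (hw : cj w = w) (hv : IsC w v h) {z : ℂ}
    (hz : ‖z‖ ≤ 1) : ev (dzb 1 (dz 2 (dz 3 v))) z =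
      -(ev (dz 7 w) z * rv v z + rv w z * ev (dz 3 v) z) / 4 := by
  rw [← dz_dzb, lap_v hv, map_neg, map_smul, dz_mul, ev_neg, ev_smul, ev_add _ _ hz,
    ev_mul _ _ hz, ev_mul _ _ hz, ev_incl, ev_incl, ev_incl, ev_incl, rv_eq hw, rv_eq hv.real]
  have e1 : ev (dz 1 (i82 w)) z = ev (dz 7 w) z := by
    have := dz_incl (p := 1) (q := 7) (by norm_num) w
    rw [this, ev_incl]
  have e2 : ev (dz 1 (i42 v)) z = ev (dz 3 v) z := by
    have := dz_incl (p := 1) (q := 3) (by norm_num) v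
    rw [this, ev_incl]
  rw [e1, e2]
  ring

theorem ev_lap_w_re {w : Y 8} (hw : cj w = w) (z : ℂ) :
    ((ev (dzb 6 (dz 7 w)) z).re : ℂ) = ev (dzb 6 (dz 7 w)) z := by
  refine Complex.conj_eq_iff_re.1 ?_
  rw [← ev_cj, cj_dzb, cj_dz, hw, dz_dzb]

theorem J_eq (u : Y 8) (v : Y 4) (z : ℂ) :
    J (i84 u) v z = jac (ev (dz 7 u) z) (ev (dz 3 v) z) := by
  rw [J, ev_dz_i84]

theorem continuousOn_jac (u : Y 8) (v : Y 4) :
    ContinuousOn (fun z => jac (ev (dz 7 u) z) (ev (dz 3 v) z)) (closedBall 0 1) := by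
  have h1 := continuousOn_ev (dz 7 u)
  have h2 := continuousOn_ev (dz 3 v)
  unfold jac
  refine continuousOn_const.mul (Complex.continuous_im.comp_continuousOn ?_)
  exact (Complex.continuous_conj.comp_continuousOn h2).mul h1

theorem continuousOn_rv (a : Y p) : ContinuousOn (rv a) (closedBall 0 1) :=
  Complex.continuous_re.comp_continuousOn (continuousOn_ev a)

theorem exists_lower {w : Y 8} (hw : AdW w) : ∃ κ > 0, ∀ z, ‖z‖ ≤ 1 → κ ≤ rv w z := by
  obtain ⟨z0, hz0, hmin⟩ := (isCompact_closedBall (0 : ℂ) 1).exists_isMinOn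
    ⟨0, mem_closedBall_self zero_le_one⟩ (continuousOn_rv w)
  refine ⟨rv w z0, hw.pos z0 (by simpa only [mem_closedBall, dist_zero_right] using hz0), fun z hz => hmin (by simpa only [mem_closedBall, dist_zero_right] using hz)⟩

/-- The series of `J`. -/
def Js (u : Y 8) (v : Y 4) : Y 3 :=
  (2 * Complex.I) • (dzb 3 v * dz 3 (i84 u) - dz 3 v * dzb 3 (i84 u))

theorem ev_Js {u : Y 8} {v : Y 4} (hu : cj u = u) (hv : cj v = v) {z : ℂ} (hz : ‖z‖ ≤ 1) :
    ev (Js u v) z = (J (i84 u) v z : ℂ) := by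
  have hu' : cj (i84 u) = i84 u := by rw [cj_incl, hu]
  rw [Js, ev_smul, ev_sub _ _ hz, ev_mul _ _ hz, ev_mul _ _ hz, ev_dzb hv, ev_dzb hu', J, jac_eq]

theorem rv_Js {u : Y 8} {v : Y 4} (hu : cj u = u) (hv : cj v = v) {z : ℂ} (hz : ‖z‖ ≤ 1) :
    rv (Js u v) z = J (i84 u) v z := by
  rw [rv, ev_Js hu hv hz, Complex.ofReal_re]

theorem tendsto_mul {a b : ℕ → Y p} {a' b' : Y p} (ha : Tendsto a atTop (𝓝 a'))
    (hb : Tendsto b atTop (𝓝 b')) : Tendsto (fun n => a n * b n) atTop (𝓝 (a' * b')) := by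
  have h1 : Continuous fun q : Y p × Y p => mulL p q.1 q.2 :=
    ((mulL p).continuous.comp continuous_fst).clm_apply continuous_snd
  have h2 : Tendsto (fun n => (a n, b n)) atTop (𝓝 (a', b')) := ha.prodMk_nhds hb
  have h3 := (h1.tendsto (a', b')).comp h2
  simp only [Function.comp_def] at h3
  simp only [mul_def]
  exact h3

theorem tendsto_Js {un : ℕ → Y 8} {vn : ℕ → Y 4} {u : Y 8} {v : Y 4}
    (hun : Tendsto un atTop (𝓝 u)) (hvn : Tendsto vn atTop (𝓝 v)) :
    Tendsto (fun n => Js (un n) (vn n)) atTop (𝓝 (Js u v)) := by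
  have h1 : Tendsto (fun n => i84 (un n)) atTop (𝓝 (i84 u)) :=
    ((i84).continuous.tendsto u).comp hun
  have h2 : Tendsto (fun n => dz 3 (i84 (un n))) atTop (𝓝 (dz 3 (i84 u))) :=
    ((dz 3).continuous.tendsto _).comp h1
  have h3 : Tendsto (fun n => dzb 3 (i84 (un n))) atTop (𝓝 (dzb 3 (i84 u))) :=
    ((dzb 3).continuous.tendsto _).comp h1
  have h4 : Tendsto (fun n => dz 3 (vn n)) atTop (𝓝 (dz 3 v)) :=
    ((dz 3).continuous.tendsto _).comp hvn
  have h5 : Tendsto (fun n => dzb 3 (vn n)) atTop (𝓝 (dzb 3 v)) :=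
    ((dzb 3).continuous.tendsto _).comp hvn
  have h6 := tendsto_mul h5 h2
  have h7 := tendsto_mul h4 h3
  have h8 := h6.sub h7
  unfold Js
  exact Filter.Tendsto.const_smul h8 (2 * Complex.I)

theorem tendstoUniformlyOn_rv {a : ℕ → Y p} {a' : Y p} (ha : Tendsto a atTop (𝓝 a')) :
    TendstoUniformlyOn (fun n => rv (a n)) (rv a') atTop (closedBall 0 1) := by
  rw [Metric.tendstoUniformlyOn_iff]
  intro ε hε
  filter_upwards [Metric.tendsto_nhds.1 ha ε hε] with n hn z hz
  have hz' : ‖z‖ ≤ 1 := by simpa only [mem_closedBall, dist_zero_right] using hz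
  refine lt_of_le_of_lt ?_ hn
  rw [dist_comm, Real.dist_eq, dist_eq_norm, rv, rv, ← Complex.sub_re, ← ev_sub _ _ hz']
  exact (Complex.abs_re_le_norm _).trans (norm_ev_le _ hz')

theorem hasDerivAt_ray (a : Y (p + 1)) {z : ℂ} (hz : ‖z‖ < 1) :
    HasDerivAt (fun t : ℝ => rv a (t * z)) (rv (Rad p a) z) 1 := by
  have h1 : HasDerivAt (fun t : ℝ => (t : ℂ) * z) z 1 := by
    simpa only [Complex.ofRealCLM_apply, Complex.ofReal_one, one_mul] using     (Complex.ofRealCLM.hasDerivAt (x := (1 : ℝ))).mul_const z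
  have h2 : HasFDerivAt (ev a) (evD a z) (((1 : ℝ) : ℂ) * z) := by
    rw [Complex.ofReal_one, one_mul]
    exact hasFDerivAt_ev a hz
  have h3 := h2.comp_hasDerivAt (1 : ℝ) h1
  rw [evD_apply] at h3
  have h4 := hasDerivAt_re h3
  refine h4.congr_deriv ?_
  rw [rv, ev_Rad a hz.le]
  congr 1
  ring

end St

/-- The data of the key identity (`helper723`'s `PairAt`). -/
theorem pairAt_of_tri {w u : Y 8} {v : Y 4} {c : ℝ} (hw : AdW w) (h : Tri w u v c) {z : ℂ}
    (hz : ‖z‖ < 1) :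
    PairAt (rv u) (rv v) (rv w) (psi w u v c) (ev (dz 7 u)) (ev (dz 3 v)) (ev (dz 6 (dz 7 u)))
      (ev (dz 2 (dz 3 v))) (ev (dz 7 w)) z where
  hu := by
    filter_upwards [St.mem_nhds hz] with y hy
    exact St.hasW_rv h.hu.real hy
  hv := by
    filter_upwards [St.mem_nhds hz] with y hy
    exact St.hasW_rv h.hv.real hy
  hk := by
    filter_upwards [St.mem_nhds hz] with y hy
    exact St.hasW_rv hw.real hy
  hψ := by
    filter_upwards [St.mem_nhds hz] with y hy
    exact hasW_psi h.hu h.hv c hy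
  hp := by
    filter_upwards [St.mem_nhds hz] with y hy
    exact (St.hasW_ev (dz 7 u) hy).congr rfl (St.ev_lap_u hw.real h.hu hy.le)
  hq := by
    filter_upwards [St.mem_nhds hz] with y hy
    exact (St.hasW_ev (dz 3 v) hy).congr rfl (St.ev_lap_v hw.real h.hv hy.le)
  hpos := hw.pos z hz.le

/-- `J > 0` inside implies that the triple is good. -/
theorem good_of_J_pos {w u : Y 8} {v : Y 4} {c : ℝ} (hw : AdW w) (h : Tri w u v c)
    (hJ : ∀ z : ℂ, ‖z‖ < 1 → 0 < J (i84 u) v z) : Good w u v c := by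
  have hJ' : ∀ z : ℂ, ‖z‖ < 1 → 0 < jac (ev (dz 7 u) z) (ev (dz 3 v) z) := fun z hz => by
    rw [← St.J_eq]; exact hJ z hz
  have hno : ∀ z : ℂ, ‖z‖ < 1 → ¬ IsLocalMin (psi w u v c) z := by
    intro z hz
    obtain ⟨m, hm⟩ := (pairAt_of_tri hw h hz).hasW_psi
    refine not_isLocalMin_of_wirt (pairAt_of_tri hw h hz).hψ hm ?_
    rw [Complex.ofReal_re]
    linarith only [hJ' z hz]
  have h0 : ∀ z : ℂ, ‖z‖ ≤ 1 → 0 ≤ psi w u v c z :=
    min_principle_disc (continuousOn_psi w u v c) (fun z hz => psi_circle_nonneg h hz)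
      fun z hz _ => hno z hz
  refine ⟨?_, fun z hz => ?_⟩
  · have key := jac_ge (u := rv u) (v := rv v) (k := rv w) (ψ := psi w u v c)
      (p := ev (dz 7 u)) (q := ev (dz 3 v)) (p1 := ev (dz 6 (dz 7 u)))
      (q1 := ev (dz 2 (dz 3 v))) (k1 := ev (dz 7 w))
      (fun z hz => pairAt_of_tri hw h hz)
      (fun z hz => ⟨_, (St.hasW_ev (dz 6 (dz 7 u)) hz).congr rfl
        (St.ev_lap_u' hw.real h.hu hz.le)⟩)
      (fun z hz => ⟨_, (St.hasW_ev (dz 2 (dz 3 v)) hz).congr rfl
        (St.ev_lap_v' hw.real h.hv hz.le)⟩)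
      (fun z hz => ⟨_, (ev (dzb 6 (dz 7 w)) z).re, (St.hasW_ev (dz 7 w) hz).congr rfl
        (St.ev_lap_w_re hw.real z).symm, hw.curv z hz⟩)
      hJ' hw.pos
      (((St.continuousOn_jac u v).div (St.continuousOn_rv w) fun z hz =>
        (hw.pos z (by simpa only [mem_closedBall, dist_zero_right] using hz)).ne').sub ((continuousOn_psi w u v c).div_const 2))
      (fun z hz => by rw [← St.J_eq]; exact J_ge_circle hw h hz)
    intro z hz
    rw [St.J_eq]
    exact key z hz
  · refine lt_of_le_of_ne (h0 z hz.le) fun hne => hno z hz ?_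
    filter_upwards [St.mem_nhds hz] with y hy
    rw [← hne]
    exact h0 y hy.le

/-- Good triples: lower bounds. -/
theorem Good.lower {w u : Y 8} {v : Y 4} {c : ℝ} (hw : AdW w) (h : Tri w u v c)
    (hg : Good w u v c) : ∃ ε > 0, ∀ z : ℂ, ‖z‖ ≤ 1 → ε * (1 - ‖z‖ ^ 2) ≤ psi w u v c z ∧
      ε * (1 - ‖z‖ ^ 2) ≤ J (i84 u) v z := by
  have h0 : ∀ z : ℂ, ‖z‖ ≤ 1 → 0 ≤ psi w u v c z := by
    intro z hz
    rcases lt_or_eq_of_le hz with h1 | h1
    · exact (hg.pos z h1).le
    · exact psi_circle_nonneg h h1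
  have hge : ∀ z : ℂ, ‖z‖ ≤ 1 → rv w z / 2 * psi w u v c z ≤
      jac (ev (dz 7 u) z) (ev (dz 3 v) z) := fun z hz => by
    rw [← St.J_eq]; exact hg.ge z hz
  have hne : ∃ z : ℂ, ‖z‖ < 1 ∧ 0 < psi w u v c z := ⟨0, by simp only [norm_zero, zero_lt_one], hg.pos 0 (by simp only [norm_zero, zero_lt_one])⟩
  have hJ0 : ∀ z ∈ ball (0 : ℂ) 1, 0 ≤ jac (ev (dz 7 u) z) (ev (dz 3 v) z) := fun z hz => by
    have hz' : ‖z‖ ≤ 1 := (mem_ball_zero_iff.1 hz).le
    have := hw.pos z hz'
    exact le_trans (mul_nonneg (by linarith only [this]) (h0 z hz')) (hge z hz')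
  obtain ⟨ε1, hε1, h1⟩ := hopf_disc (continuousOn_psi w u v c)
    (supHarm_psi (fun z hz => pairAt_of_tri hw h (mem_ball_zero_iff.1 hz)) hJ0) h0 hne
  obtain ⟨ε2, hε2, h2⟩ := jac_lower (fun z hz => pairAt_of_tri hw h hz) (St.exists_lower hw) hge h0
    (continuousOn_psi w u v c) hne
  refine ⟨min ε1 ε2, lt_min hε1 hε2, fun z hz => ?_⟩
  have hz2 : 0 ≤ 1 - ‖z‖ ^ 2 := by
    have : ‖z‖ ^ 2 ≤ 1 := pow_le_one₀ (norm_nonneg _) hz
    linarith
  constructor
  · exact (mul_le_mul_of_nonneg_right (min_le_left _ _) hz2).trans (h1 z hz)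
  · rw [St.J_eq]
    exact (mul_le_mul_of_nonneg_right (min_le_right _ _) hz2).trans (h2 z hz)

/-- Open step. -/
theorem open_seq {w : Y 8} {u : Y 8} {v : Y 4} {c : ℝ} (hw : AdW w) (h : Tri w u v c)
    (hg : Good w u v c) {wn un : ℕ → Y 8} {vn : ℕ → Y 4} {cn : ℕ → ℝ}
    (hwn : Tendsto wn atTop (𝓝 w)) (hun : Tendsto un atTop (𝓝 u))
    (hvn : Tendsto vn atTop (𝓝 v)) (hcn : Tendsto cn atTop (𝓝 c))
    (hadw : ∀ n, AdW (wn n)) (htri : ∀ n, Tri (wn n) (un n) (vn n) (cn n)) :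
    ∀ᶠ n in atTop, Good (wn n) (un n) (vn n) (cn n) := by
  obtain ⟨ε, hε, hlow⟩ := hg.lower hw h
  have hS := St.tendsto_Js hun hvn
  have hR : Tendsto (fun n => Rad 2 (St.Js (un n) (vn n))) atTop (𝓝 (Rad 2 (St.Js u v))) :=
    ((Rad 2).continuous.tendsto _).comp hS
  have key := open_step (F := fun n => rv (St.Js (un n) (vn n)))
    (G := fun n => rv (Rad 2 (St.Js (un n) (vn n)))) (F' := rv (St.Js u v))
    (G' := rv (Rad 2 (St.Js u v))) (fun n => St.continuousOn_rv _) (St.continuousOn_rv _)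
    (fun n z hz => St.hasDerivAt_ray _ hz) (fun z hz => St.hasDerivAt_ray _ hz)
    (St.continuousOn_rv _) (St.tendstoUniformlyOn_rv hS) (St.tendstoUniformlyOn_rv hR)
    (fun n z hz => by
      rw [St.rv_Js (htri n).hu.real (htri n).hv.real hz.le, J_circle (htri n) hz]
      have h1 : 0 ≤ gg (D2 (wn n) (un n)) (rv (un n) z) := by
        unfold gg
        exact pow_nonneg (le_max_right _ _) 6
      exact mul_nonneg (mul_nonneg (htri n).hc h1) (sq_nonneg _))
    hε (fun z hz => by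
      rw [St.rv_Js h.hu.real h.hv.real hz]
      exact (hlow z hz).2)
  filter_upwards [key] with n hn
  refine good_of_J_pos (hadw n) (htri n) fun z hz => ?_
  have := hn z hz
  rwa [St.rv_Js (htri n).hu.real (htri n).hv.real hz.le] at this

/-- Closed step: limits of good triples are good, or `ψ = 0` identically. -/
theorem closed_seq {w : Y 8} {u : Y 8} {v : Y 4} {c : ℝ} (hw : AdW w) (h : Tri w u v c)
    {wn un : ℕ → Y 8} {vn : ℕ → Y 4} {cn : ℕ → ℝ}
    (hwn : Tendsto wn atTop (𝓝 w)) (hun : Tendsto un atTop (𝓝 u))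
    (hvn : Tendsto vn atTop (𝓝 v)) (hcn : Tendsto cn atTop (𝓝 c))
    (hg : ∀ n, Good (wn n) (un n) (vn n) (cn n)) :
    Good w u v c ∨ ∀ z : ℂ, ‖z‖ ≤ 1 → psi w u v c z = 0 := by
  have hψ := tendsto_psi hw hwn hun hvn hcn
  have hψz : ∀ z : ℂ, ‖z‖ ≤ 1 →
      Tendsto (fun n => psi (wn n) (un n) (vn n) (cn n) z) atTop (𝓝 (psi w u v c z)) :=
    fun z hz => hψ.tendsto_at (by simpa only [mem_closedBall, dist_zero_right] using hz)
  have hwz : ∀ z : ℂ, ‖z‖ ≤ 1 → Tendsto (fun n => rv (wn n) z) atTop (𝓝 (rv w z)) :=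
    fun z hz => (St.tendstoUniformlyOn_rv hwn).tendsto_at (by simpa only [mem_closedBall, dist_zero_right] using hz)
  have hJz : ∀ z : ℂ, ‖z‖ ≤ 1 →
      Tendsto (fun n => J (i84 (un n)) (vn n) z) atTop (𝓝 (J (i84 u) v z)) := by
    intro z hz
    have h1 : ∀ {a : ℕ → Y 7} {a' : Y 7}, Tendsto a atTop (𝓝 a') →
        Tendsto (fun n => ev (a n) z) atTop (𝓝 (ev a' z)) := fun {a a'} ha => by
      have := ((evL 7 z hz).continuous.tendsto a').comp ha
      simpa only [Function.comp_def, evL_apply] using this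
    have h2 : ∀ {a : ℕ → Y 3} {a' : Y 3}, Tendsto a atTop (𝓝 a') →
        Tendsto (fun n => ev (a n) z) atTop (𝓝 (ev a' z)) := fun {a a'} ha => by
      have := ((evL 3 z hz).continuous.tendsto a').comp ha
      simpa only [Function.comp_def, evL_apply] using this
    have h3 := h1 (((dz 7).continuous.tendsto u).comp hun)
    have h4 := h2 (((dz 3).continuous.tendsto v).comp hvn)
    simp only [St.J_eq]
    unfold jac
    refine Tendsto.const_mul _ ?_
    refine (Complex.continuous_im.tendsto _).comp ?_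
    exact ((Complex.continuous_conj.tendsto _).comp h4).mul h3
  have hge : ∀ z : ℂ, ‖z‖ ≤ 1 → rv w z / 2 * psi w u v c z ≤ J (i84 u) v z := fun z hz =>
    le_of_tendsto_of_tendsto' (((hwz z hz).div_const 2).mul (hψz z hz)) (hJz z hz)
      fun n => (hg n).ge z hz
  have h0 : ∀ z : ℂ, ‖z‖ ≤ 1 → 0 ≤ psi w u v c z := by
    intro z hz
    rcases lt_or_eq_of_le hz with h1 | h1
    · exact ge_of_tendsto' (hψz z hz) fun n => ((hg n).pos z h1).le
    · exact psi_circle_nonneg h h1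
  by_cases hne : ∃ z : ℂ, ‖z‖ < 1 ∧ 0 < psi w u v c z
  · left
    have hJ0 : ∀ z ∈ ball (0 : ℂ) 1, 0 ≤ jac (ev (dz 7 u) z) (ev (dz 3 v) z) := fun z hz => by
      have hz' : ‖z‖ ≤ 1 := (mem_ball_zero_iff.1 hz).le
      have h1 := hw.pos z hz'
      rw [← St.J_eq]
      exact le_trans (mul_nonneg (by linarith only [h1]) (h0 z hz')) (hge z hz')
    obtain ⟨ε1, hε1, h1⟩ := hopf_disc (continuousOn_psi w u v c)
      (supHarm_psi (fun z hz => pairAt_of_tri hw h (mem_ball_zero_iff.1 hz)) hJ0) h0 hne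
    refine ⟨hge, fun z hz => lt_of_lt_of_le ?_ (h1 z hz.le)⟩
    have : ‖z‖ ^ 2 < 1 := pow_lt_one₀ (norm_nonneg _) hz two_ne_zero
    have h3 : 0 < 1 - ‖z‖ ^ 2 := by linarith
    (clear * - hε1 this; positivity)
  · right
    have hin : ∀ z : ℂ, ‖z‖ < 1 → psi w u v c z = 0 := fun z hz =>
      le_antisymm (not_lt.1 fun h1 => hne ⟨z, hz, h1⟩) (h0 z hz.le)
    intro z hz
    have hcl : closure (ball (0 : ℂ) 1) = closedBall 0 1 := closure_ball 0 one_ne_zero
    have hzc : z ∈ closure (ball (0 : ℂ) 1) := by rw [hcl]; simpa only [mem_closedBall, dist_zero_right] using hz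
    have h1 : ContinuousWithinAt (psi w u v c) (ball 0 1) z :=
      (continuousOn_psi w u v c z (by simpa only [mem_closedBall, dist_zero_right] using hz)).mono ball_subset_closedBall
    have : (𝓝[ball (0 : ℂ) 1] z).NeBot := mem_closure_iff_nhdsWithin_neBot.1 hzc
    refine tendsto_nhds_unique h1.tendsto (tendsto_const_nhds.congr' ?_)
    filter_upwards [self_mem_nhdsWithin] with y hy
    exact (hin y (mem_ball_zero_iff.1 hy)).symm

end Vale.Agent.P071.G
end
end

section

set_option linter.all false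

/-!
# Block G, task G-UC: unique continuation for series, proportional solutions
-/

open scoped ComplexConjugate Topology Real
open Filter Metric MeasureTheory

noncomputable section

namespace Vale.Agent.P071.G

variable {p : ℕ}

/-- A series which vanishes near a point of the open disc is zero. -/
theorem eq_zero_of_ball {a : Y p} {z₀ : ℂ} {ε : ℝ} (hε : 0 < ε) (hz : ‖z₀‖ < 1)
    (h : ∀ z ∈ ball z₀ ε, ‖z‖ < 1 → ev a z = 0) : a = 0 := by
  refine eq_zero_of_ev fun z₁ hz₁ => ?_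
  set d : ℂ := z₁ - z₀ with hd
  set U : Set ℂ := (fun ζ : ℂ => z₀ + ζ * d) ⁻¹' ball 0 1 ∩
    (fun ζ : ℂ => conj z₀ + ζ * conj d) ⁻¹' ball 0 1 with hU
  have hUo : IsOpen U :=
    (isOpen_ball.preimage (by fun_prop)).inter (isOpen_ball.preimage (by fun_prop))
  have hcv : ∀ b c : ℂ, Convex ℝ ((fun ζ : ℂ => b + ζ * c) ⁻¹' ball 0 1) := by
    intro b c x hx y hy s t hs ht hst
    rw [Set.mem_preimage] at hx hy ⊢
    have h1 := convex_ball (0 : ℂ) 1 hx hy hs ht hst
    have h2 : b + (s • x + t • y) * c = s • (b + x * c) + t • (b + y * c) := by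
      have h3 : (s : ℂ) + t = 1 := by exact_mod_cast congrArg (fun r : ℝ => (r : ℂ)) hst
      simp only [Complex.real_smul]
      linear_combination (-b) * h3
    show b + (s • x + t • y) * c ∈ ball 0 1
    rw [h2]
    exact h1
  have hUc : IsPreconnected U := ((hcv _ _).inter (hcv _ _)).isPreconnected
  set F : ℂ → ℂ := fun ζ => ∑' i : Ix, cf a i * ((z₀ + ζ * d) ^ i.1 * (conj z₀ + ζ * conj d) ^ i.2)
    with hF
  have hFd : DifferentiableOn ℂ F U := by
    refine Complex.differentiableOn_tsum_of_summable_norm (summable_cf a) (fun i => ?_) hUo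
      fun i ζ hζ => ?_
    · have : Differentiable ℂ fun ζ : ℂ =>
          cf a i * ((z₀ + ζ * d) ^ i.1 * (conj z₀ + ζ * conj d) ^ i.2) := by fun_prop
      exact this.differentiableOn
    · have h1 : ‖z₀ + ζ * d‖ ≤ 1 := (mem_ball_zero_iff.1 hζ.1).le
      have h2 : ‖conj z₀ + ζ * conj d‖ ≤ 1 := (mem_ball_zero_iff.1 hζ.2).le
      rw [norm_mul, norm_mul, norm_pow, norm_pow]
      refine mul_le_mul_of_nonneg_left ?_ (norm_nonneg _)
      exact (mul_le_one₀ (pow_le_one₀ (norm_nonneg _) h1) (by (clear * -; positivity))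
        (pow_le_one₀ (norm_nonneg _) h2)).trans (one_le_wt p i)
  have hreal : ∀ t : ℝ, F t = ev a (z₀ + t * d) := by
    intro t
    rw [hF]
    simp only [ev, mon, map_add, map_mul, Complex.conj_ofReal]
  have hFa : AnalyticOnNhd ℂ F U := hFd.analyticOnNhd hUo
  have hnorm : ‖conj z₀‖ < 1 := by rw [Complex.norm_conj]; exact hz
  have h0U : (0 : ℂ) ∈ U := by
    refine ⟨?_, ?_⟩
    · rw [Set.mem_preimage, mem_ball_zero_iff]; simpa only [zero_mul, add_zero] using hz
    · rw [Set.mem_preimage, mem_ball_zero_iff]; simpa only [zero_mul, add_zero, RCLike.norm_conj] using hnorm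
  have h1U : (1 : ℂ) ∈ U := by
    refine ⟨?_, ?_⟩
    · rw [Set.mem_preimage, mem_ball_zero_iff]
      have : z₀ + 1 * d = z₁ := by rw [hd]; ring
      rw [this]; exact hz₁
    · rw [Set.mem_preimage, mem_ball_zero_iff]
      have : conj z₀ + 1 * conj d = conj z₁ := by rw [hd, map_sub]; ring
      rw [this, Complex.norm_conj]; exact hz₁
  have hfr : ∃ᶠ ζ in 𝓝[≠] (0 : ℂ), F ζ = 0 := by
    have hc : Continuous fun t : ℝ => z₀ + (t : ℂ) * d := by fun_prop
    have hc0 : Tendsto (fun t : ℝ => z₀ + (t : ℂ) * d) (𝓝 0) (𝓝 z₀) := by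
      simpa only [Complex.ofReal_zero, zero_mul, add_zero] using hc.tendsto 0
    have h1 : ∀ᶠ t : ℝ in 𝓝 0, z₀ + (t : ℂ) * d ∈ ball z₀ ε :=
      hc0.eventually (ball_mem_nhds z₀ hε)
    have h2 : ∀ᶠ t : ℝ in 𝓝 0, z₀ + (t : ℂ) * d ∈ ball (0 : ℂ) 1 :=
      hc0.eventually (isOpen_ball.mem_nhds (mem_ball_zero_iff.2 hz))
    have h3 : ∀ᶠ t : ℝ in 𝓝[>] 0, F (t : ℂ) = 0 := by
      have h4 : ∀ᶠ t : ℝ in 𝓝 0, F (t : ℂ) = 0 := by
        filter_upwards [h1, h2] with t ht1 ht2
        rw [hreal]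
        exact h _ ht1 (mem_ball_zero_iff.1 ht2)
      exact h4.filter_mono nhdsWithin_le_nhds
    have h5 : Tendsto (fun t : ℝ => (t : ℂ)) (𝓝[>] 0) (𝓝[≠] 0) := by
      refine tendsto_nhdsWithin_iff.2 ⟨?_, ?_⟩
      · have : Tendsto (fun t : ℝ => (t : ℂ)) (𝓝 0) (𝓝 0) := by
          simpa using (Complex.continuous_ofReal.tendsto 0)
        exact this.mono_left nhdsWithin_le_nhds
      · filter_upwards [self_mem_nhdsWithin] with t ht
        have : (0 : ℝ) < t := ht
        exact Complex.ofReal_ne_zero.2 this.ne'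
    exact h5.frequently h3.frequently
  have hz' := hFa.eqOn_zero_of_preconnected_of_frequently_eq_zero hUc h0U hfr h1U
  have h6 : F 1 = ev a z₁ := by
    have := hreal 1
    rw [Complex.ofReal_one] at this
    rw [this, hd]
    congr 1
    ring
  rw [← h6]
  exact hz'

/-- If `ψ` vanishes identically then `v` is a constant multiple of `u`. -/
theorem prop_of_psi_zero {w u : Y 8} {v : Y 4} {h : ℂ → ℝ} (hu : IsV w u) (hv : IsC w v h)
    (hu0 : u ≠ 0) {c : ℝ} (h0 : ∀ z : ℂ, ‖z‖ < 1 → psi w u v c z = 0) :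
    ∃ t : ℝ, v = (t : ℂ) • i84 u := by
  have hur : ∀ z : ℂ, ev u z = (rv u z : ℂ) := by
    intro z
    have h1 := ev_cj u z
    rw [hu.real] at h1
    exact (Complex.conj_eq_iff_re.1 h1.symm).symm
  have hvr : ∀ z : ℂ, ev v z = (rv v z : ℂ) := by
    intro z
    have h1 := ev_cj v z
    rw [hv.real] at h1
    exact (Complex.conj_eq_iff_re.1 h1.symm).symm
  have key : ∀ z : ℂ, ‖z‖ < 1 → ev u z * ev (dz 3 v) z = ev v z * ev (dz 7 u) z := by
    intro z hz
    have h1 := hasW_psi hu hv c hz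
    have h2 : HasW (fun z => (psi w u v c z : ℂ)) 0 0 z := by
      refine (hasW_const 0 z).congr_of_eventuallyEq ?_
      have h3 : ∀ᶠ y in 𝓝 z, y ∈ ball (0 : ℂ) 1 := isOpen_ball.mem_nhds (mem_ball_zero_iff.2 hz)
      filter_upwards [h3] with y hy
      rw [h0 y (mem_ball_zero_iff.1 hy)]
      simp
    have h3 := (h1.unique h2).1
    have h4 := (mul_eq_zero.1 h3).resolve_left Complex.I_ne_zero
    rw [hur, hvr]
    exact sub_eq_zero.1 h4
  have hdbu : ∀ z : ℂ, ev (dzb 7 u) z = conj (ev (dz 7 u) z) := by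
    intro z
    rw [← ev_cj, cj_dz, hu.real]
  have hdbv : ∀ z : ℂ, ev (dzb 3 v) z = conj (ev (dz 3 v) z) := by
    intro z
    rw [← ev_cj, cj_dz, hv.real]
  have keyb : ∀ z : ℂ, ‖z‖ < 1 → ev u z * ev (dzb 3 v) z = ev v z * ev (dzb 7 u) z := by
    intro z hz
    have h1 := congrArg conj (key z hz)
    rw [map_mul, map_mul, ← hdbu, ← hdbv, hur, hvr, Complex.conj_ofReal, Complex.conj_ofReal] at h1
    rw [hur, hvr]
    exact h1
  obtain ⟨z₀, hz₀, hne⟩ : ∃ z₀ : ℂ, ‖z₀‖ < 1 ∧ ev u z₀ ≠ 0 := by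
    by_contra hcon
    push Not at hcon
    exact hu0 (eq_zero_of_ev hcon)
  have hcont : ContinuousAt (ev u) z₀ :=
    (continuousOn_ev u).continuousAt (mem_of_superset
      (isOpen_ball.mem_nhds (mem_ball_zero_iff.2 hz₀)) ball_subset_closedBall)
  have hev : ∀ᶠ z in 𝓝 z₀, ev u z ≠ 0 ∧ z ∈ ball (0 : ℂ) 1 :=
    (hcont.eventually_ne hne).and (isOpen_ball.mem_nhds (mem_ball_zero_iff.2 hz₀))
  obtain ⟨ε, hε, hB⟩ := Metric.eventually_nhds_iff_ball.1 hev
  have hD : ∀ z ∈ ball z₀ ε, HasFDerivAt (fun z => ev v z / ev u z) (0 : ℂ →L[ℝ] ℂ) z := by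
    intro z hz
    obtain ⟨hz1, hz2⟩ := hB z hz
    have hz3 : ‖z‖ < 1 := mem_ball_zero_iff.1 hz2
    have h1 : HasW (ev v) (ev (dz 3 v) z) (ev (dzb 3 v) z) z := hasFDerivAt_ev v hz3
    have h2 : HasW (ev u) (ev (dz 7 u) z) (ev (dzb 7 u) z) z := hasFDerivAt_ev u hz3
    have h3 := h1.div h2 hz1
    have h4 : HasW (fun z => ev v z / ev u z) 0 0 z := by
      refine h3.congr ?_ ?_
      · rw [mul_comm (ev (dz 3 v) z), key z hz3, sub_self, zero_div]
      · rw [mul_comm (ev (dzb 3 v) z), keyb z hz3, sub_self, zero_div]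
    refine h4.hasFDerivAt.congr_fderiv ?_
    ext y
    simp only [add_apply, smul_apply, ContinuousLinearMap.id_apply, smul_eq_mul, zero_mul, ContinuousLinearEquiv.coe_coe, ContinuousAlgEquiv.coeCLE_apply, Complex.conjCAE_apply, add_zero, zero_apply]
  have hconst : ∀ z ∈ ball z₀ ε, ev v z / ev u z = ev v z₀ / ev u z₀ := by
    intro z hz
    refine isOpen_ball.is_const_of_fderiv_eq_zero (𝕜 := ℝ) (convex_ball z₀ ε).isPreconnected
      (f := fun z => ev v z / ev u z)
      (fun y hy => (hD y hy).differentiableAt.differentiableWithinAt) (fun y hy => (hD y hy).fderiv)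
      hz (mem_ball_self hε)
  refine ⟨rv v z₀ / rv u z₀, sub_eq_zero.1 (eq_zero_of_ball hε hz₀ fun z hz hz1 => ?_)⟩
  have h1 := hconst z hz
  have h2 := (hB z hz).1
  rw [ev_sub _ _ hz1.le, ev_smul, ev_incl, Complex.ofReal_div, ← hvr, ← hur, ← h1,
    div_mul_cancel₀ _ h2, sub_self]

end Vale.Agent.P071.G
end
end

section

/-!
# Block G: algebra of `J`, `ψ`, `Good` under linear combinations
-/

open scoped ComplexConjugate Topology Real
open Filter Metric MeasureTheory

noncomputable section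

namespace Vale.Agent.P071.G

variable {p : ℕ}

theorem rv_smul (t : ℝ) (a : Y p) (z : ℂ) : rv ((t : ℂ) • a) z = t * rv a z := by
  rw [rv, ev_smul, Complex.re_ofReal_mul]; rfl

theorem rv_add (a b : Y p) {z : ℂ} (hz : ‖z‖ ≤ 1) : rv (a + b) z = rv a z + rv b z := by
  simp [rv, ev_add a b hz]

theorem IsV.smul {w u : Y 8} (h : IsV w u) (t : ℝ) : IsV w ((t : ℂ) • u) where
  real := by rw [cj_smul, h.real, Complex.conj_ofReal]
  eqn := by rw [map_smul, h.eqn, map_smul, ser_mul_smul, smul_neg]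
  neu := fun z hz => by rw [map_smul, ev_smul, h.neu z hz, mul_zero]

theorem IsV.add {w u v : Y 8} (h : IsV w u) (h' : IsV w v) : IsV w (u + v) where
  real := by rw [cj_add, h.real, h'.real]
  eqn := by rw [map_add, h.eqn, h'.eqn, map_add, ser_mul_add, neg_add]
  neu := fun z hz => by rw [map_add, ev_add _ _ hz.le, h.neu z hz, h'.neu z hz, add_zero]

theorem IsC.smul {w : Y 8} {v : Y 4} {h : ℂ → ℝ} (hv : IsC w v h) (t : ℝ) :
    IsC w ((t : ℂ) • v) (fun z => t * h z) where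
  real := by rw [cj_smul, hv.real, Complex.conj_ofReal]
  eqn := by rw [map_smul, hv.eqn, map_smul, ser_mul_smul, smul_neg]
  neu := fun z hz => by rw [map_smul, ev_smul, hv.neu z hz]; push_cast; ring

theorem IsC.add {w : Y 8} {v v' : Y 4} {h h' : ℂ → ℝ} (hv : IsC w v h) (hv' : IsC w v' h') :
    IsC w (v + v') (fun z => h z + h' z) where
  real := by rw [cj_add, hv.real, hv'.real]
  eqn := by rw [map_add, hv.eqn, hv'.eqn, map_add, ser_mul_add, neg_add]
  neu := fun z hz => by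
    rw [map_add, ev_add _ _ hz.le, hv.neu z hz, hv'.neu z hz]; push_cast; ring

theorem IsC.congr {w : Y 8} {v : Y 4} {h h' : ℂ → ℝ} (hv : IsC w v h)
    (hh : ∀ z : ℂ, ‖z‖ = 1 → h z = h' z) : IsC w v h' where
  real := hv.real
  eqn := hv.eqn
  neu := fun z hz => by rw [hv.neu z hz, hh z hz]

/-- Eigenfunctions are solutions without source. -/
theorem IsV.isC {w u : Y 8} (h : IsV w u) : IsC w (i84 u) (fun _ => 0) where
  real := by rw [cj_incl, h.real]
  eqn := by
    have h1 := congrArg (incl (show 2 ≤ 6 by norm_num)) h.eqn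
    have e1 : incl (show 2 ≤ 6 by norm_num) (lap 6 u) = lap 2 (i84 u) := by
      rw [lap_apply, lap_apply, map_smul]
      refine congrArg (fun T => (4 : ℂ) • T) ?_
      have e2 := dz_incl (p := 2) (q := 6) (by norm_num) (dzb 7 u)
      have e3 := dzb_incl (p := 3) (q := 7) (by norm_num) u
      rw [← e2]
      exact congrArg (dz 2) e3.symm
    rw [e1, map_neg, incl_mul] at h1
    rw [h1]
    congr 2
    · ext i; simp
    · ext i; simp
  neu := fun z hz => by
    have h2 : ev (Rad 3 (i84 u)) z = ev (Rad 7 u) z := by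
      have := Rad_incl (p := 3) (q := 7) (by norm_num) u
      rw [show Rad 3 (i84 u) = incl (show 3 ≤ 7 by norm_num) (Rad 7 u) from this, ev_incl]
    rw [h2, h.neu z hz, Complex.ofReal_zero]

theorem J_eq (u v : Y 4) (z : ℂ) :
    J u v z = -4 * (conj (ev (dz 3 v) z) * ev (dz 3 u) z).im := rfl

theorem J_smul_smul (u v : Y 4) (s t : ℝ) (z : ℂ) :
    J ((s : ℂ) • u) ((t : ℂ) • v) z = s * t * J u v z := by
  simp only [J_eq, map_smul, ev_smul, map_mul, Complex.conj_ofReal]
  have : (t : ℂ) * conj (ev (dz 3 v) z) * ((s : ℂ) * ev (dz 3 u) z) =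
      ((s * t : ℝ) : ℂ) * (conj (ev (dz 3 v) z) * ev (dz 3 u) z) := by push_cast; ring
  rw [this, Complex.im_ofReal_mul]
  ring

theorem J_rot (u v : Y 4) (a b : ℝ) {z : ℂ} (hz : ‖z‖ ≤ 1) :
    J ((a : ℂ) • u + (b : ℂ) • v) ((-b : ℂ) • u + (a : ℂ) • v) z = (a ^ 2 + b ^ 2) * J u v z := by
  simp only [J_eq, map_add, map_smul, ev_add _ _ hz, ev_smul, map_mul, Complex.conj_ofReal, map_neg]
  generalize ev (dz 3 u) z = x
  generalize ev (dz 3 v) z = y
  simp only [Complex.add_im, Complex.mul_im, Complex.add_re, Complex.mul_re, Complex.neg_re,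
    Complex.neg_im, Complex.ofReal_re, Complex.ofReal_im, Complex.conj_re, Complex.conj_im]
  ring

theorem alpha_smul_smul (u v : Y 4) (s t : ℂ) :
    alpha (s • u) (t • v) = (s * t) • alpha u v := by
  simp only [alpha, map_smul, ser_smul_mul, ser_mul_smul, smul_smul, smul_sub]
  congr 1
  · congr 1; ring
  · congr 1; ring

theorem alpha_rot (u v : Y 4) (a b : ℂ) :
    alpha (a • u + b • v) ((-b) • u + a • v) = (a ^ 2 + b ^ 2) • alpha u v := by
  simp only [alpha, map_add, map_smul, ser_smul_mul, ser_mul_smul, ser_add_mul, ser_mul_add,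
    smul_sub, smul_add, smul_smul]
  rw [ser_mul_comm (i43 u) (dz 3 u), ser_mul_comm (i43 v) (dz 3 v)]
  module

theorem psi0_of_alpha {u v u' v' : Y 4} {c : ℝ} (h : alpha u' v' = (c : ℂ) • alpha u v) :
    psi0 u' v' = (c : ℂ) • psi0 u v := by
  unfold psi0
  rw [h, cj_smul, Complex.conj_ofReal, prim_smul]

theorem Good.scale {w u : Y 8} {v : Y 4} {c : ℝ} (hg : Good w u v c) {s t : ℝ}
    (hs : s = 1 ∨ s = -1) (ht : 0 < t) :
    Good w ((s : ℂ) • u) (((s * t : ℝ) : ℂ) • v) (t * c) := by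
  have hss : s * (s * t) = t := by
    rcases hs with rfl | rfl <;> ring
  have hJ : ∀ z, J (i84 ((s : ℂ) • u)) (((s * t : ℝ) : ℂ) • v) z = t * J (i84 u) v z := by
    intro z
    rw [map_smul, J_smul_smul, hss]
  have hD : D2 w ((s : ℂ) • u) = D2 w u := by
    rcases hs with rfl | rfl
    · simp
    · have : (((-1 : ℝ) : ℂ) • u) = -u := by simp
      rw [this, D2_neg]
  have hG : Gam (D2 w ((s : ℂ) • u)) (rv ((s : ℂ) • u) 1) = Gam (D2 w u) (rv u 1) := by
    rw [hD, rv_smul]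
    unfold Gam
    rcases hs with rfl | rfl
    · rw [one_mul]
    · rw [neg_one_mul, neg_sq]
  have hψ : ∀ z, psi w ((s : ℂ) • u) (((s * t : ℝ) : ℂ) • v) (t * c) z = t * psi w u v c z := by
    intro z
    have h1 : psi0 (i84 ((s : ℂ) • u)) (((s * t : ℝ) : ℂ) • v) = ((t : ℝ) : ℂ) • psi0 (i84 u) v := by
      apply psi0_of_alpha
      rw [map_smul, alpha_smul_smul]
      have e : (s : ℂ) * ((s * t : ℝ) : ℂ) = ((s * (s * t) : ℝ) : ℂ) := by push_cast; ring
      rw [e, hss]
    unfold psi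
    rw [h1, hG, rv_smul, rv_smul]
    ring
  refine ⟨fun z hz => ?_, fun z hz => ?_⟩
  · rw [hJ, hψ]
    have := mul_le_mul_of_nonneg_left (hg.ge z hz) ht.le
    linarith only [this]
  · rw [hψ]
    exact mul_pos ht (hg.pos z hz)

theorem Good.rot {w u v : Y 8} (hg : Good w u (i84 v) 0) {a b : ℝ} (hab : a ≠ 0 ∨ b ≠ 0) :
    Good w ((a : ℂ) • u + (b : ℂ) • v) (i84 ((-b : ℂ) • u + (a : ℂ) • v)) 0 := by
  have hpos : 0 < a ^ 2 + b ^ 2 := by
    rcases hab with h | h <;> positivity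
  have hJ : ∀ z, ‖z‖ ≤ 1 → J (i84 ((a : ℂ) • u + (b : ℂ) • v)) (i84 ((-b : ℂ) • u + (a : ℂ) • v)) z =
      (a ^ 2 + b ^ 2) * J (i84 u) (i84 v) z := by
    intro z hz
    rw [map_add, map_smul, map_smul, map_add, map_smul, map_smul, J_rot _ _ _ _ hz]
  have hψ : ∀ z, psi w ((a : ℂ) • u + (b : ℂ) • v) (i84 ((-b : ℂ) • u + (a : ℂ) • v)) 0 z =
      (a ^ 2 + b ^ 2) * psi w u (i84 v) 0 z := by
    intro z
    have h1 : psi0 (i84 ((a : ℂ) • u + (b : ℂ) • v)) (i84 ((-b : ℂ) • u + (a : ℂ) • v)) =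
        ((a ^ 2 + b ^ 2 : ℝ) : ℂ) • psi0 (i84 u) (i84 v) := by
      apply psi0_of_alpha
      rw [map_add, map_smul, map_smul, map_add, map_smul, map_smul, alpha_rot]
      push_cast
      rfl
    unfold psi
    rw [h1, rv_smul, rv_smul]
    ring
  refine ⟨fun z hz => ?_, fun z hz => ?_⟩
  · rw [hJ z hz, hψ]
    have := mul_le_mul_of_nonneg_left (hg.ge z hz) hpos.le
    linarith only [this]
  · rw [hψ]
    exact mul_pos hpos (hg.pos z hz)

/-- Good pairs without source: scaling and shear of the companion. -/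
theorem Good.shear {w u : Y 8} {v : Y 4} (hg : Good w u v 0) {a b : ℝ} (hb : 0 < b) :
    Good w u ((a : ℂ) • i84 u + (b : ℂ) • v) 0 := by
  have hα : alpha (i84 u) ((a : ℂ) • i84 u + (b : ℂ) • v) = (b : ℂ) • alpha (i84 u) v := by
    simp only [alpha, map_add, map_smul, ser_smul_mul, ser_mul_smul, ser_add_mul, ser_mul_add,
      smul_sub, smul_add, smul_smul]
    module
  have hψ : ∀ z, psi w u ((a : ℂ) • i84 u + (b : ℂ) • v) 0 z = b * psi w u v 0 z := by
    intro z
    unfold psi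
    rw [psi0_of_alpha hα, rv_smul, rv_smul]
    ring
  have hJ : ∀ z, ‖z‖ ≤ 1 → J (i84 u) ((a : ℂ) • i84 u + (b : ℂ) • v) z = b * J (i84 u) v z := by
    intro z hz
    simp only [J_eq, map_add, map_smul, ev_add _ _ hz, ev_smul, map_mul, Complex.conj_ofReal]
    generalize ev (dz 3 (i84 u)) z = x
    generalize ev (dz 3 v) z = y
    simp only [Complex.add_im, Complex.mul_im, Complex.add_re, Complex.mul_re,
      Complex.ofReal_re, Complex.ofReal_im, Complex.conj_re, Complex.conj_im]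
    ring
  refine ⟨fun z hz => ?_, fun z hz => ?_⟩
  · rw [hJ z hz, hψ]
    have := mul_le_mul_of_nonneg_left (hg.ge z hz) hb.le
    linarith only [this]
  · rw [hψ]
    exact mul_pos hb (hg.pos z hz)

theorem ip_smul_right (w : Y 8) (a b : Y 4) (c : ℂ) : ip w a (c • b) = c * ip w a b := by
  simp only [ip, ser_mul_smul, map_smul, smul_eq_mul]

theorem ip_smul_left (w : Y 8) (a b : Y 4) (c : ℂ) : ip w (c • a) b = c * ip w a b := by
  simp only [ip, ser_mul_smul, ser_smul_mul, map_smul, smul_eq_mul]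

theorem ip_add_right (w : Y 8) (a b b' : Y 4) : ip w a (b + b') = ip w a b + ip w a b' := by
  simp only [ip, ser_mul_add, map_add]

theorem i84_injective {a b : Y 8} (h : i84 a = i84 b) : a = b := by
  ext i
  have := congrArg (fun x => cf x i) h
  simpa using this

theorem norm_ofReal_smul (t : ℝ) (a : Y p) : ‖(t : ℂ) • a‖ = |t| * ‖a‖ := by
  rw [norm_smul, Complex.norm_real, Real.norm_eq_abs]

end Vale.Agent.P071.G
end
end

section

/-!
# Cutoffs and product rules
-/

open MeasureTheory Metric Filter Topology Real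
open scoped ContDiff ENNReal

namespace Vale.Agent.P071.Lim

/-- Cauchy-Schwarz for integrals. -/
theorem integral_mul_sq_le {α : Type*} [MeasurableSpace α] {ν : Measure α} {f g : α → ℝ}
    (hf : Integrable (fun x => f x ^ 2) ν) (hg : Integrable (fun x => g x ^ 2) ν)
    (hfg : Integrable (fun x => f x * g x) ν) :
    (∫ x, f x * g x ∂ν) ^ 2 ≤ (∫ x, f x ^ 2 ∂ν) * ∫ x, g x ^ 2 ∂ν := by
  have key : ∀ t : ℝ, 0 ≤ (∫ x, f x ^ 2 ∂ν) * (t * t) + (2 * ∫ x, f x * g x ∂ν) * t +
      ∫ x, g x ^ 2 ∂ν := by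
    intro t
    have h1 : 0 ≤ ∫ x, (t * f x + g x) ^ 2 ∂ν := integral_nonneg fun x => sq_nonneg _
    have h2 : ∫ x, (t * f x + g x) ^ 2 ∂ν =
        ∫ x, (((t * t) * f x ^ 2 + (2 * t) * (f x * g x)) + g x ^ 2) ∂ν := by
      congr 1; funext x; ring
    have e1 : Integrable (fun x => (t * t) * f x ^ 2 + (2 * t) * (f x * g x)) ν :=
      (hf.const_mul _).add (hfg.const_mul _)
    rw [h2, integral_add e1 hg, integral_add (hf.const_mul _) (hfg.const_mul _),
      integral_const_mul, integral_const_mul] at h1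
    linarith only [h1]
  have := discrim_le_zero key
  unfold discrim at this
  linarith

section Trans

variable (w : ℂ → ℝ) (a z : ℂ)

end Trans

section Prod

variable {U : Set ℂ} {a b : ℂ → ℝ}

theorem pd_mul {z e : ℂ} (ha : DifferentiableAt ℝ a z) (hb : DifferentiableAt ℝ b z) :
    fderiv ℝ (fun y => a y * b y) z e = a z * fderiv ℝ b z e + b z * fderiv ℝ a z e := by
  have := (ha.hasFDerivAt.mul hb.hasFDerivAt).fderiv
  have h2 : (fun y => a y * b y) = a * b := rfl
  rw [h2, this]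
  simp

theorem contDiffOn_pd (hU : IsOpen U) {n : WithTop ℕ∞} (h : ContDiffOn ℝ (n + 1) a U) (e : ℂ) :
    ContDiffOn ℝ n (fun y => fderiv ℝ a y e) U :=
  (h.fderiv_of_isOpen hU le_rfl).clm_apply contDiffOn_const

theorem continuousOn_px (hU : IsOpen U) (h : ContDiffOn ℝ 1 a U) : ContinuousOn (px a) U :=
  (contDiffOn_pd hU (n := 0) (h.of_le (by norm_num)) 1).continuousOn

theorem continuousOn_py (hU : IsOpen U) (h : ContDiffOn ℝ 1 a U) : ContinuousOn (py a) U :=
  (contDiffOn_pd hU (n := 0) (h.of_le (by norm_num)) Complex.I).continuousOn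

theorem continuousOn_gsq (hU : IsOpen U) (h : ContDiffOn ℝ 1 a U) : ContinuousOn (gsq a) U :=
  ((continuousOn_px hU h).pow 2).add ((continuousOn_py hU h).pow 2)

theorem pd2_mul (hU : IsOpen U) (ha : ContDiffOn ℝ 2 a U) (hb : ContDiffOn ℝ 2 b U) {z : ℂ}
    (hz : z ∈ U) (e : ℂ) :
    fderiv ℝ (fun y => fderiv ℝ (fun x => a x * b x) y e) z e =
      a z * fderiv ℝ (fun y => fderiv ℝ b y e) z e +
        2 * (fderiv ℝ a z e * fderiv ℝ b z e) +
        b z * fderiv ℝ (fun y => fderiv ℝ a y e) z e := by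
  have hU' : U ∈ 𝓝 z := hU.mem_nhds hz
  have hda : ∀ y ∈ U, DifferentiableAt ℝ a y := fun y hy =>
    (ha.differentiableOn (by norm_num)).differentiableAt (hU.mem_nhds hy)
  have hdb : ∀ y ∈ U, DifferentiableAt ℝ b y := fun y hy =>
    (hb.differentiableOn (by norm_num)).differentiableAt (hU.mem_nhds hy)
  have h1 : (fun y => fderiv ℝ (fun x => a x * b x) y e) =ᶠ[𝓝 z]
      fun y => a y * fderiv ℝ b y e + b y * fderiv ℝ a y e := by
    filter_upwards [hU'] with y hy
    exact pd_mul (hda y hy) (hdb y hy)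
  rw [h1.fderiv_eq]
  have hpa : DifferentiableAt ℝ (fun y => fderiv ℝ a y e) z :=
    ((contDiffOn_pd hU (n := 1) (ha.of_le (by norm_num)) e).differentiableOn
      (by norm_num)).differentiableAt hU'
  have hpb : DifferentiableAt ℝ (fun y => fderiv ℝ b y e) z :=
    ((contDiffOn_pd hU (n := 1) (hb.of_le (by norm_num)) e).differentiableOn
      (by norm_num)).differentiableAt hU'
  have h2 : fderiv ℝ (fun y => a y * fderiv ℝ b y e + b y * fderiv ℝ a y e) z e =
      fderiv ℝ (fun y => a y * fderiv ℝ b y e) z e +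
        fderiv ℝ (fun y => b y * fderiv ℝ a y e) z e := by
    have := (((hda z hz).mul hpb).hasFDerivAt.add ((hdb z hz).mul hpa).hasFDerivAt).fderiv
    have h3 : (fun y => a y * fderiv ℝ b y e + b y * fderiv ℝ a y e) =
        (a * fun y => fderiv ℝ b y e) + (b * fun y => fderiv ℝ a y e) := rfl
    rw [h3, this]
    rfl
  rw [h2, pd_mul (hda z hz) hpb, pd_mul (hdb z hz) hpa]
  ring

theorem lap_mul (hU : IsOpen U) (ha : ContDiffOn ℝ 2 a U) (hb : ContDiffOn ℝ 2 b U) {z : ℂ}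
    (hz : z ∈ U) :
    lap (fun y => a y * b y) z =
      a z * lap b z + 2 * (px a z * px b z + py a z * py b z) + b z * lap a z := by
  have h1 := pd2_mul hU ha hb hz 1
  have h2 := pd2_mul hU ha hb hz Complex.I
  unfold lap px py
  rw [h1, h2]
  ring

end Prod

end Vale.Agent.P071.Lim
end

section

/-!
# The truncation functions `F`, `G` with `F' = G'^2`, `t F ≤ 4 G²`
-/

open MeasureTheory Filter Topology Real Set
open scoped ContDiff

namespace Vale.Agent.P071.Reg

/-- `τ⁺/(1+τ⁺)` -/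
noncomputable def gp (τ : ℝ) : ℝ := max τ 0 / (1 + max τ 0)

/-- `G = ∫ g` -/
noncomputable def GG (t : ℝ) : ℝ := ∫ τ in (0 : ℝ)..t, gp τ

/-- `F = ∫ g²` -/
noncomputable def FF (t : ℝ) : ℝ := ∫ τ in (0 : ℝ)..t, gp τ ^ 2

theorem gp_continuous : Continuous gp := by
  unfold gp
  refine Continuous.div (by fun_prop) (by fun_prop) fun τ => ?_
  have : 0 ≤ max τ 0 := le_max_right _ _
  positivity

theorem gp_nonneg (τ : ℝ) : 0 ≤ gp τ := by
  have : 0 ≤ max τ 0 := le_max_right _ _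
  unfold gp; positivity

theorem gp_le_one (τ : ℝ) : gp τ ≤ 1 := by
  have : 0 ≤ max τ 0 := le_max_right _ _
  unfold gp
  rw [div_le_one (by positivity)]
  linarith

theorem gp_of_nonpos {τ : ℝ} (h : τ ≤ 0) : gp τ = 0 := by
  unfold gp; rw [max_eq_right h]; simp

theorem gp_of_nonneg {τ : ℝ} (h : 0 ≤ τ) : gp τ = τ / (1 + τ) := by
  unfold gp; rw [max_eq_left h]

theorem gp_mono {σ τ : ℝ} (h0 : 0 ≤ σ) (h : σ ≤ τ) : gp σ ≤ gp τ := by
  rw [gp_of_nonneg h0, gp_of_nonneg (h0.trans h), div_le_div_iff₀ (by linarith) (by linarith)]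
  linarith

theorem hasDerivAt_GG (t : ℝ) : HasDerivAt GG (gp t) t :=
  intervalIntegral.integral_hasDerivAt_right (gp_continuous.intervalIntegrable _ _)
    (gp_continuous.stronglyMeasurableAtFilter _ _) gp_continuous.continuousAt

theorem hasDerivAt_FF (t : ℝ) : HasDerivAt FF (gp t ^ 2) t :=
  intervalIntegral.integral_hasDerivAt_right ((gp_continuous.pow 2).intervalIntegrable _ _)
    ((gp_continuous.pow 2).stronglyMeasurableAtFilter _ _) (gp_continuous.pow 2).continuousAt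

theorem contDiff_GG : ContDiff ℝ 1 GG := by
  rw [contDiff_one_iff_deriv]
  refine ⟨fun t => (hasDerivAt_GG t).differentiableAt, ?_⟩
  have : deriv GG = gp := by funext t; exact (hasDerivAt_GG t).deriv
  rw [this]
  exact gp_continuous

theorem contDiff_FF : ContDiff ℝ 1 FF := by
  rw [contDiff_one_iff_deriv]
  refine ⟨fun t => (hasDerivAt_FF t).differentiableAt, ?_⟩
  have : deriv FF = fun t => gp t ^ 2 := by funext t; exact (hasDerivAt_FF t).deriv
  rw [this]
  exact gp_continuous.pow 2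

theorem GG_of_nonpos {t : ℝ} (h : t ≤ 0) : GG t = 0 := by
  unfold GG
  rw [intervalIntegral.integral_symm]
  have : ∫ τ in t..(0 : ℝ), gp τ = ∫ _τ in t..(0 : ℝ), (0 : ℝ) := by
    refine intervalIntegral.integral_congr fun τ hτ => ?_
    rw [uIcc_of_le h] at hτ
    exact gp_of_nonpos hτ.2
  rw [this]; simp

theorem FF_of_nonpos {t : ℝ} (h : t ≤ 0) : FF t = 0 := by
  unfold FF
  rw [intervalIntegral.integral_symm]
  have : ∫ τ in t..(0 : ℝ), gp τ ^ 2 = ∫ _τ in t..(0 : ℝ), (0 : ℝ) := by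
    refine intervalIntegral.integral_congr fun τ hτ => ?_
    rw [uIcc_of_le h] at hτ
    rw [gp_of_nonpos hτ.2]
    norm_num
  rw [this]; simp

theorem GG_nonneg (t : ℝ) : 0 ≤ GG t := by
  rcases le_total t 0 with h | h
  · rw [GG_of_nonpos h]
  · exact intervalIntegral.integral_nonneg h fun τ _ => gp_nonneg τ

theorem FF_nonneg (t : ℝ) : 0 ≤ FF t := by
  rcases le_total t 0 with h | h
  · rw [FF_of_nonpos h]
  · exact intervalIntegral.integral_nonneg h fun τ _ => sq_nonneg _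

theorem GG_le {t : ℝ} : GG t ≤ |t| := by
  rcases le_total t 0 with h | h
  · rw [GG_of_nonpos h]; positivity
  · rw [abs_of_nonneg h]
    have h1 : GG t ≤ ∫ _τ in (0 : ℝ)..t, (1 : ℝ) :=
      intervalIntegral.integral_mono_on h (gp_continuous.intervalIntegrable _ _)
        (by simp) fun τ _ => gp_le_one τ
    simpa only [ge_iff_le, intervalIntegral.integral_const, sub_zero, smul_eq_mul, mul_one] using h1

theorem FF_le_mul {t : ℝ} (h : 0 ≤ t) : FF t ≤ t * gp t ^ 2 := by
  have h1 : FF t ≤ ∫ _τ in (0 : ℝ)..t, gp t ^ 2 :=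
    intervalIntegral.integral_mono_on h ((gp_continuous.pow 2).intervalIntegrable _ _)
      (by simp) fun τ hτ => pow_le_pow_left₀ (gp_nonneg τ) (gp_mono hτ.1 hτ.2) 2
  simpa only [ge_iff_le, intervalIntegral.integral_const, sub_zero, smul_eq_mul] using h1

theorem FF_le {t : ℝ} : FF t ≤ |t| := by
  rcases le_total t 0 with h | h
  · rw [FF_of_nonpos h]; positivity
  · rw [abs_of_nonneg h]
    have h1 := FF_le_mul h
    have h2 : gp t ^ 2 ≤ 1 := pow_le_one₀ (gp_nonneg t) (gp_le_one t)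
    nlinarith only [h1, h, h2]

theorem le_GG {t : ℝ} (h : 0 ≤ t) : t ^ 2 / (2 * (1 + t)) ≤ GG t := by
  have h1 : ∫ τ in (0 : ℝ)..t, τ / (1 + t) ≤ GG t := by
    refine intervalIntegral.integral_mono_on h (by
      refine Continuous.intervalIntegrable ?_ _ _
      exact continuous_id.div_const _) (gp_continuous.intervalIntegrable _ _) fun τ hτ => ?_
    rw [gp_of_nonneg hτ.1]
    exact div_le_div_of_nonneg_left hτ.1 (by linarith [hτ.1]) (by linarith [hτ.2])
  refine le_trans (le_of_eq ?_) h1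
  rw [intervalIntegral.integral_div, integral_id]
  field_simp
  ring

theorem mul_FF_le {t : ℝ} (h : 0 ≤ t) : t * FF t ≤ 4 * GG t ^ 2 := by
  have h1 := FF_le_mul h
  have h2 := le_GG h
  have h3 : 0 ≤ t ^ 2 / (2 * (1 + t)) := by positivity
  have h4 : (t ^ 2 / (2 * (1 + t))) ^ 2 ≤ GG t ^ 2 := pow_le_pow_left₀ h3 h2 2
  have h5 : t * (t * gp t ^ 2) = 4 * (t ^ 2 / (2 * (1 + t))) ^ 2 := by
    rw [gp_of_nonneg h]
    field_simp
    ring
  nlinarith only [h4, h5, h1, h]

theorem nonpos_of_GG {t : ℝ} (h : GG t = 0) : t ≤ 0 := by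
  by_contra hcon
  push Not at hcon
  have h1 := le_GG hcon.le
  have h2 : 0 < t ^ 2 / (2 * (1 + t)) := by positivity
  linarith only [h, h1, h2]

end Vale.Agent.P071.Reg
end

section

/-!
# REG-1: interior continuity of `H¹` weak solutions
-/

open MeasureTheory Metric Filter Topology Real
open scoped ContDiff ENNReal ComplexConjugate

namespace Vale.Agent.P071.Reg

open Vale.Agent.P071.Lim

namespace Int1

open Vale.Agent.P071.Lim.Mol

lemma int_sq_eq {F : ℂ → ℝ} (hF : MemLp F 2 volume) :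
    ∫ z, F z ^ 2 = (eLpNorm F 2 volume).toReal ^ 2 := by
  have h := hF.eLpNorm_eq_integral_rpow_norm (by norm_num) (by norm_num)
  have h0 : 0 ≤ ∫ z, F z ^ 2 := integral_nonneg fun z => sq_nonneg _
  simp only [ENNReal.toReal_ofNat, Real.rpow_ofNat, Real.norm_eq_abs, sq_abs] at h
  rw [h, ENNReal.toReal_ofReal (by (clear * -; positivity)), ← Real.rpow_natCast, ← Real.rpow_mul h0]
  norm_num

lemma conv_sq {f : ℂ → ℝ} (hf : MemLp f 2 volume) :
    Tendsto (fun n => ∫ z, (moll n f z - f z) ^ 2) atTop (𝓝 0) := by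
  have h1 := moll_tendsto hf
  have h2 : ∀ n, ∫ z, (moll n f z - f z) ^ 2 =
      (eLpNorm (fun x => moll n f x - f x) 2 volume).toReal ^ 2 := fun n =>
    int_sq_eq ((moll_memLp n hf).sub hf)
  simp_rw [h2]
  have h3 := (ENNReal.tendsto_toReal ENNReal.zero_ne_top).comp h1
  have h4 := h3.pow 2
  simpa only [Function.comp_apply, ENNReal.toReal_zero, ne_eq, OfNat.ofNat_ne_zero, not_false_eq_true,     zero_pow] using h4

lemma sq_int {f : ℂ → ℝ} (hf : MemLp f 2 volume) (n : ℕ) :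
    Integrable (fun z => (moll n f z - f z) ^ 2) :=
  ((moll_memLp n hf).sub hf).integrable_sq

/-- the derivative of the mollification of a weakly differentiable function -/
lemma px_moll {U : Set ℂ} {u g : ℂ → ℝ} (hUm : MeasurableSet U)
    (hu : MemLp u 2 (volume.restrict U)) (e : ℂ)
    (hw : ∀ φ : ℂ → ℝ, ContDiff ℝ ∞ φ → HasCompactSupport φ → tsupport φ ⊆ U →
      ∫ z in U, u z * fderiv ℝ φ z e = -∫ z in U, g z * φ z)
    (n : ℕ) {x : ℂ} (hx : closedBall x (1 / ((n : ℝ) + 1)) ⊆ U) :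
    fderiv ℝ (moll n (U.indicator u)) x e = moll n (U.indicator g) x := by
  have hl : LocallyIntegrable (U.indicator u) :=
    ((memLp_indicator_iff_restrict hUm).2 hu).locallyIntegrable (by norm_num)
  have hts : tsupport (fun y => ker n (x - y)) ⊆ U := by
    refine Set.Subset.trans ?_ hx
    refine closure_minimal ?_ isClosed_closedBall
    intro y hy
    by_contra h
    apply hy
    rw [mem_closedBall, dist_eq_norm, not_le, norm_sub_rev] at h
    exact ker_zero h
  apply moll_deriv n hl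
  have h1 := hw _ (ker_sub_contDiff n x) (ker_sub_cs n x) hts
  rw [← integral_indicator hUm, ← integral_indicator hUm] at h1
  have e1 : (fun y => U.indicator u y * fderiv ℝ (fun y => ker n (x - y)) y e) =
      U.indicator (fun y => u y * fderiv ℝ (fun y => ker n (x - y)) y e) := by
    funext y
    by_cases hy : y ∈ U
    · simp only [hy, Set.indicator_of_mem]
    · simp only [hy, not_false_eq_true, Set.indicator_of_notMem, zero_mul]
  have e2 : (fun y => U.indicator g y * ker n (x - y)) =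
      U.indicator (fun y => g y * ker n (x - y)) := by
    funext y
    by_cases hy : y ∈ U
    · simp [hy]
    · simp [hy]
  rw [e1, e2]
  exact h1

lemma moll_eq_cv (n : ℕ) (f : ℂ → ℝ) : moll n f = RegA.cv f (ker n) := moll_eq_conv' n f

/-- the Laplacian of the mollification of a weak solution -/
lemma lap_moll {U : Set ℂ} (hU : IsOpen U) {u gx gy : ℂ → ℝ} {μ : ℝ}
    (hu : IsH1 U u gx gy)
    (hweak : ∀ φ : ℂ → ℝ, ContDiff ℝ ∞ φ → HasCompactSupport φ → tsupport φ ⊆ U →
      ∫ z in U, (gx z * px φ z + gy z * py φ z) = μ * ∫ z in U, u z * φ z)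
    (n : ℕ) {x : ℂ} (hx : closedBall x (1 / ((n : ℝ) + 1)) ⊆ U) :
    Lim.lap (moll n (U.indicator u)) x = -(μ * moll n (U.indicator u) x) := by
  have hUm := hU.measurableSet
  have hl : LocallyIntegrable (U.indicator u) :=
    ((memLp_indicator_iff_restrict hUm).2 hu.v_mem).locallyIntegrable (by norm_num)
  have hint : ∀ {g ψ : ℂ → ℝ}, MemLp g 2 (volume.restrict U) → ContDiff ℝ ∞ ψ →
      HasCompactSupport ψ → IntegrableOn (fun z => g z * ψ z) U := by
    intro g ψ hg hψ hc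
    have h1 : MemLp ψ 2 (volume.restrict U) :=
      (hψ.continuous.memLp_of_hasCompactSupport hc).restrict U
    exact hg.integrable_mul h1
  have hweak2 : ∀ φ : ℂ → ℝ, ContDiff ℝ ∞ φ → HasCompactSupport φ → tsupport φ ⊆ U →
      ∫ z in U, u z * Lim.lap φ z = -∫ z in U, (μ * u z) * φ z := by
    intro φ hφ hc hs
    have Cx := RegA.px_contDiff hφ
    have Cy := RegA.py_contDiff hφ
    have Kx := RegA.px_cs hc
    have Ky := RegA.py_cs hc
    have sx := (RegA.px_tsupport φ).trans hs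
    have sy := (RegA.py_tsupport φ).trans hs
    have h1 := hu.weak_x _ Cx Kx sx
    have h2 := hu.weak_y _ Cy Ky sy
    have h3 := hweak φ hφ hc hs
    rw [integral_add (hint hu.gx_mem Cx Kx) (hint hu.gy_mem Cy Ky)] at h3
    have h4 : ∫ z in U, u z * Lim.lap φ z =
        (∫ z in U, u z * px (px φ) z) + ∫ z in U, u z * py (py φ) z := by
      rw [← integral_add (hint hu.v_mem (RegA.px_contDiff Cx) (RegA.px_cs Kx))
        (hint hu.v_mem (RegA.py_contDiff Cy) (RegA.py_cs Ky))]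
      congr 1
      funext z
      unfold Lim.lap
      ring
    have h5 : ∫ z in U, (μ * u z) * φ z = μ * ∫ z in U, u z * φ z := by
      rw [← integral_const_mul]
      congr 1
      funext z
      ring
    rw [h4, h5, h1, h2]
    linarith only [h3]
  have h6 := RegA.cv_sub_test hweak2 (K := U) (ker_contDiff n) (ker_cs n) subset_rfl (z := x)
    (by
      intro t ht
      apply hx
      have h7 : tsupport (ker n) = closedBall 0 (1 / ((n : ℝ) + 1)) := (bump n).tsupport_normed_eq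
      rw [h7, mem_closedBall, dist_zero_right] at ht
      rw [mem_closedBall, dist_eq_norm, norm_sub_rev]
      exact ht)
  rw [moll_eq_cv, RegA.cv_lap hl (ker_contDiff n) (ker_cs n), h6, RegA.cv_apply, RegA.cv_apply,
    ← integral_const_mul]
  congr 1
  congr 1
  funext t
  by_cases ht : t ∈ U
  · simp [ht]; ring
  · simp [ht]

end Int1

open Int1 Vale.Agent.P071.Lim.Mol in
/-- An `H¹` weak solution of `-Δu = μ u` has a continuous version inside. -/
theorem exists_continuous_version {U : Set ℂ} (hU : IsOpen U) {u gx gy : ℂ → ℝ} {μ : ℝ}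
    (hu : IsH1 U u gx gy)
    (hweak : ∀ φ : ℂ → ℝ, ContDiff ℝ ∞ φ → HasCompactSupport φ → tsupport φ ⊆ U →
      ∫ z in U, (gx z * px φ z + gy z * py φ z) = μ * ∫ z in U, u z * φ z) :
    ∃ w : ℂ → ℝ, ContinuousOn w U ∧ ∀ᵐ z ∂(volume.restrict U), w z = u z := by
  have hUm := hU.measurableSet
  set v : ℂ → ℝ := U.indicator u with hv
  set G : ℂ → ℝ := U.indicator gx with hG
  set H : ℂ → ℝ := U.indicator gy with hH
  have hvm : MemLp v 2 volume := (memLp_indicator_iff_restrict hUm).2 hu.v_mem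
  have hGm : MemLp G 2 volume := (memLp_indicator_iff_restrict hUm).2 hu.gx_mem
  have hHm : MemLp H 2 volume := (memLp_indicator_iff_restrict hUm).2 hu.gy_mem
  -- the total error
  set Q : ℕ → ℂ → ℝ := fun n z => (1 + μ ^ 2) * (moll n v z - v z) ^ 2 +
    (moll n G z - G z) ^ 2 + (moll n H z - H z) ^ 2 with hQ
  have hQi : ∀ n, Integrable (Q n) := fun n =>
    (((sq_int hvm n).const_mul _).add (sq_int hGm n)).add (sq_int hHm n)
  have hQ0 : ∀ n z, 0 ≤ Q n z := fun n z => by simp only [hQ]; (clear * -; positivity)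
  have hS : Tendsto (fun n => ∫ z, Q n z) atTop (𝓝 0) := by
    have e : ∀ n, ∫ z, Q n z = (1 + μ ^ 2) * (∫ z, (moll n v z - v z) ^ 2) +
        (∫ z, (moll n G z - G z) ^ 2) + ∫ z, (moll n H z - H z) ^ 2 := by
      intro n
      simp only [hQ]
      have i1 := (sq_int hvm n).const_mul (1 + μ ^ 2)
      have i2 : Integrable (fun z => (1 + μ ^ 2) * (moll n v z - v z) ^ 2 +
        (moll n G z - G z) ^ 2) := i1.add (sq_int hGm n)
      rw [integral_add i2 (sq_int hHm n), integral_add i1 (sq_int hGm n), integral_const_mul]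
    simp_rw [e]
    have := (((conv_sq hvm).const_mul (1 + μ ^ 2)).add (conv_sq hGm)).add (conv_sq hHm)
    simpa only [mul_zero, add_zero] using this
  have hsm : ∀ n, ContDiff ℝ ∞ (moll n v) := fun n =>
    moll_contDiff n (hvm.locallyIntegrable (by norm_num))
  -- local uniform Cauchy property
  have hUC : ∀ z₀ ∈ U, ∃ r > 0, ball z₀ r ⊆ U ∧
      UniformCauchySeqOn (fun n => moll n v) atTop (ball z₀ r) := by
    intro z₀ hz₀
    obtain ⟨R, hR, hRU⟩ := Metric.isOpen_iff.1 hU z₀ hz₀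
    set r := R / 4 with hr
    have hr0 : 0 < r := by (clear * - hR; positivity)
    refine ⟨r, hr0, (ball_subset_ball (by linarith only [hR, hr])).trans hRU, ?_⟩
    obtain ⟨N₀, hN₀⟩ := exists_nat_one_div_lt hr0
    obtain ⟨C, hC, hCb⟩ := sq_le_of_ball hr0
    rw [Metric.uniformCauchySeqOn_iff]
    intro ε hε
    have hS2 := (Metric.tendsto_atTop.1 hS) (ε ^ 2 / (4 * C)) (by (clear * - hε hC; positivity))
    obtain ⟨N₁, hN₁⟩ := hS2
    refine ⟨max N₀ N₁, fun m hm n hn x hx => ?_⟩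
    have hsubU : ∀ k ≥ N₀, ∀ z ∈ ball x r, closedBall z (1 / ((k : ℝ) + 1)) ⊆ U := by
      intro k hk z hz y hy
      apply hRU
      have hk' : 1 / ((k : ℝ) + 1) ≤ 1 / ((N₀ : ℝ) + 1) := by
        apply one_div_le_one_div_of_le (by (clear * -; positivity))
        have : (N₀ : ℝ) ≤ k := by exact_mod_cast hk
        linarith only [this]
      rw [mem_ball] at hx hz ⊢
      rw [mem_closedBall] at hy
      have t1 := dist_triangle y z z₀
      have t2 := dist_triangle z x z₀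
      linarith only [hR, hr, hN₀, hx, hz, hy, hk', t1, t2]
    have hm0 : N₀ ≤ m := (le_max_left _ _).trans hm
    have hn0 : N₀ ≤ n := (le_max_left _ _).trans hn
    have hm1 := hN₁ m ((le_max_right _ _).trans hm)
    have hn1 := hN₁ n ((le_max_right _ _).trans hn)
    rw [Real.dist_eq, sub_zero, abs_of_nonneg (integral_nonneg (hQ0 _))] at hm1 hn1
    set D : ℂ → ℝ := fun z => moll m v z - moll n v z with hD
    have hDs : ContDiff ℝ ∞ D := (hsm m).sub (hsm n)
    have hfd : ∀ (a b : ℂ → ℝ), ContDiff ℝ ∞ a → ContDiff ℝ ∞ b → ∀ z,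
        fderiv ℝ (fun z => a z - b z) z = fderiv ℝ a z - fderiv ℝ b z := fun a b ha hb z =>
      fderiv_fun_sub ((ha.differentiable (by simp)) z) ((hb.differentiable (by simp)) z)
    have hpx : ∀ (a b : ℂ → ℝ), ContDiff ℝ ∞ a → ContDiff ℝ ∞ b →
        px (fun z => a z - b z) = fun z => px a z - px b z := by
      intro a b ha hb; funext z; simp only [px, hfd a b ha hb z, sub_apply]
    have hpy : ∀ (a b : ℂ → ℝ), ContDiff ℝ ∞ a → ContDiff ℝ ∞ b →
        py (fun z => a z - b z) = fun z => py a z - py b z := by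
      intro a b ha hb; funext z; simp [py, hfd a b ha hb z]
    have hlv : ∀ z, Lim.lap D z = Lim.lap (moll m v) z - Lim.lap (moll n v) z := by
      intro z
      unfold Lim.lap
      rw [hD, hpx _ _ (hsm m) (hsm n), hpy _ _ (hsm m) (hsm n),
        hpx _ _ (RegA.px_contDiff (hsm m)) (RegA.px_contDiff (hsm n)),
        hpy _ _ (RegA.py_contDiff (hsm m)) (RegA.py_contDiff (hsm n))]
      ring
    have hpt : ∀ z ∈ ball x r, D z ^ 2 + gsq D z + Lim.lap D z ^ 2 ≤ 2 * (Q m z + Q n z) := by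
      intro z hz
      have gm := hsubU m hm0 z hz
      have gn := hsubU n hn0 z hz
      have a1 : px (moll m v) z = moll m G z := px_moll hUm hu.v_mem 1 hu.weak_x m gm
      have a2 : px (moll n v) z = moll n G z := px_moll hUm hu.v_mem 1 hu.weak_x n gn
      have a3 : py (moll m v) z = moll m H z := px_moll hUm hu.v_mem Complex.I hu.weak_y m gm
      have a4 : py (moll n v) z = moll n H z := px_moll hUm hu.v_mem Complex.I hu.weak_y n gn
      have a5 : Lim.lap (moll m v) z = -(μ * moll m v z) := lap_moll hU hu hweak m gm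
      have a6 : Lim.lap (moll n v) z = -(μ * moll n v z) := lap_moll hU hu hweak n gn
      rw [hlv, a5, a6]
      unfold gsq
      rw [hD, hpx _ _ (hsm m) (hsm n), hpy _ _ (hsm m) (hsm n)]
      simp only [a1, a2, a3, a4, hQ]
      nlinarith only [mul_nonneg (sq_nonneg μ) (sq_nonneg ((moll m v z - v z) + (moll n v z - v z))), sq_nonneg ((moll m G z - G z) + (moll n G z - G z)), sq_nonneg ((moll m H z - H z) + (moll n H z - H z))]
    have hcont : Continuous (fun z => D z ^ 2 + gsq D z + Lim.lap D z ^ 2) := by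
      have c1 := hDs.continuous
      have c2 := (RegA.px_contDiff hDs).continuous
      have c3 := (RegA.py_contDiff hDs).continuous
      have c4 := (RegA.px_contDiff (RegA.px_contDiff hDs)).continuous
      have c5 := (RegA.py_contDiff (RegA.py_contDiff hDs)).continuous
      unfold gsq Lim.lap
      fun_prop
    have hDi : IntegrableOn (fun z => D z ^ 2 + gsq D z + Lim.lap D z ^ 2) (ball x r) :=
      (hcont.continuousOn.integrableOn_compact (isCompact_closedBall x r)).mono_set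
        ball_subset_closedBall
    have h1 := hCb x D (hDs.of_le (WithTop.coe_le_coe.2 (le_top : (2 : ℕ∞) ≤ ⊤))).contDiffOn hDi
    have h2 : ∫ z in ball x r, (D z ^ 2 + gsq D z + Lim.lap D z ^ 2) ≤
        2 * ((∫ z, Q m z) + ∫ z, Q n z) := by
      have hQQ : Integrable (fun z => 2 * (Q m z + Q n z)) := ((hQi m).add (hQi n)).const_mul 2
      calc ∫ z in ball x r, (D z ^ 2 + gsq D z + Lim.lap D z ^ 2)
          ≤ ∫ z in ball x r, 2 * (Q m z + Q n z) :=
            setIntegral_mono_on hDi hQQ.integrableOn measurableSet_ball hpt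
        _ ≤ ∫ z, 2 * (Q m z + Q n z) := by
            refine setIntegral_le_integral hQQ (Filter.Eventually.of_forall fun z => ?_)
            have := hQ0 m z
            have := hQ0 n z
            simp only [Pi.zero_apply]
            (clear * -; positivity)
        _ = _ := by rw [integral_const_mul, integral_add (hQi m) (hQi n)]
    have h3 : D x ^ 2 < ε ^ 2 := by
      calc D x ^ 2 ≤ C * ∫ z in ball x r, (D z ^ 2 + gsq D z + Lim.lap D z ^ 2) := h1
        _ ≤ C * (2 * ((∫ z, Q m z) + ∫ z, Q n z)) := mul_le_mul_of_nonneg_left h2 hC.le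
        _ < C * (2 * (ε ^ 2 / (4 * C) + ε ^ 2 / (4 * C))) := by
            apply mul_lt_mul_of_pos_left _ hC
            linarith only [hm1, hn1]
        _ = ε ^ 2 := by field_simp; ring
    rw [Real.dist_eq]
    exact abs_lt_of_sq_lt_sq h3 hε.le
  -- the limit
  set w : ℂ → ℝ := fun z => limUnder atTop (fun n => moll n v z) with hw
  have hlim : ∀ z ∈ U, Tendsto (fun n => moll n v z) atTop (𝓝 (w z)) := by
    intro z hz
    obtain ⟨r, hr, _, huc⟩ := hUC z hz
    exact tendsto_nhds_limUnder (cauchySeq_tendsto_of_complete (huc.cauchySeq (mem_ball_self hr)))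
  refine ⟨w, ?_, ?_⟩
  · intro z₀ hz₀
    obtain ⟨r, hr, hrU, huc⟩ := hUC z₀ hz₀
    have hTU : TendstoUniformlyOn (fun n => moll n v) w atTop (ball z₀ r) :=
      huc.tendstoUniformlyOn_of_tendsto fun x hx => hlim x (hrU hx)
    have hc : ContinuousOn w (ball z₀ r) :=
      hTU.continuousOn (Filter.Frequently.of_forall fun n => (hsm n).continuous.continuousOn)
    exact (hc.continuousAt (ball_mem_nhds z₀ hr)).continuousWithinAt
  · have h1 : Tendsto (fun n => eLpNorm (moll n v - v) 2 volume) atTop (𝓝 0) := moll_tendsto hvm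
    have h2 := tendstoInMeasure_of_tendsto_eLpNorm (by norm_num)
      (fun n => (hsm n).continuous.aestronglyMeasurable) hvm.1 h1
    obtain ⟨ns, hns, hae⟩ := h2.exists_seq_tendsto_ae
    rw [ae_restrict_iff' hUm]
    filter_upwards [hae] with z hz hzU
    have h3 := (hlim z hzU).comp hns.tendsto_atTop
    have h4 := tendsto_nhds_unique h3 hz
    rw [h4, hv, Set.indicator_of_mem hzU]

end Vale.Agent.P071.Reg
end
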