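import Vale.Agent.P071.MathlibUsed
import Vale.Agent.P071.Bdl.B3
import Vale.Agent.P071.Bdl.B2
attribute [-instance] ProperSMul.toContinuousSMul IsTopologicalTorsor.toContinuousSMul IdemSemiring.toCanonicallyOrderedAdd IdemSemiring.toMulLeftMono IdemSemiring.toMulRightMono AddQuantale.instAddLeftMono AddQuantale.instAddRightMono Quantale.instMulLeftMono Quantale.instMulRightMono FiniteDimensional.rclike_to_real IsScalarTower.complexToReal FiniteDimensional.complexToReal

set_option linter.all false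

section

/-!
# Rayleigh quotient and Fredholm alternative for a weaker inner product
-/

noncomputable section

namespace Vale.Agent.P071

open Module End Filter Topology

variable {X : Type*} [NormedAddCommGroup X] [NormedSpace ℝ X]

/-- The supremum of the Rayleigh quotient of `K` for `B`. -/
def ray (B : X →L[ℝ] X →L[ℝ] ℝ) (K : X →L[ℝ] X) : ℝ :=
  sSup {t | ∃ u, u ≠ 0 ∧ t = B (K u) u / B u u}

namespace IsWeakInner

variable {B : X →L[ℝ] X →L[ℝ] ℝ}

theorem rayleigh_le (hB : IsWeakInner B) {K : X →L[ℝ] X} (hK : ∀ u v, B (K u) v = B u (K v))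
    (u : X) : B (K u) u ≤ ‖K‖ * B u u := by
  have h1 := hB.cs (K u) u
  have h2 := hB.lax K hK u
  have h3 := hB.nonneg u
  have h4 : B (K u) u ^ 2 ≤ (‖K‖ * B u u) ^ 2 := by
    calc B (K u) u ^ 2 ≤ B (K u) (K u) * B u u := h1
      _ ≤ (‖K‖ ^ 2 * B u u) * B u u := by gcongr
      _ = (‖K‖ * B u u) ^ 2 := by ring
  exact le_of_sq_le_sq h4 (by (clear * - h3; positivity)) |> id
where
  le_of_sq_le_sq {a b : ℝ} (h : a ^ 2 ≤ b ^ 2) (hb : 0 ≤ b) : a ≤ b := by
    (clear * - h hb; nlinarith [abs_le_of_sq_le_sq' h hb |>.2])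

theorem bddAbove_ray (hB : IsWeakInner B) {K : X →L[ℝ] X} (hK : ∀ u v, B (K u) v = B u (K v)) :
    BddAbove {t | ∃ u, u ≠ 0 ∧ t = B (K u) u / B u u} := by
  refine ⟨‖K‖, ?_⟩
  rintro t ⟨u, hu, rfl⟩
  rw [div_le_iff₀ (hB.pos u hu)]
  exact hB.rayleigh_le hK u

theorem le_ray (hB : IsWeakInner B) {K : X →L[ℝ] X} (hK : ∀ u v, B (K u) v = B u (K v))
    (u : X) : B (K u) u ≤ ray B K * B u u := by
  by_cases hu : u = 0
  · simp [hu]
  rw [← div_le_iff₀ (hB.pos u hu)]
  exact le_csSup (hB.bddAbove_ray hK) ⟨u, hu, rfl⟩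

theorem ray_pos (hB : IsWeakInner B) {K : X →L[ℝ] X} (hK : ∀ u v, B (K u) v = B u (K v))
    {u : X} (h : 0 < B (K u) u) : 0 < ray B K := by
  have hu : u ≠ 0 := by
    rintro rfl
    simp at h
  have h1 := hB.le_ray hK u
  have h2 := hB.pos u hu
  by_contra h3
  push Not at h3
  have : ray B K * B u u ≤ 0 := mul_nonpos_of_nonpos_of_nonneg h3 h2.le
  linarith

theorem exists_eigen (hB : IsWeakInner B) [CompleteSpace X] {K : X →L[ℝ] X}
    (hKc : IsCompactOperator K) (hK : ∀ u v, B (K u) v = B u (K v)) (hnn : ∀ u, 0 ≤ B (K u) u)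
    (hpos : 0 < ray B K) : ∃ u, u ≠ 0 ∧ K u = ray B K • u := by
  have h := hB.hasEigenvalue_of_isLUB hKc hK hpos (hB.le_ray hK) hnn fun ε hε => by
    have hne : {t | ∃ u, u ≠ 0 ∧ t = B (K u) u / B u u}.Nonempty := by
      by_contra h
      rw [Set.not_nonempty_iff_eq_empty] at h
      rw [ray, h, Real.sSup_empty] at hpos
      exact lt_irrefl _ hpos
    obtain ⟨t, ⟨u, hu, rfl⟩, ht⟩ := exists_lt_of_lt_csSup hne (sub_lt_self (ray B K) hε)
    exact ⟨u, hu, (lt_div_iff₀ (hB.pos u hu)).1 ht⟩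
  obtain ⟨u, hu⟩ := h.exists_hasEigenvector
  exact ⟨u, hu.2, hu.apply_eq_smul⟩

/-- Projection on a finite dimensional subspace, orthogonal for `B`. -/
theorem exists_proj (hB : IsWeakInner B) (V : Submodule ℝ X) [FiniteDimensional ℝ V] :
    ∃ Q : X →L[ℝ] X, IsCompactOperator Q ∧ (∀ x, Q x ∈ V) ∧ (∀ x, ∀ w ∈ V, B (Q x) w = B x w) := by
  let φ : X →ₗ[ℝ] Module.Dual ℝ V :=
    { toFun := fun x => ((B x : X →L[ℝ] ℝ) : X →ₗ[ℝ] ℝ).comp V.subtype
      map_add' := fun x y => by ext w; simp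
      map_smul' := fun c x => by ext w; simp only [map_smul, ContinuousLinearMap.toLinearMap_smul, LinearMap.coe_comp, LinearMap.coe_smul, ContinuousLinearMap.coe_coe, Submodule.coe_subtype, Function.comp_apply, Pi.smul_apply, smul_eq_mul, Real.ringHom_apply, LinearMap.smul_apply] }
  let ψ : V →ₗ[ℝ] Module.Dual ℝ V := φ.comp V.subtype
  have hψ : Function.Injective ψ := by
    rw [← LinearMap.ker_eq_bot, LinearMap.ker_eq_bot']
    intro w hw
    by_contra hne
    have h1 : (w : X) ≠ 0 := fun h => hne (Subtype.ext h)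
    have h2 := hB.pos w h1
    have h3 : ψ w w = 0 := by rw [hw]; rfl
    have h4 : ψ w w = B w w := rfl
    rw [← h4, h3] at h2
    exact lt_irrefl _ h2
  have hdim : finrank ℝ V = finrank ℝ (Module.Dual ℝ V) := (Subspace.dual_finrank_eq).symm
  let E : V ≃ₗ[ℝ] Module.Dual ℝ V := LinearEquiv.ofInjectiveOfFinrankEq ψ hψ hdim
  have hE : ∀ w, E w = ψ w := fun w => rfl
  -- continuity
  let toD : (V →L[ℝ] ℝ) →ₗ[ℝ] V :=
    (E.symm : Module.Dual ℝ V →ₗ[ℝ] V).comp (LinearMap.toContinuousLinearMap (𝕜 := ℝ) (E := V)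
      (F' := ℝ)).symm.toLinearMap
  let toD' : (V →L[ℝ] ℝ) →L[ℝ] V := LinearMap.toContinuousLinearMap toD
  let Φ : X →L[ℝ] (V →L[ℝ] ℝ) :=
    ((ContinuousLinearMap.compL ℝ V X ℝ).flip V.subtypeL).comp B
  let Q0 : X →L[ℝ] V := toD'.comp Φ
  refine ⟨V.subtypeL.comp Q0, ?_, fun x => (Q0 x).2, fun x w hw => ?_⟩
  · have hloc : LocallyCompactSpace V := by
      have := FiniteDimensional.proper ℝ V
      infer_instance
    have h1 : IsCompactOperator (V.subtypeL) :=
      isCompactOperator_of_locallyCompactSpace_rng (V.subtypeL)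
    exact h1.comp_clm Q0
  · have h1 : ψ (Q0 x) = φ x := by
      have h2 : Q0 x = E.symm (φ x) := rfl
      rw [h2, ← hE, LinearEquiv.apply_symm_apply]
    have h3 := congrArg (fun f : Module.Dual ℝ V => f ⟨w, hw⟩) h1
    exact h3

/-- Eigenspaces of compact operators for non-zero eigenvalues are finite dimensional. -/
theorem finiteDimensional_eigenspace {K : X →L[ℝ] X} (hKc : IsCompactOperator K) {Λ : ℝ}
    (hΛ : Λ ≠ 0) : FiniteDimensional ℝ (eigenspace (K : End ℝ X) Λ) := by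
  have hcl : IsClosed ((eigenspace (K : End ℝ X) Λ : Submodule ℝ X) : Set X) := by
    have : ((eigenspace (K : End ℝ X) Λ : Submodule ℝ X) : Set X) = {x | K x = Λ • x} := by
      ext x
      simp only [SetLike.mem_coe, mem_genEigenspace_one, ContinuousLinearMap.coe_coe, Set.mem_ofPred_eq]
    rw [this]
    exact isClosed_eq K.continuous (continuous_const_smul Λ)
  have hV : ∀ v ∈ eigenspace (K : End ℝ X) Λ, (K : End ℝ X) v ∈ eigenspace (K : End ℝ X) Λ :=
    fun v hv => by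
      rw [mem_eigenspace_iff] at hv
      rw [hv]
      exact Submodule.smul_mem _ _ (mem_eigenspace_iff.2 hv)
  have h := IsCompactOperator.restrict (f := (K : X →ₗ[ℝ] X)) hKc hV hcl
  have h2 : (((K : X →ₗ[ℝ] X).restrict hV : _ →ₗ[ℝ] _) : _ → _) = Λ • (id : eigenspace (K : End ℝ X) Λ → eigenspace (K : End ℝ X) Λ) := by
    ext v
    have h3 : K (v : X) = Λ • (v : X) := mem_eigenspace_iff.1 v.2
    simpa only [LinearMap.coe_restrict_apply, ContinuousLinearMap.coe_coe, Pi.smul_apply, id_eq,     SetLike.val_smul] using h3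
  rw [h2, IsCompactOperator.smul_iff₀ hΛ] at h
  exact FiniteDimensional.of_isCompactOperator_id h

/-- The Fredholm alternative. -/
theorem fredholm (hB : IsWeakInner B) [CompleteSpace X] {K : X →L[ℝ] X}
    (hKc : IsCompactOperator K) (hK : ∀ u v, B (K u) v = B u (K v)) {Λ : ℝ} (hΛ : Λ ≠ 0) {n : X}
    (hn : ∀ w, K w = Λ • w → B n w = 0) :
    ∃ v, Λ • v - K v = n ∧ ∀ w, K w = Λ • w → B v w = 0 := by
  set V : Submodule ℝ X := eigenspace (K : End ℝ X) Λ with hV
  have : FiniteDimensional ℝ V := finiteDimensional_eigenspace hKc hΛ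
  have hmem : ∀ w, w ∈ V ↔ K w = Λ • w := fun w => by rw [hV, mem_eigenspace_iff]; rfl
  obtain ⟨Q, hQc, hQV, hQ⟩ := hB.exists_proj V
  set T : X →L[ℝ] X := K - Λ • Q with hT
  have hTc : IsCompactOperator T := hKc.sub (hQc.smul Λ)
  have key : ∀ x, (∀ w ∈ V, B (Λ • x - T x) w = 0) → Q x = 0 := by
    intro x hx
    by_contra hne
    have h1 := hx (Q x) (hQV x)
    have h2 : B (Λ • x - K x) (Q x) = 0 := by
      rw [map_sub, sub_apply, hK, (hmem _).1 (hQV x)]
      simp
    have h3 : Λ • x - T x = (Λ • x - K x) + Λ • Q x := by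
      simp only [hT, sub_apply, smul_apply]; abel
    rw [h3, map_add, add_apply, h2, zero_add] at h1
    simp only [map_smul, smul_apply, smul_eq_mul] at h1
    rcases mul_eq_zero.1 h1 with h | h
    · exact hΛ h
    · exact (hB.pos _ hne).ne' h
  rcases hTc.hasEigenvalue_or_mem_resolventSet hΛ with h | h
  · exfalso
    obtain ⟨v, hv⟩ := h.exists_hasEigenvector
    have hv1 : T v = Λ • v := hv.apply_eq_smul
    have h1 : Q v = 0 := key v fun w _ => by rw [hv1, sub_self]; simp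
    have h2 : K v = Λ • v := by
      have : T v = K v := by simp [hT, h1]
      rw [← this, hv1]
    have h3 : v ∈ V := (hmem v).2 h2
    have h4 := hQ v v h3
    rw [h1] at h4
    simp only [map_zero, zero_apply] at h4
    exact (hB.pos v hv.2).ne h4
  · rw [spectrum.mem_resolventSet_iff] at h
    obtain ⟨S, hS⟩ := h
    set v : X := ((S⁻¹ : (X →L[ℝ] X)ˣ) : X →L[ℝ] X) n with hv
    have hSv : Λ • v - T v = n := by
      have h1 : ((S : X →L[ℝ] X) * ((S⁻¹ : (X →L[ℝ] X)ˣ) : X →L[ℝ] X)) n = n := by simp only [Units.mul_inv, one_apply_eq_self]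
      have h2 : (S : X →L[ℝ] X) v = n := h1
      rw [hS] at h2
      rw [← h2]
      simp [Algebra.algebraMap_eq_smul_one]
    have h1 : Q v = 0 := key v fun w hw => by rw [hSv]; exact hn w ((hmem w).1 hw)
    refine ⟨v, ?_, fun w hw => ?_⟩
    · have : T v = K v := by simp only [hT, sub_apply, smul_apply, h1, smul_zero, sub_zero]
      rw [← this, hSv]
    · rw [← hQ v w ((hmem w).2 hw), h1]
      simp only [map_zero, zero_apply]

end IsWeakInner

end Vale.Agent.P071
end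
end

section

/-!
# Compactness of the inclusions `Y (p+1) → Y p`, extraction of convergent subsequences
-/

open scoped ComplexConjugate Topology Real
open Metric Filter MeasureTheory Set

noncomputable section

namespace Vale.Agent.P071

variable {p q : ℕ}

/-- Truncation to finitely many coefficients. -/
def trunc (p N : ℕ) : Y (p + 1) →L[ℂ] Y p :=
  ∑ i ∈ Finset.range N ×ˢ Finset.range N, (cfL (p + 1) i).smulRight (e p i)

theorem isCompactOperator_trunc (p N : ℕ) : IsCompactOperator (trunc p N) := by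
  have h : trunc p N ∈ compactOperator (RingHom.id ℂ) (Y (p + 1)) (Y p) := by
    refine Submodule.sum_mem _ fun i _ => ?_
    have h1 : IsCompactOperator (cfL (p + 1) i) := isCompactOperator_of_locallyCompactSpace_dom _
    have h2 := h1.clm_comp (ContinuousLinearMap.toSpanSingleton ℂ (e p i))
    exact h2
  exact h

theorem trunc_e (N : ℕ) (j : Ix) :
    trunc p N (e (p + 1) j) = if j ∈ Finset.range N ×ˢ Finset.range N then e p j else 0 := by
  unfold trunc
  rw [sum_apply]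
  simp only [ContinuousLinearMap.smulRight_apply, cfL_apply, cf_e]
  by_cases h : j ∈ Finset.range N ×ˢ Finset.range N
  · rw [if_pos h, Finset.sum_eq_single j]
    · simp only [↓reduceIte, one_smul]
    · intro i _ hi
      rw [if_neg hi, zero_smul]
    · intro h'; exact absurd h h'
  · rw [if_neg h]
    refine Finset.sum_eq_zero fun i hi => ?_
    rw [if_neg, zero_smul]
    rintro rfl
    exact h hi

theorem norm_incl_sub_trunc (p N : ℕ) : ‖incl (Nat.le_succ p) - trunc p N‖ ≤ 1 / (1 + (N : ℝ)) := by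
  have hv : ∀ i : Ix, ‖(if i ∈ Finset.range N ×ˢ Finset.range N then 0 else e p i : Y p)‖ ≤
      1 / (1 + (N : ℝ)) * wt (p + 1) i := by
    intro i
    by_cases h : i ∈ Finset.range N ×ˢ Finset.range N
    · rw [if_pos h, norm_zero]
      have := (wt_pos (p + 1) i).le
      positivity
    · rw [if_neg h, norm_e, wt_succ]
      have h1 : (N : ℝ) ≤ i.1 + i.2 := by
        rw [Finset.mem_product, Finset.mem_range, Finset.mem_range, not_and_or] at h
        have : N ≤ i.1 + i.2 := by omega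
        exact_mod_cast this
      have h2 : 1 ≤ 1 / (1 + (N : ℝ)) * (1 + (i.1 : ℝ) + i.2) := by
        rw [div_mul_eq_mul_div, one_mul, le_div_iff₀ (by positivity)]
        linarith
      calc wt p i = wt p i * 1 := (mul_one _).symm
        _ ≤ wt p i * (1 / (1 + (N : ℝ)) * (1 + (i.1 : ℝ) + i.2)) :=
            mul_le_mul_of_nonneg_left h2 (wt_pos p i).le
        _ = _ := by ring
  have h : incl (Nat.le_succ p) - trunc p N = lift (p := p + 1)
      (fun i : Ix => (if i ∈ Finset.range N ×ˢ Finset.range N then 0 else e p i : Y p))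
      (1 / (1 + (N : ℝ))) (by positivity) hv := Y.clm_ext fun i => by
    rw [sub_apply, incl_e, trunc_e, lift_e]
    split_ifs <;> simp
  rw [h]
  exact norm_lift_le _ _ _ _

theorem isCompactOperator_incl (p : ℕ) :
    IsCompactOperator (incl (Nat.le_succ p) : Y (p + 1) →L[ℂ] Y p) := by
  refine isCompactOperator_of_tendsto (l := atTop) (F := trunc p) ?_
    (Eventually.of_forall (isCompactOperator_trunc p))
  rw [tendsto_iff_norm_sub_tendsto_zero]
  refine squeeze_zero (fun _ => norm_nonneg _) (fun N => ?_)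
    (tendsto_one_div_add_atTop_nhds_zero_nat (𝕜 := ℝ))
  rw [norm_sub_rev]
  exact (norm_incl_sub_trunc p N).trans_eq (by rw [add_comm])

/-- Bounded sequences in `Y (p+1)` have subsequences converging in `Y p`. -/
theorem exists_subseq {x : ℕ → Y (p + 1)} {C : ℝ} (hx : ∀ n, ‖x n‖ ≤ C) :
    ∃ φ : ℕ → ℕ, StrictMono φ ∧ ∃ y : Y p,
      Tendsto (fun n => incl (Nat.le_succ p) (x (φ n))) atTop (𝓝 y) := by
  have hc := (isCompactOperator_incl p).isCompact_closure_image_closedBall C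
  obtain ⟨y, -, φ, hφ, hy⟩ := hc.tendsto_subseq (x := fun n => incl (Nat.le_succ p) (x n))
    fun n => subset_closure ⟨x n, mem_closedBall_zero_iff.2 (hx n), rfl⟩
  exact ⟨φ, hφ, y, hy⟩

theorem continuous_mul2 : Continuous fun x : Y p × Y p => mulL p x.1 x.2 :=
  (mulL p).isBoundedBilinearMap.continuous

theorem tendsto_mulL {ι : Type*} {l : Filter ι} {f g : ι → Y p} {a b : Y p}
    (hf : Tendsto f l (𝓝 a)) (hg : Tendsto g l (𝓝 b)) :
    Tendsto (fun n => mulL p (f n) (g n)) l (𝓝 (mulL p a b)) := by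
  have h := continuous_mul2.tendsto (X := Y p × Y p) (a, b)
  exact Filter.Tendsto.comp (g := fun x : Y p × Y p => mulL p x.1 x.2)
    (f := fun n => (f n, g n)) h (hf.prodMk_nhds hg)

theorem tendsto_mul {ι : Type*} {l : Filter ι} {f g : ι → Y p} {a b : Y p}
    (hf : Tendsto f l (𝓝 a)) (hg : Tendsto g l (𝓝 b)) :
    Tendsto (fun n => f n * g n) l (𝓝 (a * b)) := tendsto_mulL hf hg

/-- The operator `u ↦ Sol (k u)` on `Y p`. -/
def T0 (k : Y p) : Y p →L[ℂ] Y p := (incl (Nat.le_succ p)).comp ((Sol p).comp (mulL p k))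

theorem T0_apply (k u : Y p) : T0 k u = incl (Nat.le_succ p) (Sol p (k * u)) := rfl

theorem isCompactOperator_T0 (k : Y p) : IsCompactOperator (T0 k) :=
  (isCompactOperator_incl p).comp_clm ((Sol p).comp (mulL p k))

theorem cf_Sol_zero (f : Y p) : cf (Sol p f) 0 = 0 := by
  have : (cfL (p + 1) 0).comp (Sol p) = 0 := Y.clm_ext fun i => by
    rw [ContinuousLinearMap.comp_apply, Sol_e, map_add, map_smul, map_smul, cfL_apply, cfL_apply,
      cf_e, cf_e, if_neg (by simp only [Prod.ext_iff, Prod.fst_zero, reduceCtorEq, Prod.snd_zero, and_self, not_false_eq_true])]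
    by_cases h : i.1 = i.2
    · have : sd i = 0 := by simp only [sd, h, ad, tsub_self, add_zero, CharP.cast_eq_zero, div_zero]
      rw [this]; simp only [smul_eq_mul, mul_zero, mul_ite, mul_one, ite_self, add_zero, zero_apply]
    · rw [if_neg (by simp only [Prod.ext_iff, Prod.fst_zero, Prod.snd_zero, not_and]; omega)]
      simp only [smul_eq_mul, mul_zero, add_zero, zero_apply]
  have h2 := congrArg (fun T : Y p →L[ℂ] ℂ => T f) this
  simpa only [ContinuousLinearMap.comp_apply, cfL_apply, zero_apply] using h2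

theorem cf_T0_zero (k u : Y p) : cf (T0 k u) 0 = 0 := by
  rw [T0_apply, cf_incl, cf_Sol_zero]

/-- **Compactness.** Bounded sequences of solutions have convergent subsequences. -/
theorem compactness {k : ℕ → Y p} {k' : Y p} (hk : Tendsto k atTop (𝓝 k')) {μ : ℕ → ℂ} {μ' : ℂ}
    (hμ : Tendsto μ atTop (𝓝 μ')) {g : ℕ → Y p} {g' : Y p} (hg : Tendsto g atTop (𝓝 g'))
    {u : ℕ → Y p} {α : ℕ → ℂ} (hu : ∀ n, u n = μ n • T0 (k n) (u n) + g n + α n • one1 p) {C : ℝ}
    (hC : ∀ n, ‖u n‖ ≤ C) :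
    ∃ φ : ℕ → ℕ, StrictMono φ ∧ ∃ u' : Y p, ∃ α' : ℂ, Tendsto (fun n => u (φ n)) atTop (𝓝 u') ∧
      Tendsto (fun n => α (φ n)) atTop (𝓝 α') ∧ u' = μ' • T0 k' u' + g' + α' • one1 p := by
  have hCu : 0 ≤ C := (norm_nonneg _).trans (hC 0)
  obtain ⟨D, hD⟩ : ∃ D, ∀ n, ‖k n‖ ≤ D := by
    obtain ⟨D, hD⟩ := hk.norm.bddAbove_range
    exact ⟨D, fun n => hD ⟨n, rfl⟩⟩
  have hD0 : 0 ≤ D := (norm_nonneg _).trans (hD 0)
  have hb : ∀ n, ‖Sol p (k n * u n)‖ ≤ ‖Sol p‖ * (D * C) := by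
    intro n
    refine ((Sol p).le_opNorm _).trans ?_
    gcongr
    refine (norm_ser_mul_le _ _).trans ?_
    gcongr
    · exact hD n
    · exact hC n
  obtain ⟨φ, hφ, y, hy⟩ := exists_subseq hb
  -- the constants are bounded
  have hα : ∀ n, α n = cf (u n) 0 - cf (g n) 0 := by
    intro n
    have h1 := congrArg (fun x : Y p => cf x 0) (hu n)
    simp only [cf_add, cf_smul, cf_T0_zero, one1, cf_e, if_true, mul_zero, mul_one, zero_add] at h1
    rw [h1]; ring
  have hu' : ∀ n, u n = μ n • T0 (k n) (u n) + g n + (cf (u n) 0 - cf (g n) 0) • one1 p := by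
    intro n; rw [← hα]; exact hu n
  obtain ⟨c, hc, ψ, hψ, hcψ⟩ : ∃ c : ℂ, c ∈ closedBall (0 : ℂ) C ∧ ∃ ψ : ℕ → ℕ, StrictMono ψ ∧
      Tendsto (fun n => cf (u (φ (ψ n))) 0) atTop (𝓝 c) := by
    obtain ⟨c, hc, ψ, hψ, h⟩ := (isCompact_closedBall (0 : ℂ) C).tendsto_subseq
      (x := fun n => cf (u (φ n)) 0) fun n => by
        rw [mem_closedBall_zero_iff]
        refine le_trans ?_ (hC (φ n))
        have := norm_cf_le (u (φ n)) 0
        simpa only [ge_iff_le, wt, Prod.fst_zero, CharP.cast_eq_zero, add_zero, Prod.snd_zero, one_pow, mul_one] using     this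
    exact ⟨c, hc, ψ, hψ, h⟩
  have hcomp := hφ.comp hψ
  have hk1 := hk.comp hcomp.tendsto_atTop
  have hμ1 := hμ.comp hcomp.tendsto_atTop
  have hg1 := hg.comp hcomp.tendsto_atTop
  have hy1 := hy.comp hψ.tendsto_atTop
  have hg0 : Tendsto (fun n => cf (g (φ (ψ n))) 0) atTop (𝓝 (cf g' 0)) := by
    have := ((cfL p 0).continuous.tendsto g').comp hg1
    simpa only [Function.comp_def, cfL_apply] using this
  have hα1 : Tendsto (fun n => α (φ (ψ n))) atTop (𝓝 (c - cf g' 0)) := by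
    simp only [hα]
    exact hcψ.sub hg0
  have hlim : Tendsto (fun n => u (φ (ψ n))) atTop (𝓝 (μ' • y + g' + (c - cf g' 0) • one1 p)) := by
    have h1 : Tendsto (fun n => μ (φ (ψ n)) • T0 (k (φ (ψ n))) (u (φ (ψ n))) + g (φ (ψ n)) +
        α (φ (ψ n)) • one1 p) atTop (𝓝 (μ' • y + g' + (c - cf g' 0) • one1 p)) :=
      ((hμ1.smul hy1).add hg1).add (hα1.smul_const _)
    refine h1.congr fun n => ?_
    rw [← hu]
  have hy2 : Tendsto (fun n => T0 (k (φ (ψ n))) (u (φ (ψ n)))) atTop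
      (𝓝 (T0 k' (μ' • y + g' + (c - cf g' 0) • one1 p))) := by
    have h1 := tendsto_mul hk1 hlim
    exact ((((incl (Nat.le_succ p)).comp (Sol p)).continuous.tendsto _).comp h1)
  have hyeq : y = T0 k' (μ' • y + g' + (c - cf g' 0) • one1 p) := tendsto_nhds_unique hy1 hy2
  refine ⟨φ ∘ ψ, hcomp, _, c - cf g' 0, hlim, hα1, ?_⟩
  conv_rhs => rw [← hyeq]

end Vale.Agent.P071
end
end

section

/-!
# Spectral theory for weights
-/

open scoped ComplexConjugate Topology Real
open Metric Filter MeasureTheory Set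

noncomputable section

namespace Vale.Agent.P071

variable {p q : ℕ}

/-! ### Real series and positivity -/

theorem ev_real {a : Y p} (h : cj a = a) (z : ℂ) : ((ev a z).re : ℂ) = ev a z := by
  have h1 := ev_cj a z
  rw [h] at h1
  exact Complex.conj_eq_iff_re.1 h1.symm

theorem I_real {a : Y p} (h : cj a = a) : ((I p a).re : ℂ) = I p a := by
  have h1 := I_cj a
  rw [h] at h1
  exact Complex.conj_eq_iff_re.1 h1.symm

theorem continuousOn_ev_re (a : Y p) : ContinuousOn (fun z => (ev a z).re) (closedBall 0 1) :=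
  Complex.continuous_re.comp_continuousOn (continuousOn_ev a)

theorem integral_ball_re (a : Y p) : ∫ z in ball (0 : ℂ) 1, (ev a z).re = π * (I p a).re := by
  have h1 := congrArg Complex.re (integral_ball_ev a)
  rw [Complex.re_ofReal_mul] at h1
  rw [← h1]
  exact integral_re (integrableOn_ev a)

theorem I_re_nonneg {a : Y p} (h : ∀ z, ‖z‖ < 1 → 0 ≤ (ev a z).re) : 0 ≤ (I p a).re := by
  have h1 : 0 ≤ ∫ z in ball (0 : ℂ) 1, (ev a z).re :=
    setIntegral_nonneg measurableSet_ball fun z hz => h z (mem_ball_zero_iff.1 hz)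
  rw [integral_ball_re] at h1
  exact nonneg_of_mul_nonneg_right h1 Real.pi_pos |> fun h => h
where
  nonneg_of_mul_nonneg_right {a b : ℝ} (h : 0 ≤ a * b) (ha : 0 < a) : 0 ≤ b := by
    by_contra hb
    push Not at hb
    nlinarith

theorem I_re_pos {a : Y p} (h : ∀ z, ‖z‖ < 1 → 0 ≤ (ev a z).re) {w : ℂ} (hw : ‖w‖ < 1)
    (h0 : 0 < (ev a w).re) : 0 < (I p a).re := by
  refine lt_of_le_of_ne (I_re_nonneg h) fun h1 => ?_
  have h2 : ∫ z in ball (0 : ℂ) 1, (ev a z).re = 0 := by rw [integral_ball_re, ← h1, mul_zero]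
  have hc : ContinuousOn (fun z => (ev a z).re) (ball 0 1) :=
    (continuousOn_ev_re a).mono ball_subset_closedBall
  have hi : IntegrableOn (fun z => (ev a z).re) (ball (0 : ℂ) 1) := (integrableOn_ev a).re
  rw [setIntegral_eq_zero_iff_of_nonneg_ae] at h2
  · have h3 : EqOn (fun z => (ev a z).re) 0 (ball (0 : ℂ) 1) :=
      Measure.eqOn_open_of_ae_eq h2 isOpen_ball hc continuousOn_const
    have := h3 (mem_ball_zero_iff.2 hw)
    simp only [Pi.zero_apply] at this
    linarith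
  · filter_upwards [ae_restrict_mem measurableSet_ball] with z hz
    exact h z (mem_ball_zero_iff.1 hz)
  · exact hi

theorem ev_cj_mul (u v : Y p) {z : ℂ} (hz : ‖z‖ ≤ 1) :
    ev (cj u * v) z = conj (ev u z) * ev v z := by
  rw [ev_mul _ _ hz, ev_cj]

theorem ev_cj_mul_self_re (u : Y p) {z : ℂ} (hz : ‖z‖ ≤ 1) :
    ev (cj u * u) z = ((‖ev u z‖ ^ 2 : ℝ) : ℂ) := by
  rw [ev_cj_mul u u hz, mul_comm, Complex.mul_conj, Complex.normSq_eq_norm_sq]

/-! ### Weights -/

/-- Weights: real series, positive on the closed disc. -/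
structure IsW (k : Y p) : Prop where
  real : cj k = k
  pos : ∀ z, ‖z‖ ≤ 1 → 0 < (ev k z).re

theorem IsW.incl {k : Y q} (hk : IsW k) (h : p ≤ q) : IsW (incl h k) where
  real := by rw [cj_incl, hk.real]
  pos z hz := by rw [ev_incl]; exact hk.pos z hz

/-- The weighted real inner product. -/
def WB (k : Y p) : Y p →L[ℝ] Y p →L[ℝ] ℝ :=
  LinearMap.mkContinuous₂
    (LinearMap.mk₂ ℝ (fun u v : Y p => (I p (k * (cj u * v))).re)
      (fun u u' v => by simp only [cj_add, ser_add_mul, ser_mul_add, map_add, Complex.add_re])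
      (fun c u v => by
        have h : cj (c • u) = (c : ℂ) • cj u := by
          have : c • u = (c : ℂ) • u := (Complex.coe_smul c u).symm
          rw [this, cj_smul, Complex.conj_ofReal]
        rw [h, ser_smul_mul, ser_mul_smul, map_smul, smul_eq_mul, Complex.re_ofReal_mul,
          smul_eq_mul])
      (fun u v v' => by simp only [ser_mul_add, map_add, Complex.add_re])
      (fun c u v => by
        have : c • v = (c : ℂ) • v := (Complex.coe_smul c v).symm
        rw [this, ser_mul_smul, ser_mul_smul, map_smul, smul_eq_mul, Complex.re_ofReal_mul,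
          smul_eq_mul])) ‖k‖ fun u v => by
    show ‖(I p (k * (cj u * v))).re‖ ≤ _
    calc ‖(I p (k * (cj u * v))).re‖ ≤ ‖I p (k * (cj u * v))‖ := Complex.abs_re_le_norm _
      _ ≤ ‖k * (cj u * v)‖ := norm_I_le _
      _ ≤ ‖k‖ * (‖cj u‖ * ‖v‖) := (norm_ser_mul_le _ _).trans (by
          gcongr; exact norm_ser_mul_le _ _)
      _ = ‖k‖ * ‖u‖ * ‖v‖ := by rw [norm_cj]; ring

theorem WB_apply (k u v : Y p) : WB k u v = (I p (k * (cj u * v))).re := rfl

theorem isWeakInner_WB {k : Y p} (hk : IsW k) : IsWeakInner (WB k) where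
  symm u v := by
    rw [WB_apply, WB_apply]
    have h : k * (cj v * u) = cj (k * (cj u * v)) := by
      rw [cj_mul, cj_mul, cj_cj, hk.real, ser_mul_comm u (cj v)]
    rw [h, I_cj, Complex.conj_re]
  pos u hu := by
    rw [WB_apply]
    have hev : ∀ z, ‖z‖ ≤ 1 → (ev (k * (cj u * u)) z).re = (ev k z).re * ‖ev u z‖ ^ 2 := by
      intro z hz
      rw [ev_mul _ _ hz, ev_cj_mul_self_re u hz, ← ev_real hk.real z, ← Complex.ofReal_mul,
        Complex.ofReal_re, Complex.ofReal_re]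
    obtain ⟨w, hw, hw0⟩ : ∃ w, ‖w‖ < 1 ∧ ev u w ≠ 0 := by
      by_contra h
      push Not at h
      exact hu (eq_zero_of_ev h)
    refine I_re_pos (fun z hz => ?_) hw ?_
    · rw [hev z hz.le]
      exact mul_nonneg (hk.pos z hz.le).le (sq_nonneg _)
    · rw [hev w hw.le]
      exact mul_pos (hk.pos w hw.le) (by positivity)

theorem IsW.mass_pos {k : Y p} (hk : IsW k) : 0 < (I p k).re :=
  I_re_pos (fun z hz => (hk.pos z hz.le).le) (w := 0) (by simp only [norm_zero, zero_lt_one]) (hk.pos 0 (by simp))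

theorem IsW.mass_ne {k : Y p} (hk : IsW k) : I p k ≠ 0 := fun h => by
  have := hk.mass_pos
  rw [h] at this
  simp at this

theorem IsW.mass_eq {k : Y p} (hk : IsW k) : ((I p k).re : ℂ) = I p k := I_real hk.real

/-! ### Projection on mean zero -/

/-- Subtracting the weighted mean. -/
def PL (k : Y p) : Y p →L[ℂ] Y p :=
  ContinuousLinearMap.id ℂ (Y p) - (1 / I p k) • ((I p).comp (mulL p k)).smulRight (one1 p)

theorem PL_apply (k u : Y p) : PL k u = u - (I p (k * u) / I p k) • one1 p := by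
  unfold PL
  simp only [sub_apply, ContinuousLinearMap.id_apply, smul_apply, ContinuousLinearMap.smulRight_apply, ContinuousLinearMap.comp_apply, smul_smul]
  rw [show mulL p k u = k * u from rfl]
  congr 2
  ring

theorem I_PL {k : Y p} (hk : I p k ≠ 0) (u : Y p) : I p (k * PL k u) = 0 := by
  rw [PL_apply, ser_mul_sub, ser_mul_smul, mul_one1, map_sub, map_smul, smul_eq_mul,
    div_mul_cancel₀ _ hk, sub_self]

theorem PL_of_mean {k u : Y p} (h : I p (k * u) = 0) : PL k u = u := by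
  rw [PL_apply, h, zero_div, zero_smul, sub_zero]

theorem cj_PL {k : Y p} (hk : cj k = k) (u : Y p) : cj (PL k u) = PL k (cj u) := by
  rw [PL_apply, PL_apply, cj_sub, cj_smul, cj_one1, map_div₀, ← I_cj, ← I_cj, cj_mul, hk]

theorem cj_T0 {k : Y p} (hk : cj k = k) (u : Y p) : cj (T0 k u) = T0 k (cj u) := by
  rw [T0_apply, T0_apply, cj_incl, cj_Sol, cj_mul, hk]

/-- The compact operator. -/
def KK (k : Y p) : Y p →L[ℂ] Y p := (PL k).comp ((T0 k).comp (PL k))

theorem KK_apply (k u : Y p) : KK k u = PL k (T0 k (PL k u)) := rfl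

theorem isCompactOperator_KK (k : Y p) : IsCompactOperator (KK k) :=
  ((isCompactOperator_T0 k).comp_clm (PL k)).clm_comp (PL k)

theorem cj_KK {k : Y p} (hk : cj k = k) (u : Y p) : cj (KK k u) = KK k (cj u) := by
  rw [KK_apply, KK_apply, cj_PL hk, cj_T0 hk, cj_PL hk]

/-- `KK` as a real operator. -/
def KR (k : Y p) : Y p →L[ℝ] Y p := (KK k).restrictScalars ℝ

theorem KR_apply (k u : Y p) : KR k u = PL k (T0 k (PL k u)) := rfl

theorem isCompactOperator_KR (k : Y p) : IsCompactOperator (KR k) := isCompactOperator_KK k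

theorem WB_PL {k : Y p} (hk : IsW k) (u v : Y p) : WB k (PL k u) v = WB k u (PL k v) := by
  have h1 : ∀ u v : Y p, WB k (PL k u) v =
      WB k u v - (conj (I p (k * u)) * I p (k * v)).re / (I p k).re := by
    intro u v
    rw [WB_apply, WB_apply, PL_apply, cj_sub, cj_smul, cj_one1, ser_sub_mul, ser_smul_mul, one1_mul,
      ser_mul_sub, ser_mul_smul, map_sub, map_smul, Complex.sub_re, smul_eq_mul, map_div₀,
      ← hk.mass_eq, Complex.conj_ofReal, div_mul_eq_mul_div, Complex.div_ofReal_re,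
      Complex.ofReal_re]
  have h2 : WB k u (PL k v) = WB k (PL k v) u := (isWeakInner_WB hk).symm _ _
  rw [h2, h1, h1, (isWeakInner_WB hk).symm u v]
  congr 2
  have : conj (I p (k * v)) * I p (k * u) = conj (conj (I p (k * u)) * I p (k * v)) := by
    rw [map_mul (starRingEnd ℂ) (conj (I p (k * u))), Complex.conj_conj, mul_comm]
  rw [this, Complex.conj_re]

/-- Energy representation. -/
theorem I_T0 {k : Y p} (f g : Y p) (hf : I p (k * f) = 0) :
    I p (k * (f * T0 k g)) = Dir p (Sol p (k * g)) (Sol p (k * f)) := by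
  rw [Dir_Sol, hf, zero_mul, sub_zero, T0_apply]
  congr 1
  rw [← ser_mul_assoc, ser_mul_comm]

theorem WB_T0 {k : Y p} (hk : IsW k) (f g : Y p) (hf : I p (k * f) = 0) :
    WB k f (T0 k g) = (Dir p (Sol p (k * g)) (cj (Sol p (k * f)))).re := by
  have hf' : I p (k * cj f) = 0 := by
    have : k * cj f = cj (k * f) := by rw [cj_mul, hk.real]
    rw [this, I_cj, hf, map_zero]
  rw [WB_apply, I_T0 _ _ hf', cj_Sol, cj_mul, hk.real]

theorem cj_DirForm (a b : Y (p + 1)) : Dir p (cj a) (cj b) = conj (Dir p a b) := by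
  unfold Dir
  rw [← cj_dx, ← cj_dx, ← cj_dy, ← cj_dy, ← cj_mul, ← cj_mul, ← cj_add, I_cj]

theorem KR_symm {k : Y p} (hk : IsW k) (u v : Y p) : WB k (KR k u) v = WB k u (KR k v) := by
  have hu : I p (k * PL k u) = 0 := I_PL hk.mass_ne u
  have hv : I p (k * PL k v) = 0 := I_PL hk.mass_ne v
  have e1 : WB k (KR k u) v = WB k (PL k v) (T0 k (PL k u)) := by
    rw [KR_apply, WB_PL hk, (isWeakInner_WB hk).symm]
  have e2 : WB k u (KR k v) = WB k (PL k u) (T0 k (PL k v)) := by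
    rw [KR_apply, ← WB_PL hk]
  rw [e1, e2, WB_T0 hk _ _ hv, WB_T0 hk _ _ hu]
  have : Dir p (Sol p (k * PL k u)) (cj (Sol p (k * PL k v))) =
      conj (Dir p (Sol p (k * PL k v)) (cj (Sol p (k * PL k u)))) := by
    rw [← cj_DirForm, cj_cj, Dir_comm]
  rw [this, Complex.conj_re]

/-- The energy of a complex series. -/
theorem Dir_cj_self (w : Y (p + 1)) : 0 ≤ (Dir p w (cj w)).re := by
  rw [Dir_comm]
  unfold Dir
  rw [← cj_dx, ← cj_dy]
  refine I_re_nonneg fun z hz => ?_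
  rw [ev_add _ _ hz.le, ev_cj_mul_self_re _ hz.le, ev_cj_mul_self_re _ hz.le, ← Complex.ofReal_add,
    Complex.ofReal_re]
  (clear * -; positivity)

theorem eq_const_of_Dir {w : Y (p + 1)} (h : (Dir p w (cj w)).re = 0) : w = cf w 0 • one1 (p + 1) := by
  have h2 : ∀ z, ‖z‖ < 1 → ev (dx p w) z = 0 ∧ ev (dy p w) z = 0 := by
    intro z hz
    by_contra hne
    have hpos : 0 < (Dir p w (cj w)).re := by
      rw [Dir_comm]
      unfold Dir
      rw [← cj_dx, ← cj_dy]
      refine I_re_pos (fun z hz => ?_) hz ?_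
      · rw [ev_add _ _ hz.le, ev_cj_mul_self_re _ hz.le, ev_cj_mul_self_re _ hz.le,
          ← Complex.ofReal_add, Complex.ofReal_re]
        (clear * -; positivity)
      · rw [ev_add _ _ hz.le, ev_cj_mul_self_re _ hz.le, ev_cj_mul_self_re _ hz.le,
          ← Complex.ofReal_add, Complex.ofReal_re]
        rw [not_and_or] at hne
        rcases hne with h | h
        · have : 0 < ‖ev (dx p w) z‖ := norm_pos_iff.2 h
          positivity
        · have : 0 < ‖ev (dy p w) z‖ := norm_pos_iff.2 h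
          (clear * - h; positivity)
    exact hpos.ne' h
  have hx : dx p w = 0 := eq_zero_of_ev fun z hz => (h2 z hz).1
  have hy : dy p w = 0 := eq_zero_of_ev fun z hz => (h2 z hz).2
  have hz1 : dz p w + dzb p w = 0 := hx
  have hz2 : dz p w - dzb p w = 0 := by
    have h3 : Complex.I • (dz p w - dzb p w) = 0 := hy
    rcases smul_eq_zero.1 h3 with h | h
    · exact absurd h Complex.I_ne_zero
    · exact h
  have hdz : dz p w = 0 := by
    have : (2 : ℂ) • dz p w = 0 := by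
      calc (2 : ℂ) • dz p w = (dz p w + dzb p w) + (dz p w - dzb p w) := by module
        _ = 0 := by rw [hz1, hz2, add_zero]
    rcases smul_eq_zero.1 this with h | h
    · norm_num at h
    · exact h
  have hdzb : dzb p w = 0 := by rw [hdz, zero_add] at hz1; exact hz1
  ext i
  rw [cf_smul, one1, cf_e]
  rcases i with ⟨m, n⟩
  by_cases h0 : ((m, n) : Ix) = 0
  · rw [if_pos h0, h0, mul_one]
  · rw [if_neg h0, mul_zero]
    rcases m with _ | m
    · rcases n with _ | n
      · exact absurd rfl h0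
      · have h4 := cf_dzb w (0, n)
        rw [hdzb, cf_zero] at h4
        rcases mul_eq_zero.1 h4.symm with h | h
        · exact absurd h (Nat.cast_add_one_ne_zero _)
        · exact h
    · have h4 := cf_dz w (m, n)
      rw [hdz, cf_zero] at h4
      rcases mul_eq_zero.1 h4.symm with h | h
      · exact absurd h (Nat.cast_add_one_ne_zero _)
      · exact h

theorem KR_nonneg {k : Y p} (hk : IsW k) (u : Y p) : 0 ≤ WB k (KR k u) u := by
  have hu : I p (k * PL k u) = 0 := I_PL hk.mass_ne u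
  have e1 : WB k (KR k u) u = WB k (PL k u) (T0 k (PL k u)) := by
    rw [KR_apply, WB_PL hk, (isWeakInner_WB hk).symm]
  rw [e1, WB_T0 hk _ _ hu]
  exact Dir_cj_self _

/-! ### Injectivity of the solver -/

theorem cf_Sol_succ (f : Y p) (i : Ix) : cf (Sol p f) (i.1 + 1, i.2 + 1) = -sc i * cf f i := by
  have : (cfL (p + 1) (i.1 + 1, i.2 + 1)).comp (Sol p) = (-sc i) • cfL p i := Y.clm_ext fun j => by
    rw [ContinuousLinearMap.comp_apply, Sol_e, map_add, map_smul, map_smul, cfL_apply, cfL_apply,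
      smul_apply, cfL_apply, cf_e, cf_e, cf_e]
    have h1 : ((i.1 + 1, i.2 + 1) : Ix) ≠ (j.1 - j.2, j.2 - j.1) := by
      intro h
      rw [Prod.mk.injEq] at h
      omega
    rw [if_neg h1, smul_zero, add_zero]
    by_cases h : i = j
    · subst h; simp
    · rw [if_neg h, if_neg, smul_zero, smul_zero]
      intro h2
      rw [Prod.mk.injEq] at h2
      exact h (Prod.ext (by omega) (by omega))
  have h2 := congrArg (fun T : Y p →L[ℂ] ℂ => T f) this
  simpa only [neg_mul, ContinuousLinearMap.comp_apply, cfL_apply, smul_apply, smul_eq_mul] using h2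

theorem Sol_injective {f : Y p} (h : Sol p f = 0) : f = 0 := by
  ext i
  have h1 := cf_Sol_succ f i
  rw [h, cf_zero] at h1
  rcases mul_eq_zero.1 h1.symm with h2 | h2
  · exfalso
    have h3 : ‖sc i‖ ≠ 0 := by rw [norm_sc]; (clear * -; positivity)
    exact h3 (by rw [← norm_neg, h2, norm_zero])
  · rw [h2, cf_zero]

theorem mul_eq_zero_of_weight {k : Y p} (hk : IsW k) {u : Y p} (h : k * u = 0) : u = 0 := by
  refine eq_zero_of_ev fun z hz => ?_
  have h1 : ev (k * u) z = 0 := by rw [h, ev_zero]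
  rw [ev_mul _ _ hz.le] at h1
  rcases mul_eq_zero.1 h1 with h2 | h2
  · exfalso
    have := hk.pos z hz.le
    rw [h2] at this
    simp at this
  · exact h2

/-! ### The first eigenvalue -/

/-- The inverse of the first non-zero Neumann eigenvalue. -/
def Lam (k : Y p) : ℝ := ray (WB k) (KR k)

theorem Lam_pos {k : Y p} (hk : IsW k) : 0 < Lam k := by
  refine (isWeakInner_WB hk).ray_pos (KR_symm hk) (u := e p (1, 0)) ?_
  set u := e p (1, 0)
  have hu : I p (k * PL k u) = 0 := I_PL hk.mass_ne u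
  have e1 : WB k (KR k u) u = WB k (PL k u) (T0 k (PL k u)) := by
    rw [KR_apply, WB_PL hk, (isWeakInner_WB hk).symm]
  rw [e1, WB_T0 hk _ _ hu]
  refine lt_of_le_of_ne (Dir_cj_self _) fun h => ?_
  have h1 := eq_const_of_Dir h.symm
  rw [cf_Sol_zero, zero_smul] at h1
  have h2 := mul_eq_zero_of_weight hk (Sol_injective h1)
  have h3 := congrArg (fun x : Y p => cf x (1, 0)) h2
  simp only [PL_apply, cf_sub, cf_smul, cf_zero, one1] at h3
  rw [show u = e p (1, 0) from rfl, cf_e, cf_e, if_pos rfl, if_neg (by simp only [Prod.ext_iff, Prod.fst_zero, one_ne_zero, Prod.snd_zero, and_true, not_false_eq_true])] at h3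
  simp only [mul_zero, sub_zero, one_ne_zero] at h3

/-- Neumann eigenfunctions (real, mean zero) with eigenvalue `μ`, integral form. -/
structure IsEig (k : Y p) (μ : ℝ) (u : Y p) : Prop where
  real : cj u = u
  mean : I p (k * u) = 0
  eqn : u = (μ : ℂ) • T0 k u + cf u 0 • one1 p

theorem isEig_of_KR {k : Y p} (hk : IsW k) {Λ : ℝ} (hΛ : Λ ≠ 0) {u : Y p} (hr : cj u = u)
    (h : KR k u = Λ • u) : IsEig k Λ⁻¹ u := by
  have h1 : I p (k * u) = 0 := by
    have h2 := I_PL hk.mass_ne (T0 k (PL k u))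
    rw [← KR_apply, h] at h2
    have h3 : Λ • u = (Λ : ℂ) • u := (Complex.coe_smul Λ u).symm
    rw [h3, ser_mul_smul, map_smul, smul_eq_mul] at h2
    rcases mul_eq_zero.1 h2 with h4 | h4
    · exact absurd h4 (by exact_mod_cast hΛ)
    · exact h4
  have hΛ' : (Λ : ℂ) ≠ 0 := by exact_mod_cast hΛ
  have h2 : (Λ : ℂ) • u = T0 k u - (I p (k * T0 k u) / I p k) • one1 p := by
    have h3 : Λ • u = (Λ : ℂ) • u := (Complex.coe_smul Λ u).symm
    rw [← h3, ← h, KR_apply, PL_of_mean h1, PL_apply]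
  set c := I p (k * T0 k u) / I p k with hc
  have h3 : u = ((Λ⁻¹ : ℝ) : ℂ) • T0 k u + (-(Λ : ℂ)⁻¹ * c) • one1 p := by
    have : u = (Λ : ℂ)⁻¹ • ((Λ : ℂ) • u) := by rw [smul_smul, inv_mul_cancel₀ hΛ', one_smul]
    rw [this, h2]
    push_cast
    rw [← h2, smul_smul, inv_mul_cancel₀ hΛ', one_smul]
    conv_lhs => rw [this, h2]
    module
  refine ⟨hr, h1, ?_⟩
  have h4 : cf u 0 = -(Λ : ℂ)⁻¹ * c := by
    conv_lhs => rw [h3]
    rw [cf_add, cf_smul, cf_smul, cf_T0_zero, one1, cf_e, if_pos rfl]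
    ring
  rw [h4]
  exact h3

theorem IsEig.KR_eq {k : Y p} (hk : IsW k) {μ : ℝ} {u : Y p} (h : IsEig k μ u) :
    μ • KR k u = u := by
  have h1 : μ • KR k u = (μ : ℂ) • KR k u := (Complex.coe_smul μ _).symm
  rw [h1, KR_apply, PL_of_mean h.mean, ← map_smul]
  have h2 : (μ : ℂ) • T0 k u = u - cf u 0 • one1 p := by
    conv_rhs => rw [h.eqn]
    rw [cf_add, cf_smul, cf_smul, cf_T0_zero, one1, cf_e, if_pos rfl]
    simp
  rw [h2, map_sub, PL_of_mean h.mean, map_smul]
  have : PL k (one1 p) = 0 := by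
    rw [PL_apply, mul_one1, div_self hk.mass_ne, one_smul, sub_self]
  rw [this, smul_zero, sub_zero]

/-- The first eigenvalue. -/
def mu1 (k : Y p) : ℝ := (Lam k)⁻¹

theorem mu1_pos {k : Y p} (hk : IsW k) : 0 < mu1 k := inv_pos.2 (Lam_pos hk)

theorem exists_isEig {k : Y p} (hk : IsW k) : ∃ u, u ≠ 0 ∧ IsEig k (mu1 k) u := by
  obtain ⟨u, hu, h⟩ := (isWeakInner_WB hk).exists_eigen (isCompactOperator_KR k) (KR_symm hk)
    (KR_nonneg hk) (Lam_pos hk)
  have h' : KR k u = Lam k • u := h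
  have hc : KR k (cj u) = Lam k • cj u := by
    have h1 := congrArg cj h'
    have h2 : cj (KR k u) = KR k (cj u) := cj_KK hk.real u
    have h3 : cj (Lam k • u) = Lam k • cj u := by
      have e1 : Lam k • u = (Lam k : ℂ) • u := (Complex.coe_smul _ _).symm
      have e2 : Lam k • cj u = (Lam k : ℂ) • cj u := (Complex.coe_smul _ _).symm
      rw [e1, e2, cj_smul, Complex.conj_ofReal]
    rw [← h2, h1, h3]
  by_cases hs : u + cj u = 0
  · refine ⟨Complex.I • (u - cj u), ?_, ?_⟩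
    · intro h0
      rcases smul_eq_zero.1 h0 with h1 | h1
      · exact Complex.I_ne_zero h1
      · apply hu
        have h2 : (2 : ℂ) • u = 0 := by
          calc (2 : ℂ) • u = (u + cj u) + (u - cj u) := by module
            _ = 0 := by rw [hs, h1, add_zero]
        rcases smul_eq_zero.1 h2 with h3 | h3
        · norm_num at h3
        · exact h3
    · refine isEig_of_KR hk (Lam_pos hk).ne' ?_ ?_
      · rw [cj_smul, cj_sub, cj_cj, Complex.conj_I, neg_smul, ← smul_neg, neg_sub]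
      · have e1 : KR k (Complex.I • (u - cj u)) = Complex.I • KR k (u - cj u) :=
          (KK k).map_smul _ _
        rw [e1, map_sub, h', hc, ← smul_sub, smul_comm]
  · refine ⟨u + cj u, hs, isEig_of_KR hk (Lam_pos hk).ne' ?_ ?_⟩
    · rw [cj_add, cj_cj, add_comm]
    · rw [map_add, h', hc, smul_add]

theorem WB_le {k : Y p} (hk : IsW k) (u : Y p) : mu1 k * WB k (KR k u) u ≤ WB k u u := by
  have h := (isWeakInner_WB hk).le_ray (KR_symm hk) u
  have h1 : ray (WB k) (KR k) = Lam k := rfl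
  rw [h1] at h
  unfold mu1
  rw [inv_mul_le_iff₀ (Lam_pos hk)]
  exact h

/-- The first eigenvalue is the smallest one. -/
theorem IsEig.mu1_le {k : Y p} (hk : IsW k) {μ : ℝ} {u : Y p} (h : IsEig k μ u) (hu : u ≠ 0) :
    mu1 k ≤ μ := by
  have h1 := WB_le hk u
  have h2 := h.KR_eq hk
  have h3 := (isWeakInner_WB hk).pos u hu
  have h4 : WB k u u = μ * WB k (KR k u) u := by
    conv_lhs => rw [← h2]
    rw [h2]
    have : WB k u u = WB k (μ • KR k u) u := by rw [h2]
    rw [this, map_smul, smul_apply, smul_eq_mul]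
  rw [h4] at h1 h3
  have h5 := KR_nonneg hk u
  have h6 : 0 < WB k (KR k u) u := by
    rcases eq_or_lt_of_le h5 with h7 | h7
    · rw [← h7, mul_zero] at h3
      exact absurd h3 (lt_irrefl _)
    · exact h7
  exact le_of_mul_le_mul_right h1 h6

/-- Variational inequality for series. -/
theorem poincare {k : Y p} (hk : IsW k) {φ : Y (p + 1)} (hr : cj φ = φ)
    (hm : I p (k * incl (Nat.le_succ p) φ) = 0) :
    mu1 k * (I p (k * (incl (Nat.le_succ p) φ * incl (Nat.le_succ p) φ))).re ≤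
      (Dir p φ φ).re := by
  set ψ := incl (Nat.le_succ p) φ with hψ
  have hψr : cj ψ = ψ := by rw [hψ, cj_incl, hr]
  set s := Sol p (k * ψ) with hs
  have hsr : cj s = s := by rw [hs, cj_Sol, cj_mul, hk.real, hψr]
  -- `A = I(kψψ)`, `A = Dir φ s`
  set A := (I p (k * (ψ * ψ))).re with hA
  have hA1 : A = (Dir p φ s).re := by
    rw [hA, hs, Dir_Sol, hm, zero_mul, sub_zero, ← hψ]
    congr 2
    rw [← ser_mul_assoc, ser_mul_comm]
  have hAB : A = WB k ψ ψ := by rw [WB_apply, hψr]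
  have hA0 : 0 ≤ A := by rw [hAB]; exact (isWeakInner_WB hk).nonneg ψ
  -- energy of `s`
  have hE : mu1 k * (Dir p s s).re ≤ A := by
    have h1 := WB_le hk ψ
    have h2 : WB k (KR k ψ) ψ = (Dir p s s).re := by
      have e1 : WB k (KR k ψ) ψ = WB k (PL k ψ) (T0 k (PL k ψ)) := by
        rw [KR_apply, WB_PL hk, (isWeakInner_WB hk).symm]
      rw [e1, PL_of_mean hm, WB_T0 hk _ _ hm, ← hs, hsr]
    rw [h2, ← hAB] at h1
    exact h1
  -- Cauchy-Schwarz for the Dirichlet form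
  have hcs : (Dir p φ s).re ^ 2 ≤ (Dir p φ φ).re * (Dir p s s).re := by
    have h := IsWeakInner.cs_of_nonneg (X := Y (p + 1)) (D := fun a b => (Dir p a (cj b)).re)
      (fun a b => by
        have : Dir p b (cj a) = conj (Dir p a (cj b)) := by
          rw [← cj_DirForm, cj_cj, Dir_comm]
        rw [this, Complex.conj_re])
      (fun a b c => by
        simp only [← DirL_apply, map_add, add_apply, Complex.add_re])
      (fun c a b => by
        have e1 : c • a = (c : ℂ) • a := (Complex.coe_smul _ _).symm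
        rw [e1]
        simp only [← DirL_apply, map_smul, smul_apply, smul_eq_mul, Complex.re_ofReal_mul])
      (fun a => Dir_cj_self a) φ s
    simpa only [hr, hsr] using h
  have hμ := mu1_pos hk
  have hD : 0 ≤ (Dir p φ φ).re := by
    have := Dir_cj_self φ
    rwa [hr] at this
  by_cases hA00 : A = 0
  · rw [hA00, mul_zero]; exact hD
  · have hApos : 0 < A := lt_of_le_of_ne hA0 (Ne.symm hA00)
    have h1 : A * (mu1 k * A) ≤ A * (Dir p φ φ).re := by
      calc A * (mu1 k * A) = mu1 k * (Dir p φ s).re ^ 2 := by rw [← hA1]; ring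
        _ ≤ mu1 k * ((Dir p φ φ).re * (Dir p s s).re) := by (clear * - hcs hμ; gcongr)
        _ = (Dir p φ φ).re * (mu1 k * (Dir p s s).re) := by ring
        _ ≤ (Dir p φ φ).re * A := by (clear * - hE hD; gcongr)
        _ = A * (Dir p φ φ).re := by ring
    exact le_of_mul_le_mul_left h1 hApos

end Vale.Agent.P071
end
end

section

/-!
# Continuity in the weight, compactness, Fredholm alternative, bootstrapping, classical form
-/

open scoped ComplexConjugate Topology Real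
open Metric Filter MeasureTheory Set

noncomputable section

namespace Vale.Agent.P071

variable {p q : ℕ}

/-! ### Limits -/

section Limits

variable {ι : Type*} {l : Filter ι}

theorem tendsto_clm {F : Type*} [NormedAddCommGroup F] [NormedSpace ℂ F] (T : Y p →L[ℂ] F)
    {f : ι → Y p} {a : Y p} (hf : Tendsto f l (𝓝 a)) : Tendsto (fun n => T (f n)) l (𝓝 (T a)) :=
  (T.continuous.tendsto a).comp hf

theorem tendsto_cj {f : ι → Y p} {a : Y p} (hf : Tendsto f l (𝓝 a)) :
    Tendsto (fun n => cj (f n)) l (𝓝 (cj a)) := (continuous_cj.tendsto a).comp hf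

theorem tendsto_cf {f : ι → Y p} {a : Y p} (hf : Tendsto f l (𝓝 a)) (i : Ix) :
    Tendsto (fun n => cf (f n) i) l (𝓝 (cf a i)) := by
  have := tendsto_clm (cfL p i) hf
  simpa only [cfL_apply] using this

theorem tendsto_T0 {k u : ι → Y p} {k' u' : Y p} (hk : Tendsto k l (𝓝 k')) (hu : Tendsto u l (𝓝 u')) :
    Tendsto (fun n => T0 (k n) (u n)) l (𝓝 (T0 k' u')) := by
  have h1 := tendsto_clm ((incl (Nat.le_succ p)).comp (Sol p)) (tendsto_mul hk hu)
  exact h1

theorem tendsto_I {f : ι → Y p} {a : Y p} (hf : Tendsto f l (𝓝 a)) :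
    Tendsto (fun n => I p (f n)) l (𝓝 (I p a)) := tendsto_clm (I p) hf

theorem tendsto_PL {k u : ι → Y p} {k' u' : Y p} (hk : Tendsto k l (𝓝 k'))
    (hu : Tendsto u l (𝓝 u')) (h : I p k' ≠ 0) :
    Tendsto (fun n => PL (k n) (u n)) l (𝓝 (PL k' u')) := by
  simp only [PL_apply]
  exact hu.sub (((tendsto_I (tendsto_mul hk hu)).div (tendsto_I hk) h).smul_const _)

theorem tendsto_KR {k u : ι → Y p} {k' u' : Y p} (hk : Tendsto k l (𝓝 k'))
    (hu : Tendsto u l (𝓝 u')) (h : I p k' ≠ 0) :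
    Tendsto (fun n => KR (k n) (u n)) l (𝓝 (KR k' u')) := by
  simp only [KR_apply]
  exact tendsto_PL hk (tendsto_T0 hk (tendsto_PL hk hu h)) h

theorem tendsto_WB {k u v : ι → Y p} {k' u' v' : Y p} (hk : Tendsto k l (𝓝 k'))
    (hu : Tendsto u l (𝓝 u')) (hv : Tendsto v l (𝓝 v')) :
    Tendsto (fun n => WB (k n) (u n) (v n)) l (𝓝 (WB k' u' v')) := by
  simp only [WB_apply]
  exact (Complex.continuous_re.tendsto _).comp (tendsto_I (tendsto_mul hk
    (tendsto_mul (tendsto_cj hu) hv)))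

theorem IsEig.tendsto [l.NeBot] {k u : ι → Y p} {μ : ι → ℝ} {k' u' : Y p} {μ' : ℝ}
    (h : ∀ᶠ n in l, IsEig (k n) (μ n) (u n)) (hk : Tendsto k l (𝓝 k')) (hμ : Tendsto μ l (𝓝 μ'))
    (hu : Tendsto u l (𝓝 u')) : IsEig k' μ' u' where
  real := tendsto_nhds_unique ((tendsto_cj hu).congr' (h.mono fun n hn => hn.real)) hu
  mean := by
    refine tendsto_nhds_unique (tendsto_I (tendsto_mul hk hu)) ?_
    refine tendsto_const_nhds.congr' (h.mono fun n hn => hn.mean.symm)
  eqn := by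
    have h1 : Tendsto (fun n => ((μ n : ℝ) : ℂ) • T0 (k n) (u n) + cf (u n) 0 • one1 p) l
        (𝓝 ((μ' : ℂ) • T0 k' u' + cf u' 0 • one1 p)) :=
      (((Complex.continuous_ofReal.tendsto μ').comp hμ).smul (tendsto_T0 hk hu)).add
        ((tendsto_cf hu 0).smul_const _)
    exact tendsto_nhds_unique (hu.congr' (h.mono fun n hn => hn.eqn)) h1

end Limits

/-- Compactness of eigenfunctions. -/
theorem IsEig.exists_subseq {k u : ℕ → Y p} {μ : ℕ → ℝ} {k' : Y p} {μ' : ℝ}
    (h : ∀ n, IsEig (k n) (μ n) (u n)) (hk : Tendsto k atTop (𝓝 k')) (hμ : Tendsto μ atTop (𝓝 μ'))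
    {C : ℝ} (hC : ∀ n, ‖u n‖ ≤ C) :
    ∃ φ : ℕ → ℕ, StrictMono φ ∧ ∃ u', Tendsto (fun n => u (φ n)) atTop (𝓝 u') ∧ IsEig k' μ' u' := by
  obtain ⟨φ, hφ, u', α', hu', -, -⟩ := compactness hk
    (μ := fun n => (μ n : ℂ)) ((Complex.continuous_ofReal.tendsto μ').comp hμ)
    (g := fun _ => 0) (g' := 0) tendsto_const_nhds (u := u) (α := fun n => cf (u n) 0)
    (fun n => by rw [add_zero]; exact (h n).eqn) hC
  exact ⟨φ, hφ, u', hu', IsEig.tendsto (Eventually.of_forall fun n => h (φ n))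
    (hk.comp hφ.tendsto_atTop) (hμ.comp hφ.tendsto_atTop) hu'⟩

theorem IsEig.smul {k u : Y p} {μ : ℝ} (h : IsEig k μ u) (c : ℝ) : IsEig k μ ((c : ℂ) • u) where
  real := by rw [cj_smul, Complex.conj_ofReal, h.real]
  mean := by rw [ser_mul_smul, map_smul, h.mean, smul_zero]
  eqn := by
    conv_lhs => rw [h.eqn]
    rw [map_smul, cf_smul]
    module

theorem IsEig.add {k u v : Y p} {μ : ℝ} (h : IsEig k μ u) (h' : IsEig k μ v) :
    IsEig k μ (u + v) where
  real := by rw [cj_add, h.real, h'.real]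
  mean := by rw [ser_mul_add, map_add, h.mean, h'.mean, add_zero]
  eqn := by
    conv_lhs => rw [h.eqn, h'.eqn]
    rw [map_add, cf_add]
    module

theorem IsEig.neg {k u : Y p} {μ : ℝ} (h : IsEig k μ u) : IsEig k μ (-u) := by
  have := h.smul (-1)
  simpa only [Complex.ofReal_neg, Complex.ofReal_one, neg_smul, one_smul] using this

theorem IsEig.sub {k u v : Y p} {μ : ℝ} (h : IsEig k μ u) (h' : IsEig k μ v) :
    IsEig k μ (u - v) := by
  rw [sub_eq_add_neg]; exact h.add h'.neg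

/-- The first eigenvalue depends continuously on the weight. -/
theorem tendsto_mu1 {k : ℕ → Y p} {k' : Y p} (hkW : ∀ n, IsW (k n)) (hk'W : IsW k')
    (hk : Tendsto k atTop (𝓝 k')) : Tendsto (fun n => mu1 (k n)) atTop (𝓝 (mu1 k')) := by
  obtain ⟨w, hw, hwE⟩ := exists_isEig hk'W
  have hμ' := mu1_pos hk'W
  -- upper bound by the test function `w`
  have hKw : KR k' w = (mu1 k')⁻¹ • w := by
    rw [eq_inv_smul_iff₀ hμ'.ne']
    exact hwE.KR_eq hk'W
  have hBw := (isWeakInner_WB hk'W).pos w hw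
  have hBK : WB k' (KR k' w) w = (mu1 k')⁻¹ * WB k' w w := by
    rw [hKw, map_smul, smul_apply, smul_eq_mul]
  have hBK0 : 0 < WB k' (KR k' w) w := by rw [hBK]; (clear * - hμ' hBw; positivity)
  have hr : Tendsto (fun n => WB (k n) w w / WB (k n) (KR (k n) w) w) atTop (𝓝 (mu1 k')) := by
    have h1 : Tendsto (fun n => WB (k n) w w / WB (k n) (KR (k n) w) w) atTop
        (𝓝 (WB k' w w / WB k' (KR k' w) w)) :=
      (tendsto_WB hk tendsto_const_nhds tendsto_const_nhds).div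
        (tendsto_WB hk (tendsto_KR hk tendsto_const_nhds hk'W.mass_ne) tendsto_const_nhds) hBK0.ne'
    have h2 : WB k' w w / WB k' (KR k' w) w = mu1 k' := by
      rw [hBK]; field_simp
    rwa [h2] at h1
  have hpos : ∀ᶠ n in atTop, 0 < WB (k n) (KR (k n) w) w :=
    (tendsto_WB hk (tendsto_KR hk tendsto_const_nhds hk'W.mass_ne)
      tendsto_const_nhds).eventually (lt_mem_nhds hBK0)
  have hup : ∀ᶠ n in atTop, mu1 (k n) ≤ WB (k n) w w / WB (k n) (KR (k n) w) w := by
    filter_upwards [hpos] with n hn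
    rw [le_div_iff₀ hn]
    exact WB_le (hkW n) w
  refine tendsto_of_subseq_tendsto fun ns hns => ?_
  -- a bounded subsequence
  have hupns := hns.eventually hup
  have hrns := hr.comp hns
  have hbd : ∀ᶠ n in atTop, mu1 (k (ns n)) ∈ Icc (0 : ℝ) (mu1 k' + 1) := by
    have h1 : ∀ᶠ n in atTop, WB (k (ns n)) w w / WB (k (ns n)) (KR (k (ns n)) w) w < mu1 k' + 1 :=
      hrns.eventually (gt_mem_nhds (by linarith only []))
    filter_upwards [hupns, h1] with n h2 h3
    exact ⟨(mu1_pos (hkW _)).le, h2.trans h3.le⟩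
  obtain ⟨N, hN⟩ := eventually_atTop.1 hbd
  obtain ⟨μ', hμI, ψ, hψ, hψt⟩ := (isCompact_Icc (a := (0 : ℝ)) (b := mu1 k' + 1)).tendsto_subseq
    (x := fun n => mu1 (k (ns (n + N)))) fun n => hN _ (by omega)
  set θ : ℕ → ℕ := fun n => ns (ψ n + N) with hθ
  have hθt : Tendsto θ atTop atTop :=
    hns.comp ((tendsto_add_atTop_nat N).comp hψ.tendsto_atTop)
  -- eigenfunctions
  have hex : ∀ n, ∃ u, ‖u‖ = 1 ∧ IsEig (k (θ n)) (mu1 (k (θ n))) u := by
    intro n
    obtain ⟨u, hu, huE⟩ := exists_isEig (hkW (θ n))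
    refine ⟨((‖u‖⁻¹ : ℝ) : ℂ) • u, ?_, huE.smul _⟩
    rw [norm_smul, Complex.norm_real, Real.norm_eq_abs, abs_of_nonneg (by positivity),
      inv_mul_cancel₀ (norm_ne_zero_iff.2 hu)]
  choose u hu1 huE using hex
  obtain ⟨φ, hφ, u', hu', huE'⟩ := IsEig.exists_subseq huE (hk.comp hθt) hψt
    (C := 1) fun n => (hu1 n).le
  have hu'1 : ‖u'‖ = 1 := by
    have := hu'.norm
    simp only [hu1] at this
    exact (tendsto_nhds_unique this tendsto_const_nhds)
  have hu'0 : u' ≠ 0 := by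
    rintro rfl
    rw [norm_zero] at hu'1
    exact zero_ne_one hu'1
  have h1 : mu1 k' ≤ μ' := huE'.mu1_le hk'W hu'0
  have h2 : μ' ≤ mu1 k' := by
    have h3 : Tendsto (fun n => WB (k (θ n)) w w / WB (k (θ n)) (KR (k (θ n)) w) w) atTop
        (𝓝 (mu1 k')) := hr.comp hθt
    exact le_of_tendsto_of_tendsto hψt h3 (hθt.eventually hup)
  have h3 : μ' = mu1 k' := le_antisymm h2 h1
  refine ⟨fun n => ψ n + N, ?_⟩
  rw [← h3]
  exact hψt

/-! ### Fredholm alternative for sources -/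

theorem WB_complex {k : Y p} {a w : Y p} (ha : cj a = a) :
    WB k a w = (I p (k * (a * w))).re := by rw [WB_apply, ha]

/-- Solvability of `v = μ T0 v + n + const` for sources orthogonal to the eigenspace. -/
theorem source_solve {k : Y p} (hk : IsW k) {μ : ℝ} (hμ : μ ≠ 0) {n : Y p} (hn : cj n = n)
    (hort : ∀ w, IsEig k μ w → I p (k * (n * w)) = 0) :
    ∃ v, cj v = v ∧ I p (k * v) = 0 ∧ (∃ α : ℂ, v = (μ : ℂ) • T0 k v + n + α • one1 p) ∧
      ∀ w, IsEig k μ w → I p (k * (v * w)) = 0 := by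
  have hB := isWeakInner_WB hk
  have hμc : (μ : ℂ) ≠ 0 := by exact_mod_cast hμ
  set Λ : ℝ := μ⁻¹ with hΛ
  have hΛ0 : Λ ≠ 0 := inv_ne_zero hμ
  have hcoe : ∀ (c : ℝ) (x : Y p), c • x = (c : ℂ) • x := fun c x => (Complex.coe_smul c x).symm
  -- complex eigenvectors split into real and imaginary parts
  have hsplit : ∀ w, KR k w = Λ • w → ∃ w1 w2, IsEig k μ w1 ∧ IsEig k μ w2 ∧
      w = w1 + Complex.I • w2 := by
    intro w hw
    have hcw : KR k (cj w) = Λ • cj w := by
      have h1 := congrArg cj hw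
      have h2 : cj (KR k w) = KR k (cj w) := cj_KK hk.real w
      rw [← h2, h1, hcoe, hcoe, cj_smul, Complex.conj_ofReal]
    have hC : ∀ (c : ℂ) (x : Y p), KR k (c • x) = c • KR k x := fun c x => (KK k).map_smul c x
    have hμΛ : Λ⁻¹ = μ := inv_inv μ
    refine ⟨(1 / 2 : ℂ) • (w + cj w), (-Complex.I / 2 : ℂ) • (w - cj w), ?_, ?_, ?_⟩
    · have := isEig_of_KR hk hΛ0 (u := (1 / 2 : ℂ) • (w + cj w)) (by
        rw [cj_smul, cj_add, cj_cj, add_comm]
        congr 1
        rw [map_div₀, map_one]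
        congr 1
        exact Complex.conj_ofNat 2) (by rw [hC, map_add, hw, hcw, ← smul_add, smul_comm])
      rwa [hμΛ] at this
    · have := isEig_of_KR hk hΛ0 (u := (-Complex.I / 2 : ℂ) • (w - cj w)) (by
        rw [cj_smul, cj_sub, cj_cj]
        have : conj (-Complex.I / 2 : ℂ) = Complex.I / 2 := by
          rw [map_div₀, map_neg, Complex.conj_I, neg_neg]
          congr 1
          exact Complex.conj_ofNat 2
        rw [this]
        module) (by rw [hC, map_sub, hw, hcw, ← smul_sub, smul_comm])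
      rwa [hμΛ] at this
    · rw [smul_smul]
      have : Complex.I * (-Complex.I / 2) = (1 / 2 : ℂ) := by
        rw [mul_div_assoc', mul_neg, Complex.I_mul_I, neg_neg]
      rw [this]
      module
  set n' : Y p := Λ • PL k n with hn'
  have hn'r : cj n' = n' := by
    rw [hn', hcoe, cj_smul, Complex.conj_ofReal, cj_PL hk.real, hn]
  have hn'ort : ∀ w, KR k w = Λ • w → WB k n' w = 0 := by
    intro w hw
    obtain ⟨w1, w2, h1, h2, rfl⟩ := hsplit w hw
    rw [hn', map_smul, smul_apply, WB_PL hk, WB_complex hn]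
    have e1 : PL k (w1 + Complex.I • w2) = w1 + Complex.I • w2 := by
      refine PL_of_mean ?_
      rw [ser_mul_add, ser_mul_smul, map_add, map_smul, h1.mean, h2.mean, smul_zero, add_zero]
    rw [e1, ser_mul_add, ser_mul_add, ser_mul_smul, ser_mul_smul, map_add, map_smul, hort _ h1,
      hort _ h2]
    simp
  obtain ⟨v, hv, hvo⟩ := hB.fredholm (isCompactOperator_KR k) (KR_symm hk) hΛ0 hn'ort
  -- the real part
  have hcv : Λ • cj v - KR k (cj v) = n' := by
    have h1 := congrArg cj hv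
    have h2 : cj (KR k v) = KR k (cj v) := cj_KK hk.real v
    rw [cj_sub, hcoe, cj_smul, Complex.conj_ofReal, ← hcoe, h2, hn'r] at h1
    exact h1
  set r : Y p := (1 / 2 : ℂ) • (v + cj v) with hr
  have hrr : cj r = r := by
    rw [hr, cj_smul, cj_add, cj_cj, add_comm]
    congr 1
    rw [map_div₀, map_one]
    congr 1
    exact Complex.conj_ofNat 2
  have hre : Λ • r - KR k r = n' := by
    have hC : ∀ (c : ℂ) (x : Y p), KR k (c • x) = c • KR k x := fun c x => (KK k).map_smul c x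
    have h1 : Λ • r - KR k r = (1 / 2 : ℂ) • ((Λ • v - KR k v) + (Λ • cj v - KR k (cj v))) := by
      rw [hr, hC, map_add, smul_comm]
      module
    rw [h1, hv, hcv]
    module
  have hmean : I p (k * r) = 0 := by
    have h1 : I p (k * (Λ • r - KR k r)) = I p (k * n') := by rw [hre]
    have e1 : I p (k * (Λ • r)) = (Λ : ℂ) * I p (k * r) := by
      rw [hcoe, ser_mul_smul, map_smul, smul_eq_mul]
    have e2 : I p (k * KR k r) = 0 := I_PL hk.mass_ne _
    have e3 : I p (k * n') = 0 := by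
      rw [hn', hcoe, ser_mul_smul, map_smul, I_PL hk.mass_ne, smul_zero]
    rw [ser_mul_sub, map_sub, e1, e2, e3, sub_zero] at h1
    rcases mul_eq_zero.1 h1 with h2 | h2
    · exact absurd h2 (by exact_mod_cast hΛ0)
    · exact h2
  refine ⟨r, hrr, hmean, ?_, ?_⟩
  · have h1 : Λ • r - PL k (T0 k r) = Λ • PL k n := by
      have := hre
      rwa [KR_apply, PL_of_mean hmean, hn'] at this
    have h2 : r = μ • PL k (T0 k r) + PL k n := by
      have h3 : μ • (Λ • r - PL k (T0 k r)) = μ • (Λ • PL k n) := by rw [h1]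
      rw [smul_sub, smul_smul, smul_smul, hΛ, mul_inv_cancel₀ hμ, one_smul, one_smul] at h3
      rw [← h3]; abel
    refine ⟨-(μ : ℂ) * (I p (k * T0 k r) / I p k) - I p (k * n) / I p k, ?_⟩
    conv_lhs => rw [h2]
    rw [hcoe, PL_apply, PL_apply]
    module
  · intro w hw
    have hKw : KR k w = Λ • w := by
      have h1 := hw.KR_eq hk
      rw [hΛ]
      conv_rhs => rw [← h1]
      rw [smul_smul, inv_mul_cancel₀ hμ, one_smul]
    have h1 := hvo w hKw
    have h2 : WB k (cj v) w = WB k v w := by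
      rw [WB_apply, WB_apply, cj_cj]
      have : k * (v * w) = cj (k * (cj v * w)) := by
        rw [cj_mul, cj_mul, cj_cj, hk.real, hw.real]
      rw [this, I_cj, Complex.conj_re]
    have h3 : WB k r w = 0 := by
      have h4 : r = (1 / 2 : ℝ) • (v + cj v) := by
        rw [hr, hcoe]; push_cast; rfl
      rw [h4, map_smul, smul_apply, map_add, add_apply, h2, h1]
      simp
    rw [WB_apply, hrr] at h3
    have h5 : cj (k * (r * w)) = k * (r * w) := by
      rw [cj_mul, cj_mul, hk.real, hrr, hw.real]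
    rw [← I_real h5, h3, Complex.ofReal_zero]

/-! ### Bootstrapping -/

theorem T0_incl_succ (k : Y (p + 1)) (u : Y p) {u' : Y (p + 1)} (h : incl (Nat.le_succ p) u' = u) :
    T0 k u' = Sol p (incl (Nat.le_succ p) k * u) := by
  have h1 := Sol_incl (Nat.le_succ p) (k * u')
  rw [incl_mul, h] at h1
  rw [h1]
  rfl

/-- Solutions with smoother weight and source are smoother. -/
theorem bootstrap {k : Y (p + 1)} {u : Y p} {g : Y (p + 1)} {μ α : ℂ}
    (h : u = μ • T0 (incl (Nat.le_succ p) k) u + incl (Nat.le_succ p) g + α • one1 p) :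
    ∃ u' : Y (p + 1), incl (Nat.le_succ p) u' = u ∧ u' = μ • T0 k u' + g + α • one1 (p + 1) := by
  set u' : Y (p + 1) := μ • Sol p (incl (Nat.le_succ p) k * u) + g + α • one1 (p + 1) with hu'
  have h1 : incl (Nat.le_succ p) u' = u := by
    rw [hu', map_add, map_add, map_smul, map_smul]
    conv_rhs => rw [h]
    rw [T0_apply]
    congr 2
    exact incl_e _ _
  refine ⟨u', h1, ?_⟩
  rw [T0_incl_succ k u h1]

theorem incl_injective (h : p ≤ q) {a b : Y q} (hab : incl h a = incl h b) : a = b := by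
  ext i
  have := congrArg (fun x => cf x i) hab
  simpa using this

theorem IsEig.bootstrap {k : Y (p + 1)} {μ : ℝ} {u : Y p} (h : IsEig (incl (Nat.le_succ p) k) μ u) :
    ∃ u' : Y (p + 1), incl (Nat.le_succ p) u' = u ∧ IsEig k μ u' := by
  obtain ⟨u', h1, h2⟩ := Vale.Agent.P071.bootstrap (k := k) (u := u) (g := 0) (μ := (μ : ℂ))
    (α := cf u 0) (by rw [map_zero, add_zero]; exact h.eqn)
  refine ⟨u', h1, ?_, ?_, ?_⟩
  · refine incl_injective (Nat.le_succ p) ?_
    rw [← cj_incl, h1, h.real]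
  · rw [← I_incl (Nat.le_succ p), incl_mul, h1, h.mean]
  · have h3 : cf u' 0 = cf u 0 := by rw [← h1, cf_incl]
    rw [h3]
    rw [add_zero] at h2
    exact h2

theorem IsEig.incl {k u : Y q} {μ : ℝ} (hu : IsEig k μ u) (h : p ≤ q) :
    IsEig (incl h k) μ (Vale.Agent.P071.incl h u) where
  real := by rw [cj_incl, hu.real]
  mean := by rw [← incl_mul, I_incl, hu.mean]
  eqn := by
    have h1 : T0 (Vale.Agent.P071.incl h k) (Vale.Agent.P071.incl h u) =
        Vale.Agent.P071.incl h (T0 k u) := by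
      rw [T0_apply, T0_apply, ← incl_mul, Sol_incl]
      ext i
      simp only [Nat.succ_eq_add_one, cf_incl]
    rw [h1, cf_incl]
    conv_lhs => rw [hu.eqn]
    rw [map_add, map_smul, map_smul]
    congr 2
    exact incl_e _ _

theorem IsEig.lift {k : Y q} {μ : ℝ} (h : p ≤ q) {u : Y p} (hu : IsEig (Vale.Agent.P071.incl h k) μ u) :
    ∃ u' : Y q, Vale.Agent.P071.incl h u' = u ∧ IsEig k μ u' := by
  induction q, h using Nat.le_induction with
  | base =>
    refine ⟨u, by ext i; simp, ?_⟩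
    have : Vale.Agent.P071.incl (le_refl p) k = k := by ext i; simp
    rwa [this] at hu
  | succ q h ih =>
    have e1 : Vale.Agent.P071.incl (h.trans (Nat.le_succ q)) k =
        Vale.Agent.P071.incl h (Vale.Agent.P071.incl (Nat.le_succ q) k) := by ext i; simp
    obtain ⟨u1, h1, h2⟩ := ih (k := Vale.Agent.P071.incl (Nat.le_succ q) k) (by rw [← e1]; exact hu)
    obtain ⟨u2, h3, h4⟩ := h2.bootstrap
    refine ⟨u2, ?_, h4⟩
    rw [← h1, ← h3]
    ext i; simp

end Vale.Agent.P071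
end
end

section

/-!
# The series `1/(b - |z|²)`; high modes
-/

open scoped ComplexConjugate Topology Real
open Metric Filter MeasureTheory Set

noncomputable section

namespace Vale.Agent.P071.B0

variable {p q : ℕ}

attribute [local instance] serRing

/-- `|z|²` -/
def sq (p : ℕ) : Y p := e p (1, 1)

theorem summable_gt_aux (p : ℕ) {t : ℝ} (h0 : 0 ≤ t) (h1 : t < 1) :
    Summable fun j : ℕ => t ^ j * wt p (j, j) := by
  have h2 : Summable fun j : ℕ => (j : ℝ) ^ p * t ^ j :=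
    summable_pow_mul_geometric_of_norm_lt_one p (by rwa [Real.norm_eq_abs, abs_of_nonneg h0])
  refine (summable_nat_add_iff 1).1 ?_
  refine Summable.of_nonneg_of_le (fun j => by have := wt_pos p (j + 1, j + 1); positivity)
    (fun j => ?_) (((summable_nat_add_iff 1).2 h2).mul_left (3 ^ p))
  have h3 : wt p (j + 1, j + 1) ≤ 3 ^ p * (((j + 1 : ℕ) : ℝ)) ^ p := by
    rw [← mul_pow]
    unfold wt
    gcongr
    simp only
    push_cast
    have : (0 : ℝ) ≤ j := Nat.cast_nonneg _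
    linarith only []
  calc t ^ (j + 1) * wt p (j + 1, j + 1) ≤ t ^ (j + 1) * (3 ^ p * (((j + 1 : ℕ) : ℝ)) ^ p) := by
        (clear * - h3 h0; gcongr)
    _ = _ := by ring

theorem norm_gt_term (p : ℕ) {t : ℝ} (h0 : 0 ≤ t) (j : ℕ) :
    ‖((t ^ j : ℝ) : ℂ) • e p (j, j)‖ = t ^ j * wt p (j, j) := by
  rw [norm_smul, norm_e, Complex.norm_real, Real.norm_eq_abs, abs_of_nonneg (by positivity)]

theorem summable_gt (p : ℕ) {t : ℝ} (h0 : 0 ≤ t) (h1 : t < 1) :
    Summable fun j : ℕ => ((t ^ j : ℝ) : ℂ) • e p (j, j) := by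
  refine Summable.of_norm ?_
  simpa only [norm_gt_term p h0] using summable_gt_aux p h0 h1

/-- The series of `1/(1 - t|z|²)`. -/
def gt (p : ℕ) (t : ℝ) : Y p := ∑' j : ℕ, ((t ^ j : ℝ) : ℂ) • e p (j, j)

theorem gt_zero : gt p 0 = one1 p := by
  unfold gt
  rw [tsum_eq_single 0]
  · rw [pow_zero, Complex.ofReal_one, one_smul]
    rfl
  · intro j hj
    rw [zero_pow hj]
    simp

theorem gt_mul {t : ℝ} (h0 : 0 ≤ t) (h1 : t < 1) : gt p t * (one1 p - (t : ℂ) • sq p) = one1 p := by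
  have hs := summable_gt p h0 h1
  have h1 : HasSum (fun j : ℕ => ((t ^ j : ℝ) : ℂ) • e p (j, j)) (gt p t) := hs.hasSum
  have h2 := h1.mapL ((mulL p).flip (one1 p - (t : ℂ) • sq p))
  have h3 : ∀ j : ℕ, (mulL p).flip (one1 p - (t : ℂ) • sq p)
      (((t ^ j : ℝ) : ℂ) • e p (j, j)) =
      ((t ^ j : ℝ) : ℂ) • e p (j, j) - ((t ^ (j + 1) : ℝ) : ℂ) • e p (j + 1, j + 1) := by
    intro j
    show (((t ^ j : ℝ) : ℂ) • e p (j, j)) * (one1 p - (t : ℂ) • sq p) = _
    rw [ser_mul_sub, ser_mul_smul, mul_one1, ser_smul_mul, sq, e_mul_e, smul_smul]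
    congr 2
    rw [← Complex.ofReal_mul]
    congr 1
    ring
  simp only [h3] at h2
  have h6 : HasSum (fun j : ℕ => ((t ^ (j + 1) : ℝ) : ℂ) • e p (j + 1, j + 1))
      (gt p t - one1 p) := by
    have h7 := (hasSum_nat_add_iff' (f := fun j : ℕ => ((t ^ j : ℝ) : ℂ) • e p (j, j)) 1).2 h1
    rw [show one1 p = e p (0, 0) from rfl]
    simpa using h7
  have h7 := h1.sub h6
  rw [sub_sub_cancel] at h7
  exact h2.unique h7

theorem ev_sq (z : ℂ) : ev (sq p) z = ((‖z‖ ^ 2 : ℝ) : ℂ) := by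
  rw [sq, ev_e, mon]
  simp only [pow_one]
  rw [Complex.mul_conj, Complex.normSq_eq_norm_sq]

theorem ev_gt {t : ℝ} (h0 : 0 ≤ t) (h1 : t < 1) {z : ℂ} (hz : ‖z‖ ≤ 1) :
    ev (gt p t) z = ((1 / (1 - t * ‖z‖ ^ 2) : ℝ) : ℂ) := by
  have h := congrArg (fun a => ev a z) (gt_mul (p := p) h0 h1)
  simp only [ev_mul _ _ hz, ev_sub _ _ hz, ev_smul, ev_one1, ev_sq] at h
  have h3 : (1 : ℂ) - (t : ℂ) * ((‖z‖ ^ 2 : ℝ) : ℂ) = ((1 - t * ‖z‖ ^ 2 : ℝ) : ℂ) := by
    push_cast; rfl
  rw [h3] at h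
  have h2 : 0 < 1 - t * ‖z‖ ^ 2 := by
    have := pow_le_one₀ (n := 2) (norm_nonneg z) hz
    nlinarith only [h1, h0, this]
  have h3 : ((1 - t * ‖z‖ ^ 2 : ℝ) : ℂ) ≠ 0 := Complex.ofReal_ne_zero.2 h2.ne'
  rw [eq_comm, Complex.ofReal_div, Complex.ofReal_one, div_eq_iff h3]
  exact h.symm

theorem cf_gt {t : ℝ} (h0 : 0 ≤ t) (h1 : t < 1) (i : Ix) :
    cf (gt p t) i = if i.1 = i.2 then ((t ^ i.1 : ℝ) : ℂ) else 0 := by
  have h1 := (summable_gt p h0 h1).hasSum.mapL (cfL p i)
  have h2 : cf (gt p t) i = ∑' j : ℕ, cfL p i (((t ^ j : ℝ) : ℂ) • e p (j, j)) := by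
    rw [h1.tsum_eq, cfL_apply]
    rfl
  rw [h2, tsum_eq_single i.1]
  · rw [map_smul, cfL_apply, cf_e]
    by_cases h : i.1 = i.2
    · have h' : i = (i.1, i.1) := Prod.ext rfl h.symm
      rw [if_pos h, if_pos h', smul_eq_mul, mul_one]
    · rw [if_neg h, if_neg, smul_zero]
      intro h3
      exact h (congrArg Prod.snd h3).symm
  · intro j hj
    rw [map_smul, cfL_apply, cf_e, if_neg, smul_zero]
    intro h3
    exact hj (congrArg Prod.fst h3).symm

theorem isRad_gt {t : ℝ} (h0 : 0 ≤ t) (h1 : t < 1) : IsRad (gt p t) :=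
  isRad_of_cf fun i hi => by rw [cf_gt h0 h1, if_neg hi]

theorem cj_gt {t : ℝ} (h0 : 0 ≤ t) (h1 : t < 1) : cj (gt p t) = gt p t := by
  ext i
  rw [cf_cj, cf_gt h0 h1, cf_gt h0 h1]
  simp only [Prod.fst_swap, Prod.snd_swap]
  by_cases h : i.1 = i.2
  · rw [if_pos h, if_pos h.symm, Complex.conj_ofReal, h]
  · rw [if_neg h, if_neg (Ne.symm h), map_zero]

theorem incl_gt {t : ℝ} (h0 : 0 ≤ t) (h1 : t < 1) (h : p ≤ q) : incl h (gt q t) = gt p t := by
  ext i
  rw [cf_incl, cf_gt h0 h1, cf_gt h0 h1]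

@[simp] theorem incl_sq (h : p ≤ q) : incl h (sq q) = sq p := by simp [sq]

theorem dz_gt {t : ℝ} (h0 : 0 ≤ t) (h1 : t < 1) :
    dz p (gt (p + 1) t) = (t : ℂ) • (gt p t * gt p t * e p (0, 1)) := by
  have h2 := congrArg (dz p) (gt_mul (p := p + 1) h0 h1)
  rw [dz_mul, incl_gt h0 h1, dz_one1, map_sub, map_sub, dz_one1, map_smul, map_smul, incl_sq] at h2
  have e1 : dz p (sq (p + 1)) = e p (0, 1) := by simp only [sq, dz_e, Nat.cast_one, tsub_self, one_smul]
  have e2 : incl (Nat.le_succ p) (one1 (p + 1)) = one1 p := incl_e _ _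
  rw [e1, e2, zero_sub] at h2
  have h3 := gt_mul (p := p) h0 h1
  have h4 : dz p (gt (p + 1) t) * (one1 p - (t : ℂ) • sq p) = (t : ℂ) • (gt p t * e p (0, 1)) := by
    have h5 : dz p (gt (p + 1) t) * (one1 p - (t : ℂ) • sq p) =
        gt p t * ((t : ℂ) • e p (0, 1)) := by
      have h6 : gt p t * -((t : ℂ) • e p (0, 1)) = -(gt p t * ((t : ℂ) • e p (0, 1))) := by ring
      rw [h6, ← sub_eq_add_neg, sub_eq_zero] at h2
      exact h2
    rw [h5, ser_mul_smul]
  calc dz p (gt (p + 1) t) = dz p (gt (p + 1) t) * (gt p t * (one1 p - (t : ℂ) • sq p)) := by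
        rw [h3, mul_one1]
    _ = (dz p (gt (p + 1) t) * (one1 p - (t : ℂ) • sq p)) * gt p t := by ring
    _ = _ := by
        rw [h4, ser_smul_mul]
        congr 1
        ring

theorem continuousOn_gt (p : ℕ) {b : ℝ} (hb : b < 1) : ContinuousOn (gt p) (Icc 0 b) := by
  unfold gt
  rcases lt_or_ge b 0 with h | h
  · rw [Icc_eq_empty (not_le.2 h)]
    exact continuousOn_empty _
  · refine continuousOn_tsum (fun j => ?_) (summable_gt_aux p h hb) fun j t ht => ?_
    · have : Continuous fun t : ℝ => ((t ^ j : ℝ) : ℂ) := by fun_prop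
      exact (this.smul continuous_const).continuousOn
    · rw [norm_gt_term p ht.1]
      have := (wt_pos p (j, j)).le
      gcongr
      · exact ht.1
      · exact ht.2

/-- The series `1/(b - |z|²)`. -/
def geo (p : ℕ) (b : ℝ) : Y p := ((b⁻¹ : ℝ) : ℂ) • gt p b⁻¹

theorem geo_mul {b : ℝ} (hb : 1 < b) : geo p b * ((b : ℂ) • one1 p - sq p) = one1 p := by
  have h := gt_mul (p := p) (t := b⁻¹) (by positivity) (inv_lt_one_of_one_lt₀ hb)
  have hb0 : (b : ℂ) ≠ 0 := by
    have : b ≠ 0 := by positivity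
    exact_mod_cast this
  have h2 : (b : ℂ) • one1 p - sq p = (b : ℂ) • (one1 p - ((b⁻¹ : ℝ) : ℂ) • sq p) := by
    rw [smul_sub, smul_smul]
    push_cast
    rw [mul_inv_cancel₀ hb0, one_smul]
  rw [geo, h2, ser_smul_mul, ser_mul_smul, h, smul_smul]
  push_cast
  rw [inv_mul_cancel₀ hb0, one_smul]

theorem ev_geo {b : ℝ} (hb : 1 < b) {z : ℂ} (hz : ‖z‖ ≤ 1) :
    ev (geo p b) z = ((1 / (b - ‖z‖ ^ 2) : ℝ) : ℂ) := by
  rw [geo, ev_smul, ev_gt (by positivity) (inv_lt_one_of_one_lt₀ hb) hz, ← Complex.ofReal_mul]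
  congr 1
  have h1 : ‖z‖ ^ 2 ≤ 1 := pow_le_one₀ (norm_nonneg z) hz
  have h2 : 0 < b - ‖z‖ ^ 2 := by linarith
  have h3 : 0 < b := by linarith only [hb]
  have h4 : 1 - b⁻¹ * ‖z‖ ^ 2 = (b - ‖z‖ ^ 2) / b := by field_simp
  rw [h4]
  field_simp

theorem isRad_geo {b : ℝ} (hb : 1 < b) : IsRad (geo p b) := by
  unfold IsRad geo
  rw [map_smul, isRad_gt (by positivity) (inv_lt_one_of_one_lt₀ hb)]

theorem cj_geo {b : ℝ} (hb : 1 < b) : cj (geo p b) = geo p b := by
  rw [geo, cj_smul, cj_gt (by positivity) (inv_lt_one_of_one_lt₀ hb), Complex.conj_ofReal]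

theorem incl_geo {b : ℝ} (hb : 1 < b) (h : p ≤ q) : incl h (geo q b) = geo p b := by
  rw [geo, geo, map_smul, incl_gt (by positivity) (inv_lt_one_of_one_lt₀ hb)]

/-! ### High modes -/

theorem norm_ord_le (i : Ix) : |(ord i : ℝ)| ≤ (i.1 : ℝ) + i.2 := by
  have h1 : (0 : ℝ) ≤ i.1 := Nat.cast_nonneg _
  have h2 : (0 : ℝ) ≤ i.2 := Nat.cast_nonneg _
  simp only [ord]
  push_cast
  rw [abs_le]
  constructor <;> linarith only []

/-- The multiplier `√(k² - 4)`. -/
def Sm (p : ℕ) : Y (p + 1) →L[ℂ] Y p :=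
  lift (fun i => ((Real.sqrt ((ord i : ℝ) ^ 2 - 4) : ℝ) : ℂ) • e p i) 1 zero_le_one fun i =>
    aux_bound i (by
      rw [Complex.norm_real, Real.norm_eq_abs, abs_of_nonneg (Real.sqrt_nonneg _)]
      refine le_trans ?_ (norm_ord_le i)
      rw [← Real.sqrt_sq_eq_abs]
      exact Real.sqrt_le_sqrt (by linarith))

@[simp] theorem Sm_e (i : Ix) :
    Sm p (e (p + 1) i) = ((Real.sqrt ((ord i : ℝ) ^ 2 - 4) : ℝ) : ℂ) • e p i := lift_e _ _ _ _ _

theorem cj_Sm (a : Y (p + 1)) : cj (Sm p a) = Sm p (cj a) := by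
  have : (cjL p).comp (Sm p) = (Sm p).comp (cjL (p + 1)) := Y.clm_ext_conj fun i => by
    show cj (Sm p (e (p + 1) i)) = Sm p (cj (e (p + 1) i))
    rw [Sm_e, cj_e, Sm_e, cj_smul, cj_e, ord_swap, Complex.conj_ofReal]
    simp only [Complex.coe_smul, Int.cast_neg, even_two, Even.neg_pow]
  exact congrArg (fun T : Y (p + 1) →L⋆[ℂ] Y p => T a) this

/-- Modes of order at least two. -/
abbrev hi : ℤ → Prop := fun k => 2 ≤ |k|

theorem I_Ang (a b : Y (p + 1)) :
    I p (Ang p (Pr (p + 1) hi a) * Ang p b) =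
      4 * I p (incl (Nat.le_succ p) (Pr (p + 1) hi a) * incl (Nat.le_succ p) b) +
        I p (Sm p (Pr (p + 1) hi a) * Sm p b) := by
  have : (ContinuousLinearMap.compL ℂ (Y (p + 1)) (Y p) ℂ (I p)) ∘L
        ((mulL p).bilinearComp (Ang p ∘L Pr (p + 1) hi) (Ang p)) =
      (4 : ℂ) • ((ContinuousLinearMap.compL ℂ (Y (p + 1)) (Y p) ℂ (I p)) ∘L
        ((mulL p).bilinearComp (incl (Nat.le_succ p) ∘L Pr (p + 1) hi) (incl (Nat.le_succ p)))) +
      (ContinuousLinearMap.compL ℂ (Y (p + 1)) (Y p) ℂ (I p)) ∘L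
        ((mulL p).bilinearComp (Sm p ∘L Pr (p + 1) hi) (Sm p)) :=
    Y.clm_ext₂ fun i j => by
      show I p (Ang p (Pr (p + 1) hi (e (p + 1) i)) * Ang p (e (p + 1) j)) =
        4 * I p (incl (Nat.le_succ p) (Pr (p + 1) hi (e (p + 1) i)) *
          incl (Nat.le_succ p) (e (p + 1) j)) +
        I p (Sm p (Pr (p + 1) hi (e (p + 1) i)) * Sm p (e (p + 1) j))
      rw [Pr_e]
      by_cases h : hi (ord i)
      · rw [if_pos h, Ang_e, Ang_e, incl_e, incl_e, Sm_e, Sm_e]
        simp only [ser_smul_mul, ser_mul_smul, e_mul_e, smul_smul, map_smul, smul_eq_mul]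
        by_cases h0 : ord i + ord j = 0
        · have hj : ord j = -ord i := by omega
          have h4 : (4 : ℝ) ≤ (ord i : ℝ) ^ 2 := by
            have h1 : (2 : ℝ) ≤ |(ord i : ℝ)| := by exact_mod_cast h
            nlinarith only [h1, sq_abs (ord i : ℝ)]
          have e1 : ((Real.sqrt ((ord j : ℝ) ^ 2 - 4) : ℝ) : ℂ) *
              ((Real.sqrt ((ord i : ℝ) ^ 2 - 4) : ℝ) : ℂ) = (ord i : ℂ) ^ 2 - 4 := by
            rw [hj]
            push_cast
            rw [← Complex.ofReal_mul]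
            have : ((-(ord i : ℝ)) ^ 2 - 4) = (ord i : ℝ) ^ 2 - 4 := by ring
            rw [this, Real.mul_self_sqrt (by linarith only [h4])]
            push_cast
            rfl
          have e2 : ((i.1 : ℂ) - i.2) = (ord i : ℂ) := by simp only [ord, Int.cast_sub, Int.cast_natCast]
          have e3 : ((j.1 : ℂ) - j.2) = (ord j : ℂ) := by simp only [ord, Int.cast_sub, Int.cast_natCast]
          rw [e1, e2, e3, hj]
          push_cast
          linear_combination (I p (e p (i + j))) * (-(ord i : ℂ) ^ 2) * Complex.I_sq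
        · have h2 : ¬ (i.1 + j.1 = i.2 + j.2) := by
            rw [← ord_add, ord_eq_zero] at h0
            exact h0
          have h3 : I p (e p (i + j)) = 0 := by rw [I_e, if_neg]; exact h2
          rw [h3]
          ring
      · rw [if_neg h]
        simp
  exact congrArg (fun T : Y (p + 1) →L[ℂ] Y (p + 1) →L[ℂ] ℂ => T a b) this

theorem Ang_le_Dir {a : Y (p + 1)} (ha : cj a = a) :
    (I p (Ang p a * Ang p a)).re ≤ (Dir p a a).re := by
  unfold Dir
  refine I_re_mono fun z hz => ?_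
  rw [ev_mul _ _ hz.le, ev_add _ _ hz.le, ev_mul _ _ hz.le, ev_mul _ _ hz.le, ev_Ang_real a hz.le,
    ev_eq_re (by rw [cj_dx, ha] : cj (dx p a) = dx p a),
    ev_eq_re (by rw [cj_dy, ha] : cj (dy p a) = dy p a)]
  set X := (ev (dx p a) z).re
  set W := (ev (dy p a) z).re
  have h1 : z.re ^ 2 + z.im ^ 2 ≤ 1 := by
    have h2 := Complex.sq_norm z
    rw [Complex.normSq_apply] at h2
    nlinarith [norm_nonneg z]
  have h3 : (((z.re : ℂ) * (W : ℂ) - z.im * X) * (z.re * W - z.im * X)).re =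
      (z.re * W - z.im * X) ^ 2 := by
    rw [← Complex.ofReal_mul, ← Complex.ofReal_mul, ← Complex.ofReal_sub, ← Complex.ofReal_mul,
      Complex.ofReal_re]
    ring
  have h4 : ((X : ℂ) * X + W * W).re = X ^ 2 + W ^ 2 := by
    rw [← Complex.ofReal_mul, ← Complex.ofReal_mul, ← Complex.ofReal_add, Complex.ofReal_re]
    ring
  rw [h3, h4]
  nlinarith only [h1, sq_nonneg (z.re * X + z.im * W)]

/-- Modes of order at least two: `∫|∇a|² ≥ 4 ∫ a²`. -/
theorem hi_mode {a : Y (p + 1)} (ha : cj a = a) (h : Pr (p + 1) hi a = a) :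
    4 * (I (p + 1) (a * a)).re ≤ (Dir p a a).re := by
  refine le_trans ?_ (Ang_le_Dir ha)
  have h1 := I_Ang a a
  rw [h] at h1
  rw [h1, ← incl_mul, I_incl, Complex.add_re]
  have h2 : 0 ≤ (I p (Sm p a * Sm p a)).re := I_re_nonneg fun z hz => by
    rw [ev_mul _ _ hz.le, ev_eq_re (by rw [cj_Sm, ha] : cj (Sm p a) = Sm p a),
      ← Complex.ofReal_mul, Complex.ofReal_re]
    exact mul_self_nonneg _
  have h3 : (4 * I (p + 1) (a * a)).re = 4 * (I (p + 1) (a * a)).re := by
    simp only [Complex.mul_re, Complex.re_ofNat, Complex.im_ofNat, zero_mul, sub_zero]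
  rw [h3]
  linarith only [h2]

end Vale.Agent.P071.B0
end
end

section

/-!
# The base weight `8/(3 - |z|²)`
-/

open scoped ComplexConjugate Topology Real
open Metric Filter MeasureTheory Set

noncomputable section

namespace Vale.Agent.P071.B0

variable {p q : ℕ}

attribute [local instance] serRing

/-! ### Picone's identity -/

theorem picone (F F' a b : Y (p + 1)) :
    Dir p (F * a) (F' * b) = Dir p (F' * a * b) F +
      I p (incl (Nat.le_succ p) F * incl (Nat.le_succ p) F' * (dx p a * dx p b + dy p a * dy p b)) +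
      I p (incl (Nat.le_succ p) b *
        (dx p a * (incl (Nat.le_succ p) F * dx p F' - incl (Nat.le_succ p) F' * dx p F) +
          dy p a * (incl (Nat.le_succ p) F * dy p F' - incl (Nat.le_succ p) F' * dy p F))) := by
  unfold Dir
  rw [← map_add, ← map_add]
  congr 1
  simp only [dx_mul, dy_mul, incl_mul]
  ring

/-- Picone's identity for one function. -/
theorem picone_real (G K : Y (p + 1)) :
    Dir p (G * K) (G * K) = Dir p (G * K * K) G +
      I p (incl (Nat.le_succ p) G * incl (Nat.le_succ p) G *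
        (dx p K * dx p K + dy p K * dy p K)) := by
  rw [picone]
  have : incl (Nat.le_succ p) K *
        (dx p K * (incl (Nat.le_succ p) G * dx p G - incl (Nat.le_succ p) G * dx p G) +
          dy p K * (incl (Nat.le_succ p) G * dy p G - incl (Nat.le_succ p) G * dy p G)) = 0 := by
    ring
  rw [this, map_zero, add_zero]

/-! ### The divided difference at `|z|² = 1/2` -/

/-- Divided differences of the powers of `s` at `s = 1/2`. -/
def tv (p : ℕ) : ℕ → Y p
  | 0 => 0
  | j + 1 => ((1 / 2 : ℝ) : ℂ) • tv p j + e p (j, j)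

theorem norm_tv_le (j : ℕ) : ‖tv p j‖ ≤ 2 * wt p (j, j) := by
  induction j with
  | zero =>
    rw [tv, norm_zero]
    have := wt_pos p (0, 0)
    positivity
  | succ j ih =>
    rw [tv]
    refine (norm_add_le _ _).trans ?_
    rw [norm_smul, norm_e, Complex.norm_real, Real.norm_eq_abs, abs_of_pos (by (clear * -; norm_num))]
    have : wt p (j, j) ≤ wt p (j + 1, j + 1) := by
      unfold wt
      gcongr <;> simp only [le_add_iff_nonneg_right, zero_le]
    linarith only [ih, this]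

theorem mul_tv (j : ℕ) : (sq p - ((1 / 2 : ℝ) : ℂ) • one1 p) * tv p j =
    e p (j, j) - (((1 / 2 : ℝ) ^ j : ℝ) : ℂ) • one1 p := by
  induction j with
  | zero =>
    rw [tv, ser_mul_zero, pow_zero, Complex.ofReal_one, one_smul]
    exact (sub_self _).symm
  | succ j ih =>
    rw [tv, ser_mul_add, ser_mul_smul, ih, ser_sub_mul, ser_smul_mul, one1_mul, sq, e_mul_e,
      smul_sub, smul_smul, ← Complex.ofReal_mul]
    have h1 : ((1, 1) : Ix) + (j, j) = (j + 1, j + 1) := Prod.ext (add_comm _ _) (add_comm _ _)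
    rw [h1, pow_succ, mul_comm ((1 / 2 : ℝ)) ((1 / 2 : ℝ) ^ j)]
    abel

theorem cj_tv (j : ℕ) : cj (tv p j) = tv p j := by
  induction j with
  | zero => simp [tv]
  | succ j ih =>
    rw [tv, cj_add, cj_smul, ih, Complex.conj_ofReal, cj_e]
    rfl

/-- The divided difference at `|z|² = 1/2`. -/
def Td (p : ℕ) : Y p →L[ℂ] Y p :=
  lift (fun i => if i.1 = i.2 then tv p i.1 else 0) 2 (by norm_num) fun i => by
    split_ifs with h
    · have h2 : i = (i.1, i.1) := Prod.ext rfl h.symm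
      conv_rhs => rw [h2]
      exact norm_tv_le i.1
    · rw [norm_zero]
      have := wt_pos p i
      positivity

/-- The value at `|z|² = 1/2`. -/
def hv (p : ℕ) : Y p →L[ℂ] ℂ :=
  lift (fun i => if i.1 = i.2 then (((1 / 2 : ℝ) ^ i.1 : ℝ) : ℂ) else 0) 1 zero_le_one fun i => by
    rw [one_mul]
    refine le_trans ?_ (one_le_wt p i)
    split_ifs
    · rw [Complex.norm_real, Real.norm_eq_abs, abs_of_pos (by positivity)]
      exact pow_le_one₀ (by norm_num) (by norm_num)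
    · simp

@[simp] theorem Td_e (i : Ix) : Td p (e p i) = if i.1 = i.2 then tv p i.1 else 0 :=
  lift_e _ _ _ _ _

@[simp] theorem hv_e (i : Ix) :
    hv p (e p i) = if i.1 = i.2 then (((1 / 2 : ℝ) ^ i.1 : ℝ) : ℂ) else 0 := lift_e _ _ _ _ _

theorem mul_Td (a : Y p) : (sq p - ((1 / 2 : ℝ) : ℂ) • one1 p) * Td p a =
    Pr p (fun k => k = 0) a - hv p a • one1 p := by
  have : (mulL p (sq p - ((1 / 2 : ℝ) : ℂ) • one1 p)).comp (Td p) =
      Pr p (fun k => k = 0) - (hv p).smulRight (one1 p) := Y.clm_ext fun i => by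
    show (sq p - ((1 / 2 : ℝ) : ℂ) • one1 p) * Td p (e p i) =
      Pr p (fun k => k = 0) (e p i) - hv p (e p i) • one1 p
    rw [Td_e, Pr_e, hv_e]
    by_cases h : i.1 = i.2
    · rw [if_pos h, if_pos h, if_pos (ord_eq_zero.2 h), mul_tv]
      have h2 : i = (i.1, i.1) := Prod.ext rfl h.symm
      rw [← h2]
    · rw [if_neg h, if_neg h, if_neg (fun h3 => h (ord_eq_zero.1 h3)), ser_mul_zero, zero_smul,
        sub_zero]
  exact congrArg (fun T : Y p →L[ℂ] Y p => T a) this

theorem cj_Td (a : Y p) : cj (Td p a) = Td p (cj a) := by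
  have : (cjL p).comp (Td p) = (Td p).comp (cjL p) := Y.clm_ext_conj fun i => by
    show cj (Td p (e p i)) = Td p (cj (e p i))
    rw [Td_e, cj_e, Td_e]
    simp only [Prod.fst_swap, Prod.snd_swap]
    by_cases h : i.1 = i.2
    · rw [if_pos h, if_pos h.symm, cj_tv, h]
    · rw [if_neg h, if_neg (Ne.symm h), cj_zero]
  exact congrArg (fun T : Y p →L⋆[ℂ] Y p => T a) this

theorem hv_cj (a : Y p) : hv p (cj a) = conj (hv p a) := by
  have h1 := (hasSum_cf a).mapL (hv p)
  have h2 := (hasSum_cf (cj a)).mapL (hv p)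
  simp only [map_smul, hv_e, smul_eq_mul] at h1 h2
  have h3 := h1.map (starRingEnd ℂ) Complex.continuous_conj
  have hm : ∀ i : Ix, (if i.swap.1 = i.swap.2 then (((1 / 2 : ℝ) ^ i.swap.1 : ℝ) : ℂ) else 0) =
      conj (if i.1 = i.2 then (((1 / 2 : ℝ) ^ i.1 : ℝ) : ℂ) else 0) := fun i => by
    rcases i with ⟨m, n⟩
    simp only [Prod.swap_prod_mk]
    by_cases h : m = n
    · subst h
      simp only [if_true, Complex.conj_ofReal]
    · rw [if_neg h, if_neg (Ne.symm h), map_zero]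
  have h4 : HasSum (fun i : Ix => cf (cj a) i *
      (if i.1 = i.2 then (((1 / 2 : ℝ) ^ i.1 : ℝ) : ℂ) else 0)) (conj (hv p a)) := by
    rw [← (Equiv.prodComm ℕ ℕ).hasSum_iff]
    refine h3.congr_fun fun i => ?_
    show cf (cj a) i.swap * (if i.swap.1 = i.swap.2 then (((1 / 2 : ℝ) ^ i.swap.1 : ℝ) : ℂ) else 0) =
      conj (cf a i * (if i.1 = i.2 then (((1 / 2 : ℝ) ^ i.1 : ℝ) : ℂ) else 0))
    rw [cf_cj, Prod.swap_swap, map_mul, hm]
  exact h2.unique h4

/-! ### The base weight -/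

/-- The base weight `8/(3 - |z|²)`. -/
def kz (p : ℕ) : Y p := (8 : ℂ) • geo p 3

theorem cj_kz : cj (kz p) = kz p := by
  rw [kz, cj_smul, cj_geo (by norm_num), Complex.conj_ofNat]

theorem incl_kz (h : p ≤ q) : incl h (kz q) = kz p := by
  rw [kz, kz, map_smul, incl_geo (by norm_num)]

theorem isRad_kz : IsRad (kz p) := by
  unfold IsRad kz
  rw [map_smul, isRad_geo (by norm_num)]

theorem ev_kz {z : ℂ} (hz : ‖z‖ ≤ 1) : ev (kz p) z = ((8 / (3 - ‖z‖ ^ 2) : ℝ) : ℂ) := by
  rw [kz, ev_smul, ev_geo (by norm_num) hz]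
  push_cast
  ring

theorem kz_bd {z : ℂ} (hz : ‖z‖ ≤ 1) : 0 < 8 / (3 - ‖z‖ ^ 2) ∧ 8 / (3 - ‖z‖ ^ 2) ≤ 4 := by
  have h1 : ‖z‖ ^ 2 ≤ 1 := pow_le_one₀ (norm_nonneg z) hz
  constructor
  · apply div_pos (by norm_num); linarith only [h1]
  · rw [div_le_iff₀ (by linarith)]; linarith only [h1]

/-! ### The radial mode -/

/-- The comparison function `(s - 1/2)(3/2 - s)`. -/
def Gz (p : ℕ) : Y p := (sq p - ((1 / 2 : ℝ) : ℂ) • one1 p) * (((3 / 2 : ℝ) : ℂ) • one1 p - sq p)

theorem Gz_eq : Gz p = (2 : ℂ) • e p (1, 1) - e p (2, 2) - ((3 / 4 : ℝ) : ℂ) • e p (0, 0) := by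
  unfold Gz
  rw [ser_sub_mul, ser_mul_sub, ser_mul_sub, ser_mul_smul, ser_smul_mul, ser_smul_mul, mul_one1,
    one1_mul, one1_mul, sq, e_mul_e]
  have : ((1, 1) : Ix) + (1, 1) = (2, 2) := rfl
  rw [this, show one1 p = e p (0, 0) from rfl]
  push_cast
  module

theorem lap_Gz : lap p (Gz (p + 1 + 1)) = -((16 : ℂ) • (sq p - ((1 / 2 : ℝ) : ℂ) • one1 p)) := by
  rw [Gz_eq, lap_apply]
  simp only [map_sub, map_smul, dzb_e, dz_e, smul_smul]
  rw [show one1 p = e p (0, 0) from rfl, sq]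
  simp only [Nat.cast_one, mul_one, tsub_self, Nat.cast_ofNat, Nat.add_one_sub_one, Complex.ofReal_div, Complex.ofReal_ofNat, CharP.cast_eq_zero, mul_zero, zero_tsub, zero_smul, sub_zero, one_div, Complex.ofReal_inv]
  module

theorem ev_Gz {z : ℂ} (hz : ‖z‖ ≤ 1) :
    ev (Gz p) z = (((‖z‖ ^ 2 - 1 / 2) * (3 / 2 - ‖z‖ ^ 2) : ℝ) : ℂ) := by
  unfold Gz
  rw [ev_mul _ _ hz, ev_sub _ _ hz, ev_sub _ _ hz, ev_sq, ev_smul, ev_smul, ev_one1]
  push_cast
  ring

theorem Rad_Gz {z : ℂ} (hz : ‖z‖ = 1) : ev (Rad p (Gz (p + 1))) z = 0 := by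
  rw [Gz_eq]
  simp only [map_sub, map_smul, Rad_e]
  rw [ev_sub _ _ hz.le, ev_sub _ _ hz.le]
  simp only [ev_smul, ev_e, mon]
  have h : z * conj z = 1 := by
    rw [Complex.mul_conj, Complex.normSq_eq_norm_sq, hz]; simp
  simp only [Nat.cast_one, pow_one, Nat.cast_ofNat, Complex.ofReal_div, Complex.ofReal_ofNat, CharP.cast_eq_zero, add_zero, pow_zero, mul_one, mul_zero, sub_zero]
  linear_combination (-4 * (z * conj z)) * h

/-- The radial mode: `∫|∇g|² ≥ 4∫k₀(g-c)²`. -/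
theorem zero_mode {g : Y (p + 1 + 1)} (hg : cj g = g) (hr : IsRad g) :
    ∃ c : ℝ, 4 * (I (p + 1) (kz (p + 1) * incl (Nat.le_succ _) ((g - (c : ℂ) • one1 _) *
      (g - (c : ℂ) • one1 _)))).re ≤ (Dir (p + 1) g g).re := by
  set c : ℝ := (hv _ g).re with hc
  have hc' : hv _ g = (c : ℂ) := by
    apply Complex.ext
    · simp [hc]
    · have h1 := hv_cj g
      rw [hg] at h1
      simpa only [Complex.ofReal_im] using Complex.conj_eq_iff_im.1 h1.symm
  refine ⟨c, ?_⟩
  set K : Y (p + 1 + 1) := geo _ (3 / 2) * Td _ g with hK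
  have hKr : cj K = K := by rw [hK, cj_mul, cj_geo (by norm_num), cj_Td, hg]
  have hGK : Gz _ * K = g - (c : ℂ) • one1 _ := by
    have h1 := mul_Td g
    rw [show Pr _ (fun k => k = 0) g = g from hr, hc'] at h1
    rw [← h1, Gz, hK]
    have h2 := geo_mul (p := p + 1 + 1) (b := 3 / 2) (by norm_num)
    calc _ = (sq _ - ((1 / 2 : ℝ) : ℂ) • one1 _) *
          (geo (p + 1 + 1) (3 / 2) * (((3 / 2 : ℝ) : ℂ) • one1 _ - sq _)) * Td _ g := by ring
      _ = _ := by rw [h2, mul_one1]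
  have hD : Dir (p + 1) g g = Dir (p + 1) (Gz _ * K) (Gz _ * K) := by
    rw [hGK]
    have e1 : dx (p + 1) (one1 (p + 1 + 1)) = 0 := by rw [dx_apply, dz_one1, dzb_one1, add_zero]
    have e2 : dy (p + 1) (one1 (p + 1 + 1)) = 0 := by
      rw [dy_apply, dz_one1, dzb_one1, sub_zero, smul_zero]
    unfold Dir
    rw [map_sub, map_smul, e1, smul_zero, sub_zero, map_sub, map_smul, e2, smul_zero, sub_zero]
  rw [hD, ← hGK, picone_real]
  have h1 := Dir_add_lap (Gz _ * K * K) (Gz (p + 1 + 1))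
  have h2 : Bd (p + 1) (incl (Nat.le_succ _) (Gz _ * K * K) * Rad (p + 1) (Gz _)) = 0 := by
    refine Bd_eq_zero fun z hz => ?_
    rw [ev_mul _ _ hz.le, Rad_Gz hz, mul_zero]
  rw [h2, mul_zero, lap_Gz] at h1
  have h3 := eq_neg_of_add_eq_zero_left h1
  rw [h3, Complex.add_re, Complex.neg_re]
  have h4 : 0 ≤ (I (p + 1) (incl (Nat.le_succ _) (Gz _) * incl (Nat.le_succ _) (Gz _) *
      (dx (p + 1) K * dx (p + 1) K + dy (p + 1) K * dy (p + 1) K))).re := by
    refine I_re_nonneg fun z hz => ?_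
    rw [ev_mul _ _ hz.le, ev_mul _ _ hz.le, ev_add _ _ hz.le, ev_mul _ _ hz.le, ev_mul _ _ hz.le,
      ev_incl, ev_Gz hz.le, ev_eq_re (by rw [cj_dx, hKr] : cj (dx _ K) = dx _ K),
      ev_eq_re (by rw [cj_dy, hKr] : cj (dy _ K) = dy _ K)]
    simp only [← Complex.ofReal_mul, ← Complex.ofReal_add, Complex.ofReal_re]
    exact mul_nonneg (mul_self_nonneg _) (add_nonneg (mul_self_nonneg _) (mul_self_nonneg _))
  have h5 : 4 * (I (p + 1) (kz (p + 1) * incl (Nat.le_succ _) (Gz _ * K * (Gz _ * K)))).re ≤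
      -(I p (incl (show p ≤ p + 1 + 1 by omega) (Gz _ * K * K) *
        -((16 : ℂ) • (sq p - ((1 / 2 : ℝ) : ℂ) • one1 p)))).re := by
    have e1 : 4 * (I (p + 1) (kz (p + 1) * incl (Nat.le_succ _) (Gz _ * K * (Gz _ * K)))).re =
        (I (p + 1) ((4 : ℂ) • (kz (p + 1) * incl (Nat.le_succ _) (Gz _ * K * (Gz _ * K))))).re := by
      rw [map_smul, smul_eq_mul]; simp only [Nat.succ_eq_add_one, Complex.mul_re, Complex.re_ofNat, Complex.im_ofNat, zero_mul, sub_zero]
    rw [e1, ← Complex.neg_re, ← map_neg]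
    refine I_re_mono' fun z hz => ?_
    simp only [ev_smul, ev_neg, ev_mul _ _ hz.le, ev_incl, ev_sub _ _ hz.le, ev_kz hz.le,
      ev_Gz hz.le, ev_sq, ev_one1, mul_one]
    have hs : ‖z‖ ^ 2 ≤ 1 := pow_le_one₀ (norm_nonneg z) hz.le
    have hs0 : 0 ≤ ‖z‖ ^ 2 := sq_nonneg _
    have hk : ev K z = ((ev K z).re : ℂ) := ev_eq_re hKr z
    generalize ‖z‖ ^ 2 = s at *
    generalize (ev K z).re = k at *
    rw [hk]
    have e3 : (4 : ℂ) * (((8 / (3 - s) : ℝ) : ℂ) *
        ((((s - 1 / 2) * (3 / 2 - s) : ℝ) : ℂ) * (k : ℂ) *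
          ((((s - 1 / 2) * (3 / 2 - s) : ℝ) : ℂ) * (k : ℂ)))) =
        ((4 * (8 / (3 - s) * (((s - 1 / 2) * (3 / 2 - s)) * k *
          (((s - 1 / 2) * (3 / 2 - s)) * k))) : ℝ) : ℂ) := by push_cast; ring
    have e4 : -((((s - 1 / 2) * (3 / 2 - s) : ℝ) : ℂ) * (k : ℂ) * (k : ℂ) *
        -((16 : ℂ) * ((s : ℂ) - ((1 / 2 : ℝ) : ℂ)))) =
        ((16 * ((s - 1 / 2) * (3 / 2 - s)) * k * k * (s - 1 / 2) : ℝ) : ℂ) := by push_cast; ring
    rw [e3, e4, Complex.ofReal_re, Complex.ofReal_re]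
    have h6 : 4 * (8 / (3 - s) * (((s - 1 / 2) * (3 / 2 - s)) * k * (((s - 1 / 2) * (3 / 2 - s)) * k)))
        = 32 * (3 / 2 - s) / (3 - s) * ((3 / 2 - s) * ((s - 1 / 2) * k) ^ 2) := by ring
    have h7 : 16 * ((s - 1 / 2) * (3 / 2 - s)) * k * k * (s - 1 / 2) =
        16 * ((3 / 2 - s) * ((s - 1 / 2) * k) ^ 2) := by ring
    rw [h6, h7]
    have h8 : 0 ≤ (3 / 2 - s) * ((s - 1 / 2) * k) ^ 2 := by
      have : 0 ≤ 3 / 2 - s := by linarith only [hs]
      (clear * - this; positivity)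
    refine mul_le_mul_of_nonneg_right ?_ h8
    rw [div_le_iff₀ (by linarith only [hs])]
    linarith only [hs0]
  have h9 := add_le_add h5 h4
  rw [add_zero] at h9
  exact h9

/-! ### The modes of order one -/

/-- The complex eigenfunction `z(1 - |z|²/3)`. -/
def fz (p : ℕ) : Y p := e p (1, 0) * (one1 p - ((1 / 3 : ℝ) : ℂ) • sq p)

theorem fz_eq : fz p = e p (1, 0) - ((1 / 3 : ℝ) : ℂ) • e p (2, 1) := by
  unfold fz
  rw [ser_mul_sub, mul_one1, ser_mul_smul, sq, e_mul_e]
  rfl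

theorem cj_fz_eq : cj (fz p) = e p (0, 1) - ((1 / 3 : ℝ) : ℂ) • e p (1, 2) := by
  rw [fz_eq, cj_sub, cj_smul, cj_e, cj_e, Complex.conj_ofReal]
  rfl

theorem incl_fz (h : p ≤ q) : incl h (fz q) = fz p := by
  rw [fz_eq, fz_eq, map_sub, map_smul, incl_e, incl_e]

theorem lap_fz : lap p (fz (p + 1 + 1)) = -((8 / 3 : ℂ) • e p (1, 0)) := by
  rw [fz_eq, lap_apply]
  simp only [map_sub, map_smul, dzb_e, dz_e, smul_smul]
  simp only [CharP.cast_eq_zero, Nat.cast_one, mul_one, tsub_self, zero_tsub, zero_smul, one_div, Complex.ofReal_inv, Complex.ofReal_ofNat, Nat.cast_ofNat, Nat.add_one_sub_one, zero_sub, smul_neg, neg_inj]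
  module

theorem kz_mul_fz : kz p * fz p = (8 / 3 : ℂ) • e p (1, 0) := by
  have h := geo_mul (p := p) (b := 3) (by norm_num)
  have h2 : one1 p - ((1 / 3 : ℝ) : ℂ) • sq p =
      (1 / 3 : ℂ) • (((3 : ℝ) : ℂ) • one1 p - sq p) := by
    rw [smul_sub, smul_smul]
    push_cast
    congr 1
    rw [show ((1 : ℂ) / 3 * 3) = 1 by norm_num, one_smul]
  rw [kz, fz, h2, ser_smul_mul, ser_mul_smul, ser_mul_smul, smul_smul]
  have h3 : geo p 3 * (e p (1, 0) * (((3 : ℝ) : ℂ) • one1 p - sq p)) = e p (1, 0) := by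
    calc _ = e p (1, 0) * (geo p 3 * (((3 : ℝ) : ℂ) • one1 p - sq p)) := by ring
      _ = _ := by rw [h, mul_one1]
  rw [h3]
  norm_num

theorem Rad_fz {z : ℂ} (hz : ‖z‖ = 1) : ev (Rad p (fz (p + 1))) z = 0 := by
  rw [fz_eq]
  simp only [map_sub, map_smul, Rad_e]
  rw [ev_sub _ _ hz.le]
  simp only [ev_smul, ev_e, mon]
  have h : z * conj z = 1 := by
    rw [Complex.mul_conj, Complex.normSq_eq_norm_sq, hz]; simp
  simp only [Nat.cast_one, CharP.cast_eq_zero, add_zero, pow_one, pow_zero, mul_one, one_mul, one_div, Complex.ofReal_inv, Complex.ofReal_ofNat, Nat.cast_ofNat]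
  linear_combination -z * h

theorem ev_fz {z : ℂ} (hz : ‖z‖ ≤ 1) : ev (fz p) z = z * ((1 - ‖z‖ ^ 2 / 3 : ℝ) : ℂ) := by
  unfold fz
  rw [ev_mul _ _ hz, ev_sub _ _ hz, ev_one1, ev_smul, ev_sq, ev_e, mon]
  push_cast
  ring

/-- Derivative in `s = |z|²` of radial series. -/
def Ns (p : ℕ) : Y (p + 1) →L[ℂ] Y p :=
  lift (fun i => if i.1 = i.2 then (i.1 : ℂ) • e p (i.1 - 1, i.2 - 1) else 0) 1 zero_le_one fun i => by
    split_ifs with h
    · rw [norm_smul, norm_e, one_mul, Complex.norm_natCast, wt_succ]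
      have h1 : wt p (i.1 - 1, i.2 - 1) ≤ wt p i := by
        unfold wt
        gcongr
        · exact_mod_cast Nat.sub_le _ _
        · exact_mod_cast Nat.sub_le _ _
      have h2 : (i.1 : ℝ) ≤ 1 + i.1 + i.2 := by
        have : (0 : ℝ) ≤ i.2 := Nat.cast_nonneg _
        linarith
      calc (i.1 : ℝ) * wt p (i.1 - 1, i.2 - 1) ≤ (1 + i.1 + i.2) * wt p i :=
            mul_le_mul h2 h1 (wt_pos _ _).le (by positivity)
        _ = _ := mul_comm _ _
    · rw [norm_zero, one_mul]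
      exact (wt_pos _ _).le

@[simp] theorem Ns_e (i : Ix) : Ns p (e (p + 1) i) =
    if i.1 = i.2 then (i.1 : ℂ) • e p (i.1 - 1, i.2 - 1) else 0 := lift_e _ _ _ _ _

theorem dz_rad {g : Y (p + 1)} (hg : IsRad g) : dz p g = e p (0, 1) * Ns p g := by
  have : (dz p).comp (Pr (p + 1) (fun k => k = 0)) =
      (mulL p (e p (0, 1))).comp (Ns p) := Y.clm_ext fun i => by
    show dz p (Pr (p + 1) (fun k => k = 0) (e (p + 1) i)) = e p (0, 1) * Ns p (e (p + 1) i)
    rw [Pr_e, Ns_e]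
    by_cases h : i.1 = i.2
    · rw [if_pos h, if_pos (ord_eq_zero.2 h), dz_e, ser_mul_smul, e_mul_e]
      rcases i with ⟨a, b⟩
      simp only at h
      subst h
      rcases a with _ | a
      · simp
      · congr 2
        exact Prod.ext (by simp only [add_tsub_cancel_right, Prod.mk_add_mk, zero_add]) (by simp only [add_tsub_cancel_right, add_comm, Prod.mk_add_mk, add_zero, Nat.add_left_cancel_iff])
    · rw [if_neg h, if_neg (fun h3 => h (ord_eq_zero.1 h3)), map_zero, ser_mul_zero]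
  have h2 := congrArg (fun T : Y (p + 1) →L[ℂ] Y p => T g) this
  simp only [ContinuousLinearMap.comp_apply] at h2
  rw [show Pr (p + 1) (fun k => k = 0) g = g from hg] at h2
  exact h2

theorem dzb_rad {g : Y (p + 1)} (hg : IsRad g) : dzb p g = e p (1, 0) * Ns p g := by
  have : (dzb p).comp (Pr (p + 1) (fun k => k = 0)) =
      (mulL p (e p (1, 0))).comp (Ns p) := Y.clm_ext fun i => by
    show dzb p (Pr (p + 1) (fun k => k = 0) (e (p + 1) i)) = e p (1, 0) * Ns p (e (p + 1) i)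
    rw [Pr_e, Ns_e]
    by_cases h : i.1 = i.2
    · rw [if_pos h, if_pos (ord_eq_zero.2 h), dzb_e, ser_mul_smul, e_mul_e]
      rcases i with ⟨a, b⟩
      simp only at h
      subst h
      rcases a with _ | a
      · simp
      · congr 2
        exact Prod.ext (by simp only [add_tsub_cancel_right, add_comm, Prod.mk_add_mk, add_zero, Nat.add_left_cancel_iff]) (by simp only [add_tsub_cancel_right, Prod.mk_add_mk, zero_add])
    · rw [if_neg h, if_neg (fun h3 => h (ord_eq_zero.1 h3)), map_zero, ser_mul_zero]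
  have h2 := congrArg (fun T : Y (p + 1) →L[ℂ] Y p => T g) this
  simp only [ContinuousLinearMap.comp_apply] at h2
  rw [show Pr (p + 1) (fun k => k = 0) g = g from hg] at h2
  exact h2

theorem IsRad.mul {a b : Y p} (ha : IsRad a) (hb : IsRad b) : IsRad (a * b) := by
  unfold IsRad
  rw [Pr_rad_mul _ ha, hb]

/-- For radial `g`, the wronskian type term in Picone's identity vanishes. -/
theorem wronsk_zero {g : Y (p + 1)} (hg : IsRad g) :
    dx p g * (fz p * dx p (cj (fz (p + 1))) - cj (fz p) * dx p (fz (p + 1))) +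
      dy p g * (fz p * dy p (cj (fz (p + 1))) - cj (fz p) * dy p (fz (p + 1))) = 0 := by
  have h1 : dx p g * (fz p * dx p (cj (fz (p + 1))) - cj (fz p) * dx p (fz (p + 1))) +
      dy p g * (fz p * dy p (cj (fz (p + 1))) - cj (fz p) * dy p (fz (p + 1))) =
      (2 : ℂ) • (dz p g * (fz p * dzb p (cj (fz (p + 1))) - cj (fz p) * dzb p (fz (p + 1))) +
        dzb p g * (fz p * dz p (cj (fz (p + 1))) - cj (fz p) * dz p (fz (p + 1)))) := by
    simp only [dx_apply, ser_mul_add, ser_mul_sub, ser_add_mul, dy_apply, smul_sub, ser_mul_smul, ser_sub_mul, ser_smul_mul, smul_smul, Complex.I_mul_I]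
    module
  rw [h1, dz_rad hg, dzb_rad hg]
  have h2 : dz p (fz (p + 1)) = one1 p - ((2 / 3 : ℝ) : ℂ) • (e p (1, 0) * e p (0, 1)) := by
    rw [fz_eq, map_sub, map_smul, dz_e, dz_e, e_mul_e, smul_smul]
    simp only [Nat.cast_one, tsub_self, one_smul, one_div, Complex.ofReal_inv, Complex.ofReal_ofNat, Nat.cast_ofNat, Nat.add_one_sub_one, one1, Complex.ofReal_div, Prod.mk_add_mk, add_zero, zero_add]
    module
  have h3 : dzb p (fz (p + 1)) = -(((1 / 3 : ℝ) : ℂ) • (e p (1, 0) * e p (1, 0))) := by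
    rw [fz_eq, map_sub, map_smul, dzb_e, dzb_e, e_mul_e, smul_smul]
    simp
  have h4 : dzb p (cj (fz (p + 1))) = one1 p - ((2 / 3 : ℝ) : ℂ) • (e p (1, 0) * e p (0, 1)) := by
    rw [cj_fz_eq, map_sub, map_smul, dzb_e, dzb_e, e_mul_e, smul_smul]
    simp only [Nat.cast_one, tsub_self, one_smul, one_div, Complex.ofReal_inv, Complex.ofReal_ofNat, Nat.cast_ofNat, Nat.add_one_sub_one, one1, Complex.ofReal_div, Prod.mk_add_mk, add_zero, zero_add]
    module
  have h5 : dz p (cj (fz (p + 1))) = -(((1 / 3 : ℝ) : ℂ) • (e p (0, 1) * e p (0, 1))) := by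
    rw [cj_fz_eq, map_sub, map_smul, dz_e, dz_e, e_mul_e, smul_smul]
    simp only [CharP.cast_eq_zero, zero_tsub, zero_smul, one_div, Complex.ofReal_inv, Complex.ofReal_ofNat, Nat.cast_one, mul_one, tsub_self, zero_sub, Prod.mk_add_mk, add_zero, Nat.reduceAdd]
  have h6 : fz p = e p (1, 0) * (one1 p - ((1 / 3 : ℝ) : ℂ) • (e p (1, 0) * e p (0, 1))) := by
    rw [fz, e_mul_e (1, 0) (0, 1)]
    rfl
  have h7 : cj (fz p) = e p (0, 1) * (one1 p - ((1 / 3 : ℝ) : ℂ) • (e p (1, 0) * e p (0, 1))) := by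
    rw [h6, cj_mul, cj_sub, cj_smul, cj_one1, cj_mul, cj_e, cj_e, Complex.conj_ofReal]
    congr 3
    exact ser_mul_comm _ _
  rw [h2, h3, h4, h5, h7, h6]
  rw [ser_smul_eq ((2 / 3 : ℝ) : ℂ), ser_smul_eq ((1 / 3 : ℝ) : ℂ) (e p (1, 0) * e p (0, 1)),
    ser_smul_eq ((1 / 3 : ℝ) : ℂ) (e p (0, 1) * e p (0, 1)),
    ser_smul_eq ((1 / 3 : ℝ) : ℂ) (e p (1, 0) * e p (1, 0))]
  have h8 : ((2 / 3 : ℝ) : ℂ) • one1 p = ((1 / 3 : ℝ) : ℂ) • one1 p + ((1 / 3 : ℝ) : ℂ) • one1 p := by
    rw [← add_smul]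
    congr 1
    push_cast
    norm_num
  rw [h8, ← one_eq]
  have h9 : (e p (0, 1) * Ns p g * (e p (1, 0) * (1 - ((1 / 3 : ℝ) : ℂ) • 1 * (e p (1, 0) * e p (0, 1))) *
      (1 - (((1 / 3 : ℝ) : ℂ) • 1 + ((1 / 3 : ℝ) : ℂ) • 1) * (e p (1, 0) * e p (0, 1))) -
      e p (0, 1) * (1 - ((1 / 3 : ℝ) : ℂ) • 1 * (e p (1, 0) * e p (0, 1))) *
      -(((1 / 3 : ℝ) : ℂ) • 1 * (e p (1, 0) * e p (1, 0)))) +
      e p (1, 0) * Ns p g * (e p (1, 0) * (1 - ((1 / 3 : ℝ) : ℂ) • 1 * (e p (1, 0) * e p (0, 1))) *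
      -(((1 / 3 : ℝ) : ℂ) • 1 * (e p (0, 1) * e p (0, 1))) -
      e p (0, 1) * (1 - ((1 / 3 : ℝ) : ℂ) • 1 * (e p (1, 0) * e p (0, 1))) *
      (1 - (((1 / 3 : ℝ) : ℂ) • 1 + ((1 / 3 : ℝ) : ℂ) • 1) * (e p (1, 0) * e p (0, 1))))) = 0 := by
    ring
  rw [h9, smul_zero]

end Vale.Agent.P071.B0
end
end
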