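import Vale.Agent.P071.MathlibUsed
import Vale.Agent.P071.Bdl.B7
import Vale.Agent.P071.Bdl.B8
import Vale.Agent.P071.Bdl.B1
import Vale.Agent.P071.Bdl.B6
import Vale.Agent.P071.Bdl.B2

set_option linter.all false

section

/-!
# Block G, from good triples to the inequality (I); admissible weights
-/

open scoped ComplexConjugate Topology Real
open Filter Metric MeasureTheory

noncomputable section

namespace Vale.Agent.P071.G

variable {p q : ℕ}

/-! ### Derivatives of real functions from Wirtinger derivatives -/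

theorem fderiv_of_hasW {τ : ℂ → ℝ} {m z : ℂ} (h : HasW (fun w => (τ w : ℂ)) m (conj m) z) (e : ℂ) :
    fderiv ℝ τ z e = 2 * (m * e).re := by
  have h1 := h.hasFDerivAt
  have h2 : HasFDerivAt τ (Complex.reCLM.comp _) z := (Complex.reCLM.hasFDerivAt).comp z h1
  rw [h2.fderiv]
  simp only [ContinuousLinearMap.comp_add, add_apply, ContinuousLinearMap.comp_apply, smul_apply, ContinuousLinearMap.id_apply, smul_eq_mul, Complex.reCLM_apply, Complex.mul_re, ContinuousLinearEquiv.coe_coe, ContinuousAlgEquiv.coeCLE_apply, Complex.conjCAE_apply, Complex.conj_re, Complex.conj_im, mul_neg, neg_mul, neg_neg]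
  ring

theorem px_of_hasW {τ : ℂ → ℝ} {m z : ℂ} (h : HasW (fun w => (τ w : ℂ)) m (conj m) z) :
    px τ z = 2 * m.re := by
  unfold px
  rw [fderiv_of_hasW h, mul_one]

theorem py_of_hasW {τ : ℂ → ℝ} {m z : ℂ} (h : HasW (fun w => (τ w : ℂ)) m (conj m) z) :
    py τ z = -2 * m.im := by
  unfold py
  rw [fderiv_of_hasW h]
  simp

theorem gsq_of_hasW {τ : ℂ → ℝ} {m z : ℂ} (h : HasW (fun w => (τ w : ℂ)) m (conj m) z) :
    Lim.gsq τ z = 4 * Complex.normSq m := by
  unfold Lim.gsq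
  rw [px_of_hasW h, py_of_hasW h, Complex.normSq_apply]
  ring

theorem lap_of_hasW {τ : ℂ → ℝ} {W : ℂ → ℂ} {m n z : ℂ}
    (h : ∀ᶠ w in 𝓝 z, HasW (fun w => (τ w : ℂ)) (W w) (conj (W w)) w) (hW : HasW W m n z) :
    Lim.lap τ z = 4 * n.re := by
  have hx : px τ =ᶠ[𝓝 z] fun w => 2 * (W w).re := h.mono fun w hw => px_of_hasW hw
  have hy : py τ =ᶠ[𝓝 z] fun w => -2 * (W w).im := h.mono fun w hw => py_of_hasW hw
  have h1 := hW.hasFDerivAt
  have hre : HasFDerivAt (fun w => (W w).re) (Complex.reCLM.comp _) z :=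
    (Complex.reCLM.hasFDerivAt).comp z h1
  have him : HasFDerivAt (fun w => (W w).im) (Complex.imCLM.comp _) z :=
    (Complex.imCLM.hasFDerivAt).comp z h1
  unfold Lim.lap
  have e1 : px (px τ) z = 2 * (m + n).re := by
    show fderiv ℝ (px τ) z 1 = _
    rw [hx.fderiv_eq, (hre.const_mul 2).fderiv]
    simp only [ContinuousLinearMap.comp_add, smul_add, add_apply, smul_apply, ContinuousLinearMap.comp_apply, ContinuousLinearMap.id_apply, smul_eq_mul, mul_one, Complex.reCLM_apply, ContinuousLinearEquiv.coe_coe, ContinuousAlgEquiv.coeCLE_apply, Complex.conjCAE_apply, map_one, Complex.add_re]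
    ring
  have e2 : py (py τ) z = -2 * (m - n).re := by
    show fderiv ℝ (py τ) z Complex.I = _
    rw [hy.fderiv_eq, (him.const_mul (-2)).fderiv]
    simp only [ContinuousLinearMap.comp_add, smul_add, neg_smul, add_apply, neg_apply, smul_apply, ContinuousLinearMap.comp_apply, ContinuousLinearMap.id_apply, smul_eq_mul, Complex.imCLM_apply, Complex.mul_im, Complex.I_im, mul_one, Complex.I_re, mul_zero, add_zero, ContinuousLinearEquiv.coe_coe, ContinuousAlgEquiv.coeCLE_apply, Complex.conjCAE_apply, Complex.conj_I, mul_neg, Complex.neg_im, neg_neg, Complex.sub_re, neg_mul]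
    ring
  rw [e1, e2, Complex.add_re, Complex.sub_re]
  ring

/-- Good triples satisfy the inequality (I). -/
theorem ineqI_of_good {w u : Y 8} {v : Y 4} {c : ℝ} (hw : AdW w) (h : Tri w u v c)
    (hg : Good w u v c) : Lim.IneqI Lim.DD (rv w) 1 (rv u) := by
  have hP : ∀ z : ℂ, ‖z‖ < 1 → _ := fun z hz => pairAt_of_tri hw h hz
  refine Lim.ineqI_of_psi (ψ := psi w u v c) one_pos (fun z hz => hw.pos z (mem_ball_zero_iff.1 hz).le)
    ?_ (fun z hz => hg.pos z (mem_ball_zero_iff.1 hz)) ?_ ?_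
  · have h1 : ContDiffOn ℝ 2 (fun z => rv (psi0 (i84 u) v) z) (ball 0 1) := by
      have h2 := (contDiffOn_ev 4 (psi0 (i84 u) v)).mono (ball_subset_closedBall (x := (0:ℂ)) (ε := 1))
      have h3 : ContDiffOn ℝ 2 (ev (psi0 (i84 u) v)) (ball 0 1) := h2.of_le (by (clear * -; norm_num))
      exact Complex.reCLM.contDiff.comp_contDiffOn h3
    unfold psi
    exact (h1.sub contDiffOn_const).add contDiffOn_const
  · intro z hz
    have hz' : ‖z‖ < 1 := mem_ball_zero_iff.1 hz
    have H := hP z hz'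
    obtain ⟨m, hm⟩ := H.hasW_psi
    rw [lap_of_hasW H.hψ hm, Complex.ofReal_re]
    have hJ := hg.ge z hz'.le
    have hψ := hg.pos z hz'
    have hwz := hw.pos z hz'.le
    have : 0 < jac (ev (dz 7 u) z) (ev (dz 3 v) z) := by
      have e1 : J (i84 u) v z = jac (ev (dz 7 u) z) (ev (dz 3 v) z) := by
        unfold J i84
        rw [dz_incl (by norm_num : 3 ≤ 7), ev_incl]
      rw [← e1]
      exact lt_of_lt_of_le (by (clear * - hwz hψ; positivity)) hJ
    linarith only [this]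
  · intro z hz
    have hz' : ‖z‖ < 1 := mem_ball_zero_iff.1 hz
    have H := hP z hz'
    have hJ := hg.ge z hz'.le
    have hψ := hg.pos z hz'
    have hwz := hw.pos z hz'.le
    have e1 : J (i84 u) v z = jac (ev (dz 7 u) z) (ev (dz 3 v) z) := by
      unfold J i84
      rw [dz_incl (by norm_num : 3 ≤ 7), ev_incl]
    rw [e1] at hJ
    set P : ℂ := ev (dz 7 u) z with hPd
    set Q : ℂ := ev (dz 3 v) z with hQd
    set W : ℂ := Complex.I * (rv u z * Q - rv v z * P) with hW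
    have g1 : Lim.gsq (psi w u v c) z = 4 * Complex.normSq W := gsq_of_hasW H.hψ.self_of_nhds
    have g2 : Lim.gsq (rv u) z = 4 * Complex.normSq P := gsq_of_hasW H.hu.self_of_nhds
    have key : rv u z * jac P Q = -(4 * (conj P * W).re) := by
      rw [hW, jac]
      simp only [Complex.mul_im, Complex.conj_re, Complex.conj_im, neg_mul, mul_neg, Complex.mul_re, Complex.I_re, Complex.sub_re, Complex.ofReal_re, Complex.ofReal_im, zero_mul, sub_zero, Complex.I_im, Complex.sub_im, add_zero, one_mul, zero_sub, neg_sub, zero_add, sub_neg_eq_add, neg_inj]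
      ring
    have h2 : |rv u z * jac P Q| ≤ √(4 * Complex.normSq W) * √(4 * Complex.normSq P) := by
      rw [key, abs_neg, abs_mul, ← Real.sqrt_mul (mul_nonneg (by norm_num) (Complex.normSq_nonneg _))]
      have e3 : 4 * Complex.normSq W * (4 * Complex.normSq P) = (4 * (‖P‖ * ‖W‖)) ^ 2 := by
        rw [Complex.normSq_eq_norm_sq, Complex.normSq_eq_norm_sq]; ring
      rw [e3, Real.sqrt_sq (by (clear * -; positivity)), abs_of_pos (by norm_num : (0:ℝ) < 4)]
      gcongr
      calc |(conj P * W).re| ≤ ‖conj P * W‖ := Complex.abs_re_le_norm _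
        _ = ‖P‖ * ‖W‖ := by rw [norm_mul, Complex.norm_conj]
    rw [g1, g2]
    refine le_trans ?_ h2
    rw [abs_mul]
    have h3 : rv w z / 2 * psi w u v c z ≤ |jac P Q| := hJ.trans (le_abs_self _)
    calc 1 / 2 * rv w z * |rv u z| * psi w u v c z
        = |rv u z| * (rv w z / 2 * psi w u v c z) := by ring
      _ ≤ |rv u z| * |jac P Q| := by gcongr

/-! ### First eigenvalues at different levels -/

theorem mu1_incl {k : Y q} (hk : IsW k) (h : p ≤ q) :
    mu1 (Vale.Agent.P071.incl h k) = mu1 k := by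
  have hk' := hk.incl h
  apply le_antisymm
  · obtain ⟨u, hu, hE⟩ := exists_isEig hk
    refine (hE.incl h).mu1_le hk' fun h0 => hu ?_
    apply incl_injective h
    rw [h0, map_zero]
  · obtain ⟨u, hu, hE⟩ := exists_isEig hk'
    obtain ⟨u', h1, h2⟩ := hE.lift h
    refine h2.mu1_le hk fun h0 => hu ?_
    rw [← h1, h0, map_zero]

theorem lap_one1 (p : ℕ) : lap p (one1 (p + 1 + 1)) = 0 := by
  rw [lap_apply, one1, dzb_e]
  simp

theorem Rad_one1 (p : ℕ) : Rad p (one1 (p + 1)) = 0 := by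
  unfold Rad one1
  rw [lift_e]
  simp

/-- From the integral form of the eigenvalue equation to the differential form. -/
theorem isV_of_isEig {k u : Y 8} {μ : ℝ} (hE : IsEig k μ u) : IsV ((μ : ℂ) • k) u := by
  have h1 : T0 k u = Sol 7 (incl (Nat.le_succ 7) (k * u)) := by
    rw [T0_apply, Sol_incl]
  have hm : I 7 (incl (Nat.le_succ 7) (k * u)) = 0 := by rw [I_incl, hE.mean]
  refine ⟨hE.real, ?_, ?_⟩
  · have e1 : lap 6 u = (μ : ℂ) • lap 6 (T0 k u) := by
      conv_lhs => rw [hE.eqn]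
      rw [map_add, map_smul, map_smul, lap_one1, smul_zero, add_zero]
    rw [e1, h1, lap_Sol, smul_neg]
    congr 1
    rw [map_smul, ser_smul_mul, ← incl_mul]
    congr 1
    ext i
    simp only [Nat.succ_eq_add_one, Nat.reduceAdd, cf_incl]
  · intro z hz
    have e1 : Rad 7 u = (μ : ℂ) • Rad 7 (T0 k u) := by
      conv_lhs => rw [hE.eqn]
      rw [map_add, map_smul, map_smul, Rad_one1, smul_zero, add_zero]
    rw [e1, ev_smul, h1, ev_Rad_Sol _ hz, hm]
    simp

end Vale.Agent.P071.G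
end
end

section

/-!
# Block G, task G-CMP: auxiliary facts (Green's identity, integral form of the equations)
-/

open scoped ComplexConjugate Topology Real
open Filter Metric MeasureTheory

noncomputable section

namespace Vale.Agent.P071.G

/-! ### Inclusions -/

theorem c_incl_incl {p q r : ℕ} (h1 : p ≤ q) (h2 : q ≤ r) (a : Y r) :
    incl h1 (incl h2 a) = incl (h1.trans h2) a := by
  ext i; simp

theorem c_lap_incl {p q : ℕ} (h : p ≤ q) (a : Y (q + 1 + 1)) :
    lap p (incl (Nat.succ_le_succ (Nat.succ_le_succ h)) a) = incl h (lap q a) := by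
  rw [lap_apply, lap_apply, dzb_incl (Nat.succ_le_succ h), dz_incl h, map_smul]

theorem c_lap_one (p : ℕ) : lap p (one1 (p + 1 + 1)) = 0 := by
  rw [lap_apply, dzb_one1, map_zero, smul_zero]

theorem c_Rad_one (p : ℕ) : Rad p (one1 (p + 1)) = 0 := by
  rw [one1, Rad_e]; simp only [Prod.fst_zero, CharP.cast_eq_zero, Prod.snd_zero, add_zero, zero_smul]

theorem c_dx_one (p : ℕ) : dx p (one1 (p + 1)) = 0 := by
  rw [dx_apply, dz_one1, dzb_one1, add_zero]

theorem c_dy_one (p : ℕ) : dy p (one1 (p + 1)) = 0 := by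
  rw [dy_apply, dz_one1, dzb_one1, sub_zero, smul_zero]

theorem c_Dir_one (p : ℕ) (v : Y (p + 1)) : Dir p (one1 (p + 1)) v = 0 := by
  unfold Dir
  rw [c_dx_one, c_dy_one, ser_zero_mul, ser_zero_mul, add_zero, map_zero]

theorem c_Rad_i84 (u : Y 8) : Rad 3 (i84 u) = incl (show 3 ≤ 7 by norm_num) (Rad 7 u) :=
  Rad_incl (p := 3) (q := 7) (by norm_num) u

theorem c_lap_i84 (u : Y 8) : lap 2 (i84 u) = incl (show 2 ≤ 6 by norm_num) (lap 6 u) :=
  c_lap_incl (p := 2) (q := 6) (by norm_num) u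

theorem c_cj_i84 (u : Y 8) : cj (i84 u) = i84 (cj u) := cj_incl _ _

theorem c_isW {w : Y 8} (hw : AdW w) : IsW w := ⟨hw.real, hw.pos⟩

theorem c_isW4 {w : Y 8} (hw : AdW w) : IsW (i84 w) := (c_isW hw).incl _

theorem c_rv {p : ℕ} {a : Y p} (ha : cj a = a) (z : ℂ) : ev a z = (rv a z : ℂ) :=
  (ev_real ha z).symm

theorem c_ip_eq_WB (w : Y 8) {a : Y 4} (ha : cj a = a) (b : Y 4) :
    (ip w a b).re = WB (i84 w) a b := by
  rw [WB_apply, ha]; rfl

theorem c_ip_real {w : Y 8} (hw : cj w = w) {a b : Y 4} (ha : cj a = a) (hb : cj b = b) :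
    cj (i84 w * (a * b)) = i84 w * (a * b) := by
  rw [cj_mul, cj_mul, c_cj_i84, hw, ha, hb]

theorem c_ip_comm (w : Y 8) (a b : Y 4) : ip w a b = ip w b a := by
  unfold ip; rw [ser_mul_comm a b]

/-! ### Green's identity -/

theorem c_green (a v : Y 4) :
    Dir 3 a v + I 2 (i42 a * lap 2 v) = 2 * Bd 3 (i43 a * Rad 3 v) := Dir_add_lap (p := 2) a v

theorem c_i42_mul (w : Y 8) (a v : Y 4) : i42 a * (i82 w * i42 v) = i42 (i84 w * (a * v)) := by
  rw [incl_mul, incl_mul, c_incl_incl]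
  rw [← ser_mul_assoc, ser_mul_comm (i42 a), ser_mul_assoc]

theorem c_green_eqn {w : Y 8} {v : Y 4} (hv : lap 2 v = -(i82 w * i42 v)) (a : Y 4) :
    Dir 3 a v - ip w a v = 2 * Bd 3 (i43 a * Rad 3 v) := by
  rw [← c_green, hv]
  have h1 : i42 a * -(i82 w * i42 v) = -(i42 (i84 w * (a * v))) := by
    rw [← c_i42_mul]
    simp only [mul_def, map_neg]
  rw [h1, map_neg, I_incl]
  rfl

theorem c_Bd {a v : Y 4} {h : ℂ → ℝ} (hv : ∀ z : ℂ, ‖z‖ = 1 → ev (Rad 3 v) z = (h z : ℂ))
    (ha : cj a = a) : 2 * Bd 3 (i43 a * Rad 3 v) =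
      (((∫ t in (-π)..π, h (Complex.exp (t * Complex.I)) * rv a (Complex.exp (t * Complex.I))) / π
        : ℝ) : ℂ) := by
  have h1 : ∀ t : ℝ, ev (i43 a * Rad 3 v) (Complex.exp (t * Complex.I)) =
      ((h (Complex.exp (t * Complex.I)) * rv a (Complex.exp (t * Complex.I)) : ℝ) : ℂ) := by
    intro t
    have hz : ‖Complex.exp (t * Complex.I)‖ = 1 := Complex.norm_exp_ofReal_mul_I t
    rw [ev_mul _ _ hz.le, ev_incl, hv _ hz, c_rv ha]
    push_cast
    ring
  rw [Bd_eq_integral]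
  simp only [h1]
  rw [intervalIntegral.integral_ofReal]
  generalize (∫ t in (-π)..π, h (Complex.exp (t * Complex.I)) *
    rv a (Complex.exp (t * Complex.I))) = R
  push_cast
  have : (π : ℂ) ≠ 0 := by exact_mod_cast Real.pi_ne_zero
  (clear * - this; field_simp)

theorem c_green_isC {w : Y 8} {v : Y 4} {h : ℂ → ℝ} (hv : IsC w v h) {a : Y 4} (ha : cj a = a) :
    Dir 3 a v - ip w a v =
      (((∫ t in (-π)..π, h (Complex.exp (t * Complex.I)) * rv a (Complex.exp (t * Complex.I))) / π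
        : ℝ) : ℂ) := by
  rw [c_green_eqn hv.eqn, c_Bd hv.neu ha]

/-- An eigenfunction as a solution without source. -/
theorem c_isC_of_isV {w u : Y 8} (hu : IsV w u) : IsC w (i84 u) (fun _ => 0) where
  real := by rw [c_cj_i84, hu.real]
  eqn := by
    rw [c_lap_i84, hu.eqn, map_neg, incl_mul, c_incl_incl, c_incl_incl, c_incl_incl]
  neu z hz := by
    rw [c_Rad_i84, ev_incl, hu.neu z hz]
    simp

theorem c_isC_congr {w : Y 8} {v : Y 4} {h g : ℂ → ℝ} (hv : IsC w v h)
    (hg : ∀ z : ℂ, ‖z‖ = 1 → h z = g z) : IsC w v g :=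
  ⟨hv.real, hv.eqn, fun z hz => by rw [hv.neu z hz, hg z hz]⟩

/-! ### Uniqueness -/

/-- Harmonic with zero normal derivative implies constant. -/
theorem c_const_of_lap {d : Y 4} (hd : cj d = d) (h1 : lap 2 d = 0)
    (h2 : ∀ z : ℂ, ‖z‖ = 1 → ev (Rad 3 d) z = 0) : d = cf d 0 • one1 4 := by
  have h3 := c_green d d
  rw [h1, ser_mul_zero, map_zero, add_zero, Bd_eq_integral] at h3
  have h4 : ∀ t : ℝ, ev (i43 d * Rad 3 d) (Complex.exp (t * Complex.I)) = 0 := by
    intro t
    have hz : ‖Complex.exp (t * Complex.I)‖ = 1 := Complex.norm_exp_ofReal_mul_I t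
    rw [ev_mul _ _ hz.le, h2 _ hz, mul_zero]
  simp only [h4] at h3
  rw [intervalIntegral.integral_zero, zero_div, mul_zero] at h3
  refine eq_const_of_Dir (p := 3) ?_
  rw [hd, h3, Complex.zero_re]

theorem c_lap_T0 {p : ℕ} (k v : Y (p + 1 + 1)) :
    lap p (T0 k v) = -(incl (show p ≤ p + 1 + 1 by omega) (k * v)) := by
  have h1 := lap_Sol (p := p + 1) (k * v)
  have h2 := c_lap_incl (Nat.le_succ p) (Sol (p + 1 + 1) (k * v))
  rw [h1, map_neg, c_incl_incl] at h2
  rw [T0_apply]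
  exact h2

theorem c_Rad_T0 {p : ℕ} (k v : Y (p + 1)) {z : ℂ} (hz : ‖z‖ = 1) :
    ev (Rad p (T0 k v)) z = -(1 / 2) * I (p + 1) (k * v) := by
  have h1 := Rad_incl (Nat.le_succ p) (Sol (p + 1) (k * v))
  have h2 := ev_Rad_Sol (k * v) hz
  rw [T0_apply]
  have h3 : ev (Rad p (incl (Nat.le_succ (p + 1)) (Sol (p + 1) (k * v)))) z =
      ev (incl (Nat.le_succ p) (Rad (p + 1) (Sol (p + 1) (k * v)))) z :=
    congrArg (fun x => ev x z) h1
  rw [h3, ev_incl, h2]

/-- The source solution. -/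
def nsr (w u : Y 8) : Y 4 := NS (p := 7) 4 6 (D2 w u) u

theorem c_cj_nsr (w u : Y 8) : cj (nsr w u) = nsr w u :=
  cj_NS (p := 7) (q := 4) (k := 6) (by norm_num) (by norm_num) _ _

theorem c_lap_nsr (w u : Y 8) : lap 2 (nsr w u) = 0 :=
  lap_NS (p := 7) (q := 2) (k := 6) (by norm_num) (by norm_num) _ _

theorem c_exists_cir {z : ℂ} (hz : ‖z‖ = 1) : ∃ t : ℝ, z = cir t := by
  refine ⟨Complex.arg z, ?_⟩
  have h := Complex.norm_mul_exp_arg_mul_I z
  rw [hz] at h
  unfold cir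
  simpa using h.symm

theorem c_Rad_nsr (w u : Y 8) {z : ℂ} (hz : ‖z‖ = 1) :
    ev (Rad 3 (nsr w u)) z = (src w u z : ℂ) := by
  obtain ⟨t, rfl⟩ := c_exists_cir hz
  exact ev_Rad_NS (p := 7) (q := 3) (k := 6) (by norm_num) (by norm_num) _ _ t

theorem c_Dir_nsr (w u : Y 8) (a : Y 4) :
    Dir 3 a (nsr w u) = 2 * cm fun t => ev a (cir t) * (src w u (cir t) : ℂ) :=
  Dir_NS (p := 7) (q := 3) (k := 6) (by norm_num) (by norm_num) _ _ a

/-- The product `w v` is real if `v` is a real solution. -/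
theorem c_cj_mul {w : Y 8} {v : Y 4} {h : ℂ → ℝ} (hv : IsC w v h) :
    cj (i84 w * v) = i84 w * v := by
  have h1 : i42 (i84 w * v) = -lap 2 v := by rw [hv.eqn, incl_mul, c_incl_incl, neg_neg]
  have h2 : cj (lap 2 v) = lap 2 v := by
    rw [lap_apply, cj_smul, cj_dz, cj_dzb, hv.real, dz_dzb]
    congr 1
    exact Complex.conj_ofNat 4
  refine incl_injective (show 2 ≤ 4 by norm_num) ?_
  rw [← cj_incl]
  have h3 : cj (i42 (i84 w * v)) = i42 (i84 w * v) := by rw [h1, cj_neg, h2]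
  exact h3

theorem c_cj_T0 {w : Y 8} {v : Y 4} {h : ℂ → ℝ} (hv : IsC w v h) :
    cj (T0 (i84 w) v) = T0 (i84 w) v := by
  rw [T0_apply, cj_incl, cj_Sol, c_cj_mul hv]

/-- Integral form of the equation for companions. -/
theorem c_int_of_isC {w u : Y 8} {v : Y 4} {c : ℝ}
    (hv : IsC w v (fun z => c * src w u z)) (h0 : I 4 (i84 w * v) = 0) :
    ∃ α : ℂ, v = (1 : ℂ) • T0 (i84 w) v + (c : ℂ) • nsr w u + α • one1 4 := by
  set d : Y 4 := v - T0 (i84 w) v - (c : ℂ) • nsr w u with hd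
  have h1 : cj d = d := by
    rw [hd, cj_sub, cj_sub, cj_smul, c_cj_nsr, Complex.conj_ofReal, hv.real, c_cj_T0 hv]
  have h2 : lap 2 d = 0 := by
    have h3 : lap 2 (T0 (i84 w) v) = -(i42 (i84 w * v)) := c_lap_T0 (p := 2) (i84 w) v
    rw [hd, map_sub, map_sub, map_smul, c_lap_nsr, smul_zero, sub_zero, h3, hv.eqn, incl_mul,
      c_incl_incl]
    abel
  have h3 : ∀ z : ℂ, ‖z‖ = 1 → ev (Rad 3 d) z = 0 := by
    intro z hz
    have h4 : ev (Rad 3 (T0 (i84 w) v)) z = -(1 / 2) * I 4 (i84 w * v) :=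
      c_Rad_T0 (p := 3) (i84 w) v hz
    rw [hd, map_sub, map_sub, map_smul, ev_sub _ _ hz.le, ev_sub _ _ hz.le, ev_smul,
      c_Rad_nsr w u hz, hv.neu z hz, h4, h0]
    push_cast
    ring
  have h4 := c_const_of_lap h1 h2 h3
  refine ⟨cf d 0, ?_⟩
  rw [← h4, hd, one_smul]
  abel

/-- From the integral form back to the equation. -/
theorem c_isC_of_int {w u : Y 8} {v : Y 4} {c : ℝ} {α : ℂ} (hr : cj v = v)
    (h0 : I 4 (i84 w * v) = 0)
    (h : v = (1 : ℂ) • T0 (i84 w) v + (c : ℂ) • nsr w u + α • one1 4) :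
    IsC w v (fun z => c * src w u z) where
  real := hr
  eqn := by
    have h3 : lap 2 (T0 (i84 w) v) = -(i42 (i84 w * v)) := c_lap_T0 (p := 2) (i84 w) v
    have h5 : lap 2 (one1 4) = 0 := c_lap_one 2
    have h4 := congrArg (lap 2) h
    rw [map_add, map_add, map_smul, map_smul, map_smul, c_lap_nsr, smul_zero, add_zero, h3, h5,
      smul_zero, add_zero, one_smul, incl_mul, c_incl_incl] at h4
    exact h4
  neu z hz := by
    have h4 : ev (Rad 3 (T0 (i84 w) v)) z = -(1 / 2) * I 4 (i84 w * v) :=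
      c_Rad_T0 (p := 3) (i84 w) v hz
    have h5 : Rad 3 (one1 4) = 0 := c_Rad_one 3
    have h6 := congrArg (fun x => ev (Rad 3 x) z) h
    simp only [map_add, map_smul] at h6
    rw [ev_add _ _ hz.le, ev_add _ _ hz.le, ev_smul, ev_smul, ev_smul, h4, h0, h5,
      c_Rad_nsr w u hz, ev_zero] at h6
    rw [h6]
    push_cast
    ring

theorem c_mean_zero {w : Y 8} {v : Y 4} {h : ℂ → ℝ} (hv : IsC w v h)
    (h0 : ∫ t in (-π)..π, h (Complex.exp (t * Complex.I)) = 0) : I 4 (i84 w * v) = 0 := by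
  have h1 := c_green_isC hv (a := one1 4) cj_one1
  have h2 : ∀ z : ℂ, rv (one1 4) z = 1 := fun z => by unfold rv; rw [ev_one1]; rfl
  simp only [h2, mul_one, h0, zero_div, Complex.ofReal_zero] at h1
  have h3 : Dir 3 (one1 4) v = 0 := c_Dir_one 3 v
  rw [h3, zero_sub, neg_eq_zero] at h1
  unfold ip at h1
  rwa [one1_mul] at h1

/-- Solutions without source are eigenfunctions in the integral form. -/
theorem c_isEig_of_isC {w : Y 8} {v : Y 4} (hv : IsC w v (fun _ => 0)) :
    IsEig (i84 w) 1 v := by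
  have h0 : I 4 (i84 w * v) = 0 := c_mean_zero hv (by simp)
  set d : Y 4 := v - T0 (i84 w) v with hd
  have h1 : cj d = d := by
    rw [hd, cj_sub, hv.real, c_cj_T0 hv]
  have h2 : lap 2 d = 0 := by
    have h3 : lap 2 (T0 (i84 w) v) = -(i42 (i84 w * v)) := c_lap_T0 (p := 2) (i84 w) v
    rw [hd, map_sub, h3, hv.eqn, incl_mul, c_incl_incl]
    abel
  have h3 : ∀ z : ℂ, ‖z‖ = 1 → ev (Rad 3 d) z = 0 := by
    intro z hz
    have h4 : ev (Rad 3 (T0 (i84 w) v)) z = -(1 / 2) * I 4 (i84 w * v) :=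
      c_Rad_T0 (p := 3) (i84 w) v hz
    rw [hd, map_sub, ev_sub _ _ hz.le, hv.neu z hz, h4, h0]
    push_cast
    ring
  have h4 := c_const_of_lap h1 h2 h3
  have h5 : cf d 0 = cf v 0 := by rw [hd, cf_sub, cf_T0_zero, sub_zero]
  refine ⟨hv.real, h0, ?_⟩
  rw [← h5, ← h4, hd, Complex.ofReal_one, one_smul]
  abel

theorem c_isV_of_isEig {w u : Y 8} (hu : IsEig w 1 u) : IsV w u where
  real := hu.real
  eqn := by
    have h3 : lap 6 (T0 w u) = -(i86 (w * u)) := c_lap_T0 (p := 6) w u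
    have h5 : lap 6 (one1 8) = 0 := c_lap_one 6
    have h4 := congrArg (lap 6) hu.eqn
    rw [map_add, map_smul, map_smul, h3, h5, smul_zero, add_zero, Complex.ofReal_one, one_smul,
      incl_mul] at h4
    exact h4
  neu z hz := by
    have h4 : ev (Rad 7 (T0 w u)) z = -(1 / 2) * I 8 (w * u) := c_Rad_T0 (p := 7) w u hz
    have h5 : Rad 7 (one1 8) = 0 := c_Rad_one 7
    have h6 := congrArg (fun x => ev (Rad 7 x) z) hu.eqn
    simp only [map_add, map_smul] at h6
    rw [ev_add _ _ hz.le, ev_smul, ev_smul, h4, hu.mean, h5, ev_zero] at h6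
    rw [h6]
    ring

theorem c_isEig4_of_isV {w u : Y 8} (hu : IsV w u) : IsEig (i84 w) 1 (i84 u) :=
  c_isEig_of_isC (c_isC_of_isV hu)

theorem c_isEig_of_isV {w u : Y 8} (hu : IsV w u) : IsEig w 1 u := by
  obtain ⟨u', h1, h2⟩ := (c_isEig4_of_isV hu).lift (q := 8)
  have h3 : u' = u := incl_injective _ h1
  rwa [h3] at h2

theorem c_lift {w : Y 8} {v : Y 4} (hv : IsEig (i84 w) 1 v) : ∃ v' : Y 8, IsV w v' ∧ v = i84 v' := by
  obtain ⟨v', h1, h2⟩ := hv.lift (q := 8)
  exact ⟨v', c_isV_of_isEig h2, h1.symm⟩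

end Vale.Agent.P071.G
end
end

section

/-!
# Block G, task G-CMP: existence of companions
-/

open scoped ComplexConjugate Topology Real
open Filter Metric MeasureTheory

noncomputable section

namespace Vale.Agent.P071.G

theorem c_int_of_cm {f : ℝ → ℝ} (h : cm (fun t => (f t : ℂ)) = 0) : ∫ t in (-π)..π, f t = 0 := by
  unfold cm at h
  rw [intervalIntegral.integral_ofReal] at h
  have hπ : (1 / (2 * π) : ℂ) ≠ 0 := by
    have : (π : ℂ) ≠ 0 := by exact_mod_cast Real.pi_ne_zero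
    simp only [one_div, mul_inv_rev, ne_eq, mul_eq_zero, inv_eq_zero, Complex.ofReal_eq_zero, Real.pi_ne_zero, OfNat.ofNat_ne_zero, or_self, not_false_eq_true]
  rcases mul_eq_zero.1 h with h1 | h1
  · exact absurd h1 hπ
  · exact_mod_cast h1

theorem c_cm_eq (f : ℝ → ℝ) :
    cm (fun t => (f t : ℂ)) = (((∫ t in (-π)..π, f t) / (2 * π) : ℝ) : ℂ) := by
  unfold cm
  rw [intervalIntegral.integral_ofReal]
  push_cast
  ring

theorem c_rv_i84 (u : Y 8) (z : ℂ) : rv (i84 u) z = rv u z := by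
  unfold rv; rw [ev_incl]

/-- Green's identity for an eigenfunction and a solution with source. -/
theorem green_pair {w φ : Y 8} {v : Y 4} {h : ℂ → ℝ} (hφ : IsV w φ) (hv : IsC w v h) :
    ∫ t in (-π)..π, h (Complex.exp (t * Complex.I)) * rv φ (Complex.exp (t * Complex.I)) = 0 := by
  have h1 := c_green_isC hv (a := i84 φ) (by rw [c_cj_i84, hφ.real])
  have h2 := c_green_isC (c_isC_of_isV hφ) hv.real
  rw [Dir_comm, c_ip_comm, h2] at h1
  simp only [zero_mul, intervalIntegral.integral_zero, zero_div, c_rv_i84] at h1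
  have h3 := Complex.ofReal_injective h1
  have h4 := h3.symm
  rw [div_eq_zero_iff] at h4
  exact h4.resolve_right Real.pi_ne_zero

/-- Solutions have weighted mean zero if their source has mean zero. -/
theorem mean_zero {w : Y 8} {v : Y 4} {h : ℂ → ℝ} (hv : IsC w v h)
    (h0 : ∫ t in (-π)..π, h (Complex.exp (t * Complex.I)) = 0) : I 4 (i84 w * v) = 0 :=
  c_mean_zero hv h0

/-- The source has mean zero and is orthogonal to `u`. -/
theorem src_mean (w u : Y 8) (hu : cj u = u) :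
    ∫ t in (-π)..π, src w u (Complex.exp (t * Complex.I)) = 0 ∧
    ∫ t in (-π)..π, src w u (Complex.exp (t * Complex.I)) * rv u (Complex.exp (t * Complex.I))
      = 0 := by
  constructor
  · exact c_int_of_cm (cm_srcC (p := 7) 6 (D2 w u) u)
  · have h := cm_srcC_mul_self (p := 7) 6 (D2 w u) u
    refine c_int_of_cm (f := fun t => src w u (Complex.exp (t * Complex.I)) *
      rv u (Complex.exp (t * Complex.I))) ?_
    rw [← h]
    congr 1
    funext t
    rw [Complex.ofReal_mul]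
    rfl

theorem c_mean_tri {w u : Y 8} {v : Y 4} {c : ℝ} (hu : cj u = u)
    (hv : IsC w v (fun z => c * src w u z)) : I 4 (i84 w * v) = 0 := by
  refine mean_zero hv ?_
  rw [intervalIntegral.integral_const_mul, (src_mean w u hu).1, mul_zero]

/-- Bootstrapping: solutions without source are in `Y 8`. -/
theorem lift_V {w : Y 8} {v : Y 4} (hv : IsC w v (fun _ => 0)) :
    ∃ v' : Y 8, IsV w v' ∧ v = i84 v' := c_lift (c_isEig_of_isC hv)

/-- Positivity of the weighted inner product. -/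
theorem ip_pos {w : Y 8} (hw : AdW w) {a : Y 4} (ha : cj a = a) (h0 : a ≠ 0) :
    0 < (ip w a a).re := by
  rw [c_ip_eq_WB w ha]
  exact (isWeakInner_WB (c_isW4 hw)).pos a h0

theorem c_i84_ne {u : Y 8} (hu : u ≠ 0) : i84 u ≠ 0 := by
  intro h
  exact hu (incl_injective _ (by rw [h, map_zero]))

theorem c_isC_of_isEig {w : Y 8} {v : Y 4} (hv : IsEig (i84 w) 1 v) : IsC w v (fun _ => 0) := by
  obtain ⟨v', h1, rfl⟩ := c_lift hv
  exact c_isC_of_isV h1

theorem c_isC_zero {w u : Y 8} {v : Y 4} (hv : IsC w v (fun _ => 0)) :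
    IsC w v (fun z => (0 : ℝ) * src w u z) := c_isC_congr hv fun z _ => by rw [zero_mul]

theorem c_isC_smul {w : Y 8} {v : Y 4} {h : ℂ → ℝ} (hv : IsC w v h) (c : ℝ) :
    IsC w ((c : ℂ) • v) (fun z => c * h z) where
  real := by rw [cj_smul, Complex.conj_ofReal, hv.real]
  eqn := by
    rw [map_smul, map_smul, hv.eqn, ser_mul_smul, smul_neg]
  neu z hz := by
    rw [map_smul, ev_smul, hv.neu z hz]
    push_cast
    ring

theorem c_sig_smul (w u : Y 8) (v : Y 4) (c : ℝ) : sig w u ((c : ℂ) • v) = c * sig w u v := by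
  unfold sig
  rw [← intervalIntegral.integral_const_mul]
  refine intervalIntegral.integral_congr fun t _ => ?_
  show src w u _ * rv ((c : ℂ) • v) _ = c * (src w u _ * rv v _)
  have : rv ((c : ℂ) • v) (Complex.exp (t * Complex.I)) = c * rv v (Complex.exp (t * Complex.I)) := by
    unfold rv; rw [ev_smul, Complex.re_ofReal_mul]
  rw [this]
  ring

theorem c_ip_smul (w : Y 8) (a v : Y 4) (c : ℂ) : ip w a (c • v) = c * ip w a v := by
  unfold ip
  rw [ser_mul_smul, ser_mul_smul, map_smul, smul_eq_mul]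

theorem c_ip_sub (w : Y 8) (a v v' : Y 4) : ip w a (v - v') = ip w a v - ip w a v' := by
  unfold ip
  rw [ser_mul_sub, ser_mul_sub, map_sub]

theorem c_ip_re {w : Y 8} (hw : cj w = w) {a b : Y 4} (ha : cj a = a) (hb : cj b = b) :
    (((ip w a b).re : ℝ) : ℂ) = ip w a b := I_real (c_ip_real hw ha hb)

/-- Existence of companions. -/
theorem exists_adm {w u : Y 8} (hw : AdW w) (hu : IsV w u) (hn : ‖u‖ = 1)
    (hz : ∃ z : ℂ, ‖z‖ = 1 ∧ rv u z = 0) : ∃ (v : Y 4) (c : ℝ), Adm w u v c := by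
  have hu0 : u ≠ 0 := by
    rintro rfl
    rw [norm_zero] at hn
    exact zero_ne_one hn
  have hu4 : i84 u ≠ 0 := c_i84_ne hu0
  have hur : cj (i84 u) = i84 u := by rw [c_cj_i84, hu.real]
  have hA := ip_pos hw hur hu4
  by_cases hV : ∃ φ : Y 8, IsV w φ ∧ ∀ s : ℝ, φ ≠ (s : ℂ) • u
  · obtain ⟨φ, hφ, hne⟩ := hV
    have hφr : cj (i84 φ) = i84 φ := by rw [c_cj_i84, hφ.real]
    set A := (ip w (i84 u) (i84 u)).re with hAd
    set B := (ip w (i84 u) (i84 φ)).re with hBd
    set v0 : Y 4 := i84 φ - (((B / A : ℝ)) : ℂ) • i84 u with hv0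
    have hE : IsEig (i84 w) 1 v0 := (c_isEig4_of_isV hφ).sub ((c_isEig4_of_isV hu).smul _)
    have hv0' : v0 = i84 (φ - (((B / A : ℝ)) : ℂ) • u) := by rw [hv0, map_sub, map_smul]
    have hv00 : v0 ≠ 0 := by
      rw [hv0']
      refine c_i84_ne ?_
      rw [sub_ne_zero]
      exact hne _
    have hn0 : 0 < ‖v0‖ := norm_pos_iff.2 hv00
    have hC0 := c_isC_of_isEig hE
    have horth : ip w (i84 u) v0 = 0 := by
      rw [hv0, c_ip_sub, c_ip_smul, ← c_ip_re hw.real hur hφr, ← c_ip_re hw.real hur hur, ← hAd,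
        ← hBd]
      push_cast
      have : (A : ℂ) ≠ 0 := by exact_mod_cast hA.ne'
      field_simp
      ring
    obtain ⟨s, hs1, hs2⟩ : ∃ s : ℝ, |s| = 1 ∧ 0 ≤ s * sig w u v0 := by
      rcases le_total 0 (sig w u v0) with h | h
      · exact ⟨1, by simp, by linarith only [h]⟩
      · exact ⟨-1, by simp, by linarith only [h]⟩
    refine ⟨((s / ‖v0‖ : ℝ) : ℂ) • v0, 0, ⟨⟨hu, ?_, le_rfl⟩, hn, hz, ?_, ?_, ?_⟩⟩
    · refine c_isC_zero (c_isC_congr (c_isC_smul hC0 _) fun z _ => by rw [mul_zero])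
    · rw [c_ip_smul, horth, mul_zero]
    · rw [norm_smul, Complex.norm_real, Real.norm_eq_abs, abs_div, hs1, abs_of_pos hn0, add_zero]
      field_simp
    · rw [c_sig_smul]
      have : s / ‖v0‖ * sig w u v0 = (s * sig w u v0) / ‖v0‖ := by ring
      rw [this]
      (clear * - hs2 hv00; positivity)
  · push Not at hV
    -- the source is orthogonal to `u`
    have hnu : ip w (nsr w u) (i84 u) = 0 := by
      have h1 := c_green_isC (c_isC_of_isV hu) (c_cj_nsr w u)
      simp only [zero_mul, intervalIntegral.integral_zero, zero_div, Complex.ofReal_zero] at h1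
      have h2 := c_Dir_nsr w u (i84 u)
      have h3 : cm (fun t => ev (i84 u) (cir t) * (src w u (cir t) : ℂ)) = 0 := by
        have h4 := cm_srcC_mul_self (p := 7) 6 (D2 w u) u
        rw [← h4]
        congr 1
        funext t
        rw [ev_incl, c_rv hu.real, mul_comm]
        rfl
      rw [h3, mul_zero, Dir_comm] at h2
      rw [h2, zero_sub, neg_eq_zero] at h1
      exact h1
    obtain ⟨v1, hv1r, hv1m, ⟨α, hv1e⟩, hv1o⟩ := source_solve (c_isW4 hw) (μ := 1) one_ne_zero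
      (n := nsr w u) (c_cj_nsr w u) (by
        intro w' hw'
        obtain ⟨φ, hφ, rfl⟩ := c_lift hw'
        obtain ⟨s, rfl⟩ := hV φ hφ
        have h1 : ip w (nsr w u) (i84 ((s : ℂ) • u)) = 0 := by
          rw [map_smul, c_ip_smul, hnu, mul_zero]
        exact h1)
    have hC1 : IsC w v1 (fun z => (1 : ℝ) * src w u z) := by
      refine c_isC_of_int hv1r hv1m (α := α) ?_
      conv_lhs => rw [hv1e]
      simp
    have ho1 : ip w (i84 u) v1 = 0 := by
      rw [c_ip_comm]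
      exact hv1o _ (c_isEig4_of_isV hu)
    have hs1 : 0 ≤ sig w u v1 := by
      have h1 := c_green_isC hC1 hv1r
      have h2 := congrArg Complex.re h1
      rw [Complex.sub_re, Complex.ofReal_re] at h2
      simp only [one_mul] at h2
      have h3 : (ip w v1 v1).re ≤ (Dir 3 v1 v1).re := hw.poinc v1 hv1r hv1m
      have h4 : 0 ≤ sig w u v1 / π := by
        unfold sig
        rw [← h2]
        linarith only [h3]
      have h5 : sig w u v1 = sig w u v1 / π * π := by
        rw [div_mul_cancel₀ _ Real.pi_ne_zero]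
      rw [h5]
      exact mul_nonneg h4 Real.pi_pos.le
    have hc : 0 < ‖v1‖ + 1 := by (clear * -; positivity)
    refine ⟨((1 / (‖v1‖ + 1) : ℝ) : ℂ) • v1, 1 / (‖v1‖ + 1), ⟨⟨hu, ?_, by (clear * -; positivity)⟩, hn, hz,
      ?_, ?_, ?_⟩⟩
    · exact c_isC_congr (c_isC_smul hC1 _) fun z _ => by ring
    · rw [c_ip_smul, ho1, mul_zero]
    · rw [norm_smul, Complex.norm_real, Real.norm_eq_abs, abs_of_pos (by (clear * -; positivity))]
      (clear * -; field_simp)
    · rw [c_sig_smul]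
      (clear * - hs1; positivity)

/-- Compactness of eigenfunctions. -/
theorem cpt_V {w : Y 8} (hw : AdW w) {wn un : ℕ → Y 8} (hwn : Tendsto wn atTop (𝓝 w))
    (hu : ∀ n, IsV (wn n) (un n)) (hn : ∀ n, ‖un n‖ = 1) :
    ∃ (ν : ℕ → ℕ) (u : Y 8), StrictMono ν ∧ Tendsto (fun n => un (ν n)) atTop (𝓝 u) ∧
      IsV w u ∧ ‖u‖ = 1 := by
  obtain ⟨ν, hν, u, hu1, hu2⟩ := IsEig.exists_subseq (μ := fun _ => 1) (μ' := 1)
    (fun n => c_isEig_of_isV (hu n)) hwn tendsto_const_nhds (C := 1) fun n => (hn n).le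
  refine ⟨ν, u, hν, hu1, c_isV_of_isEig hu2, ?_⟩
  have h1 := hu1.norm
  simp only [hn] at h1
  exact (tendsto_nhds_unique h1 tendsto_const_nhds)

end Vale.Agent.P071.G
end
end

section

/-!
# Block G, task G-CMP: existence of companions and compactness (uses helper945's Spec, helper443's
Neu)

`green_pair`, `mean_zero`, `src_mean`, `lift_V`, `ip_pos`, `exists_adm`, `cpt_V` are in `Cmp_B.lean`.
-/

open scoped ComplexConjugate Topology Real
open Filter Metric MeasureTheory

noncomputable section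

namespace Vale.Agent.P071.G

theorem c_tendsto_src {wn un : ℕ → Y 8} {w u : Y 8}
    (hD : Tendsto (fun n => D2 (wn n) (un n)) atTop (𝓝 (D2 w u)))
    (hu : Tendsto un atTop (𝓝 u)) (t : ℝ) :
    Tendsto (fun n => src (wn n) (un n) (cir t)) atTop (𝓝 (src w u (cir t))) := by
  have hA : Tendsto (fun n => Ang 7 (un n)) atTop (𝓝 (Ang 7 u)) := tendsto_clm (Ang 7) hu
  have h1 : Tendsto (fun n => (D2 (wn n) (un n), bv (un n) t)) atTop (𝓝 (D2 w u, bv u t)) :=
    hD.prodMk_nhds (tendsto_bv hu t)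
  have h2 := ((continuous_gp₂ 6).tendsto (D2 w u, bv u t)).comp h1
  exact h2.mul (tendsto_bv hA t)

theorem c_sig_eq (w u : Y 8) (v : Y 4) :
    sig w u v = 2 * π * (cm fun t => ((src w u (cir t) * bv v t : ℝ) : ℂ)).re := by
  rw [c_cm_eq, Complex.ofReal_re]
  unfold sig
  have : (2 * π) ≠ 0 := by positivity
  field_simp
  rfl

theorem c_tendsto_sig {wn un : ℕ → Y 8} {vn : ℕ → Y 4} {w u : Y 8} {v : Y 4}
    (hD : Tendsto (fun n => D2 (wn n) (un n)) atTop (𝓝 (D2 w u)))
    (hu : Tendsto un atTop (𝓝 u)) (hv : Tendsto vn atTop (𝓝 v)) :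
    Tendsto (fun n => sig (wn n) (un n) (vn n)) atTop (𝓝 (sig w u v)) := by
  simp only [c_sig_eq]
  obtain ⟨R1, hR1⟩ := (hD.norm).bddAbove_range
  obtain ⟨R2, hR2⟩ := (hu.norm).bddAbove_range
  obtain ⟨R3, hR3⟩ := (hv.norm).bddAbove_range
  obtain ⟨C, hC⟩ := exists_BC_src (p := 7) (n := 0) (k := 6) (by norm_num) (by norm_num)
    (max R1 R2)
  refine Tendsto.const_mul _ ((Complex.continuous_re.tendsto _).comp ?_)
  refine tendsto_cm (M := C * R3) (fun j => ?_) (fun j t => ?_) fun t => ?_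
  · refine Complex.continuous_ofReal.comp ?_
    have h1 : Continuous fun t => src (wn j) (un j) (cir t) :=
      continuous_src (p := 7) 6 (D2 (wn j) (un j)) (un j)
    exact h1.mul (continuous_bv _)
  · rw [Complex.norm_real, norm_mul]
    have h1 : ‖src (wn j) (un j) (cir t)‖ ≤ C :=
      (hC (D2 (wn j) (un j)) (un j) ((hR1 ⟨j, rfl⟩).trans (le_max_left _ _))
        ((hR2 ⟨j, rfl⟩).trans (le_max_right _ _))).bound t
    have h2 : ‖bv (vn j) t‖ ≤ R3 := (abs_bv_le (vn j) t).trans (hR3 ⟨j, rfl⟩)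
    exact mul_le_mul h1 h2 (norm_nonneg _) ((norm_nonneg _).trans h1)
  · exact (Complex.continuous_ofReal.tendsto _).comp ((c_tendsto_src hD hu t).mul (tendsto_bv hv t))

/-- Compactness of admissible triples. -/
theorem cpt_adm {w : Y 8} (hw : AdW w) {wn un : ℕ → Y 8} {vn : ℕ → Y 4} {cn : ℕ → ℝ}
    (hwn : Tendsto wn atTop (𝓝 w)) (h : ∀ n, Adm (wn n) (un n) (vn n) (cn n)) :
    ∃ (ν : ℕ → ℕ) (u : Y 8) (v : Y 4) (c : ℝ), StrictMono ν ∧
      Tendsto (fun n => un (ν n)) atTop (𝓝 u) ∧ Tendsto (fun n => vn (ν n)) atTop (𝓝 v) ∧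
      Tendsto (fun n => cn (ν n)) atTop (𝓝 c) ∧ Adm w u v c := by
  obtain ⟨ν1, u, hν1, hu1, hu2, hu3⟩ := cpt_V hw hwn (fun n => (h n).hu) fun n => (h n).norm_u
  have hc01 : ∀ n, cn n ∈ Set.Icc (0 : ℝ) 1 := fun n =>
    ⟨(h n).hc, by have h1 := (h n).norm_v; have h2 := norm_nonneg (vn n); linarith only [h1, h2]⟩
  have hv1 : ∀ n, ‖vn n‖ ≤ 1 := fun n => by
    have h1 := (h n).norm_v
    have h2 := (h n).hc
    linarith only [h1, h2]
  obtain ⟨c, hc, ν2, hν2, hc2⟩ := (isCompact_Icc (a := (0 : ℝ)) (b := 1)).tendsto_subseq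
    (x := fun n => cn (ν1 n)) fun n => hc01 _
  choose z hz1 hz2 using fun n => (h n).zero
  obtain ⟨z0, hz0, ν3, hν3, hz3⟩ := (isCompact_sphere (0 : ℂ) 1).tendsto_subseq
    (x := fun n => z (ν1 (ν2 n))) fun n => by simp only [mem_sphere_iff_norm, sub_zero, hz1]
  have hI : ∀ n, I 4 (i84 (wn n) * vn n) = 0 := fun n => c_mean_tri (h n).hu.real (h n).hv
  choose α hα using fun n => c_int_of_isC (h n).hv (hI n)
  set θ : ℕ → ℕ := fun n => ν1 (ν2 (ν3 n)) with hθd
  have hθ : StrictMono θ := hν1.comp (hν2.comp hν3)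
  have hwθ : Tendsto (fun n => wn (θ n)) atTop (𝓝 w) := hwn.comp hθ.tendsto_atTop
  have huθ : Tendsto (fun n => un (θ n)) atTop (𝓝 u) := hu1.comp (hν2.comp hν3).tendsto_atTop
  have hcθ : Tendsto (fun n => cn (θ n)) atTop (𝓝 c) := hc2.comp hν3.tendsto_atTop
  have hzθ : Tendsto (fun n => z (θ n)) atTop (𝓝 z0) := hz3
  have hD : Tendsto (fun n => D2 (wn (θ n)) (un (θ n))) atTop (𝓝 (D2 w u)) :=
    tendsto_D2 hw hwθ huθ
  have hns : Tendsto (fun n => nsr (wn (θ n)) (un (θ n))) atTop (𝓝 (nsr w u)) :=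
    tendsto_NS (p := 7) (q := 4) (k := 6) (by norm_num) (by norm_num) hD huθ
  have hg : Tendsto (fun n => (cn (θ n) : ℂ) • nsr (wn (θ n)) (un (θ n))) atTop
      (𝓝 ((c : ℂ) • nsr w u)) :=
    ((Complex.continuous_ofReal.tendsto c).comp hcθ).smul hns
  obtain ⟨φ, hφ, v, α', hv, -, hve⟩ := compactness (k := fun n => i84 (wn (θ n))) (k' := i84 w)
    (tendsto_clm i84 hwθ) (μ := fun _ => 1) (μ' := 1) tendsto_const_nhds
    (g := fun n => (cn (θ n) : ℂ) • nsr (wn (θ n)) (un (θ n))) hg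
    (u := fun n => vn (θ n)) (α := fun n => α (θ n)) (fun n => hα (θ n)) (C := 1)
    fun n => hv1 (θ n)
  have hw' : Tendsto (fun n => wn (θ (φ n))) atTop (𝓝 w) := hwθ.comp hφ.tendsto_atTop
  have hu' : Tendsto (fun n => un (θ (φ n))) atTop (𝓝 u) := huθ.comp hφ.tendsto_atTop
  have hc' : Tendsto (fun n => cn (θ (φ n))) atTop (𝓝 c) := hcθ.comp hφ.tendsto_atTop
  have hz' : Tendsto (fun n => z (θ (φ n))) atTop (𝓝 z0) := hzθ.comp hφ.tendsto_atTop
  have hD' : Tendsto (fun n => D2 (wn (θ (φ n))) (un (θ (φ n)))) atTop (𝓝 (D2 w u)) :=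
    hD.comp hφ.tendsto_atTop
  have hz0' : ‖z0‖ = 1 := by simpa only [mem_sphere_iff_norm, sub_zero] using hz0
  have hr : cj v = v := by
    refine tendsto_nhds_unique ?_ hv
    have h1 := tendsto_cj hv
    refine h1.congr fun n => ?_
    exact (h (θ (φ n))).hv.real
  have hm : I 4 (i84 w * v) = 0 := by
    have h1 := tendsto_I (tendsto_mul (tendsto_clm i84 hw') hv)
    refine tendsto_nhds_unique h1 ?_
    refine tendsto_const_nhds.congr fun n => ?_
    exact (hI (θ (φ n))).symm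
  refine ⟨fun n => θ (φ n), u, v, c, hθ.comp hφ, hu', hv, hc',
    ⟨⟨hu2, c_isC_of_int hr hm hve, hc.1⟩, hu3, ⟨z0, hz0', ?_⟩, ?_, ?_, ?_⟩⟩
  · -- the zero
    have h1 : Tendsto (fun n => rv u (z (θ (φ n)))) atTop (𝓝 (rv u z0)) := by
      have h2 : ContinuousOn (rv u) (closedBall 0 1) := continuousOn_ev_re u
      have h3 := h2 z0 (by rw [mem_closedBall_zero_iff]; exact hz0'.le)
      refine h3.tendsto.comp ?_
      rw [tendsto_nhdsWithin_iff]
      refine ⟨hz', Eventually.of_forall fun n => ?_⟩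
      rw [mem_closedBall_zero_iff]
      exact (hz1 _).le
    have h2 : Tendsto (fun n => rv u (z (θ (φ n)))) atTop (𝓝 0) := by
      have h3 : Tendsto (fun n => ‖u - un (θ (φ n))‖) atTop (𝓝 0) := by
        have h4 := tendsto_iff_norm_sub_tendsto_zero.1 hu'
        refine h4.congr fun n => ?_
        rw [norm_sub_rev]
      refine squeeze_zero_norm (fun n => ?_) h3
      have h5 : rv u (z (θ (φ n))) = rv (u - un (θ (φ n))) (z (θ (φ n))) := by
        have h6 := hz2 (θ (φ n))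
        unfold rv at h6 ⊢
        rw [ev_sub _ _ (hz1 _).le, Complex.sub_re, h6, sub_zero]
      rw [h5]
      exact (Complex.abs_re_le_norm _).trans (norm_ev_le _ (hz1 _).le)
    exact tendsto_nhds_unique h1 h2
  · have h1 : Tendsto (fun n => ip (wn (θ (φ n))) (i84 (un (θ (φ n)))) (vn (θ (φ n)))) atTop
        (𝓝 (ip w (i84 u) v)) :=
      tendsto_I (tendsto_mul (tendsto_clm i84 hw') (tendsto_mul (tendsto_clm i84 hu') hv))
    refine tendsto_nhds_unique h1 ?_
    refine tendsto_const_nhds.congr fun n => ?_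
    exact (h (θ (φ n))).orth.symm
  · have h1 : Tendsto (fun n => ‖vn (θ (φ n))‖ + cn (θ (φ n))) atTop (𝓝 (‖v‖ + c)) :=
      hv.norm.add hc'
    refine tendsto_nhds_unique h1 ?_
    refine tendsto_const_nhds.congr fun n => ?_
    exact (h (θ (φ n))).norm_v.symm
  · exact ge_of_tendsto (c_tendsto_sig hD' hu' hv)
      (Eventually.of_forall fun n => (h (θ (φ n))).sig)

/-- Existence of zeros on the circle is an open condition if the zeros are simple. -/
theorem zero_of_tendsto {w : Y 8} (hw : AdW w) {u : Y 8} (hu : cj u = u) (hD : 0 < D2 w u)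
    (hz : ∃ z : ℂ, ‖z‖ = 1 ∧ rv u z = 0) {un : ℕ → Y 8} (hun : Tendsto un atTop (𝓝 u)) :
    ∀ᶠ n in atTop, ∃ z : ℂ, ‖z‖ = 1 ∧ rv (un n) z = 0 := by
  obtain ⟨z, hz1, hz0⟩ := hz
  obtain ⟨t0, rfl⟩ := c_exists_cir hz1
  have hf0 : bv u t0 = 0 := hz0
  have hd : bv (Ang 7 u) t0 ≠ 0 := by
    intro h
    have h1 := D2_le hw u hz1
    rw [hz0, show rv (Ang 7 u) (cir t0) = 0 from h] at h1
    simp only [ne_eq, OfNat.ofNat_ne_zero, not_false_eq_true, zero_pow, mul_zero, zero_div, add_zero] at h1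
    linarith only [hD, h1]
  set f' := bv (Ang 7 u) t0 with hf'
  have hder : HasDerivAt (bv u) f' t0 := hasDerivAt_bv (p := 7) u t0
  rw [hasDerivAt_iff_tendsto_slope] at hder
  have h1 : ∀ᶠ t in 𝓝[≠] t0, 0 < slope (bv u) t0 t * f' :=
    (hder.mul_const f').eventually (lt_mem_nhds (mul_self_pos.2 hd))
  obtain ⟨a, ha1, ha2⟩ := ((h1.filter_mono (nhdsWithin_mono t0
    (fun x (hx : x ∈ Set.Iio t0) => ne_of_lt hx))).and self_mem_nhdsWithin).exists
  obtain ⟨b, hb1, hb2⟩ := ((h1.filter_mono (nhdsWithin_mono t0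
    (fun x (hx : x ∈ Set.Ioi t0) => ne_of_gt hx))).and self_mem_nhdsWithin).exists
  have ha3 : a - t0 < 0 := sub_neg.2 ha2
  have hb3 : 0 < b - t0 := sub_pos.2 hb2
  have ea : bv u a = (a - t0) * slope (bv u) t0 a := by
    rw [slope_def_field, hf0, sub_zero, mul_div_assoc', mul_div_cancel_left₀ _ ha3.ne]
  have eb : bv u b = (b - t0) * slope (bv u) t0 b := by
    rw [slope_def_field, hf0, sub_zero, mul_div_assoc', mul_div_cancel_left₀ _ hb3.ne']
  have hab : bv u a * bv u b < 0 := by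
    have h2 : bv u a * bv u b * f' ^ 2 < 0 := by
      have h3 : bv u a * bv u b * f' ^ 2 =
          ((a - t0) * (b - t0)) * ((slope (bv u) t0 a * f') * (slope (bv u) t0 b * f')) := by
        rw [ea, eb]; ring
      rw [h3]
      exact mul_neg_of_neg_of_pos (mul_neg_of_neg_of_pos ha3 hb3) (mul_pos ha1 hb1)
    by_contra h3
    push Not at h3
    have h4 : 0 ≤ bv u a * bv u b * f' ^ 2 := mul_nonneg h3 (sq_nonneg _)
    linarith only [h2, h4]
  have h2 : Tendsto (fun n => bv (un n) a * bv (un n) b) atTop (𝓝 (bv u a * bv u b)) :=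
    (tendsto_bv hun a).mul (tendsto_bv hun b)
  filter_upwards [h2.eventually (gt_mem_nhds hab)] with n hn
  have h3 := intermediate_value_uIcc (f := bv (un n)) (a := a) (b := b)
    (continuous_bv (un n)).continuousOn
  have h4 : (0 : ℝ) ∈ Set.uIcc (bv (un n) a) (bv (un n) b) := by
    rw [Set.mem_uIcc]
    rcases mul_neg_iff.1 hn with h | h
    · exact Or.inr ⟨h.2.le, h.1.le⟩
    · exact Or.inl ⟨h.1.le, h.2.le⟩
  obtain ⟨t, -, ht⟩ := h3 h4
  exact ⟨cir t, norm_cir t, ht⟩

end Vale.Agent.P071.G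
end
end

section

/-!
# Block G, task G-RIG: rigidity of good triples at a fixed weight
-/

open scoped ComplexConjugate Topology Real
open Filter Metric MeasureTheory

noncomputable section

namespace Vale.Agent.P071.G

theorem Tri.add_smul {w u φ : Y 8} {v : Y 4} {c : ℝ} (h : Tri w u v c) (hφ : IsV w φ) (t : ℝ) :
    Tri w u (v + (t : ℂ) • i84 φ) c where
  hu := h.hu
  hv := (h.hv.add (hφ.isC.smul t)).congr fun z _ => by simp
  hc := h.hc

/-- If `(u, v, c)` is good and `φ` is an eigenfunction then either some `v + tφ` is a multiple of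
`u`, or `φ` is a multiple of `u` (open-closed argument in `t`). -/
theorem rigidity {w u φ : Y 8} {v : Y 4} {c : ℝ} (hw : AdW w) (h : Tri w u v c) (hu0 : u ≠ 0)
    (hg : Good w u v c) (hφ : IsV w φ) :
    (∃ t s : ℝ, v + (t : ℂ) • i84 φ = (s : ℂ) • i84 u) ∨ ∃ s : ℝ, φ = (s : ℂ) • u := by
  by_cases hex : ∃ t s : ℝ, v + (t : ℂ) • i84 φ = (s : ℂ) • i84 u
  · exact Or.inl hex
  right
  set V : ℝ → Y 4 := fun t => v + (t : ℂ) • i84 φ with hV
  have hVc : Continuous V :=
    continuous_const.add ((Complex.continuous_ofReal).smul continuous_const)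
  have htri : ∀ t, Tri w u (V t) c := fun t => h.add_smul hφ t
  set S : Set ℝ := {t | Good w u (V t) c} with hS
  have hclosed : IsClosed S := by
    apply IsSeqClosed.isClosed
    intro x s hx hxs
    rcases closed_seq hw (htri s) (wn := fun _ => w) (un := fun _ => u) (vn := fun n => V (x n))
      (cn := fun _ => c) tendsto_const_nhds tendsto_const_nhds ((hVc.tendsto s).comp hxs)
      tendsto_const_nhds hx with h1 | h1
    · exact h1
    · exfalso
      obtain ⟨t, ht⟩ := prop_of_psi_zero h.hu (htri s).hv hu0 (fun z hz => h1 z hz.le)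
      exact hex ⟨s, t, ht⟩
  have hopen : IsOpen S := by
    rw [← isClosed_compl_iff]
    apply IsSeqClosed.isClosed
    intro x s hx hxs hs
    have hev := open_seq hw (htri s) hs (wn := fun _ => w) (un := fun _ => u)
      (vn := fun n => V (x n)) (cn := fun _ => c) tendsto_const_nhds tendsto_const_nhds
      ((hVc.tendsto s).comp hxs) tendsto_const_nhds (fun _ => hw) (fun n => htri (x n))
    obtain ⟨n, hn⟩ := hev.exists
    exact hx n hn
  have h0S : (0 : ℝ) ∈ S := by
    show Good w u (V 0) c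
    rw [hV]
    simpa using hg
  have huniv : S = Set.univ := IsClopen.eq_univ ⟨hclosed, hopen⟩ ⟨0, h0S⟩
  have hall : ∀ t, Good w u (V t) c := fun t => by
    have : t ∈ S := by rw [huniv]; trivial
    exact this
  have hψ0 : ∀ z : ℂ, ‖z‖ < 1 → psi w u (i84 φ) 0 z = 0 := by
    intro z hz
    by_contra hne
    set A := psi w u v c z with hA
    set B := psi w u (i84 φ) 0 z with hB
    have h1 := (hall (-(A / B))).pos z hz
    have h2 := psi_add_smul w u v (i84 φ) c (-(A / B)) z hz.le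
    have h3 : psi w u (V (-(A / B))) c z = A + (-(A / B)) * B := h2
    rw [h3] at h1
    have : A + (-(A / B)) * B = 0 := by field_simp; ring
    linarith only [h1, this]
  obtain ⟨t, ht⟩ := prop_of_psi_zero h.hu hφ.isC hu0 hψ0
  refine ⟨t, i84_injective ?_⟩
  rw [map_smul]
  exact ht

/-- For `c > 0` the eigenspace is one dimensional. -/
theorem simple_of_good {w u φ : Y 8} {v : Y 4} {c : ℝ} (hw : AdW w) (h : Adm w u v c)
    (hg : Good w u v c) (hc : 0 < c) (hD : 0 < D2 w u) (hφ : IsV w φ) :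
    ∃ s : ℝ, φ = (s : ℂ) • u := by
  have hu0 : u ≠ 0 := by
    intro h0
    have := h.norm_u
    rw [h0, norm_zero] at this
    exact zero_ne_one this
  rcases rigidity hw h.toTri hu0 hg hφ with ⟨t, s, hts⟩ | h1
  · exfalso
    obtain ⟨z, hz, huz⟩ := h.zero
    have e1 : v = (s : ℂ) • i84 u + ((-t : ℝ) : ℂ) • i84 φ := by
      have : v = (v + (t : ℂ) • i84 φ) - (t : ℂ) • i84 φ := by abel
      rw [this, hts]
      push_cast
      module
    have e2 : IsC w v (fun _ => s * 0 + (-t) * 0) := by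
      rw [e1]
      exact (h.hu.isC.smul s).add (hφ.isC.smul (-t))
    have e3 := e2.neu z hz
    rw [h.hv.neu z hz] at e3
    have e4 : c * src w u z = 0 := by
      have : ((c * src w u z : ℝ) : ℂ) = ((s * 0 + (-t) * 0 : ℝ) : ℂ) := e3
      have := Complex.ofReal_injective this
      rw [this]; ring
    have e5 : src w u z = 0 := (mul_eq_zero.1 e4).resolve_left hc.ne'
    have e6 : gg (D2 w u) (rv u z) ≠ 0 := by
      unfold gg
      rw [huz]
      have : max (D2 w u - 0 ^ 2) 0 = D2 w u := by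
        rw [max_eq_left]
        · ring
        · nlinarith only [hD]
      rw [this]
      positivity
    have e7 : rv (Ang 7 u) z = 0 := (mul_eq_zero.1 e5).resolve_left e6
    have e8 := D2_le hw u hz
    rw [huz, e7] at e8
    simp only [ne_eq, OfNat.ofNat_ne_zero, not_false_eq_true, zero_pow, mul_zero, zero_div, add_zero] at e8
    linarith only [hD, e8]
  · exact h1

/-- For `c = 0` the companion is an eigenfunction in `Y 8` and the eigenspace is spanned by
`u, v`. -/
theorem double_of_good {w u : Y 8} {v : Y 4} (hw : AdW w) (h : Adm w u v 0)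
    (hg : Good w u v 0) : ∃ v' : Y 8, IsV w v' ∧ v = i84 v' ∧
      ∀ φ : Y 8, IsV w φ → ∃ s t : ℝ, φ = (s : ℂ) • u + (t : ℂ) • v' := by
  have hu0 : u ≠ 0 := by
    intro h0
    have := h.norm_u
    rw [h0, norm_zero] at this
    exact zero_ne_one this
  have hv0 : v ≠ 0 := by
    intro h0
    have := h.norm_v
    rw [h0, norm_zero, add_zero] at this
    exact zero_ne_one this
  obtain ⟨v', hv', hvv'⟩ := lift_V (w := w) (v := v) (h.hv.congr fun z _ => by simp)
  refine ⟨v', hv', hvv', fun φ hφ => ?_⟩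
  rcases rigidity hw h.toTri hu0 hg hφ with ⟨t, s, hts⟩ | ⟨s, hs⟩
  · by_cases ht : t = 0
    · exfalso
      rw [ht] at hts
      have e1 : v = (s : ℂ) • i84 u := by simpa using hts
      have e2 := h.orth
      rw [e1, ip_smul_right] at e2
      have hup : i84 u ≠ 0 := fun h0 => hu0 (i84_injective (by rw [h0, map_zero]))
      have hur : cj (i84 u) = i84 u := by rw [cj_incl, h.hu.real]
      have e3 := ip_pos hw hur hup
      rcases mul_eq_zero.1 e2 with e4 | e4
      · apply hv0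
        rw [e1, e4, zero_smul]
      · rw [e4] at e3
        simp at e3
    · refine ⟨s / t, -(1 / t), i84_injective ?_⟩
      have htc : (t : ℂ) ≠ 0 := by exact_mod_cast ht
      rw [map_add, map_smul, map_smul, ← hvv']
      have e1 : i84 φ = (1 / t : ℂ) • ((v + (t : ℂ) • i84 φ) - v) := by
        rw [add_sub_cancel_left, smul_smul, one_div, inv_mul_cancel₀ htc, one_smul]
      rw [e1, hts]
      push_cast
      module
  · exact ⟨s, 0, by simpa only [Complex.coe_smul, Complex.ofReal_zero, zero_smul, add_zero] using hs⟩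

end Vale.Agent.P071.G
end
end

section

/-!
# Block G, task G-WRON: zeros and the sign of `σ` for good pairs of eigenfunctions
-/

open scoped ComplexConjugate Topology Real
open Filter Metric MeasureTheory

noncomputable section

namespace Vale.Agent.P071.G

namespace WronAux

theorem lap_incl {p q : ℕ} (h : p ≤ q) (a : Y (q + 1 + 1)) :
    lap p (incl (Nat.succ_le_succ (Nat.succ_le_succ h)) a) = incl h (lap q a) := by
  rw [lap_apply, lap_apply, map_smul]
  refine congrArg (fun T => (4 : ℂ) • T) ?_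
  rw [dzb_incl (Nat.succ_le_succ h), dz_incl]

theorem incl_incl {p q r : ℕ} (h : p ≤ q) (h' : q ≤ r) (a : Y r) :
    incl h (incl h' a) = incl (h.trans h') a := by
  ext i
  simp

/-- An eigenfunction is a companion with zero normal derivative. -/
theorem isC_of_isV {w v : Y 8} (hv : IsV w v) (h : ℂ → ℝ) (hh : ∀ z, h z = 0) :
    IsC w (i84 v) h where
  real := by rw [i84, cj_incl, hv.real]
  eqn := by
    have h1 := lap_incl (p := 2) (q := 6) (by norm_num) v
    have h2 : lap 2 (i84 v) = incl (by norm_num) (lap 6 v) := h1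
    rw [h2, hv.eqn, map_neg, incl_mul, i86, incl_incl, incl_incl, i42, incl_incl]
  neu := by
    intro z hz
    have h1 := Rad_incl (p := 3) (q := 7) (by norm_num) v
    have h2 : Rad 3 (i84 v) = incl (by norm_num) (Rad 7 v) := h1
    rw [h2, ev_incl, hv.neu z hz, hh z]
    simp

theorem tri_of_isV {w u v : Y 8} (hu : IsV w u) (hv : IsV w v) : Tri w u (i84 v) 0 where
  hu := hu
  hv := isC_of_isV hv _ (fun z => by simp)
  hc := le_refl _

theorem ev_real {p : ℕ} {a : Y p} (ha : cj a = a) (z : ℂ) : ev a z = (rv a z : ℂ) := by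
  have h : conj (ev a z) = ev a z := by rw [← ev_cj, ha]
  exact (Complex.conj_eq_iff_re.1 h).symm

theorem ev_dzb_real {p : ℕ} {a : Y (p + 1)} (ha : cj a = a) (z : ℂ) :
    ev (dzb p a) z = conj (ev (dz p a) z) := by
  rw [← ev_cj, cj_dz, ha]

theorem rv_Ang {p : ℕ} {a : Y (p + 1)} (ha : cj a = a) {z : ℂ} (hz : ‖z‖ ≤ 1) :
    rv (Ang p a) z = -2 * (z * ev (dz p a) z).im := by
  unfold rv
  rw [ev_Ang a hz, ev_dzb_real ha]
  simp only [Complex.mul_re, Complex.I_re, Complex.sub_re, Complex.conj_re, Complex.conj_im, mul_neg, neg_mul, neg_neg, sub_self, mul_zero, Complex.I_im, Complex.sub_im, Complex.mul_im, one_mul, zero_sub, neg_sub]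
  ring

theorem rv_Rad {p : ℕ} {a : Y (p + 1)} (ha : cj a = a) {z : ℂ} (hz : ‖z‖ ≤ 1) :
    rv (Rad p a) z = 2 * (z * ev (dz p a) z).re := by
  unfold rv
  rw [ev_Rad a hz, ev_dzb_real ha]
  simp only [Complex.add_re, Complex.mul_re, Complex.conj_re, Complex.conj_im, mul_neg, neg_mul, neg_neg]
  ring

/-- The derivative along the circle. -/
theorem hasDerivAt_circle {p : ℕ} (a : Y (p + 1)) (t : ℝ) :
    HasDerivAt (fun t : ℝ => ev a (Complex.exp (t * Complex.I)))
      (ev (Ang p a) (Complex.exp (t * Complex.I))) t := by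
  have hn : ∀ s : ℝ, ‖Complex.exp (s * Complex.I)‖ = 1 := fun s =>
    Complex.norm_exp_ofReal_mul_I s
  have h1 : HasDerivAt (fun s : ℝ => Complex.exp (s * Complex.I))
      (Complex.exp (t * Complex.I) * Complex.I) t := by
    have h2 : HasDerivAt (fun s : ℝ => (s : ℂ) * Complex.I) Complex.I t := by
      simpa only [Complex.ofRealCLM_apply, Complex.ofReal_one, one_mul] using     (Complex.ofRealCLM.hasDerivAt (x := t)).mul_const Complex.I
    exact h2.cexp
  have h3 := (hasFDerivWithinAt_ev a (hn t).le).comp_hasDerivWithinAt t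
    (h1.hasDerivWithinAt (s := Set.univ)) (fun s _ => by
      rw [mem_closedBall_zero_iff]; exact (hn s).le)
  rw [hasDerivWithinAt_univ] at h3
  refine HasDerivAt.congr_deriv h3 ?_
  rw [evD_apply, ev_Ang a (hn t).le]
  simp only [map_mul, Complex.conj_I]
  ring

theorem hasDerivAt_circle_rv {p : ℕ} (a : Y (p + 1)) (t : ℝ) :
    HasDerivAt (fun t : ℝ => rv a (Complex.exp (t * Complex.I)))
      (rv (Ang p a) (Complex.exp (t * Complex.I))) t :=
  hasDerivAt_re (hasDerivAt_circle a t)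

theorem continuous_circle_rv {p : ℕ} (a : Y p) :
    Continuous fun t : ℝ => rv a (Complex.exp (t * Complex.I)) :=
  Complex.continuous_re.comp (continuous_ev_circle a)

/-- The left derivative in the radial direction at the circle. -/
theorem hasDerivWithinAt_radial {p : ℕ} (a : Y (p + 1)) {z : ℂ} (hz : ‖z‖ = 1) :
    HasDerivWithinAt (fun r : ℝ => rv a (r * z)) (rv (Rad p a) z) (Set.Icc 0 1) 1 := by
  have h1 : HasDerivWithinAt (fun r : ℝ => (r : ℂ) * z) z (Set.Icc 0 1) 1 := by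
    simpa only [Complex.ofRealCLM_apply, Complex.ofReal_one, one_mul] using     ((Complex.ofRealCLM.hasDerivAt (x := (1 : ℝ))).mul_const z).hasDerivWithinAt
  have hz' : ‖((1 : ℝ) : ℂ) * z‖ ≤ 1 := by simp [hz]
  have h3 := (hasFDerivWithinAt_ev a hz').comp_hasDerivWithinAt (1 : ℝ) h1 (fun s hs => by
      rw [mem_closedBall_zero_iff, norm_mul, hz, mul_one, Complex.norm_real, Real.norm_eq_abs,
        abs_of_nonneg hs.1]
      exact hs.2)
  have h4 : HasDerivWithinAt (fun r : ℝ => (ev a (r * z)).re)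
      (evD a (((1 : ℝ) : ℂ) * z) z).re (Set.Icc 0 1) 1 :=
    (Complex.reCLM.hasFDerivAt.comp_hasDerivWithinAt (1 : ℝ) h3)
  have h5 : (evD a (((1 : ℝ) : ℂ) * z) z).re = rv (Rad p a) z := by
    unfold rv
    rw [evD_apply, ev_Rad a hz.le]
    simp only [Complex.ofReal_one, one_mul]
    congr 1
    ring
  rw [h5] at h4
  exact h4

theorem hasDerivAt_mul_self {h : ℝ → ℝ} (hh : ContinuousAt h 0) :
    HasDerivAt (fun x => x * h x) (h 0) 0 := by
  rw [hasDerivAt_iff_tendsto_slope]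
  have h1 : Tendsto h (𝓝[≠] 0) (𝓝 (h 0)) := hh.tendsto.mono_left nhdsWithin_le_nhds
  refine h1.congr' ?_
  filter_upwards [self_mem_nhdsWithin] with x hx
  have hx' : x ≠ 0 := hx
  rw [slope_def_field]
  field_simp
  ring

theorem hasDerivAt_max_pow (y : ℝ) :
    HasDerivAt (fun y : ℝ => max y 0 ^ 7) (7 * max y 0 ^ 6) y := by
  rcases lt_trichotomy y 0 with h | h | h
  · have h1 : (fun y : ℝ => max y 0 ^ 7) =ᶠ[𝓝 y] fun _ => (0 : ℝ) := by
      filter_upwards [isOpen_Iio.mem_nhds (show y ∈ Set.Iio (0 : ℝ) from h)] with x hx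
      have hx' : x ≤ 0 := le_of_lt hx
      simp only [max_eq_right hx', ne_eq, OfNat.ofNat_ne_zero, not_false_eq_true, zero_pow]
    have h2 : (7 : ℝ) * max y 0 ^ 6 = 0 := by rw [max_eq_right h.le]; simp only [ne_eq, OfNat.ofNat_ne_zero, not_false_eq_true, zero_pow, mul_zero]
    rw [h2]
    exact (hasDerivAt_const y (0 : ℝ)).congr_of_eventuallyEq h1
  · subst h
    have h1 := hasDerivAt_mul_self (h := fun x : ℝ => max x 0 ^ 6) (by fun_prop)
    have h2 : (fun y : ℝ => max y 0 ^ 7) = fun x : ℝ => x * max x 0 ^ 6 := by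
      funext x
      rcases le_total x 0 with hx | hx
      · simp only [max_eq_right hx, ne_eq, OfNat.ofNat_ne_zero, not_false_eq_true, zero_pow, mul_zero]
      · rw [max_eq_left hx]; ring
    rw [h2]
    refine h1.congr_deriv ?_
    simp
  · have h1 : (fun y : ℝ => max y 0 ^ 7) =ᶠ[𝓝 y] fun y => y ^ 7 := by
      filter_upwards [isOpen_Ioi.mem_nhds (show y ∈ Set.Ioi (0 : ℝ) from h)] with x hx
      have hx' : 0 ≤ x := le_of_lt hx
      rw [max_eq_left hx']
    rw [max_eq_left h.le]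
    refine HasDerivAt.congr_of_eventuallyEq ?_ h1
    simpa only [Nat.cast_ofNat, Nat.add_one_sub_one] using hasDerivAt_pow 7 y

/-- `P(x) = ∫_0^x s g(s) ds`. -/
def PP (d x : ℝ) : ℝ := (d ^ 7 - max (d - x ^ 2) 0 ^ 7) / 14

theorem hasDerivAt_PP (d x : ℝ) : HasDerivAt (PP d) (x * gg d x) x := by
  have h1 : HasDerivAt (fun x : ℝ => d - x ^ 2) (-(2 * x)) x := by
    simpa only [Nat.cast_ofNat, Nat.add_one_sub_one, pow_one] using (hasDerivAt_pow 2 x).const_sub d
  have h2 := (hasDerivAt_max_pow (d - x ^ 2)).comp x h1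
  have h3 := (h2.const_sub (d ^ 7)).div_const 14
  refine h3.congr_deriv ?_
  unfold gg
  ring

/-- `N(x) = P(x) / x²`. -/
def NN (d x : ℝ) : ℝ :=
  (∑ k ∈ Finset.range 7, d ^ k * max (d - x ^ 2) 0 ^ (6 - k)) * d / (14 * max (x ^ 2) d)

theorem NN_mul {d : ℝ} (hd : 0 < d) (x : ℝ) : x ^ 2 * NN d x = PP d x := by
  have hm : 0 < max (x ^ 2) d := lt_of_lt_of_le hd (le_max_right _ _)
  unfold NN PP
  have h1 : (d - max (d - x ^ 2) 0) * max (x ^ 2) d = x ^ 2 * d := by
    rcases le_total (x ^ 2) d with h | h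
    · rw [max_eq_left (by linarith only [h] : (0 : ℝ) ≤ d - x ^ 2), max_eq_right h]; ring
    · rw [max_eq_right (by linarith only [h] : d - x ^ 2 ≤ (0 : ℝ)), max_eq_left h]; ring
  set m := max (d - x ^ 2) 0 with hmdef
  set M := max (x ^ 2) d with hMdef
  have h2 : (∑ k ∈ Finset.range 7, d ^ k * m ^ (6 - k)) * (d - m) = d ^ 7 - m ^ 7 := by
    simp only [Finset.sum_range_succ, Finset.sum_range_zero]
    ring
  rw [← h2]
  rw [mul_div_assoc', div_eq_div_iff (by (clear * - hd; positivity)) (by norm_num)]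
  have h3 : x ^ 2 * ((∑ k ∈ Finset.range 7, d ^ k * m ^ (6 - k)) * d) * 14 =
      14 * (∑ k ∈ Finset.range 7, d ^ k * m ^ (6 - k)) * (x ^ 2 * d) := by ring
  rw [h3, ← h1]
  ring

theorem continuous_NN {d : ℝ} (hd : 0 < d) : Continuous (NN d) := by
  unfold NN
  refine Continuous.div (by fun_prop) (by fun_prop) fun x => ?_
  have : 0 < max (x ^ 2) d := lt_of_lt_of_le hd (le_max_right _ _)
  positivity

theorem NN_pos {d : ℝ} (hd : 0 < d) (x : ℝ) : 0 < NN d x := by
  have hm : 0 < max (x ^ 2) d := lt_of_lt_of_le hd (le_max_right _ _)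
  unfold NN
  have h0 : 0 ≤ max (d - x ^ 2) 0 := le_max_right _ _
  have h1 : 0 < ∑ k ∈ Finset.range 7, d ^ k * max (d - x ^ 2) 0 ^ (6 - k) := by
    refine Finset.sum_pos' (fun k _ => by (clear * - hd; positivity)) ⟨6, by simp only [Finset.mem_range, Nat.lt_add_one], ?_⟩
    simp only [Nat.sub_self, pow_zero, mul_one]
    positivity
  positivity

theorem hasDerivAt_xNN {d : ℝ} (hd : 0 < d) (x : ℝ) :
    HasDerivAt (fun x => x * NN d x) (gg d x - NN d x) x := by
  rcases eq_or_ne x 0 with rfl | hx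
  · have h1 := hasDerivAt_mul_self (continuous_NN hd).continuousAt
    refine h1.congr_deriv ?_
    have h2 : NN d 0 = d ^ 6 / 2 := by
      unfold NN
      have e1 : max (d - 0 ^ 2) 0 = d := by
        rw [max_eq_left] <;> simp [hd.le]
      have e2 : max ((0 : ℝ) ^ 2) d = d := by
        rw [max_eq_right]; simp only [ne_eq, OfNat.ofNat_ne_zero, not_false_eq_true, zero_pow, hd.le]
      rw [e1, e2]
      simp only [Finset.sum_range_succ, Finset.sum_range_zero]
      field_simp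
      ring
    have h3 : gg d 0 = d ^ 6 := by
      unfold gg
      have e1 : max (d - 0 ^ 2) 0 = d := by
        rw [max_eq_left] <;> simp only [ne_eq, OfNat.ofNat_ne_zero, not_false_eq_true, zero_pow, sub_zero, hd.le]
      rw [e1]
    rw [h2, h3]
    ring
  · have h1 : (fun x => x * NN d x) =ᶠ[𝓝 x] fun x => PP d x / x := by
      filter_upwards [isOpen_ne.mem_nhds hx] with y hy
      have hy' : y ≠ 0 := hy
      rw [← NN_mul hd y]
      (clear * - hy'; field_simp)
    refine HasDerivAt.congr_of_eventuallyEq ?_ h1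
    have h2 := (hasDerivAt_PP d x).div (hasDerivAt_id x) hx
    refine h2.congr_deriv ?_
    rw [← NN_mul hd x]
    simp only [id]
    (clear * - hx; field_simp)

end WronAux

open WronAux

/-- For a good pair of eigenfunctions the Wronskian on the circle is positive. -/
theorem wronskian_pos {w u v : Y 8} (hw : AdW w) (hu : IsV w u) (hv : IsV w v)
    (hg : Good w u (i84 v) 0) {z : ℂ} (hz : ‖z‖ = 1) :
    0 < rv v z * rv (Ang 7 u) z - rv u z * rv (Ang 7 v) z := by
  have hT : Tri w u (i84 v) 0 := tri_of_isV hu hv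
  obtain ⟨ε, hε, hlow⟩ := hg.lower hw hT
  have hzle : ‖z‖ ≤ 1 := hz.le
  -- the radial derivative
  set S := psi0 (i84 u) (i84 v) with hS
  have hcl := alpha_closed hu hT.hv
  have hreal : cj S = S := cj_psi0 hu hT.hv
  obtain ⟨hdz, -⟩ := dz_prim hcl
  have hdz' : dz 3 S = alpha (i84 u) (i84 v) := hdz
  have hd := hasDerivWithinAt_radial (p := 3) S hz
  have hRad : rv (Rad 3 S) z = rv u z * rv (Ang 7 v) z - rv v z * rv (Ang 7 u) z := by
    rw [rv_Rad hreal hzle, hdz', rv_Ang hu.real hzle, rv_Ang hv.real hzle]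
    have e1 : ev (alpha (i84 u) (i84 v)) z =
        Complex.I * (rv u z * ev (dz 7 v) z - rv v z * ev (dz 7 u) z) := by
      have e2 : dz 3 (i84 v) = incl (by norm_num) (dz 7 v) :=
        dz_incl (p := 3) (q := 7) (by norm_num) v
      have e3 : dz 3 (i84 u) = incl (by norm_num) (dz 7 u) :=
        dz_incl (p := 3) (q := 7) (by norm_num) u
      unfold alpha
      rw [ev_smul, ev_sub _ _ hzle, ev_mul _ _ hzle, ev_mul _ _ hzle, e2, e3]
      simp only [ev_incl]
      rw [WronAux.ev_real hu.real, WronAux.ev_real hv.real]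
    rw [e1]
    simp only [Nat.reduceAdd, Complex.mul_re, Complex.I_re, Complex.sub_re, Complex.ofReal_re, Complex.ofReal_im, zero_mul, sub_zero, Complex.I_im, Complex.sub_im, Complex.mul_im, add_zero, one_mul, zero_sub, neg_sub, zero_add, neg_mul, mul_neg, sub_neg_eq_add]
    ring
  have hmono : rv (Rad 3 S) z ≤ -ε := by
    by_contra hcon
    push Not at hcon
    have hpc : psi w u (i84 v) 0 z = 0 := by rw [psi_circle hT hz]; simp
    -- slopes from the left
    rw [hasDerivWithinAt_iff_tendsto_slope] at hd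
    have hmem : ∀ᶠ r in 𝓝[Set.Icc 0 1 \ {1}] (1 : ℝ),
        -ε < slope (fun r : ℝ => rv S (r * z)) 1 r := hd.eventually_const_lt hcon
    have hne : (𝓝[Set.Icc (0 : ℝ) 1 \ {1}] (1 : ℝ)).NeBot := by
      have : Set.Icc (0 : ℝ) 1 \ {1} = Set.Ico 0 1 := by
        ext x
        constructor
        · rintro ⟨hx, hx1⟩
          exact ⟨hx.1, lt_of_le_of_ne hx.2 hx1⟩
        · rintro hx
          exact ⟨⟨hx.1, hx.2.le⟩, hx.2.ne⟩
      rw [this]
      exact right_nhdsWithin_Ico_neBot one_pos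
    obtain ⟨r, hr1, hr2⟩ := (hmem.and self_mem_nhdsWithin).exists
    obtain ⟨hr3, hr4⟩ := hr2
    have hr5 : r < 1 := lt_of_le_of_ne hr3.2 hr4
    have hrz : ‖(r : ℂ) * z‖ = r := by
      rw [norm_mul, hz, mul_one, Complex.norm_real, Real.norm_eq_abs, abs_of_nonneg hr3.1]
    have h1 := (hlow ((r : ℂ) * z) (by rw [hrz]; exact hr3.2)).1
    rw [hrz] at h1
    have h2 : psi w u (i84 v) 0 ((r : ℂ) * z) - psi w u (i84 v) 0 z =
        rv S (r * z) - rv S z := by
      unfold psi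
      ring
    rw [hpc, sub_zero] at h2
    rw [slope_def_field] at hr1
    simp only [Complex.ofReal_one, one_mul] at hr1
    rw [lt_div_iff_of_neg (by linarith only [hr5])] at hr1
    rw [← h2] at hr1
    nlinarith only [h1, hr1, mul_nonneg hε.le (mul_nonneg hr3.1 (by linarith : (0 : ℝ) ≤ 1 - r))]
  rw [hRad] at hmono
  linarith only [hε, hmono]

/-- ... hence `u` vanishes somewhere on the circle. -/
theorem exists_zero_of_good {w u v : Y 8} (hw : AdW w) (hu : IsV w u) (hv : IsV w v)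
    (hg : Good w u (i84 v) 0) : ∃ z : ℂ, ‖z‖ = 1 ∧ rv u z = 0 := by
  by_contra hcon
  push Not at hcon
  have hn : ∀ s : ℝ, ‖Complex.exp (s * Complex.I)‖ = 1 := fun s =>
    Complex.norm_exp_ofReal_mul_I s
  have hU := fun t => hasDerivAt_circle_rv (p := 7) u t
  have hV := fun t => hasDerivAt_circle_rv (p := 7) v t
  have hne : ∀ t : ℝ, rv u (Complex.exp (t * Complex.I)) ≠ 0 := fun t => hcon _ (hn t)
  have hQ := fun t : ℝ => (hV t).div (hU t) (hne t)
  have hper : rv v (Complex.exp (((-π : ℝ) : ℂ) * Complex.I)) /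
      rv u (Complex.exp (((-π : ℝ) : ℂ) * Complex.I)) =
      rv v (Complex.exp (((π : ℝ) : ℂ) * Complex.I)) /
      rv u (Complex.exp (((π : ℝ) : ℂ) * Complex.I)) := by
    have : Complex.exp (((-π : ℝ) : ℂ) * Complex.I) = Complex.exp (((π : ℝ) : ℂ) * Complex.I) := by
      rw [Complex.ofReal_neg, neg_mul, Complex.exp_neg, Complex.exp_pi_mul_I]
      norm_num
    rw [this]
  obtain ⟨t, -, ht⟩ := exists_hasDerivAt_eq_zero (a := -π) (b := π)
    (by linarith only [Real.pi_pos])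
    (fun t _ => (hQ t).continuousAt.continuousWithinAt) hper (fun t _ => hQ t)
  have h1 := wronskian_pos hw hu hv hg (hn t)
  have h2 := hne t
  rw [div_eq_zero_iff] at ht
  rcases ht with ht | ht
  · linarith only [h1, ht]
  · exact h2 (pow_eq_zero_iff (two_ne_zero) |>.1 ht)

/-- ... and `σ(u,v) > 0` (if `d > 0`). -/
theorem sig_pos_of_good {w u v : Y 8} (hw : AdW w) (hu : IsV w u) (hv : IsV w v)
    (hg : Good w u (i84 v) 0) (hD : 0 < D2 w u) : 0 < sig w u (i84 v) := by
  set d := D2 w u with hd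
  have hn : ∀ s : ℝ, ‖Complex.exp (s * Complex.I)‖ = 1 := fun s =>
    Complex.norm_exp_ofReal_mul_I s
  set U : ℝ → ℝ := fun t => rv u (Complex.exp (t * Complex.I)) with hUdef
  set V : ℝ → ℝ := fun t => rv v (Complex.exp (t * Complex.I)) with hVdef
  set U' : ℝ → ℝ := fun t => rv (Ang 7 u) (Complex.exp (t * Complex.I)) with hU'def
  set V' : ℝ → ℝ := fun t => rv (Ang 7 v) (Complex.exp (t * Complex.I)) with hV'def
  have hU : ∀ t, HasDerivAt U (U' t) t := fun t => hasDerivAt_circle_rv (p := 7) u t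
  have hV : ∀ t, HasDerivAt V (V' t) t := fun t => hasDerivAt_circle_rv (p := 7) v t
  have cU : Continuous U := continuous_circle_rv u
  have cV : Continuous V := continuous_circle_rv v
  have cU' : Continuous U' := continuous_circle_rv _
  have cV' : Continuous V' := continuous_circle_rv _
  have cN : Continuous (NN d) := continuous_NN hD
  have cg : Continuous (gg d) := by unfold gg; fun_prop
  have hF : ∀ t, HasDerivAt (fun t => (U t * NN d (U t)) * V t)
      (gg d (U t) * U' t * V t - NN d (U t) * (V t * U' t - U t * V' t)) t := by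
    intro t
    have h1 := (hasDerivAt_xNN hD (U t)).comp t (hU t)
    have h2 := h1.mul (hV t)
    refine h2.congr_deriv ?_
    simp only [Function.comp]
    ring
  have c1 : Continuous fun t => gg d (U t) * U' t * V t :=
    ((cg.comp cU).mul cU').mul cV
  have c2 : Continuous fun t => NN d (U t) * (V t * U' t - U t * V' t) :=
    (cN.comp cU).mul ((cV.mul cU').sub (cU.mul cV'))
  have hint := intervalIntegral.integral_eq_sub_of_hasDerivAt (a := -π) (b := π)
    (fun t _ => hF t) ((c1.sub c2).intervalIntegrable _ _)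
  have hexp : Complex.exp (((-π : ℝ) : ℂ) * Complex.I) =
      Complex.exp (((π : ℝ) : ℂ) * Complex.I) := by
    rw [Complex.ofReal_neg, neg_mul, Complex.exp_neg, Complex.exp_pi_mul_I]
    norm_num
  have hUp : U (-π) = U π := by simp only [hUdef]; rw [hexp]
  have hVp : V (-π) = V π := by simp only [hVdef]; rw [hexp]
  rw [hUp, hVp, sub_self, intervalIntegral.integral_sub (c1.intervalIntegrable _ _)
    (c2.intervalIntegrable _ _)] at hint
  have hsig : sig w u (i84 v) = ∫ t in (-π)..π, gg d (U t) * U' t * V t := by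
    unfold sig src
    refine intervalIntegral.integral_congr fun t _ => ?_
    simp only [rv, ev_incl, hUdef, hVdef, hU'def, hd]
  have hpos : 0 < ∫ t in (-π)..π, NN d (U t) * (V t * U' t - U t * V' t) := by
    refine intervalIntegral.intervalIntegral_pos_of_pos (c2.intervalIntegrable _ _) (fun t => ?_)
      (by linarith only [Real.pi_pos])
    exact mul_pos (NN_pos hD _) (wronskian_pos hw hu hv hg (hn t))
  rw [hsig]
  linarith only [hint, hpos]

end Vale.Agent.P071.G
end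
end

section

/-!
# Block G, task G-N (helper301): the Dirichlet inequality and simple zeros on the circle
-/

open scoped ComplexConjugate Topology Real
open Filter Metric MeasureTheory

noncomputable section

namespace Vale.Agent.P071.G

namespace ND

variable {p : ℕ}

theorem I_re (a : Y p) : (I p a).re = (1 / π) * ∫ z in ball (0 : ℂ) 1, (ev a z).re := by
  have hi : IntegrableOn (ev a) (ball (0 : ℂ) 1) := C1D.integrable (continuousOn_ev a)
  have h1 : (∫ z in ball (0 : ℂ) 1, ev a z).re = ∫ z in ball (0 : ℂ) 1, (ev a z).re := by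
    have := integral_re (𝕜 := ℂ) (f := ev a) (μ := volume.restrict (ball (0 : ℂ) 1)) hi
    exact this.symm
  rw [I_eq_integral, ← h1, Complex.div_ofReal_re]
  ring

theorem ip_re {w : Y 8} {a : Y 4} (hw : cj w = w) (ha : cj a = a) :
    (ip w a a).re = (1 / π) * ∫ z in ball (0 : ℂ) 1, rv w z * (ev a z).re ^ 2 := by
  rw [ip, I_re]
  congr 1
  refine setIntegral_congr_fun measurableSet_ball fun z hz => ?_
  have hz1 : ‖z‖ ≤ 1 := (mem_ball_zero_iff.1 hz).le
  have h1 : ev a z = ((ev a z).re : ℂ) := (St.rv_eq ha z).symm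
  have h2 : ev w z = ((rv w z : ℝ) : ℂ) := (St.rv_eq hw z).symm
  show (ev (i84 w * (a * a)) z).re = _
  rw [ev_mul _ _ hz1, ev_mul _ _ hz1, ev_incl, h1, h2, ← Complex.ofReal_mul, ← Complex.ofReal_mul,
    Complex.ofReal_re, Complex.ofReal_re]
  ring

theorem mean_re {w : Y 8} {a : Y 4} (hw : cj w = w) (ha : cj a = a) :
    (I 4 (i84 w * a)).re = (1 / π) * ∫ z in ball (0 : ℂ) 1, rv w z * (ev a z).re := by
  rw [I_re]
  congr 1
  refine setIntegral_congr_fun measurableSet_ball fun z hz => ?_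
  have hz1 : ‖z‖ ≤ 1 := (mem_ball_zero_iff.1 hz).le
  have h1 : ev a z = ((ev a z).re : ℂ) := (St.rv_eq ha z).symm
  have h2 : ev w z = ((rv w z : ℝ) : ℂ) := (St.rv_eq hw z).symm
  show (ev (i84 w * a) z).re = _
  rw [ev_mul _ _ hz1, ev_incl, h1, h2, ← Complex.ofReal_mul, Complex.ofReal_re, Complex.ofReal_re]

theorem dir_re {a : Y 4} (ha : cj a = a) :
    (Dir 3 a a).re = (1 / π) * ∫ z in ball (0 : ℂ) 1, 4 * Complex.normSq (ev (dz 3 a) z) := by
  rw [Dir_eq]
  have h0 : (2 * I 3 (dz 3 a * dzb 3 a + dzb 3 a * dz 3 a)).re =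
      (I 3 ((2 : ℂ) • (dz 3 a * dzb 3 a + dzb 3 a * dz 3 a))).re := by
    rw [map_smul, smul_eq_mul]
  rw [h0, I_re]
  congr 1
  refine setIntegral_congr_fun measurableSet_ball fun z hz => ?_
  have hz1 : ‖z‖ ≤ 1 := (mem_ball_zero_iff.1 hz).le
  show (ev ((2 : ℂ) • (dz 3 a * dzb 3 a + dzb 3 a * dz 3 a)) z).re = _
  rw [ev_smul, ev_add _ _ hz1, ev_mul _ _ hz1, ev_mul _ _ hz1, St.ev_dzb ha]
  have h3 : 2 * (ev (dz 3 a) z * conj (ev (dz 3 a) z) + conj (ev (dz 3 a) z) * ev (dz 3 a) z) =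
      ((4 * Complex.normSq (ev (dz 3 a) z) : ℝ) : ℂ) := by
    rw [mul_comm (conj (ev (dz 3 a) z)), Complex.mul_conj]; push_cast; ring
  rw [h3, Complex.ofReal_re]

end ND

/-- A good triple gives the Dirichlet inequality (Picone). -/
theorem DI_of_good {w u : Y 8} {v : Y 4} {c : ℝ} (hw : AdW w) (h : Tri w u v c)
    (hg : Good w u v c) : DI w := by
  intro a ha ha0
  obtain ⟨ε, hε, hlow⟩ := hg.lower hw h
  have hpair := fun z (hz : z ∈ ball (0 : ℂ) 1) => pairAt_of_tri hw h (mem_ball_zero_iff.1 hz)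
  have hcu : ContinuousOn (fun z => (rv u z : ℂ)) (closedBall (0 : ℂ) 1) :=
    Complex.continuous_ofReal.comp_continuousOn (St.continuousOn_rv u)
  have hcv : ContinuousOn (fun z => (rv v z : ℂ)) (closedBall (0 : ℂ) 1) :=
    Complex.continuous_ofReal.comp_continuousOn (St.continuousOn_rv v)
  have key := picone_disc (p := 3) (w := rv w) (ψ := psi w u v c)
    (J := fun z => jac (ev (dz 7 u) z) (ev (dz 3 v) z))
    (W := fun w => Complex.I * (rv u w * ev (dz 3 v) w - rv v w * ev (dz 7 u) w))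
    (St.continuousOn_rv w) (continuousOn_psi w u v c)
    (continuousOn_const.mul ((hcu.mul (continuousOn_ev _)).sub (hcv.mul (continuousOn_ev _))))
    ((St.continuousOn_jac u v).mono ball_subset_closedBall)
    (fun z hz => (hpair z hz).hψ.self_of_nhds)
    (fun z hz => (hpair z hz).hasW_psi)
    (fun z hz => by
      have h1 := hg.ge z (mem_ball_zero_iff.1 hz).le
      rw [St.J_eq] at h1
      linarith only [h1])
    hε (fun z hz => (hlow z (mem_closedBall_zero_iff.1 hz)).1) a ha ha0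
  rw [ND.ip_re hw.real ha, ND.dir_re ha]
  have : 0 < 1 / π := by positivity
  exact mul_le_mul_of_nonneg_left key this.le

/-- The Dirichlet inequality is a closed condition. -/
theorem DI_closed {w : Y 8} {wn : ℕ → Y 8} (hwn : Tendsto wn atTop (𝓝 w))
    (h : ∀ n, DI (wn n)) : DI w := by
  intro a ha ha0
  have h1 : Tendsto (fun n => i84 (wn n)) atTop (𝓝 (i84 w)) :=
    ((i84).continuous.tendsto w).comp hwn
  have h2 : Tendsto (fun n => i84 (wn n) * (a * a)) atTop (𝓝 (i84 w * (a * a))) :=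
    St.tendsto_mul h1 tendsto_const_nhds
  have h3 : Tendsto (fun n => (ip (wn n) a a).re) atTop (𝓝 (ip w a a).re) :=
    (Complex.continuous_re.tendsto _).comp (((I 4).continuous.tendsto _).comp h2)
  exact le_of_tendsto' h3 fun n => h n a ha ha0

/-- Simple zeros on the circle. -/
theorem simple_zero {w u : Y 8} (hw : AdW w) (hD : DI w) (hu : IsV w u) (hu0 : u ≠ 0) {z : ℂ}
    (hz : ‖z‖ = 1) (h0 : rv u z = 0) : rv (Ang 7 u) z ≠ 0 := by
  have hpi : 0 < 1 / π := by positivity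
  set U : Y (2 + 1 + 1 + 1) := incl (by norm_num) u with hU
  have hUr : cj U = U := by rw [hU, cj_incl, hu.real]
  have hN : ∀ φ : Y (2 + 1 + 1), cj φ = φ →
      ∫ z in ball (0 : ℂ) 1, rv w z * (ev φ z).re = 0 →
      ∫ z in ball (0 : ℂ) 1, rv w z * (ev φ z).re ^ 2 ≤
        ∫ z in ball (0 : ℂ) 1, 4 * Complex.normSq (ev (dz (2 + 1) φ) z) := by
    intro φ hφ hm
    have h1 : I 4 (i84 w * φ) = 0 := by
      apply Complex.ext
      · have := ND.mean_re hw.real hφ
        rw [this, hm, mul_zero]; rfl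
      · have h2 : conj (I 4 (i84 w * φ)) = I 4 (i84 w * φ) := by
          rw [← I_cj, cj_mul, cj_incl, hw.real, hφ]
        rw [Complex.conj_eq_iff_im.1 h2]; rfl
    have h2 := hw.poinc φ hφ h1
    rw [ND.ip_re hw.real hφ, ND.dir_re hφ] at h2
    exact le_of_mul_le_mul_left h2 hpi
  have hDD : ∀ χ : Y (2 + 1 + 1), cj χ = χ → (∀ z : ℂ, ‖z‖ = 1 → ev χ z = 0) →
      ∫ z in ball (0 : ℂ) 1, rv w z * (ev χ z).re ^ 2 ≤
        ∫ z in ball (0 : ℂ) 1, 4 * Complex.normSq (ev (dz (2 + 1) χ) z) := by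
    intro χ hχ h1
    have h2 := hD χ hχ h1
    rw [ND.ip_re hw.real hχ, ND.dir_re hχ] at h2
    exact le_of_mul_le_mul_left h2 hpi
  have hlap : ∀ z ∈ ball (0 : ℂ) 1, ev (lap (2 + 1) U) z = -(rv w z * ev U z) := by
    intro y hy
    have hy1 : ‖y‖ ≤ 1 := (mem_ball_zero_iff.1 hy).le
    have e1 : lap 3 U = incl (by norm_num : 3 ≤ 6) (lap 6 u) := by
      rw [lap_apply, lap_apply, hU, map_smul]
      refine congrArg (fun T => (4 : ℂ) • T) ?_
      have h1 := dzb_incl (p := 4) (q := 7) (by norm_num) u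
      have h2 := dz_incl (p := 3) (q := 6) (by norm_num) (dzb 7 u)
      exact (congrArg (dz 3) h1).trans h2
    show ev (lap 3 U) y = _
    rw [e1, ev_incl, hu.eqn, ev_neg, ev_mul _ _ hy1, ev_incl, ev_incl, St.rv_eq hw.real, hU,
      ev_incl]
  have hnu : ∀ z : ℂ, ‖z‖ = 1 → ev (Rad (2 + 1 + 1) U) z = 0 := by
    intro y hy
    have e1 : Rad 4 U = incl (by norm_num : 4 ≤ 7) (Rad 7 u) := Rad_incl (by norm_num) u
    show ev (Rad 4 U) y = 0
    rw [e1, ev_incl, hu.neu y hy]
  have hne : ∃ z : ℂ, ‖z‖ < 1 ∧ ev U z ≠ 0 := by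
    by_contra hcon
    push Not at hcon
    apply hu0
    refine eq_zero_of_ev fun y hy => ?_
    have := hcon y hy
    rwa [hU, ev_incl] at this
  have hev0 : ev U z = 0 := by
    rw [hU, ev_incl, ← St.rv_eq hu.real, h0]; simp
  have key := no_critical_boundary_zero hUr (St.continuousOn_rv w)
    (fun y hy => hw.pos y (mem_closedBall_zero_iff.1 hy)) hN hDD hlap hnu hne hz hev0
  intro hang
  apply key
  -- tangential and radial derivatives vanish
  have e3 : ev (dzb 4 U) z = ev (dzb 7 u) z := by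
    have h1 := dzb_incl (p := 4) (q := 7) (by norm_num) u
    have h2 := congrArg (fun T => ev T z) h1
    simp only [ev_incl] at h2
    exact h2
  have e4 : ev (gradS U) z = 2 * ev (dzb 7 u) z := by
    rw [gradS, ev_smul]
    show 2 * ev (dzb 4 U) z = _
    rw [e3]
  rw [e4]
  have r1 := ev_Rad u hz.le
  rw [hu.neu z hz] at r1
  have r2 := ev_Ang u hz.le
  have hangr : cj (Ang 7 u) = Ang 7 u := by rw [cj_Ang, hu.real]
  rw [← St.rv_eq hangr, hang, Complex.ofReal_zero] at r2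
  have hI : Complex.I ≠ 0 := Complex.I_ne_zero
  have r3 : z * ev (dz 7 u) z - conj z * ev (dzb 7 u) z = 0 := by
    rcases mul_eq_zero.1 r2.symm with h | h
    · exact absurd h hI
    · exact h
  have hz0 : conj z ≠ 0 := by
    rw [Ne, map_eq_zero]
    rintro rfl
    simp at hz
  have r4 : conj z * (2 * ev (dzb 7 u) z) = 0 := by linear_combination (-1 : ℂ) * r1 - r3
  rcases mul_eq_zero.1 r4 with h | h
  · exact absurd h hz0
  · exact h

end Vale.Agent.P071.G
end
end

section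

/-!
# Block G: the continuity method
-/

open scoped ComplexConjugate Topology Real
open Filter Metric MeasureTheory

noncomputable section

namespace Vale.Agent.P071.G

theorem GoodW.DI {w : Y 8} (hw : AdW w) (h : GoodW w) : DI w := by
  obtain ⟨u, v, c, ha, hg⟩ := h
  exact DI_of_good hw ha.toTri hg

theorem D2_pos_of_DI {w u : Y 8} (hw : AdW w) (hD : G.DI w) (hu : IsV w u) (hu0 : u ≠ 0) :
    0 < D2 w u := D2_pos hw fun _ hz h0 => simple_zero hw hD hu hu0 hz h0

theorem ne_zero_of_norm {u : Y 8} (h : ‖u‖ = 1) : u ≠ 0 := by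
  rintro rfl
  simp at h

theorem i84_ne_zero {u : Y 8} (h : u ≠ 0) : i84 u ≠ 0 := by
  intro h0
  apply h
  apply i84_injective
  rw [h0, map_zero]

theorem ip_self_ne_zero {w u : Y 8} (hw : AdW w) (hu : IsV w u) (hu0 : u ≠ 0) :
    ip w (i84 u) (i84 u) ≠ 0 := by
  intro h
  have h1 := ip_pos hw (a := i84 u) (by rw [cj_incl, hu.real]) (i84_ne_zero hu0)
  rw [h] at h1
  simp at h1

/-- An admissible triple whose companion is a multiple of `u` has `v = 0`, `c = 1`. -/
theorem Adm.eq_zero_of_prop {w u : Y 8} {v : Y 4} {c : ℝ} (hw : AdW w) (h : Adm w u v c) {t : ℝ}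
    (hv : v = (t : ℂ) • i84 u) : v = 0 ∧ c = 1 := by
  have h1 := h.orth
  rw [hv, ip_smul_right] at h1
  have h2 := (mul_eq_zero.1 h1).resolve_right
    (ip_self_ne_zero hw h.hu (ne_zero_of_norm h.norm_u))
  have h3 : v = 0 := by rw [hv, h2, zero_smul]
  refine ⟨h3, ?_⟩
  have h4 := h.norm_v
  rw [h3, norm_zero, zero_add] at h4
  exact h4

theorem sig_self {w u : Y 8} (hu : cj u = u) : sig w u (i84 u) = 0 := by
  have h := (src_mean w u hu).2
  unfold sig
  refine Eq.trans ?_ h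
  refine intervalIntegral.integral_congr fun t _ => ?_
  simp only [rv, ev_incl]

theorem sig_add {w u : Y 8} {v v' : Y 4} : sig w u (v + v') = sig w u v + sig w u v' := by
  unfold sig
  rw [← intervalIntegral.integral_add]
  · refine intervalIntegral.integral_congr fun t _ => ?_
    have : ‖Complex.exp (t * Complex.I)‖ ≤ 1 := (Complex.norm_exp_ofReal_mul_I t).le
    simp only [rv_add _ _ this]
    ring
  all_goals
    refine Continuous.intervalIntegrable ?_ _ _
    have h1 := continuous_ev_circle u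
    have h2 := continuous_ev_circle (Ang 7 u)
    have h3 := continuous_ev_circle v
    have h4 := continuous_ev_circle v'
    unfold src gg rv
    fun_prop

theorem sig_smul {w u : Y 8} {v : Y 4} (t : ℝ) : sig w u ((t : ℂ) • v) = t * sig w u v := by
  unfold sig
  rw [← intervalIntegral.integral_const_mul]
  refine intervalIntegral.integral_congr fun t _ => ?_
  simp only [rv_smul]
  ring

theorem src_smul_sign {w u : Y 8} {s : ℝ} (hs : s = 1 ∨ s = -1) (z : ℂ) :
    src w ((s : ℂ) • u) z = s * src w u z := by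
  rcases hs with rfl | rfl
  · simp
  · have : (((-1 : ℝ) : ℂ) • u) = -u := by simp
    rw [this, src_neg, neg_one_mul]

/-- At a good weight all admissible triples are good. -/
theorem all_good {w : Y 8} (hw : AdW w) (h : GoodW w) {u : Y 8} {v : Y 4} {c : ℝ}
    (ha : Adm w u v c) : Good w u v c := by
  have hDI := h.DI hw
  obtain ⟨u₀, v₀, c₀, h₀, hg₀⟩ := h
  have hu0 : u ≠ 0 := ne_zero_of_norm ha.norm_u
  have hu₀ : u₀ ≠ 0 := ne_zero_of_norm h₀.norm_u
  have hip := ip_self_ne_zero hw ha.hu hu0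
  rcases h₀.hc.lt_or_eq with hc | hc
  · -- simple eigenvalue
    have hsim := fun {φ : Y 8} (hφ : IsV w φ) =>
      simple_of_good hw h₀ hg₀ hc (D2_pos_of_DI hw hDI h₀.hu hu₀) hφ
    obtain ⟨s, hs⟩ := hsim ha.hu
    have hs1 : s = 1 ∨ s = -1 := by
      have h1 := ha.norm_u
      rw [hs, norm_ofReal_smul, h₀.norm_u, mul_one] at h1
      exact eq_or_eq_neg_of_abs_eq h1
    have hss : s * s = 1 := by rcases hs1 with rfl | rfl <;> norm_num
    have hc1 : 0 < c := by
      rcases ha.hc.lt_or_eq with h1 | h1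
      · exact h1
      · exfalso
        have h2 : IsC w v (fun _ => 0) := ha.hv.congr fun z _ => by rw [← h1, zero_mul]
        obtain ⟨v', hv', hvv⟩ := lift_V h2
        obtain ⟨s', hs'⟩ := hsim hv'
        have h3 : v = ((s' * s : ℝ) : ℂ) • i84 u := by
          rw [hvv, hs', hs, map_smul, map_smul, smul_smul]
          congr 1
          have : ((s' * s : ℝ) : ℂ) * (s : ℂ) = ((s' * (s * s) : ℝ) : ℂ) := by push_cast; ring
          rw [this, hss, mul_one]
        have h4 := (ha.eq_zero_of_prop hw h3).2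
        rw [← h1] at h4
        norm_num at h4
    -- the difference has no source
    have h1 : IsC w (v + ((-(s * (c / c₀)) : ℝ) : ℂ) • v₀) (fun _ => 0) := by
      refine (ha.hv.add (h₀.hv.smul (-(s * (c / c₀))))).congr fun z _ => ?_
      rw [hs, src_smul_sign hs1]
      field_simp
      ring
    obtain ⟨v', hv', hvv⟩ := lift_V h1
    obtain ⟨s', hs'⟩ := hsim hv'
    have h2 : ip w (i84 u) (v + ((-(s * (c / c₀)) : ℝ) : ℂ) • v₀) = 0 := by
      rw [ip_add_right, ha.orth, ip_smul_right, hs, map_smul, ip_smul_left, h₀.orth]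
      ring
    have h3 : v + ((-(s * (c / c₀)) : ℝ) : ℂ) • v₀ = ((s' * s : ℝ) : ℂ) • i84 u := by
      rw [hvv, hs', hs, map_smul, map_smul, smul_smul]
      congr 1
      have : ((s' * s : ℝ) : ℂ) * (s : ℂ) = ((s' * (s * s) : ℝ) : ℂ) := by push_cast; ring
      rw [this, hss, mul_one]
    rw [h3, ip_smul_right] at h2
    rw [(mul_eq_zero.1 h2).resolve_right hip, zero_smul] at h3
    have h4 : v = ((s * (c / c₀) : ℝ) : ℂ) • v₀ := by
      rw [eq_neg_of_add_eq_zero_left h3, ← neg_smul]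
      congr 1
      push_cast
      ring
    have h5 := hg₀.scale hs1 (t := c / c₀) (by (clear * - hc1 hc; positivity))
    rw [← hs, ← h4, div_mul_cancel₀ _ hc.ne'] at h5
    exact h5
  · -- double eigenvalue
    subst hc
    obtain ⟨v₁, hv₁, hvv, hspan⟩ := double_of_good hw h₀ hg₀
    subst hvv
    obtain ⟨a, b, hab⟩ := hspan u ha.hu
    have hab0 : a ≠ 0 ∨ b ≠ 0 := by
      by_contra hcon
      push Not at hcon
      apply hu0
      rw [hab, hcon.1, hcon.2]
      simp
    set φ : Y 8 := (-b : ℂ) • u₀ + (a : ℂ) • v₁ with hφ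
    have hgφ : Good w u (i84 φ) 0 := by
      have := hg₀.rot hab0
      rw [← hab] at this
      exact this
    have hφV : IsV w φ := by
      have := (h₀.hu.smul (-b)).add (hv₁.smul a)
      rw [Complex.ofReal_neg] at this
      exact this
    have hsig := sig_pos_of_good hw ha.hu hφV hgφ (D2_pos_of_DI hw hDI ha.hu hu0)
    have hc0 : c = 0 := by
      have h1 := green_pair hφV ha.hv
      have h2 : ∫ t in (-π)..π, c * src w u (Complex.exp (t * Complex.I)) *
          rv φ (Complex.exp (t * Complex.I)) = c * sig w u (i84 φ) := by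
        unfold sig
        rw [← intervalIntegral.integral_const_mul]
        refine intervalIntegral.integral_congr fun t _ => ?_
        simp only [rv, ev_incl]
        ring
      rw [h2] at h1
      exact (mul_eq_zero.1 h1).resolve_right hsig.ne'
    subst hc0
    have h2 : IsC w v (fun _ => 0) := ha.hv.congr fun z _ => by rw [zero_mul]
    obtain ⟨v', hv', hvv⟩ := lift_V h2
    obtain ⟨a', b', hab'⟩ := hspan v' hv'
    -- v' as a combination of u and φ
    have hN : 0 < a ^ 2 + b ^ 2 := by rcases hab0 with h | h <;> (clear * - h; positivity)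
    obtain ⟨x, y, hxy⟩ : ∃ x y : ℝ, v' = (x : ℂ) • u + (y : ℂ) • φ := by
      refine ⟨(a * a' + b * b') / (a ^ 2 + b ^ 2), (a * b' - b * a') / (a ^ 2 + b ^ 2), ?_⟩
      have hN' : ((a : ℂ) ^ 2 + (b : ℂ) ^ 2) ≠ 0 := by exact_mod_cast hN.ne'
      rw [hab', hφ]
      conv_rhs => rw [hab]
      rw [smul_add, smul_add, smul_smul, smul_smul, smul_smul, smul_smul]
      have e1 : ∀ (k l k' l' : ℂ) (A B : Y 8), k • A + l • B + (k' • A + l' • B) =
          (k + k') • A + (l + l') • B := by intros; module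
      rw [e1]
      congr 1
      · congr 1
        push_cast
        field_simp
        ring
      · congr 1
        push_cast
        field_simp
        try ring
    have hvxy : v = (x : ℂ) • i84 u + (y : ℂ) • i84 φ := by
      rw [hvv, hxy, map_add, map_smul, map_smul]
    have hy : 0 < y := by
      have h3 : sig w u v = y * sig w u (i84 φ) := by
        rw [hvxy, sig_add, sig_smul, sig_smul, sig_self ha.hu.real]
        ring
      have h4 := ha.sig
      rw [h3] at h4
      have h5 : 0 ≤ y := by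
        by_contra hcon
        push Not at hcon
        have := mul_neg_of_neg_of_pos hcon hsig
        linarith only [h4, this]
      rcases h5.lt_or_eq with h6 | h6
      · exact h6
      · exfalso
        have h7 : v = (x : ℂ) • i84 u := by rw [hvxy, ← h6]; simp
        have h8 := (ha.eq_zero_of_prop hw h7).2
        norm_num at h8
    rw [hvxy]
    exact hgφ.shear hy

/-- At a good weight every eigenfunction has a zero on the circle. -/
theorem all_zero {w : Y 8} (hw : AdW w) (h : GoodW w) {u : Y 8} (hu : IsV w u) :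
    ∃ z : ℂ, ‖z‖ = 1 ∧ rv u z = 0 := by
  have hDI := h.DI hw
  obtain ⟨u₀, v₀, c₀, h₀, hg₀⟩ := h
  have hu₀ : u₀ ≠ 0 := ne_zero_of_norm h₀.norm_u
  rcases h₀.hc.lt_or_eq with hc | hc
  · obtain ⟨s, hs⟩ := simple_of_good hw h₀ hg₀ hc (D2_pos_of_DI hw hDI h₀.hu hu₀) hu
    obtain ⟨z, hz, hz0⟩ := h₀.zero
    exact ⟨z, hz, by rw [hs, rv_smul, hz0, mul_zero]⟩
  · subst hc
    obtain ⟨v₁, hv₁, hvv, hspan⟩ := double_of_good hw h₀ hg₀
    subst hvv
    obtain ⟨a, b, hab⟩ := hspan u hu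
    by_cases hab0 : a ≠ 0 ∨ b ≠ 0
    · have hφV : IsV w ((-b : ℂ) • u₀ + (a : ℂ) • v₁) := by
        have := (h₀.hu.smul (-b)).add (hv₁.smul a)
        rw [Complex.ofReal_neg] at this
        exact this
      have hg := hg₀.rot hab0
      rw [← hab] at hg
      exact exists_zero_of_good hw hu hφV hg
    · push Not at hab0
      refine ⟨1, by simp only [norm_one], ?_⟩
      rw [hab, hab0.1, hab0.2]
      simp [rv]

theorem goodW_closed {w : Y 8} (hw : AdW w) {wn : ℕ → Y 8} (hwn : Tendsto wn atTop (𝓝 w))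
    (hadw : ∀ n, AdW (wn n)) (h : ∀ n, GoodW (wn n)) : GoodW w := by
  have hDI : DI w := DI_closed hwn fun n => (h n).DI (hadw n)
  choose un vn cn han hgn using h
  obtain ⟨ν, u, v, c, hν, hu, hv, hc, ha⟩ := cpt_adm hw hwn han
  refine ⟨u, v, c, ha, ?_⟩
  have hu0 : u ≠ 0 := ne_zero_of_norm ha.norm_u
  rcases closed_seq hw ha.toTri (hwn.comp hν.tendsto_atTop) hu hv hc (fun n => hgn (ν n)) with
    hg | h0
  · exact hg
  · exfalso
    obtain ⟨t, ht⟩ := prop_of_psi_zero ha.hu ha.hv hu0 fun z hz => h0 z hz.le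
    have hc1 := (ha.eq_zero_of_prop hw ht).2
    obtain ⟨z, hz, hz0⟩ := ha.zero
    have h1 := psi_circle ha.toTri hz
    rw [h0 z hz.le, hz0, hc1] at h1
    have hD := D2_pos_of_DI hw hDI ha.hu hu0
    have h2 : 0 < Gam (D2 w u) 0 := by
      unfold Gam
      have : 0 < max (D2 w u - 0 ^ 2) 0 := lt_max_of_lt_left (by simpa only [ne_eq, OfNat.ofNat_ne_zero, not_false_eq_true, zero_pow, sub_zero] using hD)
      (clear * - this; positivity)
    linarith only [h1, h2]

theorem goodW_open {w : Y 8} (hw : AdW w) (h : GoodW w) {wn : ℕ → Y 8}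
    (hwn : Tendsto wn atTop (𝓝 w)) (hadw : ∀ n, AdW (wn n))
    (hV : ∀ n, ∃ u, IsV (wn n) u ∧ u ≠ 0) : ∃ n, GoodW (wn n) := by
  have hV1 : ∀ n, ∃ u, IsV (wn n) u ∧ ‖u‖ = 1 := by
    intro n
    obtain ⟨u, hu, hu0⟩ := hV n
    refine ⟨((‖u‖⁻¹ : ℝ) : ℂ) • u, hu.smul _, ?_⟩
    rw [norm_ofReal_smul, abs_of_pos (by positivity), inv_mul_cancel₀ (norm_ne_zero_iff.2 hu0)]
  choose un hun hn using hV1
  obtain ⟨ν, u, hν, hu, huV, hun1⟩ := cpt_V hw hwn hun hn
  have hu0 : u ≠ 0 := ne_zero_of_norm hun1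
  have hD := D2_pos_of_DI hw (h.DI hw) huV hu0
  have hzero := zero_of_tendsto hw huV.real hD (all_zero hw h huV) hu
  obtain ⟨N, hN⟩ := eventually_atTop.1 hzero
  have hadm : ∀ n, ∃ (v : Y 4) (c : ℝ), Adm (wn (ν (N + n))) (un (ν (N + n))) v c := fun n =>
    exists_adm (hadw _) (hun _) (hn _) (hN _ (Nat.le_add_right _ _))
  choose vn cn hvc using hadm
  have hwn' : Tendsto (fun n => wn (ν (N + n))) atTop (𝓝 w) := by
    refine hwn.comp (hν.tendsto_atTop.comp ?_)
    exact tendsto_atTop_mono (fun n => Nat.le_add_left n N) tendsto_id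
  obtain ⟨ν', u', v', c', hν', hu', hv', hc', ha'⟩ := cpt_adm hw hwn' hvc
  have hg' := all_good hw h ha'
  have hev := open_seq hw ha'.toTri hg' (hwn'.comp hν'.tendsto_atTop) hu' hv' hc'
    (fun n => hadw _) (fun n => (hvc (ν' n)).toTri)
  obtain ⟨n, hn⟩ := hev.exists
  exact ⟨_, _, _, _, hvc (ν' n), hn⟩

/-- The continuity method. -/
theorem path_theorem {w : ℝ → Y 8} {a b : ℝ} (hab : a ≤ b) (hc : ContinuousOn w (Set.Icc a b))
    (hadw : ∀ s ∈ Set.Icc a b, AdW (w s)) (hV : ∀ s ∈ Set.Icc a b, ∃ u, IsV (w s) u ∧ u ≠ 0)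
    (h0 : GoodW (w a)) : GoodW (w b) := by
  set S : Set (Set.Icc a b) := {s | GoodW (w s)} with hS
  have hcr : Continuous fun s : Set.Icc a b => w s := continuousOn_iff_continuous_domRestrict.1 hc
  have hclosed : IsClosed S := by
    apply IsSeqClosed.isClosed
    intro x s hx hxs
    exact goodW_closed (hadw _ s.2) ((hcr.tendsto s).comp hxs) (fun n => hadw _ (x n).2)
      (fun n => hx n)
  have hopen : IsOpen S := by
    rw [← isClosed_compl_iff]
    apply IsSeqClosed.isClosed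
    intro x s hx hxs hs
    obtain ⟨n, hn⟩ := goodW_open (hadw _ s.2) hs ((hcr.tendsto s).comp hxs)
      (fun n => hadw _ (x n).2) (fun n => hV _ (x n).2)
    exact hx n hn
  have : PreconnectedSpace (Set.Icc a b) := Subtype.preconnectedSpace isPreconnected_Icc
  have huniv : S = Set.univ := IsClopen.eq_univ ⟨hclosed, hopen⟩
    ⟨⟨a, Set.left_mem_Icc.2 hab⟩, h0⟩
  have : (⟨b, Set.right_mem_Icc.2 hab⟩ : Set.Icc a b) ∈ S := by rw [huniv]; trivial
  exact this

end Vale.Agent.P071.G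
end
end

section

/-!
# Classical form of the Neumann problems
-/

open scoped ComplexConjugate Topology Real
open Metric Filter MeasureTheory Set

noncomputable section

namespace Vale.Agent.P071

variable {p q : ℕ}

theorem T0_eq_Sol (k u : Y (p + 1)) : T0 k u = Sol p (incl (Nat.le_succ p) (k * u)) := by
  rw [Sol_incl]; rfl

theorem lap_T0 (k u : Y (p + 1 + 1)) :
    lap p (T0 k u) = -incl (show p ≤ p + 1 + 1 by omega) (k * u) := by
  rw [T0_eq_Sol, lap_Sol]
  congr 1
  ext i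
  simp only [Nat.succ_eq_add_one, cf_incl]

theorem ev_Rad_T0 (k u : Y (p + 1)) {z : ℂ} (hz : ‖z‖ = 1) :
    ev (Rad p (T0 k u)) z = -(1 / 2) * I (p + 1) (k * u) := by
  rw [T0_eq_Sol, ev_Rad_Sol _ hz, I_incl]

theorem Bd_eq_zero {a : Y p} (h : ∀ z, ‖z‖ = 1 → ev a z = 0) : Bd p a = 0 := by
  rw [Bd_eq_integral]
  have : ∀ θ : ℝ, ev a (Complex.exp (θ * Complex.I)) = 0 := fun θ =>
    h _ (Complex.norm_exp_ofReal_mul_I θ)
  simp only [this, intervalIntegral.integral_zero, zero_div]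

theorem Bd_mul_eq_zero {a b : Y p} (h : ∀ z, ‖z‖ = 1 → ev b z = 0) : Bd p (a * b) = 0 :=
  Bd_eq_zero fun z hz => by rw [ev_mul _ _ hz.le, h z hz, mul_zero]

/-- Harmonic with zero normal derivative: constant. -/
theorem eq_const_of_harmonic {d : Y (p + 1 + 1)} (hl : lap p d = 0)
    (hr : ∀ z, ‖z‖ = 1 → ev (Rad (p + 1) d) z = 0) : d = cf d 0 • one1 (p + 1 + 1) := by
  refine eq_const_of_Dir (p := p + 1) ?_
  have h := Dir_add_lap (cj d) d
  rw [hl, ser_mul_zero, map_zero, add_zero, Bd_mul_eq_zero hr, mul_zero] at h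
  rw [Dir_comm, h, Complex.zero_re]

theorem Dir_one1 (a : Y (p + 1)) : Dir p (one1 (p + 1)) a = 0 := by
  rw [Dir_eq, dz_one1, dzb_one1]
  simp

theorem incl_one1 (h : p ≤ q) : incl h (one1 q) = one1 p := incl_e _ _

/-- `∫ Δv = ∮ v_ν`. -/
theorem I_lap (v : Y (p + 1 + 1)) : I p (lap p v) = 2 * Bd (p + 1) (Rad (p + 1) v) := by
  have h := Dir_add_lap (one1 (p + 1 + 1)) v
  rwa [Dir_one1, zero_add, incl_one1, incl_one1, one1_mul, one1_mul] at h

theorem Bd_congr {a b : Y p} (h : ∀ z, ‖z‖ = 1 → ev a z = ev b z) : Bd p a = Bd p b := by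
  rw [← sub_eq_zero, ← map_sub]
  exact Bd_eq_zero fun z hz => by rw [ev_sub _ _ hz.le, h z hz, sub_self]

/-- From the classical form to the integral form. -/
theorem integral_form {k v n : Y (p + 1 + 1)}
    (hv : lap p v = -(incl (show p ≤ p + 1 + 1 by omega) k * incl (show p ≤ p + 1 + 1 by omega) v))
    (hn : lap p n = 0)
    (hr : ∀ z, ‖z‖ = 1 → ev (Rad (p + 1) v) z = ev (Rad (p + 1) n) z) :
    I (p + 1 + 1) (k * v) = 0 ∧ v = T0 k v + n + (cf v 0 - cf n 0) • one1 (p + 1 + 1) := by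
  have h1 : I (p + 1 + 1) (k * v) = 0 := by
    have e1 := I_lap v
    have e2 := I_lap n
    rw [Bd_congr hr, ← e2, hn, map_zero, hv, map_neg, ← incl_mul, I_incl, neg_eq_zero] at e1
    exact e1
  refine ⟨h1, ?_⟩
  set d := v - T0 k v - n with hd
  have hl : lap p d = 0 := by
    rw [hd, map_sub, map_sub, lap_T0, hv, hn, incl_mul]
    abel
  have hR : ∀ z, ‖z‖ = 1 → ev (Rad (p + 1) d) z = 0 := by
    intro z hz
    rw [hd, map_sub, map_sub, ev_sub _ _ hz.le, ev_sub _ _ hz.le, ev_Rad_T0 k v hz, h1, hr z hz]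
    ring
  have h2 := eq_const_of_harmonic hl hR
  have h3 : cf d 0 = cf v 0 - cf n 0 := by
    rw [hd, cf_sub, cf_sub, cf_T0_zero, sub_zero]
  rw [h3] at h2
  rw [← h2, hd]
  abel

/-- From the integral form to the classical form. -/
theorem classical_form {k v n : Y (p + 1 + 1)} {α : ℂ} (h1 : I (p + 1 + 1) (k * v) = 0)
    (h2 : v = T0 k v + n + α • one1 (p + 1 + 1)) (hn : lap p n = 0) :
    lap p v = -(incl (show p ≤ p + 1 + 1 by omega) k * incl (show p ≤ p + 1 + 1 by omega) v) ∧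
    ∀ z, ‖z‖ = 1 → ev (Rad (p + 1) v) z = ev (Rad (p + 1) n) z := by
  have hone : lap p (one1 (p + 1 + 1)) = 0 := by rw [lap_apply, dzb_one1, map_zero, smul_zero]
  have hone2 : Rad (p + 1) (one1 (p + 1 + 1)) = 0 := by rw [one1, Rad_e]; simp only [Prod.fst_zero, CharP.cast_eq_zero, Prod.snd_zero, add_zero, zero_smul]
  constructor
  · conv_lhs => rw [h2]
    rw [map_add, map_add, map_smul, hone, smul_zero, add_zero, hn, add_zero, lap_T0, incl_mul]
  · intro z hz
    conv_lhs => rw [h2]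
    rw [map_add, map_add, map_smul, hone2, smul_zero, add_zero, ev_add _ _ hz.le,
      ev_Rad_T0 k v hz, h1]
    ring

/-- Classical form of the eigenvalue problem (eigenvalue `1`). -/
theorem isEig_one_iff {k u : Y (p + 1 + 1)} : IsEig k 1 u ↔ cj u = u ∧
    lap p u = -(incl (show p ≤ p + 1 + 1 by omega) k * incl (show p ≤ p + 1 + 1 by omega) u) ∧
    ∀ z, ‖z‖ = 1 → ev (Rad (p + 1) u) z = 0 := by
  constructor
  · intro h
    have h1 : u = T0 k u + 0 + cf u 0 • one1 (p + 1 + 1) := by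
      have := h.eqn
      rwa [Complex.ofReal_one, one_smul] at this |> fun h => by rw [add_zero]; exact h
    obtain ⟨h2, h3⟩ := classical_form h.mean h1 (map_zero _)
    refine ⟨h.real, h2, fun z hz => ?_⟩
    rw [h3 z hz, map_zero, ev_zero]
  · rintro ⟨h1, h2, h3⟩
    obtain ⟨h4, h5⟩ := integral_form h2 (map_zero _) (n := 0) (fun z hz => by
      rw [h3 z hz, map_zero, ev_zero])
    refine ⟨h1, h4, ?_⟩
    rw [cf_zero, sub_zero, add_zero] at h5
    rw [Complex.ofReal_one, one_smul]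
    exact h5

/-- Scaling of the weight. -/
theorem isEig_smul_weight {k u : Y p} {μ t : ℝ} (ht : t ≠ 0) :
    IsEig ((t : ℂ) • k) μ u ↔ IsEig k (t * μ) u := by
  have htc : (t : ℂ) ≠ 0 := by exact_mod_cast ht
  have hT : T0 ((t : ℂ) • k) u = (t : ℂ) • T0 k u := by
    rw [T0_apply, T0_apply, ser_smul_mul, map_smul, map_smul]
  constructor
  · rintro ⟨h1, h2, h3⟩
    refine ⟨h1, ?_, ?_⟩
    · rw [ser_smul_mul, map_smul] at h2
      rcases smul_eq_zero.1 h2 with h | h
      · exact absurd h htc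
      · exact h
    · rw [hT, smul_smul, ← Complex.ofReal_mul, mul_comm μ t] at h3
      exact h3
  · rintro ⟨h1, h2, h3⟩
    refine ⟨h1, ?_, ?_⟩
    · rw [ser_smul_mul, map_smul, h2, smul_zero]
    · rw [hT, smul_smul, ← Complex.ofReal_mul, mul_comm μ t]
      exact h3

theorem IsW.smul {k : Y p} (hk : IsW k) {t : ℝ} (ht : 0 < t) : IsW ((t : ℂ) • k) where
  real := by rw [cj_smul, Complex.conj_ofReal, hk.real]
  pos z hz := by
    rw [ev_smul, Complex.re_ofReal_mul]
    exact mul_pos ht (hk.pos z hz)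

theorem mu1_smul {k : Y p} (hk : IsW k) {t : ℝ} (ht : 0 < t) : mu1 ((t : ℂ) • k) = mu1 k / t := by
  refine le_antisymm ?_ ?_
  · obtain ⟨u, hu, huE⟩ := exists_isEig hk
    refine ((isEig_smul_weight ht.ne').2 ?_).mu1_le (hk.smul ht) hu
    rwa [mul_div_cancel₀ _ ht.ne']
  · obtain ⟨u, hu, huE⟩ := exists_isEig (hk.smul ht)
    have := ((isEig_smul_weight ht.ne').1 huE).mu1_le hk hu
    rw [div_le_iff₀ ht, mul_comm]
    exact this

/-- The normalised weight has first eigenvalue `1`. -/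
theorem mu1_normalised {k : Y p} (hk : IsW k) : mu1 ((mu1 k : ℂ) • k) = 1 := by
  rw [mu1_smul hk (mu1_pos hk), div_self (mu1_pos hk).ne']

/-- Energy of a solution with source: `Dir v v - I(k v v) = 2 Bd (v v_ν)`. -/
theorem energy_source {k v : Y (p + 1 + 1)}
    (hv : lap p v = -(incl (show p ≤ p + 1 + 1 by omega) k *
      incl (show p ≤ p + 1 + 1 by omega) v)) (a : Y (p + 1 + 1)) :
    Dir (p + 1) a v - I (p + 1 + 1) (k * (a * v)) =
      2 * Bd (p + 1) (incl (Nat.le_succ _) a * Rad (p + 1) v) := by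
  rw [← Dir_add_lap, hv, sub_eq_add_neg]
  congr 1
  have hneg : ∀ x y : Y p, x * (-y) = -(x * y) := fun x y => by simp only [mul_def, map_neg]
  rw [hneg, map_neg, ← incl_mul, ← incl_mul, I_incl, ← ser_mul_assoc, ← ser_mul_assoc,
    ser_mul_comm a k]

end Vale.Agent.P071
end
end

section

/-!
# Block G, task G-CMP, part A: existence of companions and compactness
-/

open scoped ComplexConjugate Topology Real
open Filter Metric MeasureTheory

noncomputable section

namespace Vale.Agent.P071.G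

theorem AdW.isW {w : Y 8} (hw : AdW w) : IsW w := ⟨hw.real, hw.pos⟩

theorem isV_iff {w u : Y 8} : IsV w u ↔ IsEig w 1 u := by
  rw [isEig_one_iff (p := 6)]
  exact ⟨fun h => ⟨h.real, h.eqn, h.neu⟩, fun h => ⟨h.1, h.2.1, h.2.2⟩⟩

end Vale.Agent.P071.G
end
end

section

/-!
# Block G: normalised weights are admissible
-/

open scoped ComplexConjugate Topology Real
open Filter Metric MeasureTheory

noncomputable section

namespace Vale.Agent.P071.G

/-- The normalised weight is admissible. -/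
theorem adW_of {k : Y 8} (hk : IsW k)
    (hcurv : ∀ z : ℂ, ‖z‖ < 1 → 0 < mu1 k * rv k z ^ 3 +
      4 * ((ev (dzb 6 (dz 7 k)) z).re * rv k z - Complex.normSq (ev (dz 7 k) z))) :
    AdW ((mu1 k : ℂ) • k) := by
  have hμ := mu1_pos hk
  have hw := hk.smul hμ
  refine ⟨hw.real, hw.pos, fun z hz => ?_, fun a ha hm => ?_⟩
  · have h1 := hcurv z hz
    have e1 : rv ((mu1 k : ℂ) • k) z = mu1 k * rv k z := by
      unfold rv
      rw [ev_smul, Complex.re_ofReal_mul]
    have e2 : (ev (dzb 6 (dz 7 ((mu1 k : ℂ) • k))) z).re =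
        mu1 k * (ev (dzb 6 (dz 7 k)) z).re := by
      rw [map_smul, map_smul, ev_smul, Complex.re_ofReal_mul]
    have e3 : Complex.normSq (ev (dz 7 ((mu1 k : ℂ) • k)) z) =
        mu1 k ^ 2 * Complex.normSq (ev (dz 7 k) z) := by
      rw [map_smul, ev_smul, Complex.normSq_mul, Complex.normSq_ofReal]
      ring
    rw [e1, e2, e3]
    have h2 : (mu1 k * rv k z) ^ 3 + 4 * (mu1 k * (ev (dzb 6 (dz 7 k)) z).re * (mu1 k * rv k z) -
        mu1 k ^ 2 * Complex.normSq (ev (dz 7 k) z)) = mu1 k ^ 2 * (mu1 k * rv k z ^ 3 +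
      4 * ((ev (dzb 6 (dz 7 k)) z).re * rv k z - Complex.normSq (ev (dz 7 k) z))) := by ring
    rw [h2]
    (clear * - hμ h1; positivity)
  · set w : Y 8 := (mu1 k : ℂ) • k with hwdef
    have h83 : (3 : ℕ) ≤ 8 := by norm_num
    have hw3 : IsW (incl h83 w) := hw.incl h83
    have hm1 : mu1 (incl h83 w) = 1 := by rw [mu1_incl hw h83, hwdef, mu1_normalised hk]
    have e1 : incl (Nat.le_succ 3) (i84 w * a) = incl h83 w * incl (Nat.le_succ 3) a := by
      rw [incl_mul]
      congr 1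
      ext i; simp only [Nat.succ_eq_add_one, Nat.reduceAdd, cf_incl]
    have e2 : incl (Nat.le_succ 3) (i84 w * (a * a)) =
        incl h83 w * (incl (Nat.le_succ 3) a * incl (Nat.le_succ 3) a) := by
      rw [incl_mul, incl_mul]
      congr 1
      ext i; simp only [Nat.succ_eq_add_one, Nat.reduceAdd, cf_incl]
    have h1 := poincare hw3 (φ := a) ha (by rw [← e1, I_incl]; exact hm)
    rw [hm1, one_mul, ← e2, I_incl] at h1
    exact h1

/-- First eigenfunctions for the normalised weight. -/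
theorem exists_isV {k : Y 8} (hk : IsW k) : ∃ u, IsV ((mu1 k : ℂ) • k) u ∧ u ≠ 0 := by
  obtain ⟨u, hu, huE⟩ := exists_isEig hk
  refine ⟨u, ?_, hu⟩
  rw [isV_iff, isEig_smul_weight (mu1_pos hk).ne', mul_one]
  exact huE

/-- The normalised weight depends continuously on the weight. -/
theorem continuousOn_normalised {X : Type*} [TopologicalSpace X] [FirstCountableTopology X]
    {S : Set X} {k : X → Y 8} (hk : ContinuousOn k S) (hW : ∀ s ∈ S, IsW (k s)) :
    ContinuousOn (fun s => (mu1 (k s) : ℂ) • k s) S := by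
  have hmu : ContinuousOn (fun s => mu1 (k s)) S := by
    rw [continuousOn_iff_continuous_domRestrict] at hk ⊢
    rw [continuous_iff_seqContinuous]
    intro x s hx
    refine tendsto_mu1 (fun n => hW _ (x n).2) (hW _ s.2) ?_
    exact (hk.tendsto s).comp hx
  exact (Complex.continuous_ofReal.comp_continuousOn hmu).smul hk

end Vale.Agent.P071.G
end
end

section

/-!
# The base weight: Poincare inequality with constant one, and the case of equality
-/

open scoped ComplexConjugate Topology Real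
open Metric Filter MeasureTheory Set

noncomputable section

namespace Vale.Agent.P071.B0

variable {p q : ℕ}

attribute [local instance] serRing

/-- Division by `z` of the modes of order one. -/
def Dm (p : ℕ) : Y p →L[ℂ] Y p :=
  lift (fun i => if ord i = 1 then e p (i.1 - 1, i.2) else 0) 1 zero_le_one fun i => by
    split_ifs with h
    · rw [norm_e, one_mul]
      unfold wt
      gcongr
      exact_mod_cast Nat.sub_le _ _
    · rw [norm_zero, one_mul]; exact (wt_pos p i).le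

@[simp] theorem Dm_e (i : Ix) : Dm p (e p i) = if ord i = 1 then e p (i.1 - 1, i.2) else 0 :=
  lift_e _ _ _ _ _

theorem mul_Dm (a : Y p) : e p (1, 0) * Dm p a = Pr p (fun k => k = 1) a := by
  have : (mulL p (e p (1, 0))).comp (Dm p) = Pr p (fun k => k = 1) := Y.clm_ext fun i => by
    show e p (1, 0) * Dm p (e p i) = Pr p (fun k => k = 1) (e p i)
    rw [Dm_e, Pr_e]
    by_cases h : ord i = 1
    · rw [if_pos h, if_pos h, e_mul_e]
      congr 1
      rcases i with ⟨m, n⟩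
      simp only [ord] at h
      refine Prod.ext ?_ ?_
      · show 1 + (m - 1) = m
        omega
      · show 0 + n = n
        omega
    · rw [if_neg h, if_neg h, ser_mul_zero]
  exact congrArg (fun T : Y p →L[ℂ] Y p => T a) this

theorem isRad_Dm (a : Y p) : IsRad (Dm p a) := by
  have : (Pr p (fun k => k = 0)).comp (Dm p) = Dm p := Y.clm_ext fun i => by
    rw [ContinuousLinearMap.comp_apply, Dm_e]
    by_cases h : ord i = 1
    · rw [if_pos h, Pr_e, if_pos]
      rw [ord_eq_zero]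
      simp only [ord] at h
      show i.1 - 1 = i.2
      omega
    · rw [if_neg h, map_zero]
  exact congrArg (fun T : Y p →L[ℂ] Y p => T a) this

theorem IsRad.smul {a : Y p} (h : IsRad a) (c : ℂ) : IsRad (c • a) := by
  unfold IsRad
  rw [map_smul, h]

/-- The factor of the modes of order one. -/
def gf (a : Y p) : Y p := (3 : ℂ) • (geo p 3 * Dm p a)

theorem isRad_gf (a : Y p) : IsRad (gf a) :=
  (IsRad.mul (isRad_geo (by norm_num)) (isRad_Dm a)).smul 3

theorem fz_mul_gf (a : Y p) : fz p * gf a = Pr p (fun k => k = 1) a := by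
  rw [← mul_Dm, gf, fz]
  have h := geo_mul (p := p) (b := 3) (by norm_num)
  have h2 : one1 p - ((1 / 3 : ℝ) : ℂ) • sq p =
      (1 / 3 : ℂ) • (((3 : ℝ) : ℂ) • one1 p - sq p) := by
    rw [smul_sub, smul_smul]
    push_cast
    congr 1
    rw [show ((1 : ℂ) / 3 * 3) = 1 by norm_num, one_smul]
  rw [h2, ser_mul_smul, ser_mul_smul, ser_smul_mul, smul_smul]
  have h3 : e p (1, 0) * (((3 : ℝ) : ℂ) • one1 p - sq p) * (geo p 3 * Dm p a) =
      (geo p 3 * (((3 : ℝ) : ℂ) • one1 p - sq p)) * (e p (1, 0) * Dm p a) := by ring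
  rw [h3, h, one1_mul]
  norm_num

/-- Picone's identity for the modes of order one. -/
theorem mode1_identity {g : Y (p + 1 + 1)} (hg : IsRad g) :
    Dir (p + 1) (fz _ * g) (cj (fz _ * g)) =
      I (p + 1 + 1) (kz _ * (fz _ * g) * cj (fz _ * g)) +
      I (p + 1) (fz (p + 1) * cj (fz (p + 1)) *
        (dx (p + 1) g * dx (p + 1) (cj g) + dy (p + 1) g * dy (p + 1) (cj g))) := by
  rw [cj_mul, picone]
  have h0 : incl (Nat.le_succ (p + 1)) (fz (p + 1 + 1)) = fz (p + 1) := incl_fz _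
  have h0' : incl (Nat.le_succ (p + 1)) (cj (fz (p + 1 + 1))) = cj (fz (p + 1)) := by
    rw [← cj_incl, h0]
  rw [h0, h0', wronsk_zero hg, ser_mul_zero, map_zero, add_zero]
  congr 1
  have h1 := Dir_add_lap (cj (fz _) * g * cj g) (fz (p + 1 + 1))
  have h2 : Bd (p + 1) (incl (Nat.le_succ _) (cj (fz _) * g * cj g) * Rad (p + 1) (fz _)) = 0 := by
    refine Bd_eq_zero fun z hz => ?_
    rw [ev_mul _ _ hz.le, Rad_fz hz, mul_zero]
  rw [h2, mul_zero, lap_fz] at h1
  rw [eq_neg_of_add_eq_zero_left h1, ← map_neg]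
  refine I_congr_ev fun z hz => ?_
  have h3 := congrArg (fun a => ev a z) (kz_mul_fz (p := p + 1 + 1))
  simp only [ev_mul _ _ hz.le, ev_smul, ev_e] at h3
  simp only [ev_neg, ev_mul _ _ hz.le, ev_incl, ev_smul, ev_e]
  linear_combination (-(ev (cj (fz (p + 1 + 1))) z * ev g z * ev (cj g) z)) * h3

theorem ev_grad (g : Y (p + 1)) {z : ℂ} (hz : ‖z‖ ≤ 1) :
    ev (dx p g * dx p (cj g) + dy p g * dy p (cj g)) z =
      ((‖ev (dx p g) z‖ ^ 2 + ‖ev (dy p g) z‖ ^ 2 : ℝ) : ℂ) := by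
  rw [ev_add _ _ hz, ev_mul _ _ hz, ev_mul _ _ hz, ← cj_dx, ← cj_dy, ev_cj, ev_cj,
    Complex.mul_conj, Complex.mul_conj, Complex.normSq_eq_norm_sq, Complex.normSq_eq_norm_sq]
  push_cast
  rfl

theorem ev_ff {z : ℂ} (hz : ‖z‖ ≤ 1) :
    ev (fz p * cj (fz p)) z = ((‖ev (fz p) z‖ ^ 2 : ℝ) : ℂ) := by
  rw [ev_mul _ _ hz, ev_cj, Complex.mul_conj, Complex.normSq_eq_norm_sq]

theorem ev_ffgrad (g : Y (p + 1)) {z : ℂ} (hz : ‖z‖ ≤ 1) :
    (ev (fz p * cj (fz p) * (dx p g * dx p (cj g) + dy p g * dy p (cj g))) z).re =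
      ‖ev (fz p) z‖ ^ 2 * (‖ev (dx p g) z‖ ^ 2 + ‖ev (dy p g) z‖ ^ 2) := by
  rw [ev_mul _ _ hz, ev_ff hz, ev_grad g hz, ← Complex.ofReal_mul, Complex.ofReal_re]

theorem ffgrad_nonneg (g : Y (p + 1)) :
    0 ≤ (I p (fz p * cj (fz p) * (dx p g * dx p (cj g) + dy p g * dy p (cj g)))).re :=
  I_re_nonneg fun z hz => by rw [ev_ffgrad g hz.le]; (clear * -; positivity)

/-! ### Orthogonality of the modes -/

abbrev one' : ℤ → Prop := fun k => |k| = 1
abbrev zer : ℤ → Prop := fun k => k = 0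

theorem sum_modes (a : Y p) : a = Pr p zer a + Pr p one' a + Pr p hi a := by
  ext i
  simp only [cf_add, cf_Pr]
  have h : (ord i = 0 ∧ ¬ |ord i| = 1 ∧ ¬ 2 ≤ |ord i|) ∨ (¬ ord i = 0 ∧ |ord i| = 1 ∧ ¬ 2 ≤ |ord i|) ∨
      (¬ ord i = 0 ∧ ¬ |ord i| = 1 ∧ 2 ≤ |ord i|) := by
    rcases abs_cases (ord i) with h | h <;> omega
  rcases h with ⟨h1, h2, h3⟩ | ⟨h1, h2, h3⟩ | ⟨h1, h2, h3⟩
  · rw [if_pos h1, if_neg h2, if_neg h3]; ring
  · rw [if_neg h1, if_pos h2, if_neg h3]; ring
  · rw [if_neg h1, if_neg h2, if_pos h3]; ring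

section

variable {s : ℤ → Prop} [DecidablePred s]

theorem Pr_congr {t : ℤ → Prop} [DecidablePred t] (h : ∀ k, s k ↔ t k) : Pr p s = Pr p t := by
  refine Y.clm_ext fun i => ?_
  rw [Pr_e, Pr_e]
  by_cases h1 : s (ord i)
  · rw [if_pos h1, if_pos ((h _).1 h1)]
  · rw [if_neg h1, if_neg (fun h2 => h1 ((h _).2 h2))]

theorem Dir_Pr_self (hs : ∀ k, s (-k) ↔ s k) (a : Y (p + 1)) :
    Dir p (Pr (p + 1) s a) a = Dir p (Pr (p + 1) s a) (Pr (p + 1) s a) := by
  have h1 : Dir p (Pr (p + 1) s a) a = Dir p (Pr (p + 1) s (Pr (p + 1) s a)) a := by rw [Pr_Pr]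
  rw [h1, Dir_Pr, Pr_congr hs]

theorem I_Pr_self (hs : ∀ k, s (-k) ↔ s k) {w : Y p} (hw : IsRad w) (a : Y p) :
    I p (w * Pr p s a * a) = I p (w * Pr p s a * Pr p s a) := by
  have h1 : w * Pr p s a = Pr p s (w * Pr p s a) := by rw [Pr_rad_mul s hw, Pr_Pr]
  conv_lhs => rw [h1]
  rw [I_Pr_mul, Pr_congr hs]

theorem even_zer : ∀ k, zer (-k) ↔ zer k := fun k => neg_eq_zero
theorem even_one' : ∀ k, one' (-k) ↔ one' k := fun k => by simp [one']
theorem even_hi : ∀ k, hi (-k) ↔ hi k := fun k => by simp only [hi, abs_neg]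

end

theorem Dir_modes (a : Y (p + 1)) :
    Dir p a a = Dir p (Pr (p + 1) zer a) (Pr (p + 1) zer a) +
      Dir p (Pr (p + 1) one' a) (Pr (p + 1) one' a) + Dir p (Pr (p + 1) hi a) (Pr (p + 1) hi a) := by
  rw [← Dir_Pr_self even_zer, ← Dir_Pr_self even_one', ← Dir_Pr_self even_hi]
  simp only [← DirL_apply]
  rw [← add_apply, ← add_apply, ← map_add, ← map_add, ← sum_modes]

theorem I_modes {w : Y p} (hw : IsRad w) (a : Y p) :
    I p (w * a * a) = I p (w * Pr p zer a * Pr p zer a) + I p (w * Pr p one' a * Pr p one' a) +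
      I p (w * Pr p hi a * Pr p hi a) := by
  rw [← I_Pr_self even_zer hw, ← I_Pr_self even_one' hw, ← I_Pr_self even_hi hw,
    ← map_add, ← map_add]
  congr 1
  calc w * a * a = w * (Pr p zer a + Pr p one' a + Pr p hi a) * a := by rw [← sum_modes]
    _ = _ := by ring

/-! ### The three inequalities -/

section main

variable {φ : Y (p + 1 + 1)}

theorem hi_part (hφ : cj φ = φ) :
    (I (p + 1 + 1) (kz _ * Pr _ hi φ * Pr _ hi φ)).re ≤
      (Dir (p + 1) (Pr _ hi φ) (Pr _ hi φ)).re := by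
  set a := Pr (p + 1 + 1) hi φ with ha
  have hr : cj a = a := by rw [ha, cj_Pr_of_even _ even_hi, hφ]
  refine le_trans ?_ (hi_mode hr (Pr_Pr _ _))
  have h4 : 4 * (I (p + 1 + 1) (a * a)).re = (I (p + 1 + 1) ((4 : ℂ) • (a * a))).re := by
    rw [map_smul, smul_eq_mul]; simp only [Complex.mul_re, Complex.re_ofNat, Complex.im_ofNat, zero_mul, sub_zero]
  rw [h4]
  refine I_re_mono' fun z hz => ?_
  simp only [ev_mul _ _ hz.le, ev_smul, ev_kz hz.le]
  have hk := ev_eq_re hr z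
  generalize (ev a z).re = k at *
  rw [hk, ← Complex.ofReal_mul, ← Complex.ofReal_mul, ← Complex.ofReal_mul, Complex.ofReal_re]
  have h5 : ((4 : ℂ) * ((k * k : ℝ) : ℂ)).re = 4 * (k * k) := by simp
  rw [h5, mul_assoc]
  exact mul_le_mul_of_nonneg_right (kz_bd hz.le).2 (mul_self_nonneg k)

theorem mean_zer (hm : I (p + 1 + 1) (kz _ * φ) = 0) :
    I (p + 1 + 1) (kz _ * Pr _ zer φ) = 0 := by
  have h1 : kz (p + 1 + 1) * Pr _ zer φ = Pr _ zer (kz _ * φ) * one1 _ := by
    rw [mul_one1, Pr_rad_mul _ isRad_kz]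
  rw [h1, I_Pr_mul]
  have h2 : Pr (p + 1 + 1) (fun k => zer (-k)) (one1 _) = one1 _ := by
    rw [one1, Pr_e, if_pos]
    simp only [ord, Prod.fst_zero, CharP.cast_eq_zero, Prod.snd_zero, sub_self, neg_zero]
  rw [h2, mul_one1, hm]

theorem zer_part (hφ : cj φ = φ) (hm : I (p + 1 + 1) (kz _ * φ) = 0) :
    4 * (I (p + 1 + 1) (kz _ * Pr _ zer φ * Pr _ zer φ)).re ≤
      (Dir (p + 1) (Pr _ zer φ) (Pr _ zer φ)).re := by
  have hm' := mean_zer hm
  set g := Pr (p + 1 + 1) zer φ with hg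
  have hr : cj g = g := by rw [hg, cj_Pr_of_even _ even_zer, hφ]
  obtain ⟨c, hc⟩ := zero_mode hr (Pr_Pr _ _ : Pr _ zer g = g)
  refine le_trans ?_ hc
  refine mul_le_mul_of_nonneg_left ?_ (by norm_num)
  have h1 : I (p + 1) (kz (p + 1) * incl (Nat.le_succ _) ((g - (c : ℂ) • one1 _) *
      (g - (c : ℂ) • one1 _))) = I (p + 1 + 1) (kz _ * g * g) + (c : ℂ) ^ 2 * I (p + 1 + 1) (kz _) := by
    have h2 : kz (p + 1) * incl (Nat.le_succ _) ((g - (c : ℂ) • one1 _) *
      (g - (c : ℂ) • one1 _)) = incl (Nat.le_succ _) (kz _ * ((g - (c : ℂ) • one1 _) *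
      (g - (c : ℂ) • one1 _))) := by
      rw [incl_mul (Nat.le_succ _) (kz _), incl_kz]
    rw [h2, I_incl]
    have h3 : kz (p + 1 + 1) * ((g - (c : ℂ) • one1 _) * (g - (c : ℂ) • one1 _)) =
        kz _ * g * g - (2 * (c : ℂ)) • (kz _ * g) + ((c : ℂ) ^ 2) • kz _ := by
      simp only [ser_sub_mul, ser_mul_sub, ser_smul_mul, ser_mul_smul, mul_one1, one1_mul,
        smul_smul, smul_sub, ser_mul_assoc]
      module
    rw [h3, map_add, map_sub, map_smul, map_smul, hm', smul_zero, sub_zero, smul_eq_mul]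
  rw [h1, Complex.add_re]
  have h4 : 0 ≤ ((c : ℂ) ^ 2 * I (p + 1 + 1) (kz _)).re := by
    rw [← Complex.ofReal_pow, Complex.re_ofReal_mul]
    refine mul_nonneg (sq_nonneg c) (I_re_nonneg fun z hz => ?_)
    rw [ev_kz hz.le, Complex.ofReal_re]
    exact (kz_bd hz.le).1.le
  linarith only [h4]

theorem kz_sq_nonneg {a : Y p} (hr : cj a = a) :
    0 ≤ (I p (kz _ * a * a)).re := by
  refine I_re_nonneg fun z hz => ?_
  simp only [ev_mul _ _ hz.le, ev_kz hz.le]
  have hk := ev_eq_re hr z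
  generalize (ev a z).re = k at *
  rw [hk, ← Complex.ofReal_mul, ← Complex.ofReal_mul, Complex.ofReal_re, mul_assoc]
  exact mul_nonneg (kz_bd hz.le).1.le (mul_self_nonneg k)

/-- The part of order one is `A + conj A`. -/
theorem one_eq_sum (hφ : cj φ = φ) :
    Pr _ one' φ = Pr _ (fun k => k = 1) φ + cj (Pr (p + 1 + 1) (fun k => k = 1) φ) := by
  ext i
  rw [cf_add, cf_cj, cf_Pr, cf_Pr, cf_Pr, ord_swap]
  have h1 : conj (cf φ i.swap) = cf φ i := by rw [← cf_cj, hφ]
  by_cases h2 : ord i = 1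
  · rw [if_pos (by rw [h2]; rfl), if_pos h2, if_neg (by rw [h2]; norm_num), map_zero, add_zero]
  · by_cases h3 : ord i = -1
    · rw [if_pos (by rw [h3]; rfl), if_neg h2, if_pos (by rw [h3]; norm_num), zero_add, h1]
    · rw [if_neg, if_neg h2, if_neg (by omega), map_zero, add_zero]
      intro h4
      rcases abs_cases (ord i) with h | h <;> omega

theorem Dir_A (a : Y (p + 1)) : Dir p (Pr _ (fun k => k = 1) a) (Pr (p + 1) (fun k => k = 1) a) = 0 := by
  rw [Dir_Pr, Pr_Pr_of_disj, ← DirL_apply, map_zero]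
  intro k h1 h2
  omega

theorem I_A {w : Y p} (hw : IsRad w) (a : Y p) :
    I p (w * Pr _ (fun k => k = 1) a * Pr p (fun k => k = 1) a) = 0 := by
  rw [← Pr_rad_mul _ hw, I_Pr_mul, Pr_Pr_of_disj, ser_mul_zero, map_zero]
  intro k h1 h2
  omega

theorem one_Dir (hφ : cj φ = φ) :
    Dir (p + 1) (Pr _ one' φ) (Pr _ one' φ) =
      2 * Dir (p + 1) (fz _ * gf φ) (cj (fz _ * gf φ)) := by
  rw [one_eq_sum hφ, fz_mul_gf]
  set A := Pr (p + 1 + 1) (fun k => k = 1) φ with hA
  have h1 : Dir (p + 1) A A = 0 := Dir_A φ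
  have h2 : Dir (p + 1) (cj A) (cj A) = 0 := by rw [cj_DirForm, h1, map_zero]
  have h3 : Dir (p + 1) (cj A) A = Dir (p + 1) A (cj A) := Dir_comm _ _
  rw [← DirL_apply]
  simp only [map_add, add_apply, DirL_apply]
  rw [h1, h2, h3]
  ring

theorem one_I (hφ : cj φ = φ) :
    I (p + 1 + 1) (kz _ * Pr _ one' φ * Pr _ one' φ) =
      2 * I (p + 1 + 1) (kz _ * (fz _ * gf φ) * cj (fz _ * gf φ)) := by
  rw [one_eq_sum hφ, fz_mul_gf]
  set A := Pr (p + 1 + 1) (fun k => k = 1) φ with hA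
  have h1 : I (p + 1 + 1) (kz _ * A * A) = 0 := I_A isRad_kz φ
  have h2 : I (p + 1 + 1) (kz _ * cj A * cj A) = 0 := by
    have : kz _ * cj A * cj A = cj (kz _ * A * A) := by
      rw [cj_mul, cj_mul, cj_kz]
    rw [this, I_cj, h1, map_zero]
  have h3 : kz (p + 1 + 1) * (A + cj A) * (A + cj A) =
      kz _ * A * A + kz _ * cj A * cj A + (kz _ * A * cj A + kz _ * A * cj A) := by ring
  rw [h3, map_add, map_add, map_add, h1, h2]
  ring

theorem one_part (hφ : cj φ = φ) :
    (Dir (p + 1) (Pr _ one' φ) (Pr _ one' φ)).re =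
      (I (p + 1 + 1) (kz _ * Pr _ one' φ * Pr _ one' φ)).re +
      2 * (I (p + 1) (fz (p + 1) * cj (fz (p + 1)) *
        (dx (p + 1) (gf φ) * dx (p + 1) (cj (gf φ)) +
          dy (p + 1) (gf φ) * dy (p + 1) (cj (gf φ))))).re := by
  rw [one_Dir hφ, one_I hφ, mode1_identity (isRad_gf φ)]
  simp only [mul_add, Complex.add_re]
  congr 1
  simp only [map_add, Complex.mul_re, Complex.re_ofNat, Complex.add_re, Complex.im_ofNat, Complex.add_im, zero_mul, sub_zero]

/-- The Poincare inequality for the base weight. -/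
theorem poinc_kz (hφ : cj φ = φ) (hm : I (p + 1 + 1) (kz _ * φ) = 0) :
    (I (p + 1 + 1) (kz _ * φ * φ)).re ≤ (Dir (p + 1) φ φ).re := by
  rw [Dir_modes, I_modes isRad_kz]
  simp only [Complex.add_re]
  have h1 := hi_part hφ
  have h2 := zer_part hφ hm
  have h3 := one_part hφ
  have h4 := ffgrad_nonneg (gf φ)
  have h5 : 0 ≤ (I (p + 1 + 1) (kz _ * Pr _ zer φ * Pr _ zer φ)).re :=
    kz_sq_nonneg (by rw [cj_Pr_of_even _ even_zer, hφ])
  linarith

end main

end Vale.Agent.P071.B0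
end
end

section

/-!
# Block G: the base case

The weight `8/(3 - |z|²)` has first eigenvalue `1`, with the eigenfunctions `Re f, Im f`,
`f = z(1 - |z|²/3)`; the weights `1/(1 - t|z|²)` join it to the constant weight.
-/

open scoped ComplexConjugate Topology Real
open Filter Metric MeasureTheory

noncomputable section

namespace Vale.Agent.P071.G

namespace Bs

open B0 (gt kz fz)

variable {p : ℕ}

theorem isW_gt {τ : ℝ} (h0 : 0 ≤ τ) (h1 : τ < 1) : IsW (gt p τ) where
  real := B0.cj_gt h0 h1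
  pos z hz := by
    rw [B0.ev_gt h0 h1 hz, Complex.ofReal_re]
    have := pow_le_one₀ (n := 2) (norm_nonneg z) hz
    have h2 : 0 < 1 - τ * ‖z‖ ^ 2 := by nlinarith [sq_nonneg ‖z‖]
    (clear * - h2; positivity)

theorem curv_gt {τ : ℝ} (h0 : 0 ≤ τ) (h1 : τ < 1) {μ : ℝ} (hμ : 0 < μ) {z : ℂ} (hz : ‖z‖ < 1) :
    0 < μ * rv (gt 8 τ) z ^ 3 +
      4 * ((ev (dzb 6 (dz 7 (gt 8 τ))) z).re * rv (gt 8 τ) z -
        Complex.normSq (ev (dz 7 (gt 8 τ)) z)) := by
  have hg : rv (gt 8 τ) z = 1 / (1 - τ * ‖z‖ ^ 2) := by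
    rw [rv, B0.ev_gt h0 h1 hz.le, Complex.ofReal_re]
  have hpos : 0 < 1 / (1 - τ * ‖z‖ ^ 2) := by
    have := pow_le_one₀ (n := 2) (norm_nonneg z) hz.le
    have h2 : 0 < 1 - τ * ‖z‖ ^ 2 := by nlinarith only [h1, h0, this]
    (clear * - h2; positivity)
  have e7 : ev (gt 7 τ) z = ((1 / (1 - τ * ‖z‖ ^ 2) : ℝ) : ℂ) := B0.ev_gt h0 h1 hz.le
  have e6 : ev (gt 6 τ) z = ((1 / (1 - τ * ‖z‖ ^ 2) : ℝ) : ℂ) := B0.ev_gt h0 h1 hz.le
  set g : ℝ := 1 / (1 - τ * ‖z‖ ^ 2) with hgdef
  have hzz : z * conj z = ((‖z‖ ^ 2 : ℝ) : ℂ) := by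
    rw [Complex.mul_conj, Complex.normSq_eq_norm_sq]
  have d1 : ev (dz 7 (gt 8 τ)) z = ((τ * g ^ 2 : ℝ) : ℂ) * conj z := by
    rw [B0.dz_gt h0 h1, ev_smul, ev_mul _ _ hz.le, ev_mul _ _ hz.le, e7, ev_e, mon]
    push_cast
    ring
  have dzb_gt : dzb 6 (gt 7 τ) = (τ : ℂ) • (gt 6 τ * gt 6 τ * e 6 (1, 0)) := by
    have h := congrArg cj (B0.dz_gt (p := 6) h0 h1)
    rw [cj_dz, B0.cj_gt h0 h1, cj_smul, Complex.conj_ofReal, cj_mul, cj_mul, B0.cj_gt h0 h1,
      cj_e] at h
    exact h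
  have d2 : ev (dzb 6 (dz 7 (gt 8 τ))) z = ((τ * g ^ 2 * (1 + 2 * τ * g * ‖z‖ ^ 2) : ℝ) : ℂ) := by
    have hone : incl (Nat.le_succ 6) (gt 7 τ) = gt 6 τ := B0.incl_gt h0 h1 _
    rw [B0.dz_gt h0 h1, map_smul, dzb_mul, dzb_mul, dzb_gt, dzb_e, incl_mul, hone, incl_e]
    simp only [ev_smul, ev_add _ _ hz.le, ev_mul _ _ hz.le, e6, ev_e, mon]
    push_cast
    push_cast at hzz
    linear_combination (2 * (τ : ℂ) ^ 2 * (g : ℂ) ^ 3) * hzz
  have hn : Complex.normSq (ev (dz 7 (gt 8 τ)) z) = τ ^ 2 * g ^ 4 * ‖z‖ ^ 2 := by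
    rw [d1, Complex.normSq_mul, Complex.normSq_conj, Complex.normSq_ofReal,
      Complex.normSq_eq_norm_sq]
    ring
  rw [hg, hn, d2, Complex.ofReal_re]
  have : μ * g ^ 3 + 4 * (τ * g ^ 2 * (1 + 2 * τ * g * ‖z‖ ^ 2) * g - τ ^ 2 * g ^ 4 * ‖z‖ ^ 2) =
      g ^ 3 * (μ + 4 * τ * (1 + τ * g * ‖z‖ ^ 2)) := by ring
  rw [this]
  have h3 : 0 ≤ τ * (1 + τ * g * ‖z‖ ^ 2) := by (clear * - h0 hpos; positivity)
  have h4 : 0 < g ^ 3 := by (clear * - hpos; positivity)
  refine mul_pos h4 ?_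
  linarith only [hμ, h3]

theorem adW_gt {τ : ℝ} (h0 : 0 ≤ τ) (h1 : τ < 1) : AdW ((mu1 (gt 8 τ) : ℂ) • gt 8 τ) :=
  adW_of (isW_gt h0 h1) fun _ hz => curv_gt h0 h1 (mu1_pos (isW_gt h0 h1)) hz

theorem kz_eq : kz p = ((8 / 3 : ℝ) : ℂ) • gt p (1 / 3) := by
  unfold kz B0.geo
  rw [smul_smul]
  congr 1
  · push_cast; norm_num
  · norm_num

/-- `2 Re f` and `-2 Im f`. -/
def Uz (p : ℕ) : Y p := fz p + cj (fz p)
def Vz (p : ℕ) : Y p := Complex.I • (fz p - cj (fz p))

theorem cj_Uz : cj (Uz p) = Uz p := by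
  rw [Uz, cj_add, cj_cj, add_comm]

theorem cj_Vz : cj (Vz p) = Vz p := by
  rw [Vz, cj_smul, cj_sub, cj_cj, Complex.conj_I, neg_smul, ← smul_neg, neg_sub]

theorem lap_cj (a : Y (p + 1 + 1)) : lap p (cj a) = cj (lap p a) := by
  rw [lap_apply, lap_apply, cj_smul, Complex.conj_ofNat, cj_dz, cj_dzb, dz_dzb]

theorem lap_fz : lap 6 (fz 8) = -(i86 (kz 8) * i86 (fz 8)) := by
  rw [B0.lap_fz, i86, B0.incl_kz, B0.incl_fz, B0.kz_mul_fz]

theorem lap_cfz : lap 6 (cj (fz 8)) = -(i86 (kz 8) * i86 (cj (fz 8))) := by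
  rw [lap_cj, lap_fz, cj_neg, cj_mul, cj_incl, cj_incl, B0.cj_kz]

theorem Rad_cfz {z : ℂ} (hz : ‖z‖ = 1) : ev (Rad 7 (cj (fz 8))) z = 0 := by
  rw [← cj_Rad, ev_cj, B0.Rad_fz hz, map_zero]

theorem isV_Uz : IsV (kz 8) (Uz 8) where
  real := cj_Uz
  eqn := by
    rw [Uz, map_add, lap_fz, lap_cfz, map_add, ser_mul_add, neg_add]
  neu z hz := by
    rw [Uz, map_add, ev_add _ _ hz.le, B0.Rad_fz hz, Rad_cfz hz, add_zero]

theorem isV_Vz : IsV (kz 8) (Vz 8) where
  real := cj_Vz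
  eqn := by
    rw [Vz, map_smul, map_sub, lap_fz, lap_cfz, map_smul, map_sub, ser_mul_smul, ser_mul_sub,
      ← smul_neg, neg_sub]
    congr 1
    abel
  neu z hz := by
    rw [Vz, map_smul, map_sub, ev_smul, ev_sub _ _ hz.le, B0.Rad_fz hz, Rad_cfz hz, sub_zero,
      mul_zero]

theorem ev_Uz {z : ℂ} (hz : ‖z‖ ≤ 1) : rv (Uz p) z = 2 * (z.re * (1 - ‖z‖ ^ 2 / 3)) := by
  rw [rv, Uz, ev_add _ _ hz, ev_cj, Complex.add_conj, B0.ev_fz hz, Complex.ofReal_re,
    Complex.re_mul_ofReal]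

theorem Uz_ne_zero : Uz p ≠ 0 := by
  intro h
  have h1 := ev_Uz (p := p) (z := 1) (by simp only [norm_one, Std.le_refl])
  rw [h] at h1
  simp only [rv, ev_zero, Complex.zero_re, Complex.one_re, norm_one, one_pow, one_div, one_mul, zero_eq_mul, OfNat.ofNat_ne_zero, false_or] at h1
  norm_num at h1

theorem J_Uz_Vz {z : ℂ} (hz : ‖z‖ ≤ 1) :
    J (Uz 4) (Vz 4) z = 4 * ((1 - ‖z‖ ^ 2) * (1 - ‖z‖ ^ 2 / 3)) := by
  have d1 : ev (dz 3 (fz 4)) z = ((1 - 2 / 3 * ‖z‖ ^ 2 : ℝ) : ℂ) := by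
    rw [B0.fz_eq, map_sub, map_smul, dz_e, dz_e, ev_sub _ _ hz]
    simp only [ev_smul, ev_e, mon]
    have hzz : z * conj z = ((‖z‖ ^ 2 : ℝ) : ℂ) := by
      rw [Complex.mul_conj, Complex.normSq_eq_norm_sq]
    push_cast at hzz ⊢
    simp only [pow_zero, mul_one, one_div, pow_one, sub_right_inj]
    linear_combination (2 / 3 : ℂ) * hzz
  have d2 : ev (dz 3 (cj (fz 4))) z = -(1 / 3) * conj z ^ 2 := by
    rw [B0.cj_fz_eq, map_sub, map_smul, dz_e, dz_e, ev_sub _ _ hz]
    simp only [ev_smul, ev_e, mon]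
    push_cast
    simp only [pow_zero, pow_one, one_mul, zero_mul, one_div, zero_sub, neg_mul]
  rw [J_eq, Uz, Vz, map_add, map_smul, map_sub, ev_smul, ev_add _ _ hz, ev_sub _ _ hz, d1, d2]
  have hn : ‖z‖ ^ 2 = z.re ^ 2 + z.im ^ 2 := by
    rw [← Complex.normSq_eq_norm_sq, Complex.normSq_apply]; ring
  rw [hn]
  simp only [map_mul, map_sub, map_neg, Complex.conj_I, Complex.conj_ofReal, map_pow,
    Complex.conj_conj]
  have hz3 : conj z = ⟨z.re, -z.im⟩ := rfl
  simp only [pow_two, Complex.ofReal_sub, Complex.ofReal_one, Complex.ofReal_mul, Complex.ofReal_div, Complex.ofReal_ofNat, Complex.ofReal_add, one_div, map_inv₀, neg_mul, sub_neg_eq_add, Complex.neg_im, Complex.mul_im, Complex.mul_re, Complex.I_re, Complex.add_re, Complex.sub_re, Complex.one_re, Complex.div_ofNat_re, Complex.re_ofNat, Complex.ofReal_re, Complex.ofReal_im, mul_zero, sub_zero, Complex.div_ofNat_im, Complex.im_ofNat, zero_div, Complex.add_im, zero_mul, add_zero, Complex.inv_re,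 Complex.conj_re, Complex.normSq_conj, Complex.normSq_ofNat, div_self_mul_self', Complex.inv_im, Complex.conj_im, neg_zero, Complex.I_im, Complex.sub_im, Complex.one_im, sub_self, zero_add, one_mul, zero_sub, mul_neg, neg_neg, Complex.neg_re, neg_add_rev]
  ring

theorem isW_kz : IsW (kz p) := by
  rw [kz_eq]
  exact (isW_gt (by norm_num) (by norm_num)).smul (by norm_num)

theorem I_kz_Uz_Vz : I p (kz p * (Uz p * Vz p)) = 0 := by
  have hP : B0.Pr p (fun k => k = 1) (fz p) = fz p := by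
    rw [B0.fz_eq, map_sub, map_smul, B0.Pr_e, B0.Pr_e, if_pos (by simp [B0.ord]),
      if_pos (by simp only [B0.ord, Nat.cast_ofNat, Nat.cast_one, Int.reduceSub])]
  have h1 : I p (kz p * fz p * fz p) = 0 := by
    have := B0.I_A (B0.isRad_kz (p := p)) (fz p)
    rwa [hP] at this
  have h2 : I p (kz p * cj (fz p) * cj (fz p)) = 0 := by
    have : kz p * cj (fz p) * cj (fz p) = cj (kz p * fz p * fz p) := by
      rw [cj_mul, cj_mul, B0.cj_kz]
    rw [this, I_cj, h1, map_zero]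
  have h3 : kz p * (Uz p * Vz p) = Complex.I • (kz p * fz p * fz p) -
      Complex.I • (kz p * cj (fz p) * cj (fz p)) := by
    rw [Uz, Vz]
    simp only [ser_mul_smul, ser_add_mul, ser_mul_sub, ser_mul_add, ser_mul_assoc, ← smul_sub]
    rw [ser_mul_comm (cj (fz p)) (fz p)]
    congr 1
    abel
  rw [h3, map_sub, map_smul, map_smul, h1, h2]
  simp

/-- The first eigenvalue of the base weight is one. -/
theorem mu1_kz : mu1 (kz 8) = 1 := by
  have hk : IsW (kz 8) := isW_kz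
  refine le_antisymm ?_ ?_
  · exact (isV_iff.1 isV_Uz).mu1_le hk Uz_ne_zero
  · obtain ⟨φ, hφ, hE⟩ := exists_isEig hk
    have hμ := mu1_pos hk
    have h1 : IsEig (((mu1 (kz 8) : ℝ) : ℂ) • kz 8) 1 φ := by
      rw [isEig_smul_weight hμ.ne', mul_one]; exact hE
    obtain ⟨h2, h3, h4⟩ := (isEig_one_iff (p := 6)).1 h1
    have h5 := energy_source (p := 6) h3 φ
    have h6 : Bd 7 (incl (Nat.le_succ 7) φ * Rad 7 φ) = 0 := by
      refine B0.Bd_eq_zero fun z hz => ?_
      rw [ev_mul _ _ hz.le, h4 z hz, mul_zero]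
    rw [h6, mul_zero, sub_eq_zero, ser_smul_mul, map_smul, smul_eq_mul] at h5
    have h7 := B0.poinc_kz (p := 6) h2 hE.mean
    have h8 : kz 8 * φ * φ = kz 8 * (φ * φ) := ser_mul_assoc _ _ _
    have h9 : (Dir 7 φ φ).re = mu1 (kz 8) * (I 8 (kz 8 * (φ * φ))).re := by
      rw [h5, Complex.re_ofReal_mul]
    have h10 : (I 8 (kz 8 * (φ * φ))).re ≤ (Dir 7 φ φ).re := by
      rw [← h8]; exact h7
    have h11 : 0 < (I 8 (kz 8 * (φ * φ))).re := by
      have h12 := (isWeakInner_WB hk).pos φ hφ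
      rwa [WB_apply, h2] at h12
    rw [h9] at h10
    by_contra hcon
    push Not at hcon
    nlinarith only [h10, h11, hcon]

theorem adW_kz : AdW (kz 8) := by
  have h := adW_of (isW_kz (p := 8)) (fun z hz => ?_)
  · rwa [mu1_kz, Complex.ofReal_one, one_smul] at h
  · rw [mu1_kz]
    have h1 := adW_gt (τ := 1 / 3) (by norm_num) (by norm_num)
    have h2 : mu1 (gt 8 (1 / 3)) = 8 / 3 := by
      have h3 := mu1_kz
      rw [kz_eq, mu1_smul (isW_gt (by norm_num) (by norm_num)) (by norm_num)] at h3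
      field_simp at h3
      linarith only [h3]
    rw [h2, ← kz_eq] at h1
    rw [one_mul]
    exact h1.curv z hz

theorem mu1_gt : mu1 (gt 8 (1 / 3)) = 8 / 3 := by
  have h3 := mu1_kz
  rw [kz_eq, mu1_smul (isW_gt (by norm_num) (by norm_num)) (by norm_num)] at h3
  field_simp at h3
  linarith

theorem Vz_ne_zero : Vz p ≠ 0 := by
  intro h
  have h1 : rv (Vz p) Complex.I = 0 := by rw [h]; simp [rv]
  rw [rv, Vz, ev_smul, ev_sub _ _ (by simp), ev_cj, B0.ev_fz (by simp)] at h1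
  simp only [Complex.norm_I, one_pow, one_div, Complex.ofReal_sub, Complex.ofReal_one, Complex.ofReal_inv, Complex.ofReal_ofNat, map_mul, Complex.conj_I, map_sub, map_one, map_inv₀, neg_mul, sub_neg_eq_add, Complex.mul_re, Complex.I_re, Complex.add_re, Complex.sub_re, Complex.one_re, Complex.inv_re, Complex.re_ofNat, Complex.normSq_ofNat, div_self_mul_self', zero_mul, Complex.I_im, Complex.sub_im, Complex.one_im, Complex.inv_im, Complex.im_ofNat, neg_zero, zero_div, sub_self, mul_zero, Complex.conj_re, Complex.normSq_conj, Complex.conj_im, add_zero, Complex.add_im, Complex.mul_im, one_mul, zero_add, zero_sub, neg_add_rev, neg_sub, add_self_eq_zero] at h1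
  (clear * - h1; norm_num at h1)

/-- The base weight is good. -/
theorem goodW_kz : GoodW (kz 8) := by
  have hw := adW_kz
  set a : ℝ := ‖Uz 8‖⁻¹ with ha
  set b : ℝ := ‖i84 (Vz 8)‖⁻¹ with hb
  have ha0 : 0 < a := inv_pos.2 (norm_pos_iff.2 Uz_ne_zero)
  have hb0 : 0 < b := inv_pos.2 (norm_pos_iff.2 (i84_ne_zero Vz_ne_zero))
  have hu : IsV (kz 8) ((a : ℂ) • Uz 8) := isV_Uz.smul a
  have hv : IsV (kz 8) ((b : ℂ) • Vz 8) := isV_Vz.smul b
  have hv' : IsC (kz 8) (i84 ((b : ℂ) • Vz 8)) (fun z => 0 * src (kz 8) ((a : ℂ) • Uz 8) z) :=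
    hv.isC.congr fun z _ => by rw [zero_mul]
  have hT : Tri (kz 8) ((a : ℂ) • Uz 8) (i84 ((b : ℂ) • Vz 8)) 0 := ⟨hu, hv', le_refl _⟩
  have e1 : i84 (Uz 8) = Uz 4 := by
    rw [Uz, map_add, ← cj_incl, B0.incl_fz]; rfl
  have e2 : i84 (Vz 8) = Vz 4 := by
    rw [Vz, map_smul, map_sub, ← cj_incl, B0.incl_fz]; rfl
  have hG : Good (kz 8) ((a : ℂ) • Uz 8) (i84 ((b : ℂ) • Vz 8)) 0 := by
    refine good_of_J_pos hw hT fun z hz => ?_
    rw [map_smul, map_smul, J_smul_smul, e1, e2, J_Uz_Vz hz.le]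
    have h1 : ‖z‖ ^ 2 < 1 := pow_lt_one₀ (norm_nonneg z) hz two_ne_zero
    have h2 : 0 < 1 - ‖z‖ ^ 2 := by linarith only [h1]
    have h3 : 0 < 1 - ‖z‖ ^ 2 / 3 := by linarith only [h1]
    (clear * - ha0 hb0 h1 h3; positivity)
  have hu0 : (a : ℂ) • Uz 8 ≠ 0 := smul_ne_zero (by exact_mod_cast ha0.ne') Uz_ne_zero
  have hD : 0 < D2 (kz 8) ((a : ℂ) • Uz 8) :=
    D2_pos_of_DI hw (DI_of_good hw hT hG) hu hu0
  refine ⟨(a : ℂ) • Uz 8, i84 ((b : ℂ) • Vz 8), 0, ⟨hT, ?_, ⟨Complex.I, by simp, ?_⟩, ?_, ?_, ?_⟩, hG⟩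
  · rw [norm_ofReal_smul, abs_of_pos ha0, ha, inv_mul_cancel₀ (norm_ne_zero_iff.2 Uz_ne_zero)]
  · rw [rv_smul, ev_Uz (by simp)]
    simp only [Complex.I_re, Complex.norm_I, one_pow, one_div, zero_mul, mul_zero]
  · rw [map_smul, map_smul, ip_smul_left, ip_smul_right, e1, e2]
    have : ip (kz 8) (Uz 4) (Vz 4) = 0 := by
      rw [ip, i84, B0.incl_kz]
      exact I_kz_Uz_Vz
    rw [this, mul_zero, mul_zero]
  · rw [map_smul, norm_ofReal_smul, abs_of_pos hb0, hb,
      inv_mul_cancel₀ (norm_ne_zero_iff.2 (i84_ne_zero Vz_ne_zero)), add_zero]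
  · exact (sig_pos_of_good hw hu hv hG hD).le

theorem Dir_incl' {p q : ℕ} (h : p ≤ q) (a b : Y (q + 1)) :
    Dir p (incl (Nat.succ_le_succ h) a) (incl (Nat.succ_le_succ h) b) = Dir q a b := by
  rw [Dir_eq, Dir_eq, dz_incl h, dz_incl h, dzb_incl h, dzb_incl h, ← incl_mul, ← incl_mul,
    ← map_add, I_incl]

/-- Admissible weights have first eigenvalue at least one. -/
theorem _root_.Vale.Agent.P071.G.AdW.one_le_mu1 {w : Y 8} (hw : AdW w) : 1 ≤ mu1 w := by
  have hk := hw.isW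
  obtain ⟨φ, hφ, hE⟩ := exists_isEig hk
  have hμ := mu1_pos hk
  have h1 : IsEig (((mu1 w : ℝ) : ℂ) • w) 1 φ := by
    rw [isEig_smul_weight hμ.ne', mul_one]; exact hE
  obtain ⟨h2, h3, h4⟩ := (isEig_one_iff (p := 6)).1 h1
  have h5 := energy_source (p := 6) h3 φ
  have h6 : Bd 7 (incl (Nat.le_succ 7) φ * Rad 7 φ) = 0 := by
    refine B0.Bd_eq_zero fun z hz => ?_
    rw [ev_mul _ _ hz.le, h4 z hz, mul_zero]
  rw [h6, mul_zero, sub_eq_zero, ser_smul_mul, map_smul, smul_eq_mul] at h5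
  have h7 := hw.poinc (i84 φ) (by rw [cj_incl, h2]) (by rw [i84, ← incl_mul, I_incl, hE.mean])
  have h9 : (Dir 7 φ φ).re = mu1 w * (I 8 (w * (φ * φ))).re := by
    rw [h5, Complex.re_ofReal_mul]
  have h10 : (I 8 (w * (φ * φ))).re ≤ (Dir 7 φ φ).re := by
    have e1 : ip w (i84 φ) (i84 φ) = I 8 (w * (φ * φ)) := by
      rw [ip, i84, ← incl_mul, ← incl_mul, I_incl]
    have e2 : Dir 3 (i84 φ) (i84 φ) = Dir 7 φ φ := Dir_incl' (p := 3) (q := 7) (by norm_num) φ φ
    rwa [e1, e2] at h7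
  have h11 : 0 < (I 8 (w * (φ * φ))).re := by
    have h12 := (isWeakInner_WB hk).pos φ hφ
    rwa [WB_apply, h2] at h12
  rw [h9] at h10
  by_contra hcon
  push Not at hcon
  nlinarith only [h10, h11, hcon]

end Bs

open Bs in
/-- The constant weight is good. -/
theorem goodW_const {c : ℝ} (hw : AdW ((c : ℂ) • one1 8))
    (hV : ∃ u, IsV ((c : ℂ) • one1 8) u ∧ u ≠ 0) : GoodW ((c : ℂ) • one1 8) := by
  have hone : IsW (one1 8) := by
    rw [← B0.gt_zero]; exact isW_gt le_rfl one_pos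
  have hc : 0 < c := by
    have := hw.pos 0 (by simp only [norm_zero, zero_le_one])
    rwa [rv_smul, rv, ev_one1, Complex.one_re, mul_one] at this
  have hcW : IsW ((c : ℂ) • one1 8) := hone.smul hc
  have hm : mu1 ((c : ℂ) • one1 8) = 1 := by
    refine le_antisymm ?_ ?_
    · obtain ⟨u, hu, hu0⟩ := hV
      exact (isV_iff.1 hu).mu1_le hcW hu0
    · exact hw.one_le_mu1
  have hmc : mu1 (one1 8) = c := by
    rw [mu1_smul hone hc] at hm
    field_simp at hm
    exact hm
  -- the path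
  have hpath := path_theorem (w := fun s : ℝ => (mu1 (B0.gt 8 (1 / 3 - s)) : ℂ) • B0.gt 8 (1 / 3 - s))
    (a := 0) (b := 1 / 3) (by norm_num) ?_ (fun s hs => adW_gt (by (clear * - hs; linarith [hs.2])) (by linarith only [hs.1]))
    (fun s hs => exists_isV (isW_gt (by linarith [hs.2]) (by linarith [hs.1]))) ?_
  · simp only [sub_self, B0.gt_zero, hmc] at hpath
    exact hpath
  · refine continuousOn_normalised ?_ fun s hs => isW_gt (by linarith only [hs.2]) (by linarith [hs.1])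
    refine (B0.continuousOn_gt 8 (b := 1 / 3) (by norm_num)).comp (by fun_prop) fun s hs => ?_
    exact ⟨by linarith [hs.2], by linarith [hs.1]⟩
  · simp only [sub_zero]
    rw [mu1_gt, ← kz_eq]
    exact goodW_kz

end Vale.Agent.P071.G
end
end

section

/-!
# The weights `|F(rz)|² ρ(f(rz))` as elements of `Y p`, and the dilation path
-/

open MeasureTheory Metric Filter Topology
open scoped ComplexConjugate

noncomputable section

namespace Vale.Agent.P071.Ends

variable {p : ℕ}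

/-! ### Functions represented by series -/

/-- `g` is represented on the closed disc by an element of `Y p`. -/
def Rep (p : ℕ) (g : ℂ → ℂ) : Prop := ∃ a : Y p, ∀ z : ℂ, ‖z‖ ≤ 1 → ev a z = g z

theorem Rep.mul {g h : ℂ → ℂ} (hg : Rep p g) (hh : Rep p h) : Rep p (fun z => g z * h z) := by
  obtain ⟨a, ha⟩ := hg
  obtain ⟨b, hb⟩ := hh
  exact ⟨a * b, fun z hz => by rw [ev_mul _ _ hz, ha z hz, hb z hz]⟩

theorem Rep.add {g h : ℂ → ℂ} (hg : Rep p g) (hh : Rep p h) : Rep p (fun z => g z + h z) := by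
  obtain ⟨a, ha⟩ := hg
  obtain ⟨b, hb⟩ := hh
  exact ⟨a + b, fun z hz => by rw [ev_add _ _ hz, ha z hz, hb z hz]⟩

theorem Rep.const (p : ℕ) (c : ℂ) : Rep p (fun _ => c) :=
  ⟨c • one1 p, fun z _ => by simp⟩

theorem Rep.conj {g : ℂ → ℂ} (hg : Rep p g) : Rep p (fun z => conj (g z)) := by
  obtain ⟨a, ha⟩ := hg
  exact ⟨cj a, fun z hz => by rw [ev_cj, ha z hz]⟩

theorem Rep.pow {g : ℂ → ℂ} (hg : Rep p g) (n : ℕ) : Rep p (fun z => g z ^ n) := by
  induction n with
  | zero => simpa only [pow_zero] using Rep.const p 1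
  | succ n ih => simpa only [pow_succ] using ih.mul hg

theorem Rep.sum {ι : Type*} (s : Finset ι) {g : ι → ℂ → ℂ} (hg : ∀ i ∈ s, Rep p (g i)) :
    Rep p (fun z => ∑ i ∈ s, g i z) := by
  classical
  induction s using Finset.induction_on with
  | empty => simpa only [Finset.sum_empty] using Rep.const p 0
  | insert i s hi ih =>
    simp only [Finset.sum_insert hi]
    exact (hg i (Finset.mem_insert_self i s)).add
      (ih fun j hj => hg j (Finset.mem_insert_of_mem hj))

theorem exists_geom_bound (q : ℕ) {x : ℝ} (h0 : 0 ≤ x) (h1 : x < 1) :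
    Summable fun n : ℕ => x ^ n * (1 + (n : ℝ)) ^ q := by
  set y : ℝ := (1 + x) / 2 with hy
  have hy0 : 0 < y := by rw [hy]; linarith only [h0]
  have hy1 : y < 1 := by rw [hy]; linarith only [h1]
  have hxy : x < y := by rw [hy]; linarith only [h1]
  obtain ⟨C, hC0, hC⟩ := exists_dil_bound q hy0.le hy1
  have hs : Summable fun n : ℕ => C * (x / y) ^ n :=
    (summable_geometric_of_lt_one (by (clear * - h0; positivity)) ((div_lt_one hy0).2 hxy)).mul_left C
  refine Summable.of_nonneg_of_le (fun n => by (clear * - h0; positivity)) (fun n => ?_) hs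
  calc x ^ n * (1 + (n : ℝ)) ^ q = (x / y) ^ n * (y ^ n * (1 + (n : ℝ)) ^ q) := by
        rw [div_pow]; field_simp
    _ ≤ (x / y) ^ n * C := by gcongr; exact hC n
    _ = _ := mul_comm _ _

/-- Holomorphic functions in the open disc, dilated. -/
theorem rep_hol (p : ℕ) {g : ℂ → ℂ} (hg : DifferentiableOn ℂ g (ball 0 1)) {r : ℝ} (h0 : 0 ≤ r)
    (h1 : r < 1) : Rep p (fun z => g (r * z)) := by
  set c : ℕ → ℂ := fun n => (n.factorial : ℂ)⁻¹ * iteratedDeriv n g 0 with hc
  have hs : ∀ z : ℂ, ‖z‖ < 1 → HasSum (fun n => c n * z ^ n) (g z) := by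
    intro z hz
    have := Complex.hasSum_taylorSeries_on_ball (f := g) (c := 0) (r := 1) hg
      (z := z) (by simpa only [mem_ball, dist_zero_right] using hz)
    have h2 : (fun n : ℕ => (n.factorial : ℂ)⁻¹ • (z - 0) ^ n • iteratedDeriv n g 0) =
        fun n => c n * z ^ n := by
      funext n
      simp only [sub_zero, smul_eq_mul, hc]
      ring
    rwa [h2] at this
  obtain ⟨ρ, hrρ, hρ1⟩ := exists_between h1
  have hρ0 : 0 < ρ := h0.trans_lt hrρ
  have hb : ∃ M : ℝ, ∀ n, ‖c n‖ * ρ ^ n ≤ M := by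
    have h3 := (hs (ρ : ℂ) (by rw [Complex.norm_real, Real.norm_eq_abs, abs_of_pos hρ0]; exact hρ1)).summable.tendsto_atTop_zero
    obtain ⟨M, hM⟩ := h3.norm.bddAbove_range
    refine ⟨M, fun n => ?_⟩
    have := hM ⟨n, rfl⟩
    simpa only [ge_iff_le, Complex.norm_mul, norm_pow, Complex.norm_real, Real.norm_eq_abs, abs_of_pos hρ0] using     this
  obtain ⟨M, hM⟩ := hb
  have hM0 : 0 ≤ M := by
    have := hM 0
    have h4 : 0 ≤ ‖c 0‖ * ρ ^ 0 := by (clear * - hρ0; positivity)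
    linarith only [this, h4]
  have hx1 : r / ρ < 1 := (div_lt_one hρ0).2 hrρ
  have hsum : Summable fun n : ℕ => (c n * (r : ℂ) ^ n) • e p (n, 0) := by
    refine Summable.of_norm_bounded ((exists_geom_bound p (by (clear * - h0 hρ0; positivity)) hx1).mul_left M)
      fun n => ?_
    rw [norm_smul, norm_e, norm_mul, norm_pow, Complex.norm_real, Real.norm_eq_abs,
      abs_of_nonneg h0]
    have h5 : wt p ((n, 0) : Ix) = (1 + (n : ℝ)) ^ p := by unfold wt; simp
    rw [h5]
    calc ‖c n‖ * r ^ n * (1 + (n : ℝ)) ^ p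
        = (‖c n‖ * ρ ^ n) * ((r / ρ) ^ n * (1 + (n : ℝ)) ^ p) := by
          rw [div_pow]; (clear * - hρ0; field_simp)
      _ ≤ M * ((r / ρ) ^ n * (1 + (n : ℝ)) ^ p) := by gcongr; exact hM n
  refine ⟨∑' n, (c n * (r : ℂ) ^ n) • e p (n, 0), fun z hz => ?_⟩
  rw [← evL_apply _ hz]
  have h6 := hsum.hasSum.mapL (evL p z hz)
  have h7 : HasSum (fun n => c n * (r * z) ^ n) (g (r * z)) := by
    refine hs _ ?_
    rw [norm_mul, Complex.norm_real, Real.norm_eq_abs, abs_of_nonneg h0]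
    calc r * ‖z‖ ≤ r * 1 := by gcongr
      _ < 1 := by linarith only [hrρ, hρ1]
  refine h6.unique ?_
  convert h7 using 2 with n
  rw [map_smul, evL_e, smul_eq_mul, mon]
  simp only [pow_zero, mul_one, mul_pow]
  ring

/-! ### The path of dilations -/

/-- The clamp to `[0,1]`. -/
def clamp (s : ℝ) : ℝ := max 0 (min s 1)

theorem clamp_nonneg (s : ℝ) : 0 ≤ clamp s := le_max_left _ _
theorem clamp_le_one (s : ℝ) : clamp s ≤ 1 := max_le zero_le_one (min_le_right _ _)
theorem clamp_of_mem {s : ℝ} (h0 : 0 ≤ s) (h1 : s ≤ 1) : clamp s = s := by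
  rw [clamp, min_eq_left h1, max_eq_right h0]
theorem continuous_clamp : Continuous clamp := by unfold clamp; fun_prop

/-- The dilation path `s ↦ a(s ·)`, `0 ≤ s ≤ 1`. -/
def path (a : Y p) (s : ℝ) : Y p :=
  mk fun i => (((clamp s) ^ (i.1 + i.2) : ℝ) : ℂ) * cf a i

theorem path_bound (a : Y p) (s : ℝ) (i : Ix) :
    ‖(((clamp s) ^ (i.1 + i.2) : ℝ) : ℂ) * cf a i‖ * wt p i ≤ ‖cf a i‖ * wt p i := by
  have hw := (wt_pos p i).le
  rw [norm_mul, Complex.norm_real, Real.norm_eq_abs,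
    abs_of_nonneg (pow_nonneg (clamp_nonneg s) _)]
  have h1 : (clamp s) ^ (i.1 + i.2) ≤ 1 := pow_le_one₀ (clamp_nonneg s) (clamp_le_one s)
  have h2 : (clamp s) ^ (i.1 + i.2) * ‖cf a i‖ ≤ ‖cf a i‖ :=
    mul_le_of_le_one_left (norm_nonneg _) h1
  exact mul_le_mul_of_nonneg_right h2 hw

theorem path_summable (a : Y p) (s : ℝ) :
    Summable fun i => ‖(((clamp s) ^ (i.1 + i.2) : ℝ) : ℂ) * cf a i‖ * wt p i :=
  Summable.of_nonneg_of_le (fun i => mul_nonneg (norm_nonneg _) (wt_pos p i).le)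
    (path_bound a s) (summable_cf a)

theorem cf_path (a : Y p) (s : ℝ) (i : Ix) :
    cf (path a s) i = (((clamp s) ^ (i.1 + i.2) : ℝ) : ℂ) * cf a i := cf_mk (path_summable a s) i

theorem continuous_path (a : Y p) : Continuous (path a) := by
  unfold path mk
  refine continuous_tsum (u := fun i => ‖cf a i‖ * wt p i) (fun i => ?_) (summable_cf a) fun i s => ?_
  · have : Continuous fun s => (((clamp s) ^ (i.1 + i.2) : ℝ) : ℂ) * cf a i :=
      (Complex.continuous_ofReal.comp (continuous_clamp.pow _)).mul continuous_const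
    exact this.smul continuous_const
  · rw [norm_smul, norm_e]
    exact path_bound a s i

theorem ev_path (a : Y p) {s : ℝ} (h0 : 0 ≤ s) (h1 : s ≤ 1) (z : ℂ) :
    ev (path a s) z = ev a (s * z) := by
  unfold ev
  refine tsum_congr fun i => ?_
  rw [cf_path, mon_smul, clamp_of_mem h0 h1]
  ring

theorem cj_path {a : Y p} (ha : cj a = a) (s : ℝ) : cj (path a s) = path a s := by
  ext i
  have h1 : cf (cj a) i = cf a i := by rw [ha]
  rw [cf_cj] at h1
  rw [cf_cj, cf_path, cf_path, map_mul, Complex.conj_ofReal, h1, Prod.fst_swap, Prod.snd_swap,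
    add_comm i.2 i.1]

theorem path_zero (a : Y p) : path a 0 = ev a 0 • one1 p := by
  ext i
  rw [cf_path, clamp_of_mem le_rfl zero_le_one, cf_smul, one1, cf_e, ev_zero_point]
  by_cases hi : i = 0
  · subst hi; simp
  · rw [if_neg hi, mul_zero]
    have : i.1 + i.2 ≠ 0 := by
      intro h
      exact hi (Prod.ext (by simp; omega) (by simp; omega))
    rw [zero_pow this]
    simp

theorem path_one (a : Y p) : path a 1 = a := by
  ext i
  rw [cf_path, clamp_of_mem zero_le_one le_rfl]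
  simp

/-! ### The weight -/

theorem exists_weight (p : ℕ) {f F : ℂ → ℂ} (hf : Lim.Conf f F) {ρ : ℂ → ℝ}
    (hρ : Lim.IsPolyFun ρ) {r : ℝ} (h0 : 0 ≤ r) (h1 : r < 1) :
    ∃ a : Y p, cj a = a ∧ ∀ z : ℂ, ‖z‖ ≤ 1 →
      ev a z = ((‖F (r * z)‖ ^ 2 * ρ (f (r * z)) : ℝ) : ℂ) := by
  have hfd : DifferentiableOn ℂ f (ball 0 1) := fun z hz =>
    (hf.deriv z hz).differentiableAt.differentiableWithinAt
  have hFd : DifferentiableOn ℂ F (ball 0 1) :=
    (hfd.deriv isOpen_ball).congr fun z hz => ((hf.deriv z hz).deriv).symm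
  have hrf := rep_hol p hfd h0 h1
  have hrF := rep_hol p hFd h0 h1
  obtain ⟨N, c, hc⟩ := hρ
  have hrep : Rep p (fun z => ((‖F (r * z)‖ ^ 2 * ρ (f (r * z)) : ℝ) : ℂ)) := by
    have h2 : Rep p (fun z => (F (r * z) * conj (F (r * z))) *
        (∑ m ∈ Finset.range N, ∑ n ∈ Finset.range N,
          c m n * f (r * z) ^ m * (conj (f (r * z))) ^ n)) := by
      refine (hrF.mul hrF.conj).mul (Rep.sum _ fun m _ => Rep.sum _ fun n _ => ?_)
      exact ((Rep.const p (c m n)).mul (hrf.pow m)).mul (hrf.conj.pow n)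
    obtain ⟨a, ha⟩ := h2
    refine ⟨a, fun z hz => ?_⟩
    rw [ha z hz]
    show (F (r * z) * conj (F (r * z))) * (∑ m ∈ Finset.range N, ∑ n ∈ Finset.range N,
      c m n * f (r * z) ^ m * (conj (f (r * z))) ^ n) = ((‖F (r * z)‖ ^ 2 * ρ (f (r * z)) : ℝ) : ℂ)
    rw [← hc, Complex.mul_conj, Complex.normSq_eq_norm_sq]
    push_cast
    ring
  obtain ⟨a, ha⟩ := hrep
  refine ⟨a, Y.ext_ev fun z hz => ?_, ha⟩
  rw [ev_cj, ha z hz.le, Complex.conj_ofReal]

end Vale.Agent.P071.Ends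
end
end

section

/-!
# The curvature condition for the weights (helper985)
-/

open MeasureTheory Metric Filter Topology
open scoped ComplexConjugate

noncomputable section

namespace Vale.Agent.P071.Ends

/-- Curvature condition in the form `AdW.curv`, for `w = μ k`, `k = |F(tz)|² ρ(f(tz))`. -/
theorem curv_of {f F : ℂ → ℂ} (hf : Lim.Conf f F) {ρ : ℂ → ℝ} (hρ : Lim.IsPolyFun ρ)
    (hpos : ∀ z ∈ Lim.DD, 0 < ρ (f z)) {m m' : ℝ} (hmm : m < m')
    (hcurv : ∀ z ∈ Lim.DD, -m * ρ (f z) ^ 3 ≤ ρ (f z) * Lim.lap ρ (f z) - Lim.gsq ρ (f z))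
    {t : ℝ} (ht0 : 0 ≤ t) (ht1 : t < 1) {k : Y 8}
    (hev : ∀ z : ℂ, ‖z‖ ≤ 1 → ev k z = ((‖F (t * z)‖ ^ 2 * ρ (f (t * z)) : ℝ) : ℂ))
    {μ : ℝ} (hμ : 0 < μ) (hμ' : m' * t ^ 2 ≤ μ) (z : ℂ) (hz : ‖z‖ < 1) :
    0 < G.rv ((μ : ℂ) • k) z ^ 3 +
      4 * ((ev (dzb 6 (dz 7 ((μ : ℂ) • k))) z).re * G.rv ((μ : ℂ) • k) z -
        Complex.normSq (ev (dz 7 ((μ : ℂ) • k)) z)) := by
  have hnt : ‖(t : ℂ)‖ = t := by rw [Complex.norm_real, Real.norm_eq_abs, abs_of_nonneg ht0]
  have hin : (t : ℂ) * z ∈ Lim.DD := by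
    rw [mem_ball_zero_iff, norm_mul, hnt]
    nlinarith only [ht1, ht0, hz]
  have hml : m * ‖(t : ℂ)‖ ^ 2 < μ := by
    rw [hnt]
    rcases ht0.eq_or_lt with h | h
    · rw [← h]; simpa only [ne_eq, OfNat.ofNat_ne_zero, not_false_eq_true, zero_pow, mul_zero] using hμ
    · have : 0 < t ^ 2 := by (clear * - h; positivity)
      nlinarith only [hμ', hmm, this]
  have hρs : ContDiff ℝ 2 ρ := (contDiff_of_isPolyFun hρ).of_le
    (WithTop.coe_le_coe.2 (le_top : ((2 : ℕ∞)) ≤ ⊤))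
  exact curv_pos_of_ev (p := 6) hf hρs (t := (t : ℂ)) (by rw [hnt]; exact ht1) hμ hml
    (w := (μ : ℂ) • k) (fun y hy => by
      rw [ev_smul, hev y hy.le, ← Complex.ofReal_mul]) hz (hpos _ hin) (hcurv _ hin)

end Vale.Agent.P071.Ends
end
end

section

/-!
# The variational principle for `C¹` functions
-/

open scoped ComplexConjugate Topology Real ContDiff
open Metric Filter MeasureTheory Set

noncomputable section

namespace Vale.Agent.P071

variable {p q : ℕ}

/-! ### Polynomial approximation -/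

/-- The star subalgebra of functions given by series. -/
def evS (p : ℕ) : StarSubalgebra ℂ C(closedBall (0 : ℂ) 1, ℂ) where
  carrier := {f | ∃ a : Y p, ∀ z : closedBall (0 : ℂ) 1, f z = ev a z}
  mul_mem' := by
    rintro f g ⟨a, ha⟩ ⟨b, hb⟩
    refine ⟨a * b, fun z => ?_⟩
    rw [ContinuousMap.mul_apply, ha, hb, ev_mul _ _ (mem_closedBall_zero_iff.1 z.2)]
  add_mem' := by
    rintro f g ⟨a, ha⟩ ⟨b, hb⟩
    refine ⟨a + b, fun z => ?_⟩
    rw [ContinuousMap.add_apply, ha, hb, ev_add _ _ (mem_closedBall_zero_iff.1 z.2)]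
  algebraMap_mem' := by
    intro c
    refine ⟨c • one1 p, fun z => ?_⟩
    rw [ev_smul, ev_one1, mul_one]
    rfl
  star_mem' := by
    rintro f ⟨a, ha⟩
    refine ⟨cj a, fun z => ?_⟩
    rw [ContinuousMap.star_apply, ha, ev_cj]
    rfl

theorem evS_dense (p : ℕ) : (evS p).topologicalClosure = ⊤ := by
  apply ContinuousMap.starSubalgebra_topologicalClosure_eq_top_of_separatesPoints
  intro x y hxy
  refine ⟨fun z => (z : ℂ), ⟨⟨fun z => (z : ℂ), continuous_subtype_val⟩, ?_, rfl⟩, ?_⟩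
  · refine ⟨e p (1, 0), fun z => ?_⟩
    simp only [ContinuousMap.coe_mk, ev_e, mon, pow_one, pow_zero, mul_one]
  · exact fun h => hxy (Subtype.ext h)

/-- Real continuous functions on the closed disc are uniform limits of real series. -/
theorem exists_ev_approx (p : ℕ) {φ : ℂ → ℝ} (hφ : ContinuousOn φ (closedBall 0 1)) {ε : ℝ}
    (hε : 0 < ε) : ∃ a : Y p, cj a = a ∧ ∀ z : ℂ, ‖z‖ ≤ 1 → |(ev a z).re - φ z| ≤ ε := by
  let g : C(closedBall (0 : ℂ) 1, ℂ) :=
    ⟨fun z => ((φ z : ℝ) : ℂ), Complex.continuous_ofReal.comp hφ.domRestrict⟩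
  have hg : g ∈ (evS p).topologicalClosure := by rw [evS_dense]; trivial
  obtain ⟨f, ⟨b, hb⟩, hf⟩ := Metric.mem_closure_iff.1 hg ε hε
  refine ⟨(1 / 2 : ℂ) • (b + cj b), ?_, fun z hz => ?_⟩
  · rw [cj_smul, cj_add, cj_cj, add_comm]
    congr 1
    simp [map_ofNat]
  · have h1 : (ev ((1 / 2 : ℂ) • (b + cj b)) z).re = (ev b z).re := by
      rw [ev_smul, ev_add _ _ hz, ev_cj, Complex.add_conj]
      have : (1 / 2 : ℂ) * ((2 * (ev b z).re : ℝ) : ℂ) = (((ev b z).re : ℝ) : ℂ) := by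
        push_cast; ring
      rw [this, Complex.ofReal_re]
    have hz' : z ∈ closedBall (0 : ℂ) 1 := mem_closedBall_zero_iff.2 hz
    have h2 : ‖g ⟨z, hz'⟩ - f ⟨z, hz'⟩‖ ≤ ε := by
      rw [← dist_eq_norm]
      exact (ContinuousMap.dist_apply_le_dist _).trans hf.le
    rw [hb] at h2
    have h3 : g ⟨z, hz'⟩ = ((φ z : ℝ) : ℂ) := rfl
    rw [h3] at h2
    have h4 := (Complex.abs_re_le_norm (((φ z : ℝ) : ℂ) - ev b z)).trans h2
    rw [Complex.sub_re, Complex.ofReal_re, abs_sub_comm] at h4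
    rw [h1]
    exact h4

/-! ### The inequality for the solver -/

theorem energy_Sol_le {k : Y p} (hk : IsW k) {ψ : Y p} (hr : cj ψ = ψ) (hm : I p (k * ψ) = 0) :
    mu1 k * (Dir p (Sol p (k * ψ)) (Sol p (k * ψ))).re ≤ (I p (k * (ψ * ψ))).re := by
  have hsr : cj (Sol p (k * ψ)) = Sol p (k * ψ) := by rw [cj_Sol, cj_mul, hk.real, hr]
  have h1 := WB_le hk ψ
  have h2 : WB k (KR k ψ) ψ = (Dir p (Sol p (k * ψ)) (Sol p (k * ψ))).re := by
    have e1 : WB k (KR k ψ) ψ = WB k (PL k ψ) (T0 k (PL k ψ)) := by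
      rw [KR_apply, WB_PL hk, (isWeakInner_WB hk).symm]
    rw [e1, PL_of_mean hm, WB_T0 hk _ _ hm, hsr]
  have hAB : (I p (k * (ψ * ψ))).re = WB k ψ ψ := by rw [WB_apply, hr]
  rw [h2, ← hAB] at h1
  exact h1

/-- Cauchy-Schwarz for gradients. -/
theorem integral_dot_sq_le {α : Type*} [MeasurableSpace α] {ν : Measure α}
    {f₁ f₂ g₁ g₂ : α → ℝ} (hf : Integrable (fun x => f₁ x ^ 2 + f₂ x ^ 2) ν)
    (hg : Integrable (fun x => g₁ x ^ 2 + g₂ x ^ 2) ν)
    (hfg : Integrable (fun x => f₁ x * g₁ x + f₂ x * g₂ x) ν) :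
    (∫ x, (f₁ x * g₁ x + f₂ x * g₂ x) ∂ν) ^ 2 ≤
      (∫ x, (f₁ x ^ 2 + f₂ x ^ 2) ∂ν) * ∫ x, (g₁ x ^ 2 + g₂ x ^ 2) ∂ν := by
  have key : ∀ t : ℝ, 0 ≤ (∫ x, (f₁ x ^ 2 + f₂ x ^ 2) ∂ν) * (t * t) +
      (2 * ∫ x, (f₁ x * g₁ x + f₂ x * g₂ x) ∂ν) * t + ∫ x, (g₁ x ^ 2 + g₂ x ^ 2) ∂ν := by
    intro t
    have h1 : 0 ≤ ∫ x, ((t * f₁ x + g₁ x) ^ 2 + (t * f₂ x + g₂ x) ^ 2) ∂ν :=
      integral_nonneg fun x => add_nonneg (sq_nonneg _) (sq_nonneg _)
    have h2 : ∫ x, ((t * f₁ x + g₁ x) ^ 2 + (t * f₂ x + g₂ x) ^ 2) ∂ν =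
        ∫ x, (((t * t) * (f₁ x ^ 2 + f₂ x ^ 2) + (2 * t) * (f₁ x * g₁ x + f₂ x * g₂ x)) +
          (g₁ x ^ 2 + g₂ x ^ 2)) ∂ν := by
      congr 1; funext x; ring
    have e1 : Integrable (fun x => (t * t) * (f₁ x ^ 2 + f₂ x ^ 2) +
        (2 * t) * (f₁ x * g₁ x + f₂ x * g₂ x)) ν := (hf.const_mul _).add (hfg.const_mul _)
    rw [h2, integral_add e1 hg, integral_add (hf.const_mul _) (hfg.const_mul _),
      integral_const_mul, integral_const_mul] at h1
    linarith only [h1]
  have := discrim_le_zero key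
  unfold discrim at this
  linarith

/-- The key inequality, for mean zero series `P`. -/
theorem poincare_aux {k : Y (p + 1)} (hk : IsW k) {φ : ℂ → ℝ}
    (hφ : ContDiffOn ℝ 1 φ (closedBall 0 1)) {P : Y (p + 1)} (hP : cj P = P)
    (hm : I (p + 1) (k * P) = 0) :
    mu1 k * (∫ z in ball (0 : ℂ) 1, (ev k z).re * (ev P z).re * φ z) ^ 2 ≤
      (∫ z in ball (0 : ℂ) 1, (fderiv ℝ φ z 1 ^ 2 + fderiv ℝ φ z Complex.I ^ 2)) *
        ∫ z in ball (0 : ℂ) 1, (ev k z).re * (ev P z).re ^ 2 := by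
  set s := Sol (p + 1) (k * P) with hs
  have hsr : cj s = s := by rw [hs, cj_Sol, cj_mul, hk.real, hP]
  have hφc : ContDiffOn ℝ 1 (fun z => ((φ z : ℝ) : ℂ)) (closedBall 0 1) :=
    Complex.ofRealCLM.contDiff.comp_contDiffOn hφ
  have hgr := green_real hφc s
  have hcirc : ∫ t in (-Real.pi)..Real.pi, ((φ (Complex.exp (t * Complex.I)) : ℝ) : ℂ) *
          ev (Rad (p + 1) s) (Complex.exp (t * Complex.I)) = 0 := by
    have : ∀ t : ℝ, ((φ (Complex.exp (t * Complex.I)) : ℝ) : ℂ) *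
          ev (Rad (p + 1) s) (Complex.exp (t * Complex.I)) = 0 := by
      intro t
      rw [hs, ev_Rad_Sol _ (Complex.norm_exp_ofReal_mul_I t), hm]
      simp
    simp [this]
  rw [hcirc, add_zero] at hgr
  have hlap : lap p s = -incl (Nat.le_succ p) (k * P) := by rw [hs, lap_Sol]
  have hder : ∀ z ∈ ball (0 : ℂ) 1, ∀ e : ℂ,
      fderiv ℝ (fun z => ((φ z : ℝ) : ℂ)) z e = ((fderiv ℝ φ z e : ℝ) : ℂ) := by
    intro z hz e
    have hn : closedBall (0 : ℂ) 1 ∈ 𝓝 z :=
      mem_of_superset (isOpen_ball.mem_nhds hz) ball_subset_closedBall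
    have hd : DifferentiableAt ℝ φ z :=
      ((hφ.differentiableOn (by norm_num)) z (ball_subset_closedBall hz)).differentiableAt hn
    have h2 : HasFDerivAt (fun z => ((φ z : ℝ) : ℂ)) (Complex.ofRealCLM.comp (fderiv ℝ φ z)) z :=
      Complex.ofRealCLM.hasFDerivAt.comp z hd.hasFDerivAt
    rw [h2.fderiv]
    rfl
  -- real form
  have hsx : ∀ z, ((ev (dx (p + 1) s) z).re : ℂ) = ev (dx (p + 1) s) z := fun z =>
    ev_real (by rw [cj_dx, hsr]) z
  have hsy : ∀ z, ((ev (dy (p + 1) s) z).re : ℂ) = ev (dy (p + 1) s) z := fun z =>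
    ev_real (by rw [cj_dy, hsr]) z
  have hre : ∫ z in ball (0 : ℂ) 1, (fderiv ℝ φ z 1 * (ev (dx (p + 1) s) z).re +
      fderiv ℝ φ z Complex.I * (ev (dy (p + 1) s) z).re) =
      ∫ z in ball (0 : ℂ) 1, (ev k z).re * (ev P z).re * φ z := by
    have h1 : ∫ z in ball (0 : ℂ) 1, (((fderiv ℝ φ z 1 * (ev (dx (p + 1) s) z).re +
      fderiv ℝ φ z Complex.I * (ev (dy (p + 1) s) z).re : ℝ)) : ℂ) =
      ∫ z in ball (0 : ℂ) 1, (((ev k z).re * (ev P z).re * φ z : ℝ) : ℂ) := by
      have e1 : ∫ z in ball (0 : ℂ) 1, (((fderiv ℝ φ z 1 * (ev (dx (p + 1) s) z).re +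
          fderiv ℝ φ z Complex.I * (ev (dy (p + 1) s) z).re : ℝ)) : ℂ) =
          ∫ z in ball (0 : ℂ) 1, (fderiv ℝ (fun z => ((φ z : ℝ) : ℂ)) z 1 *
            ev (dx (p + 1) s) z + fderiv ℝ (fun z => ((φ z : ℝ) : ℂ)) z Complex.I *
            ev (dy (p + 1) s) z) := by
        refine setIntegral_congr_fun measurableSet_ball fun z hz => ?_
        rw [hder z hz, hder z hz, ← hsx z, ← hsy z]
        push_cast
        simp only [Complex.ofReal_re]
      rw [e1, hgr, ← integral_neg]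
      refine setIntegral_congr_fun measurableSet_ball fun z hz => ?_
      rw [hlap, ev_neg, ev_incl, ev_mul _ _ (mem_ball_zero_iff.1 hz).le, ← ev_real hk.real z,
        ← ev_real hP z]
      push_cast
      simp only [mul_neg, neg_neg, Complex.ofReal_re]
      ring
    rw [integral_complex_ofReal, integral_complex_ofReal] at h1
    exact_mod_cast h1
  -- integrability
  have hclx : ContinuousOn (fun z => (ev (dx (p + 1) s) z).re) (closedBall 0 1) :=
    continuousOn_ev_re _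
  have hcly : ContinuousOn (fun z => (ev (dy (p + 1) s) z).re) (closedBall 0 1) :=
    continuousOn_ev_re _
  have hcf : ContinuousOn (fderivWithin ℝ φ (closedBall 0 1)) (closedBall 0 1) :=
    hφ.continuousOn_fderivWithin uniqueDiffOn_disc (by (clear * -; norm_num))
  have hw : ∀ z ∈ ball (0 : ℂ) 1, fderivWithin ℝ φ (closedBall 0 1) z = fderiv ℝ φ z := by
    intro z hz
    exact fderivWithin_of_mem_nhds (mem_of_superset (isOpen_ball.mem_nhds hz)
      ball_subset_closedBall)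
  have hcx : ContinuousOn (fun z => fderivWithin ℝ φ (closedBall 0 1) z 1) (closedBall 0 1) :=
    hcf.clm_apply continuousOn_const
  have hcy : ContinuousOn (fun z => fderivWithin ℝ φ (closedBall 0 1) z Complex.I)
      (closedBall 0 1) := hcf.clm_apply continuousOn_const
  have i1 : IntegrableOn (fun z => fderiv ℝ φ z 1 ^ 2 + fderiv ℝ φ z Complex.I ^ 2)
      (ball (0 : ℂ) 1) := by
    refine (C1D.integrable ((hcx.pow 2).add (hcy.pow 2))).congr_fun (fun z hz => ?_)
      measurableSet_ball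
    simp only [Pi.add_apply, Pi.pow_apply]
    rw [hw z hz]
  have i2 : IntegrableOn (fun z => (ev (dx (p + 1) s) z).re ^ 2 + (ev (dy (p + 1) s) z).re ^ 2)
      (ball (0 : ℂ) 1) := C1D.integrable ((hclx.pow 2).add (hcly.pow 2))
  have i3 : IntegrableOn (fun z => fderiv ℝ φ z 1 * (ev (dx (p + 1) s) z).re +
      fderiv ℝ φ z Complex.I * (ev (dy (p + 1) s) z).re) (ball (0 : ℂ) 1) := by
    refine (C1D.integrable ((hcx.mul hclx).add (hcy.mul hcly))).congr_fun (fun z hz => ?_)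
      measurableSet_ball
    simp only [Pi.add_apply, Pi.mul_apply]
    rw [hw z hz]
  have hCS := integral_dot_sq_le i1 i2 i3
  rw [hre] at hCS
  -- energy of `s`
  have hEs : ∫ z in ball (0 : ℂ) 1, ((ev (dx (p + 1) s) z).re ^ 2 + (ev (dy (p + 1) s) z).re ^ 2) =
      π * (Dir (p + 1) s s).re := by
    unfold Dir
    rw [← integral_ball_re]
    refine setIntegral_congr_fun measurableSet_ball fun z hz => ?_
    have hz' := (mem_ball_zero_iff.1 hz).le
    rw [ev_add _ _ hz', ev_mul _ _ hz', ev_mul _ _ hz', ← hsx z, ← hsy z, ← Complex.ofReal_mul,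
      ← Complex.ofReal_mul, ← Complex.ofReal_add, Complex.ofReal_re, Complex.ofReal_re,
      Complex.ofReal_re]
    ring
  have hIk : ∫ z in ball (0 : ℂ) 1, (ev k z).re * (ev P z).re ^ 2 =
      π * (I (p + 1) (k * (P * P))).re := by
    rw [← integral_ball_re]
    refine setIntegral_congr_fun measurableSet_ball fun z hz => ?_
    have hz' := (mem_ball_zero_iff.1 hz).le
    rw [ev_mul _ _ hz', ev_mul _ _ hz', ← ev_real hk.real z, ← ev_real hP z, ← Complex.ofReal_mul,
      ← Complex.ofReal_mul, Complex.ofReal_re, Complex.ofReal_re, Complex.ofReal_re]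
    ring
  have hen := energy_Sol_le hk hP hm
  rw [← hs] at hen
  set E := ∫ z in ball (0 : ℂ) 1, (fderiv ℝ φ z 1 ^ 2 + fderiv ℝ φ z Complex.I ^ 2) with hE
  have hE0 : 0 ≤ E := integral_nonneg fun z => add_nonneg (sq_nonneg _) (sq_nonneg _)
  have hμ := mu1_pos hk
  rw [hIk]
  rw [hEs] at hCS
  calc mu1 k * (∫ z in ball (0 : ℂ) 1, (ev k z).re * (ev P z).re * φ z) ^ 2
      ≤ mu1 k * (E * (π * (Dir (p + 1) s s).re)) := mul_le_mul_of_nonneg_left hCS hμ.le
    _ = E * (π * (mu1 k * (Dir (p + 1) s s).re)) := by ring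
    _ ≤ E * (π * (I (p + 1) (k * (P * P))).re) := by (clear * - hen; gcongr)

theorem exists_meanzero_approx {k : Y p} (hk : IsW k) {φ : ℂ → ℝ}
    (hφ : ContinuousOn φ (closedBall 0 1))
    (hm : ∫ z in ball (0 : ℂ) 1, (ev k z).re * φ z = 0) {ε : ℝ} (hε : 0 < ε) :
    ∃ P : Y p, cj P = P ∧ I p (k * P) = 0 ∧ ∀ z : ℂ, ‖z‖ ≤ 1 → |(ev P z).re - φ z| ≤ ε := by
  obtain ⟨a, ha, hb⟩ := exists_ev_approx p hφ (half_pos hε)
  have hM := hk.mass_pos
  set c : ℝ := (I p (k * a)).re / (I p k).re with hc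
  have hka : cj (k * a) = k * a := by rw [cj_mul, hk.real, ha]
  have hint : Integrable (fun z => (ev k z).re) (volume.restrict (ball (0 : ℂ) 1)) :=
    (integrableOn_ev k).re
  have h1 : π * (I p (k * a)).re =
      ∫ z in ball (0 : ℂ) 1, (ev k z).re * ((ev a z).re - φ z) := by
    have e1 : ∫ z in ball (0 : ℂ) 1, (ev k z).re * ((ev a z).re - φ z) =
        (∫ z in ball (0 : ℂ) 1, (ev k z).re * (ev a z).re) -
          ∫ z in ball (0 : ℂ) 1, (ev k z).re * φ z := by
      rw [← integral_sub]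
      · congr 1; funext z; ring
      · exact C1D.integrable ((continuousOn_ev_re k).mul (continuousOn_ev_re a))
      · exact C1D.integrable ((continuousOn_ev_re k).mul hφ)
    rw [e1, hm, sub_zero, ← integral_ball_re]
    refine setIntegral_congr_fun measurableSet_ball fun z hz => ?_
    rw [ev_mul _ _ (mem_ball_zero_iff.1 hz).le, ← ev_real hk.real z, ← ev_real ha z,
      ← Complex.ofReal_mul, Complex.ofReal_re, Complex.ofReal_re, Complex.ofReal_re]
  have h2 : |∫ z in ball (0 : ℂ) 1, (ev k z).re * ((ev a z).re - φ z)| ≤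
      (ε / 2) * (π * (I p k).re) := by
    rw [← integral_ball_re, ← integral_const_mul]
    rw [← Real.norm_eq_abs]
    refine norm_integral_le_of_norm_le (hint.const_mul (ε / 2)) ?_
    filter_upwards [ae_restrict_mem measurableSet_ball] with z hz
    have hz' := (mem_ball_zero_iff.1 hz).le
    rw [Real.norm_eq_abs, abs_mul, abs_of_pos (hk.pos z hz'), mul_comm]
    exact mul_le_mul_of_nonneg_right (hb z hz') (hk.pos z hz').le
  have h3 : |c| ≤ ε / 2 := by
    rw [← h1, abs_mul, abs_of_pos Real.pi_pos] at h2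
    rw [hc, abs_div, abs_of_pos hM, div_le_iff₀ hM]
    have := Real.pi_pos
    by_contra hcon
    push Not at hcon
    nlinarith only [h2, this, hcon]
  refine ⟨a - (c : ℂ) • one1 p, ?_, ?_, fun z hz => ?_⟩
  · rw [cj_sub, ha, cj_smul, cj_one1, Complex.conj_ofReal]
  · rw [ser_mul_sub, ser_mul_smul, mul_one1, map_sub, map_smul, smul_eq_mul, ← hk.mass_eq,
      ← I_real hka, ← Complex.ofReal_mul, ← Complex.ofReal_sub, hc, div_mul_cancel₀ _ hM.ne',
      sub_self, Complex.ofReal_zero]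
  · rw [ev_sub _ _ hz, ev_smul, ev_one1, mul_one, Complex.sub_re, Complex.ofReal_re]
    have h4 := hb z hz
    have h5 : (ev a z).re - c - φ z = ((ev a z).re - φ z) - c := by ring
    rw [h5]
    calc |(ev a z).re - φ z - c| ≤ |(ev a z).re - φ z| + |c| := abs_sub _ _
      _ ≤ ε := by linarith only [h3, h4]

/-- **Variational principle** for `C¹` functions on the closed disc. -/
theorem poincare_C1 {k : Y (p + 1)} (hk : IsW k) {φ : ℂ → ℝ}
    (hφ : ContDiffOn ℝ 1 φ (closedBall 0 1))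
    (hm : ∫ z in ball (0 : ℂ) 1, (ev k z).re * φ z = 0) :
    mu1 k * (∫ z in ball (0 : ℂ) 1, (ev k z).re * φ z ^ 2) ≤
      ∫ z in ball (0 : ℂ) 1, (fderiv ℝ φ z 1 ^ 2 + fderiv ℝ φ z Complex.I ^ 2) := by
  have hc := hφ.continuousOn
  have hch : ∀ n : ℕ, ∃ P : Y (p + 1), cj P = P ∧ I (p + 1) (k * P) = 0 ∧
      ∀ z : ℂ, ‖z‖ ≤ 1 → |(ev P z).re - φ z| ≤ 1 / ((n : ℝ) + 1) := fun n =>
    exists_meanzero_approx hk hc hm (by positivity)
  choose P hP1 hP2 hP3 using hch
  obtain ⟨B, hB⟩ := C1D.bdd (F := fun z => ((φ z : ℝ) : ℂ))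
    (Complex.continuous_ofReal.comp_continuousOn hc)
  have hB' : ∀ z, ‖z‖ ≤ 1 → |φ z| ≤ B := by
    intro z hz
    have := hB z (mem_closedBall_zero_iff.2 hz)
    rwa [Complex.norm_real, Real.norm_eq_abs] at this
  have hPB : ∀ n, ∀ z, ‖z‖ ≤ 1 → |(ev (P n) z).re| ≤ B + 1 := by
    intro n z hz
    have h1 := hP3 n z hz
    have h2 := hB' z hz
    have h3 : 1 / ((n : ℝ) + 1) ≤ 1 := by
      rw [div_le_one (by positivity)]
      linarith only []
    have h4 : (ev (P n) z).re = ((ev (P n) z).re - φ z) + φ z := by ring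
    rw [h4]
    exact (abs_add_le _ _).trans (by linarith only [h1, h2, h3])
  have hlim : ∀ z, ‖z‖ ≤ 1 → Tendsto (fun n => (ev (P n) z).re) atTop (𝓝 (φ z)) := by
    intro z hz
    rw [tendsto_iff_dist_tendsto_zero]
    refine squeeze_zero (fun n => dist_nonneg) (fun n => ?_)
      tendsto_one_div_add_atTop_nhds_zero_nat
    rw [Real.dist_eq]
    exact hP3 n z hz
  have hB0 : 0 ≤ B := (abs_nonneg _).trans (hB' 0 (by simp only [norm_zero, zero_le_one]))
  have hint : Integrable (fun z => (ev k z).re) (volume.restrict (ball (0 : ℂ) 1)) :=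
    (integrableOn_ev k).re
  have T1 : Tendsto (fun n => ∫ z in ball (0 : ℂ) 1, (ev k z).re * (ev (P n) z).re * φ z) atTop
      (𝓝 (∫ z in ball (0 : ℂ) 1, (ev k z).re * φ z ^ 2)) := by
    refine tendsto_integral_of_dominated_convergence (fun z => (ev k z).re * ((B + 1) * B))
      (fun n => ?_) (hint.mul_const _) (fun n => ?_) ?_
    · exact (C1D.integrable (((continuousOn_ev_re k).mul (continuousOn_ev_re (P n))).mul hc)).1
    · filter_upwards [ae_restrict_mem measurableSet_ball] with z hz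
      have hz' := (mem_ball_zero_iff.1 hz).le
      have hk0 := hk.pos z hz'
      rw [Real.norm_eq_abs, abs_mul, abs_mul, abs_of_pos hk0, mul_assoc]
      gcongr
      · exact hPB n z hz'
      · exact hB' z hz'
    · filter_upwards [ae_restrict_mem measurableSet_ball] with z hz
      have hz' := (mem_ball_zero_iff.1 hz).le
      have := (((hlim z hz').const_mul (ev k z).re)).mul_const (φ z)
      rw [pow_two, ← mul_assoc]
      exact this
  have T2 : Tendsto (fun n => ∫ z in ball (0 : ℂ) 1, (ev k z).re * (ev (P n) z).re ^ 2) atTop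
      (𝓝 (∫ z in ball (0 : ℂ) 1, (ev k z).re * φ z ^ 2)) := by
    refine tendsto_integral_of_dominated_convergence (fun z => (ev k z).re * (B + 1) ^ 2)
      (fun n => ?_) (hint.mul_const _) (fun n => ?_) ?_
    · exact (C1D.integrable ((continuousOn_ev_re k).mul ((continuousOn_ev_re (P n)).pow 2))).1
    · filter_upwards [ae_restrict_mem measurableSet_ball] with z hz
      have hz' := (mem_ball_zero_iff.1 hz).le
      have hk0 := hk.pos z hz'
      rw [Real.norm_eq_abs, abs_mul, abs_of_pos hk0, abs_pow]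
      gcongr
      exact hPB n z hz'
    · filter_upwards [ae_restrict_mem measurableSet_ball] with z hz
      have hz' := (mem_ball_zero_iff.1 hz).le
      exact ((hlim z hz').pow 2).const_mul (ev k z).re
  set X := ∫ z in ball (0 : ℂ) 1, (ev k z).re * φ z ^ 2 with hX
  set E := ∫ z in ball (0 : ℂ) 1, (fderiv ℝ φ z 1 ^ 2 + fderiv ℝ φ z Complex.I ^ 2) with hE
  have hfin : mu1 k * X ^ 2 ≤ E * X :=
    le_of_tendsto_of_tendsto' ((T1.pow 2).const_mul (mu1 k)) (T2.const_mul E)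
      fun n => poincare_aux hk hφ (hP1 n) (hP2 n)
  have hX0 : 0 ≤ X := by
    refine setIntegral_nonneg measurableSet_ball fun z hz => ?_
    have hz' := (mem_ball_zero_iff.1 hz).le
    exact mul_nonneg (hk.pos z hz').le (sq_nonneg _)
  have hE0 : 0 ≤ E := integral_nonneg fun z => add_nonneg (sq_nonneg _) (sq_nonneg _)
  rcases hX0.eq_or_lt with h0 | h0
  · rw [← h0, mul_zero]; exact hE0
  · have : X * (mu1 k * X) ≤ X * E := by linarith
    exact le_of_mul_le_mul_left this h0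

/-- **Variational principle** for bounded `C¹` functions on the open disc with bounded
gradient. -/
theorem poincare_BG {k : Y (p + 1)} (hk : IsW k) {φ : ℂ → ℝ} (hφ : Lim.BG φ)
    (hm : ∫ z in ball (0 : ℂ) 1, (ev k z).re * φ z = 0) :
    mu1 k * (∫ z in ball (0 : ℂ) 1, (ev k z).re * φ z ^ 2) ≤
      ∫ z in ball (0 : ℂ) 1, Lim.gsq φ z := by
  obtain ⟨hφ1, C, hC⟩ := hφ
  have hC0 : 0 ≤ C := (abs_nonneg _).trans (hC 0 (mem_ball_self one_pos)).1
  set r : ℕ → ℝ := fun n => 1 - 1 / ((n : ℝ) + 1 + 1) with hr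
  have hr0 : ∀ n, 0 ≤ r n ∧ r n < 1 := by
    intro n
    have hn : (0 : ℝ) ≤ n := Nat.cast_nonneg n
    have h1 : 1 / ((n : ℝ) + 1 + 1) ≤ 1 := by rw [div_le_one (by positivity)]; linarith only []
    have h2 : 0 < 1 / ((n : ℝ) + 1 + 1) := by (clear * -; positivity)
    simp only [hr]
    constructor <;> linarith only [h1, h2]
  have hr1 : Tendsto r atTop (𝓝 1) := by
    have h1 : Tendsto (fun n : ℕ => 1 / ((n : ℝ) + 1 + 1)) atTop (𝓝 0) := by
      have := (tendsto_add_atTop_iff_nat 1).2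
        (tendsto_one_div_add_atTop_nhds_zero_nat (𝕜 := ℝ))
      refine this.congr fun n => ?_
      push_cast
      rfl
    have h2 := (tendsto_const_nhds (x := (1 : ℝ))).sub h1
    rw [sub_zero] at h2
    exact h2
  have hmaps : ∀ n, ∀ z ∈ closedBall (0 : ℂ) 1, (r n : ℝ) • z ∈ ball (0 : ℂ) 1 := by
    intro n z hz
    rw [mem_ball_zero_iff, norm_smul, Real.norm_eq_abs, abs_of_nonneg (hr0 n).1]
    have := mem_closedBall_zero_iff.1 hz
    calc r n * ‖z‖ ≤ r n * 1 := by gcongr; exact (hr0 n).1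
      _ < 1 := by rw [mul_one]; exact (hr0 n).2
  have hM := hk.mass_pos
  set M : ℝ := ∫ z in ball (0 : ℂ) 1, (ev k z).re with hMd
  have hM0 : 0 < M := by rw [hMd, integral_ball_re]; exact mul_pos Real.pi_pos hM
  set m : ℕ → ℝ := fun n => (∫ z in ball (0 : ℂ) 1, (ev k z).re * φ (r n • z)) / M with hmd
  set f : ℕ → ℂ → ℝ := fun n z => φ (r n • z) - m n with hf
  have hint : Integrable (fun z => (ev k z).re) (volume.restrict (ball (0 : ℂ) 1)) :=
    (integrableOn_ev k).re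
  have hcomp : ∀ n, ContDiffOn ℝ 1 (fun z : ℂ => φ (r n • z)) (closedBall 0 1) := by
    intro n
    have h1 : ContDiffOn ℝ 1 (fun z : ℂ => r n • z) (closedBall 0 1) :=
      contDiff_const_smul (r n) |>.contDiffOn
    exact hφ1.comp h1 (hmaps n)
  have hfc : ∀ n, ContDiffOn ℝ 1 (f n) (closedBall 0 1) := fun n =>
    (hcomp n).sub contDiffOn_const
  -- pointwise limits
  have hpt : ∀ z ∈ ball (0 : ℂ) 1, Tendsto (fun n => r n • z) atTop (𝓝 z) := by
    intro z _
    have := hr1.smul_const z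
    rwa [one_smul] at this
  have hφc : ContinuousOn φ (ball (0 : ℂ) 1) := hφ1.continuousOn
  have hlimφ : ∀ z ∈ ball (0 : ℂ) 1, Tendsto (fun n => φ (r n • z)) atTop (𝓝 (φ z)) := by
    intro z hz
    exact ((hφc.continuousAt (isOpen_ball.mem_nhds hz)).tendsto).comp (hpt z hz)
  have hbφ : ∀ n, ∀ z ∈ ball (0 : ℂ) 1, |φ (r n • z)| ≤ C := fun n z hz =>
    (hC _ (hmaps n z (ball_subset_closedBall hz))).1
  have hTm : Tendsto (fun n => ∫ z in ball (0 : ℂ) 1, (ev k z).re * φ (r n • z)) atTop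
      (𝓝 (∫ z in ball (0 : ℂ) 1, (ev k z).re * φ z)) := by
    refine tendsto_integral_of_dominated_convergence (fun z => (ev k z).re * C)
      (fun n => ?_) (hint.mul_const _) (fun n => ?_) ?_
    · exact (C1D.integrable ((continuousOn_ev_re k).mul (hcomp n).continuousOn)).1
    · filter_upwards [ae_restrict_mem measurableSet_ball] with z hz
      have hk0 := hk.pos z (mem_ball_zero_iff.1 hz).le
      rw [Real.norm_eq_abs, abs_mul, abs_of_pos hk0]
      gcongr
      exact hbφ n z hz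
    · filter_upwards [ae_restrict_mem measurableSet_ball] with z hz
      exact (hlimφ z hz).const_mul _
  have hm0 : Tendsto m atTop (𝓝 0) := by
    have := hTm.div_const M
    rw [hm, zero_div] at this
    exact this
  have hmb : ∀ n, |m n| ≤ C := by
    intro n
    simp only [hmd]
    rw [abs_div, abs_of_pos hM0, div_le_iff₀ hM0, mul_comm, hMd, ← integral_mul_const,
      ← Real.norm_eq_abs]
    refine norm_integral_le_of_norm_le (hint.mul_const C) ?_
    filter_upwards [ae_restrict_mem measurableSet_ball] with z hz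
    have hk0 := hk.pos z (mem_ball_zero_iff.1 hz).le
    rw [Real.norm_eq_abs, abs_mul, abs_of_pos hk0]
    gcongr
    exact hbφ n z hz
  have hfm : ∀ n, ∫ z in ball (0 : ℂ) 1, (ev k z).re * f n z = 0 := by
    intro n
    have e1 : ∫ z in ball (0 : ℂ) 1, (ev k z).re * f n z =
        (∫ z in ball (0 : ℂ) 1, (ev k z).re * φ (r n • z)) -
          ∫ z in ball (0 : ℂ) 1, (ev k z).re * m n := by
      rw [← integral_sub]
      · congr 1; funext z; simp only [hf]; ring
      · exact C1D.integrable ((continuousOn_ev_re k).mul (hcomp n).continuousOn)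
      · exact hint.mul_const _
    rw [e1, integral_mul_const, ← hMd]
    simp only [hmd]
    rw [mul_div_cancel₀ _ hM0.ne', sub_self]
  have T1 : Tendsto (fun n => ∫ z in ball (0 : ℂ) 1, (ev k z).re * f n z ^ 2) atTop
      (𝓝 (∫ z in ball (0 : ℂ) 1, (ev k z).re * φ z ^ 2)) := by
    refine tendsto_integral_of_dominated_convergence (fun z => (ev k z).re * (C + C) ^ 2)
      (fun n => ?_) (hint.mul_const _) (fun n => ?_) ?_
    · exact (C1D.integrable ((continuousOn_ev_re k).mul ((hfc n).continuousOn.pow 2))).1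
    · filter_upwards [ae_restrict_mem measurableSet_ball] with z hz
      have hk0 := hk.pos z (mem_ball_zero_iff.1 hz).le
      rw [Real.norm_eq_abs, abs_mul, abs_of_pos hk0, abs_pow]
      gcongr
      simp only [hf]
      exact (abs_sub _ _).trans (add_le_add (hbφ n z hz) (hmb n))
    · filter_upwards [ae_restrict_mem measurableSet_ball] with z hz
      have := (((hlimφ z hz).sub hm0).pow 2).const_mul (ev k z).re
      rwa [sub_zero] at this
  have hgf : ∀ n, ∀ z : ℂ, fderiv ℝ (f n) z 1 ^ 2 + fderiv ℝ (f n) z Complex.I ^ 2 =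
      r n ^ 2 * Lim.gsq φ (r n • z) := by
    intro n z
    have h1 : fderiv ℝ (f n) z = r n • fderiv ℝ φ (r n • z) := by
      simp only [hf]
      rw [fderiv_sub_const]
      exact fderiv_comp_smul _
    rw [h1]
    simp only [smul_apply, smul_eq_mul, Lim.gsq, px, py]
    ring
  have T2 : Tendsto (fun n => ∫ z in ball (0 : ℂ) 1,
      (fderiv ℝ (f n) z 1 ^ 2 + fderiv ℝ (f n) z Complex.I ^ 2)) atTop
      (𝓝 (∫ z in ball (0 : ℂ) 1, Lim.gsq φ z)) := by
    have hgc : ContinuousOn (Lim.gsq φ) (ball (0 : ℂ) 1) := Lim.continuousOn_gsq isOpen_ball hφ1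
    have hvol : IntegrableOn (fun _ : ℂ => C) (ball (0 : ℂ) 1) :=
      integrableOn_const measure_ball_lt_top.ne
    refine tendsto_integral_of_dominated_convergence (fun _ => C)
      (fun n => ?_) hvol (fun n => ?_) ?_
    · simp only [hgf]
      have : ContinuousOn (fun z : ℂ => Lim.gsq φ (r n • z)) (ball 0 1) :=
        hgc.comp (by fun_prop) fun z hz => hmaps n z (ball_subset_closedBall hz)
      exact ((this.aestronglyMeasurable measurableSet_ball).const_mul _)
    · filter_upwards [ae_restrict_mem measurableSet_ball] with z hz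
      rw [hgf, Real.norm_eq_abs]
      have h1 := (hC _ (hmaps n z (ball_subset_closedBall hz))).2
      have h2 : 0 ≤ Lim.gsq φ (r n • z) := by unfold Lim.gsq; (clear * -; positivity)
      rw [abs_of_nonneg (by (clear * - h2; positivity))]
      have h3 : r n ^ 2 ≤ 1 := pow_le_one₀ (hr0 n).1 (hr0 n).2.le
      calc r n ^ 2 * Lim.gsq φ (r n • z) ≤ 1 * Lim.gsq φ (r n • z) := by (clear * - h3 h2; gcongr)
        _ ≤ C := by rw [one_mul]; exact h1
    · filter_upwards [ae_restrict_mem measurableSet_ball] with z hz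
      simp only [hgf]
      have h1 := ((hgc.continuousAt (isOpen_ball.mem_nhds hz)).tendsto).comp (hpt z hz)
      have h2 := (hr1.pow 2).mul h1
      rw [one_pow, one_mul] at h2
      exact h2
  exact le_of_tendsto_of_tendsto' (T1.const_mul (mu1 k)) T2 fun n =>
    poincare_C1 hk (hfc n) (hfm n)

end Vale.Agent.P071
end
end

section

/-!
# First eigenfunctions given by series satisfy `Lim.DiscMin`
-/

open scoped ComplexConjugate Topology Real ContDiff
open Metric Filter MeasureTheory Set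

noncomputable section

namespace Vale.Agent.P071

variable {p q : ℕ}

/-! ### Derivatives of the real part -/

theorem hasFDerivAt_ev_re (a : Y (p + 1)) {z : ℂ} (hz : ‖z‖ < 1) :
    HasFDerivAt (fun y => (ev a y).re) (Complex.reCLM.comp (evD a z)) z :=
  Complex.reCLM.hasFDerivAt.comp z (hasFDerivAt_ev a hz)

theorem px_ev (a : Y (p + 1)) {z : ℂ} (hz : ‖z‖ < 1) :
    px (fun y => (ev a y).re) z = (ev (dx p a) z).re := by
  unfold px
  rw [(hasFDerivAt_ev_re a hz).fderiv, ContinuousLinearMap.comp_apply, Complex.reCLM_apply,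
    evD_apply_real a hz.le]
  simp only [Complex.one_re, Complex.ofReal_one, one_mul, Complex.one_im, Complex.ofReal_zero, zero_mul, add_zero]

theorem py_ev (a : Y (p + 1)) {z : ℂ} (hz : ‖z‖ < 1) :
    py (fun y => (ev a y).re) z = (ev (dy p a) z).re := by
  unfold py
  rw [(hasFDerivAt_ev_re a hz).fderiv, ContinuousLinearMap.comp_apply, Complex.reCLM_apply,
    evD_apply_real a hz.le]
  simp only [Complex.I_re, Complex.ofReal_zero, zero_mul, Complex.I_im, Complex.ofReal_one, one_mul, zero_add]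

theorem gsq_ev (a : Y (p + 1)) {z : ℂ} (hz : ‖z‖ < 1) :
    Lim.gsq (fun y => (ev a y).re) z = (ev (dx p a) z).re ^ 2 + (ev (dy p a) z).re ^ 2 := by
  unfold Lim.gsq
  rw [px_ev a hz, py_ev a hz]

theorem lap_ev (a : Y (p + 1 + 1)) {z : ℂ} (hz : ‖z‖ < 1) :
    Lim.lap (fun y => (ev a y).re) z = (ev (lap p a) z).re := by
  have hn : ball (0 : ℂ) 1 ∈ 𝓝 z := isOpen_ball.mem_nhds (mem_ball_zero_iff.2 hz)
  have h1 : px (fun y => (ev a y).re) =ᶠ[𝓝 z] fun y => (ev (dx (p + 1) a) y).re := by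
    filter_upwards [hn] with y hy
    exact px_ev a (mem_ball_zero_iff.1 hy)
  have h2 : py (fun y => (ev a y).re) =ᶠ[𝓝 z] fun y => (ev (dy (p + 1) a) y).re := by
    filter_upwards [hn] with y hy
    exact py_ev a (mem_ball_zero_iff.1 hy)
  have h3 : px (px (fun y => (ev a y).re)) z = (ev (dx p (dx (p + 1) a)) z).re := by
    rw [← px_ev _ hz]
    unfold px
    unfold px at h1
    rw [h1.fderiv_eq]
  have h4 : py (py (fun y => (ev a y).re)) z = (ev (dy p (dy (p + 1) a)) z).re := by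
    rw [← py_ev _ hz]
    unfold py
    unfold py at h2
    rw [h2.fderiv_eq]
  unfold Lim.lap
  rw [h3, h4, lap_eq, ev_add _ _ hz.le, Complex.add_re]

theorem contDiffOn_ev_re {n : ℕ} (a : Y p) (hn : n ≤ p) :
    ContDiffOn ℝ n (fun y => (ev a y).re) (closedBall 0 1) :=
  (Complex.reCLM.contDiff.comp_contDiffOn (contDiffOn_ev p a)).of_le (by exact_mod_cast hn)

theorem bg_ev (a : Y (p + 1)) : Lim.BG fun y => (ev a y).re := by
  refine ⟨((contDiffOn_ev_re a (n := 1) (by omega)).mono ball_subset_closedBall), ?_⟩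
  refine ⟨‖a‖ + ‖dx p a‖ ^ 2 + ‖dy p a‖ ^ 2, fun z hz => ?_⟩
  have hz' := mem_ball_zero_iff.1 hz
  have h1 : |(ev a z).re| ≤ ‖a‖ := (Complex.abs_re_le_norm _).trans (norm_ev_le a hz'.le)
  have h2 : |(ev (dx p a) z).re| ≤ ‖dx p a‖ :=
    (Complex.abs_re_le_norm _).trans (norm_ev_le _ hz'.le)
  have h3 : |(ev (dy p a) z).re| ≤ ‖dy p a‖ :=
    (Complex.abs_re_le_norm _).trans (norm_ev_le _ hz'.le)
  have h4 : (ev (dx p a) z).re ^ 2 ≤ ‖dx p a‖ ^ 2 := by
    rw [← sq_abs]; exact pow_le_pow_left₀ (abs_nonneg _) h2 2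
  have h5 : (ev (dy p a) z).re ^ 2 ≤ ‖dy p a‖ ^ 2 := by
    rw [← sq_abs]; exact pow_le_pow_left₀ (abs_nonneg _) h3 2
  constructor
  · have : 0 ≤ ‖dx p a‖ ^ 2 + ‖dy p a‖ ^ 2 := by (clear * -; positivity)
    linarith only [h1, this]
  · rw [gsq_ev a hz']
    have : 0 ≤ ‖a‖ := norm_nonneg a
    linarith only [h4, h5, this]

/-! ### Integrals -/

theorem integral_k_re {k u : Y p} (hk : cj k = k) (hu : cj u = u) :
    ∫ z in ball (0 : ℂ) 1, (ev k z).re * (ev u z).re = π * (I p (k * u)).re := by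
  rw [← integral_ball_re]
  refine setIntegral_congr_fun measurableSet_ball fun z hz => ?_
  have hz' := (mem_ball_zero_iff.1 hz).le
  rw [ev_mul _ _ hz', ← ev_real hk z, ← ev_real hu z, ← Complex.ofReal_mul, Complex.ofReal_re,
    Complex.ofReal_re, Complex.ofReal_re]

theorem integral_k_sq_re {k u : Y p} (hk : cj k = k) (hu : cj u = u) :
    ∫ z in ball (0 : ℂ) 1, (ev k z).re * (ev u z).re ^ 2 = π * (I p (k * (u * u))).re := by
  rw [← integral_ball_re]
  refine setIntegral_congr_fun measurableSet_ball fun z hz => ?_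
  have hz' := (mem_ball_zero_iff.1 hz).le
  rw [ev_mul _ _ hz', ev_mul _ _ hz', ← ev_real hk z, ← ev_real hu z, ← Complex.ofReal_mul,
    ← Complex.ofReal_mul, Complex.ofReal_re, Complex.ofReal_re, Complex.ofReal_re]
  ring

theorem integral_gsq_re {u : Y (p + 1)} (hu : cj u = u) :
    ∫ z in ball (0 : ℂ) 1, Lim.gsq (fun y => (ev u y).re) z = π * (Dir p u u).re := by
  have hsx : ∀ z, ((ev (dx p u) z).re : ℂ) = ev (dx p u) z := fun z =>
    ev_real (by rw [cj_dx, hu]) z
  have hsy : ∀ z, ((ev (dy p u) z).re : ℂ) = ev (dy p u) z := fun z =>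
    ev_real (by rw [cj_dy, hu]) z
  unfold Dir
  rw [← integral_ball_re]
  refine setIntegral_congr_fun measurableSet_ball fun z hz => ?_
  have hz' := (mem_ball_zero_iff.1 hz).le
  rw [gsq_ev u (mem_ball_zero_iff.1 hz), ev_add _ _ hz', ev_mul _ _ hz', ev_mul _ _ hz', ← hsx z,
    ← hsy z, ← Complex.ofReal_mul, ← Complex.ofReal_mul, ← Complex.ofReal_add, Complex.ofReal_re,
    Complex.ofReal_re, Complex.ofReal_re]
  ring

theorem DMin.ser_mul_neg' (a b : Y p) : a * (-b) = -(a * b) := by simp only [mul_def, map_neg]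

/-! ### `DiscMin` -/

theorem px_const_mul {c : ℝ} {f : ℂ → ℝ} : px (fun y => c * f y) = fun z => c * px f z := by
  funext z
  unfold px
  have h : (fun y => c * f y) = c • f := by funext y; simp
  rw [h, fderiv_const_smul_field]
  rfl

theorem py_const_mul {c : ℝ} {f : ℂ → ℝ} : py (fun y => c * f y) = fun z => c * py f z := by
  funext z
  unfold py
  have h : (fun y => c * f y) = c • f := by funext y; simp
  rw [h, fderiv_const_smul_field]
  rfl

theorem gsq_const_mul {c : ℝ} {f : ℂ → ℝ} {z : ℂ} :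
    Lim.gsq (fun y => c * f y) z = c ^ 2 * Lim.gsq f z := by
  unfold Lim.gsq
  rw [px_const_mul, py_const_mul]
  ring

theorem lap_const_mul {c : ℝ} {f : ℂ → ℝ} {z : ℂ} :
    Lim.lap (fun y => c * f y) z = c * Lim.lap f z := by
  unfold Lim.lap
  rw [px_const_mul, py_const_mul, px_const_mul, py_const_mul]
  ring

theorem Lim.DiscMin.congr_weight {κ κ' : ℂ → ℝ} {μ : ℝ} {u : ℂ → ℝ} (h : Lim.DiscMin κ μ u)
    (hκ : ∀ z ∈ ball (0 : ℂ) 1, κ' z = κ z) : Lim.DiscMin κ' μ u where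
  smooth := h.smooth
  bg := h.bg
  eqn z hz := by rw [hκ z hz]; exact h.eqn z hz
  mean := by
    rw [← h.mean]
    exact setIntegral_congr_fun measurableSet_ball fun z hz => by rw [hκ z hz]
  norm := by
    rw [← h.norm]
    exact setIntegral_congr_fun measurableSet_ball fun z hz => by rw [hκ z hz]
  energy := h.energy
  minimal φ hφ hm := by
    have e1 : ∫ z in ball (0 : ℂ) 1, κ' z * φ z = ∫ z in ball (0 : ℂ) 1, κ z * φ z :=
      setIntegral_congr_fun measurableSet_ball fun z hz => by rw [hκ z hz]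
    have e2 : ∫ z in ball (0 : ℂ) 1, κ' z * φ z ^ 2 = ∫ z in ball (0 : ℂ) 1, κ z * φ z ^ 2 :=
      setIntegral_congr_fun measurableSet_ball fun z hz => by rw [hκ z hz]
    show μ * ∫ z in ball (0 : ℂ) 1, κ' z * φ z ^ 2 ≤ _
    rw [e2]
    exact h.minimal φ hφ (e1 ▸ hm)

/-- First eigenfunctions given by series. -/
theorem discMin_of_series {k u : Y (p + 1 + 1)} (hk : IsW k) (hu : cj u = u) (hne : u ≠ 0)
    (heq : lap p u = -((mu1 k : ℂ) • incl (show p ≤ p + 1 + 1 by omega) (k * u)))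
    (hneu : ∀ z, ‖z‖ = 1 → ev (Rad (p + 1) u) z = 0) :
    ∃ c : ℝ, 0 < c ∧ Lim.DiscMin (fun z => (ev k z).re) (mu1 k) (fun z => c * (ev u z).re) := by
  have hμ := mu1_pos hk
  have hμc : (mu1 k : ℂ) ≠ 0 := by exact_mod_cast hμ.ne'
  -- mean
  have hmean : I (p + 1 + 1) (k * u) = 0 := by
    have e1 := I_lap u
    rw [Bd_eq_zero hneu, mul_zero, heq, map_neg, map_smul, I_incl, neg_eq_zero, smul_eq_mul] at e1
    exact (mul_eq_zero.1 e1).resolve_left hμc
  -- energy
  have hen : Dir (p + 1) u u = (mu1 k : ℂ) * I (p + 1 + 1) (k * (u * u)) := by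
    have e1 := Dir_add_lap u u
    rw [Bd_mul_eq_zero hneu, mul_zero, heq, DMin.ser_mul_neg', map_neg, ser_mul_smul, map_smul,
      ← incl_mul, I_incl, smul_eq_mul, add_neg_eq_zero] at e1
    rw [e1]
    congr 2
    rw [← ser_mul_assoc, ← ser_mul_assoc, ser_mul_comm u k]
  have hpos : 0 < (I (p + 1 + 1) (k * (u * u))).re := by
    have := (isWeakInner_WB hk).pos u hne
    rwa [WB_apply, hu] at this
  set N : ℝ := π * (I (p + 1 + 1) (k * (u * u))).re with hN
  have hN0 : 0 < N := mul_pos Real.pi_pos hpos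
  have hc2 : (1 / √N) ^ 2 * N = 1 := by
    rw [div_pow, one_pow, Real.sq_sqrt hN0.le, one_div, inv_mul_cancel₀ hN0.ne']
  refine ⟨1 / √N, by positivity, ?_⟩
  exact
    { smooth := by
        have h1 : ContDiffOn ℝ 2 (fun y => (ev u y).re) (closedBall 0 1) :=
          contDiffOn_ev_re u (n := 2) (by omega)
        exact (contDiffOn_const.mul h1).mono ball_subset_closedBall
      bg := by
        obtain ⟨h1, C, hC⟩ := bg_ev (p := p + 1) u
        refine ⟨contDiffOn_const.mul h1, (1 / √N) * C + (1 / √N) ^ 2 * C, fun z hz => ?_⟩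
        obtain ⟨h2, h3⟩ := hC z hz
        have hC0 : 0 ≤ C := (abs_nonneg _).trans h2
        have h4 : (0 : ℝ) ≤ 1 / √N := by (clear * - hpos; positivity)
        constructor
        · rw [abs_mul, abs_of_nonneg h4]
          have : 0 ≤ (1 / √N) ^ 2 * C := by (clear * - hpos hC0; positivity)
          have := mul_le_mul_of_nonneg_left h2 h4
          (clear heq hneu hμ hμc hmean hen hN hN0 hc2 h1 hC hz h3; linarith)
        · rw [gsq_const_mul]
          have : 0 ≤ (1 / √N) * C := by (clear * - hpos hC0; positivity)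
          have := mul_le_mul_of_nonneg_left h3 (sq_nonneg (1 / √N))
          (clear heq hneu hμ hμc hmean hen hN hN0 hc2 h1 hC hz h4; linarith)
      eqn := by
        intro z hz
        have hz' := mem_ball_zero_iff.1 hz
        rw [lap_const_mul, lap_ev u hz', heq, ev_neg, ev_smul, ev_incl, ev_mul _ _ hz'.le,
          ← ev_real hk.real z, ← ev_real hu z, ← Complex.ofReal_mul, ← Complex.ofReal_mul,
          ← Complex.ofReal_neg, Complex.ofReal_re, Complex.ofReal_re, Complex.ofReal_re]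
        ring
      mean := by
        have e1 : ∫ z in ball (0 : ℂ) 1, (ev k z).re * (1 / √N * (ev u z).re) =
            (1 / √N) * ∫ z in ball (0 : ℂ) 1, (ev k z).re * (ev u z).re := by
          rw [← integral_const_mul]
          congr 1; funext z; ring
        refine e1.trans ?_
        rw [integral_k_re hk.real hu, hmean]
        simp
      norm := by
        have e1 : ∫ z in ball (0 : ℂ) 1, (ev k z).re * (1 / √N * (ev u z).re) ^ 2 =
            (1 / √N) ^ 2 * ∫ z in ball (0 : ℂ) 1, (ev k z).re * (ev u z).re ^ 2 := by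
          rw [← integral_const_mul]
          congr 1; funext z; ring
        refine e1.trans ?_
        rw [integral_k_sq_re hk.real hu, ← hN, hc2]
      energy := by
        have e1 : ∫ z in ball (0 : ℂ) 1, Lim.gsq (fun z => 1 / √N * (ev u z).re) z =
            (1 / √N) ^ 2 * ∫ z in ball (0 : ℂ) 1, Lim.gsq (fun z => (ev u z).re) z := by
          rw [← integral_const_mul]
          congr 1; funext z; exact gsq_const_mul
        refine e1.trans ?_
        rw [integral_gsq_re hu, hen, Complex.re_ofReal_mul]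
        calc (1 / √N) ^ 2 * (π * (mu1 k * (I (p + 1 + 1) (k * (u * u))).re))
            = mu1 k * ((1 / √N) ^ 2 * N) := by rw [hN]; ring
          _ = mu1 k := by rw [hc2, mul_one]
      minimal := fun φ hφ hm => poincare_BG hk hφ hm }

end Vale.Agent.P071
end
end

section

/-!
# The disc theorem
-/

open scoped ComplexConjugate Topology Real
open Filter Metric MeasureTheory

noncomputable section

namespace Vale.Agent.P071.G

variable {p q : ℕ}

/-! ### Scaling of the conclusions -/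

theorem discMin_scale {κ : ℂ → ℝ} {μ : ℝ} {u : ℂ → ℝ} (h : Lim.DiscMin κ μ u) {t : ℝ} (ht : 0 < t) :
    Lim.DiscMin (fun z => t ^ 2 * κ z) (μ / t ^ 2) (fun z => t⁻¹ * u z) := by
  have hgs : ∀ z ∈ Lim.DD, Lim.gsq (fun z => t⁻¹ * u z) z = t⁻¹ ^ 2 * Lim.gsq u z := by
    intro z hz
    have hd : DifferentiableAt ℝ u z :=
      (h.smooth.differentiableOn (by norm_num)).differentiableAt (isOpen_ball.mem_nhds hz)
    unfold Lim.gsq px py
    rw [fderiv_const_mul hd]
    simp only [smul_apply, smul_eq_mul]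
    ring
  have hopen : IsOpen Lim.DD := isOpen_ball
  refine ⟨contDiffOn_const.mul h.smooth, ⟨contDiffOn_const.mul h.bg.1, ?_⟩, ?_, ?_, ?_, ?_, ?_⟩
  · obtain ⟨C, hC⟩ := h.bg.2
    refine ⟨max (t⁻¹ * C) (t⁻¹ ^ 2 * C), fun z hz => ⟨?_, ?_⟩⟩
    · rw [abs_mul, abs_of_pos (inv_pos.2 ht)]
      exact le_trans (mul_le_mul_of_nonneg_left (hC z hz).1 (inv_pos.2 ht).le) (le_max_left _ _)
    · rw [hgs z hz]
      exact le_trans (mul_le_mul_of_nonneg_left (hC z hz).2 (by positivity)) (le_max_right _ _)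
  · intro z hz
    have hl : Lim.lap (fun z => t⁻¹ * u z) z = t⁻¹ * Lim.lap u z := by
      have := Lim.lap_mul (a := fun _ => t⁻¹) (b := u) hopen contDiffOn_const h.smooth hz
      have c1 : px (fun _ : ℂ => t⁻¹) = fun _ => 0 := by funext y; simp only [px, fderiv_fun_const, Pi.zero_apply, zero_apply]
      have c2 : py (fun _ : ℂ => t⁻¹) = fun _ => 0 := by funext y; simp only [py, fderiv_fun_const, Pi.zero_apply, zero_apply]
      have c3 : Lim.lap (fun _ : ℂ => t⁻¹) z = 0 := by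
        unfold Lim.lap
        rw [c1, c2]
        simp only [px, fderiv_fun_const, Pi.zero_apply, zero_apply, py, add_zero]
      rw [this, c1, c2, c3]
      ring
    rw [hl]
    have := h.eqn z hz
    have h2 : Lim.lap u z = -(μ * κ z * u z) := by linarith only [this]
    rw [h2]
    (clear * - ht; field_simp)
  · have e : (fun z => t ^ 2 * κ z * (t⁻¹ * u z)) = fun z => t * (κ z * u z) := by
      funext z; field_simp
    rw [e, integral_const_mul, h.mean, mul_zero]
  · have e : (fun z => t ^ 2 * κ z * (t⁻¹ * u z) ^ 2) = fun z => κ z * u z ^ 2 := by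
      funext z; field_simp
    rw [e, h.norm]
  · rw [setIntegral_congr_fun hopen.measurableSet hgs, integral_const_mul, h.energy]
    field_simp
  · intro φ hφ hm
    have e1 : (fun z => t ^ 2 * κ z * φ z) = fun z => t ^ 2 * (κ z * φ z) := by
      funext z; ring
    have e2 : (fun z => t ^ 2 * κ z * φ z ^ 2) = fun z => t ^ 2 * (κ z * φ z ^ 2) := by
      funext z; ring
    rw [e1, integral_const_mul] at hm
    have hm' : ∫ z in Lim.DD, κ z * φ z = 0 := (mul_eq_zero.1 hm).resolve_left (by positivity)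
    rw [e2, integral_const_mul]
    have := h.minimal φ hφ hm'
    calc μ / t ^ 2 * (t ^ 2 * ∫ z in Lim.DD, κ z * φ z ^ 2) = μ * ∫ z in Lim.DD, κ z * φ z ^ 2 := by
          field_simp
      _ ≤ _ := this

theorem ineqI_scale {κ κ' : ℂ → ℝ} {u u' : ℂ → ℝ} (hu : ContDiffOn ℝ 1 u Lim.DD)
    (h : Lim.IneqI Lim.DD κ 1 u) {μ b : ℝ} (hμ : 0 < μ) (hb : b ≠ 0)
    (hκ : ∀ z ∈ Lim.DD, κ' z = κ z / μ) (hu' : ∀ z, u' z = b * u z) :
    Lim.IneqI Lim.DD κ' μ u' := by
  intro η h1 h2 h3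
  have h4 := h η h1 h2 h3
  have hopen : IsOpen Lim.DD := isOpen_ball
  have hb2 : 0 < b ^ 2 := by positivity
  have e1 : ∀ z ∈ Lim.DD, ENNReal.ofReal (η z ^ 2 * κ' z ^ 2 * u' z ^ 2) /
      ENNReal.ofReal (Lim.gsq u' z) = ENNReal.ofReal (1 / μ ^ 2) *
        (ENNReal.ofReal (η z ^ 2 * κ z ^ 2 * u z ^ 2) / ENNReal.ofReal (Lim.gsq u z)) := by
    intro z hz
    have hd : DifferentiableAt ℝ u z :=
      (hu.differentiableOn (by norm_num)).differentiableAt (isOpen_ball.mem_nhds hz)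
    have hg : Lim.gsq u' z = b ^ 2 * Lim.gsq u z := by
      have : u' = fun z => b * u z := funext hu'
      rw [this]
      unfold Lim.gsq px py
      rw [fderiv_const_mul hd]
      simp only [smul_apply, smul_eq_mul]
      ring
    have hn : η z ^ 2 * κ' z ^ 2 * u' z ^ 2 =
        b ^ 2 * (1 / μ ^ 2 * (η z ^ 2 * κ z ^ 2 * u z ^ 2)) := by
      rw [hκ z hz, hu' z]; (clear * - hb hμ; field_simp)
    rw [hn, hg, ENNReal.ofReal_mul hb2.le, ENNReal.ofReal_mul hb2.le,
      ENNReal.mul_div_mul_left _ _ (ENNReal.ofReal_pos.2 hb2).ne' ENNReal.ofReal_ne_top,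
      ENNReal.ofReal_mul (by (clear * - hμ; positivity)), mul_div_assoc]
  rw [setLIntegral_congr_fun hopen.measurableSet e1, lintegral_const_mul' _ _ ENNReal.ofReal_ne_top]
  refine (mul_le_mul_right h4 _).trans ?_
  rw [← ENNReal.ofReal_mul (by positivity)]
  apply ENNReal.ofReal_le_ofReal
  apply le_of_eq
  (clear * - hμ; field_simp)

/-! ### Admissibility of normalised weights -/

theorem adW_of_curv {k : Y 8} (hk : IsW k) (hcurv : ∀ z : ℂ, ‖z‖ < 1 →
    0 < rv ((mu1 k : ℂ) • k) z ^ 3 +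
      4 * ((ev (dzb 6 (dz 7 ((mu1 k : ℂ) • k))) z).re * rv ((mu1 k : ℂ) • k) z -
        Complex.normSq (ev (dz 7 ((mu1 k : ℂ) • k)) z))) : AdW ((mu1 k : ℂ) • k) where
  real := (hk.smul (mu1_pos hk)).real
  pos := (hk.smul (mu1_pos hk)).pos
  curv := hcurv
  poinc a ha hm := by
    have hμ := mu1_pos hk
    have hμc : (mu1 k : ℂ) ≠ 0 := by exact_mod_cast hμ.ne'
    have h38 : 3 ≤ 8 := by norm_num
    have h34 : 3 ≤ 4 := by norm_num
    have e0 : incl h38 k = incl h34 (i84 k) := by ext i; simp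
    have hm' : I 4 (i84 k * a) = 0 := by
      rw [map_smul, ser_smul_mul, map_smul, smul_eq_mul] at hm
      exact (mul_eq_zero.1 hm).resolve_left hμc
    have h1 := poincare (hk.incl h38) (φ := a) ha (by
      rw [e0, ← incl_mul, I_incl, hm'])
    rw [mu1_incl hk h38, e0, ← incl_mul, ← incl_mul, I_incl] at h1
    have e2 : (ip ((mu1 k : ℂ) • k) a a).re = mu1 k * (I 4 (i84 k * (a * a))).re := by
      unfold ip
      rw [map_smul, ser_smul_mul, map_smul, smul_eq_mul, Complex.re_ofReal_mul]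
    rw [e2]
    exact h1

/-! ### The path -/

theorem path_clamp (a : Y p) (s : ℝ) : Ends.path a s = Ends.path a (Ends.clamp s) := by
  ext i
  rw [Ends.cf_path, Ends.cf_path, Ends.clamp_of_mem (Ends.clamp_nonneg s) (Ends.clamp_le_one s)]

theorem isW_path {a : Y p} (ha : IsW a) (s : ℝ) : IsW (Ends.path a s) where
  real := Ends.cj_path ha.real s
  pos z hz := by
    rw [path_clamp, Ends.ev_path a (Ends.clamp_nonneg s) (Ends.clamp_le_one s)]
    refine ha.pos _ ?_
    rw [norm_mul, Complex.norm_real, Real.norm_eq_abs, abs_of_nonneg (Ends.clamp_nonneg s)]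
    exact mul_le_one₀ (Ends.clamp_le_one s) (norm_nonneg _) hz

theorem continuous_mu1_path {a : Y p} (ha : IsW a) :
    Continuous fun s => (mu1 (Ends.path a s) : ℂ) • Ends.path a s := by
  have h1 : Continuous fun s => mu1 (Ends.path a s) := by
    apply SeqContinuous.continuous
    intro x s hx
    exact tendsto_mu1 (fun n => isW_path ha _) (isW_path ha _)
      (((Ends.continuous_path a).tendsto s).comp hx)
  exact (Complex.continuous_ofReal.comp h1).smul (Ends.continuous_path a)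

/-- The disc theorem. -/
theorem disc_thm {f F : ℂ → ℂ} (hf : Lim.Conf f F) : Lim.DiscThm f F := by
  intro ρ hρ hc m m' hm hmm hcurv hpoin r hr0 hr1
  obtain ⟨c, hc, hρc⟩ := hc
  have hρpos : ∀ z ∈ Lim.DD, 0 < ρ (f z) := fun z hz => hc.trans_le (hρc z hz)
  obtain ⟨a, ha1, ha2⟩ := Ends.exists_weight 8 hf hρ hr0.le hr1
  have hwpos : ∀ t : ℝ, 0 ≤ t → t < 1 → ∀ z : ℂ, ‖z‖ ≤ 1 → (t : ℂ) * z ∈ Lim.DD := by
    intro t h0 h1 z hz
    rw [mem_ball_zero_iff, norm_mul, Complex.norm_real, Real.norm_eq_abs, abs_of_nonneg h0]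
    calc t * ‖z‖ ≤ t * 1 := by (clear * - hz h0; gcongr)
      _ < 1 := by linarith only [h1]
  have hW : IsW a := ⟨ha1, fun z hz => by
    rw [ha2 z hz, Complex.ofReal_re]
    have h1 := hwpos r hr0.le hr1 z hz
    have h2 := hρpos _ h1
    have h3 := norm_pos_iff.2 (hf.ne_zero _ h1)
    (clear * - h3 h2; positivity)⟩
  set k : ℝ → Y 8 := Ends.path a with hk
  have hkW : ∀ s, IsW (k s) := isW_path hW
  have hev : ∀ s : ℝ, 0 ≤ s → s ≤ 1 → ∀ z : ℂ, ‖z‖ ≤ 1 → ev (k s) z =
      ((‖F (((r * s : ℝ) : ℂ) * z)‖ ^ 2 * ρ (f (((r * s : ℝ) : ℂ) * z)) : ℝ) : ℂ) := by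
    intro s h0 h1 z hz
    rw [hk, Ends.ev_path a h0 h1, ha2]
    · have : (r : ℂ) * (s * z) = ((r * s : ℝ) : ℂ) * z := by push_cast; ring
      rw [this]
    · rw [norm_mul, Complex.norm_real, Real.norm_eq_abs, abs_of_nonneg h0]
      exact mul_le_one₀ h1 (norm_nonneg _) hz
  have hV0 : ∀ s, ∃ u, IsV ((mu1 (k s) : ℂ) • k s) u ∧ u ≠ 0 := by
    intro s
    obtain ⟨u, hu, hE⟩ := exists_isEig (hkW s)
    exact ⟨u, isV_of_isEig hE, hu⟩
  have hDM : ∀ s, ∀ u : Y 8, IsV ((mu1 (k s) : ℂ) • k s) u → u ≠ 0 → ∃ c : ℝ, 0 < c ∧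
      Lim.DiscMin (fun z => (ev (k s) z).re) (mu1 (k s)) (fun z => c * (ev u z).re) := by
    intro s u hu hu0
    refine discMin_of_series (p := 6) (hkW s) hu.real hu0 ?_ hu.neu
    rw [hu.eqn, map_smul, ser_smul_mul, ← incl_mul]
  have hmu : ∀ s : ℝ, 0 ≤ s → s ≤ 1 → m' * (r * s) ^ 2 ≤ mu1 (k s) := by
    intro s h0 h1
    rcases h0.eq_or_lt with h | h
    · rw [← h, mul_zero]
      calc m' * 0 ^ 2 = 0 := by norm_num
        _ ≤ _ := (mu1_pos (hkW 0)).le
    · obtain ⟨u, hu, hu0⟩ := hV0 s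
      obtain ⟨c, hc, hD⟩ := hDM s u hu hu0
      have hrs0 : 0 < r * s := by (clear * - hr0 h; positivity)
      have hrs1 : r * s < 1 := by nlinarith only [hr1, hr0, h1]
      have hkap : ∀ z ∈ Lim.DD, Lim.kap f F ρ (r * s) z = (r * s) ^ 2 * (ev (k s) z).re := by
        intro z hz
        rw [hev s h0 h1 z (mem_ball_zero_iff.1 hz).le, Complex.ofReal_re]
        unfold Lim.kap
        ring
      have hp := hpoin (r * s) hrs0 hrs1 _ hD.bg (by
        rw [setIntegral_congr_fun (g := fun z => (r * s) ^ 2 *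
          ((ev (k s) z).re * (c * (ev u z).re))) measurableSet_ball
          (fun z hz => by simp only [hkap z hz]; ring), integral_const_mul, hD.mean, mul_zero])
      rw [setIntegral_congr_fun (g := fun z => (r * s) ^ 2 *
          ((ev (k s) z).re * (c * (ev u z).re) ^ 2)) measurableSet_ball
          (fun z hz => by simp only [hkap z hz]; ring), integral_const_mul, hD.norm, mul_one,
          hD.energy] at hp
      exact hp
  have hadw : ∀ s ∈ Set.Icc (0 : ℝ) 1, AdW ((mu1 (k s) : ℂ) • k s) := by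
    intro s hs
    have hrs0 : 0 ≤ r * s := mul_nonneg hr0.le hs.1
    have hrs1 : r * s < 1 := by nlinarith only [hr1, hr0, hs.2]
    exact adW_of_curv (hkW s) fun z hz => Ends.curv_of hf hρ hρpos hmm hcurv hrs0 hrs1
      (hev s hs.1 hs.2) (mu1_pos (hkW s)) (hmu s hs.1 hs.2) z hz
  have hbase : GoodW ((mu1 (k 0) : ℂ) • k 0) := by
    have e0 : (mu1 (k 0) : ℂ) • k 0 = ((mu1 (k 0) * (ev a 0).re : ℝ) : ℂ) • one1 8 := by
      rw [hk, Ends.path_zero, smul_smul]
      push_cast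
      rw [ev_real ha1]
    have h1 := hadw 0 ⟨le_rfl, zero_le_one⟩
    have h2 := hV0 0
    rw [e0] at h1 h2 ⊢
    exact goodW_const h1 h2
  have hgood := path_theorem (w := fun s => (mu1 (k s) : ℂ) • k s) zero_le_one
    (continuous_mu1_path hW).continuousOn hadw (fun s _ => hV0 s) hbase
  have hk1 : k 1 = a := Ends.path_one a
  obtain ⟨u, v, c', hadm, hg⟩ := hgood
  have hu0 : u ≠ 0 := by
    intro h0
    have := hadm.norm_u
    rw [h0, norm_zero] at this
    exact zero_ne_one this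
  obtain ⟨b, hb, hD⟩ := hDM 1 u hadm.hu hu0
  have hI := ineqI_of_good (hadw 1 ⟨zero_le_one, le_rfl⟩) hadm.toTri hg
  have hkap : ∀ z ∈ Lim.DD, Lim.kap f F ρ r z = r ^ 2 * (ev (k 1) z).re := by
    intro z hz
    rw [hk1, ha2 z (mem_ball_zero_iff.1 hz).le, Complex.ofReal_re]
    unfold Lim.kap
    ring
  refine ⟨mu1 (k 1) / r ^ 2, fun z => r⁻¹ * (b * (ev u z).re),
    (discMin_scale hD hr0).congr_weight hkap, ?_⟩
  have hμ1 := mu1_pos (hkW 1)
  refine ineqI_scale (u := rv u) (b := r⁻¹ * b) ?_ hI (by (clear * - hμ1 hr0; positivity)) (by (clear * - hr0 hb; positivity)) ?_ ?_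
  · have := contDiffOn_ev 8 u
    have h3 : ContDiffOn ℝ 1 (ev u) (ball 0 1) :=
      (this.mono ball_subset_closedBall).of_le (by norm_num)
    exact Complex.reCLM.contDiff.comp_contDiffOn h3
  · intro z hz
    rw [hkap z hz]
    unfold rv
    rw [ev_smul, Complex.re_ofReal_mul]
    (clear * - hμ1 hr0; field_simp)
  · intro z
    unfold rv
    ring

end Vale.Agent.P071.G
end
end
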