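import Vale.Agent.P071.MathlibUsed
import Vale.Agent.P071.Bdl.B1
attribute [-instance] ProperSMul.toContinuousSMul IsTopologicalTorsor.toContinuousSMul IdemSemiring.toCanonicallyOrderedAdd IdemSemiring.toMulLeftMono IdemSemiring.toMulRightMono AddQuantale.instAddLeftMono AddQuantale.instAddRightMono Quantale.instMulLeftMono Quantale.instMulRightMono FiniteDimensional.rclike_to_real IsScalarTower.complexToReal FiniteDimensional.complexToReal

set_option linter.all false

section

/-!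
# Local elliptic estimates: gradients (task LIM-LEb)
-/

open MeasureTheory Metric Filter Topology Real
open scoped ContDiff ENNReal

namespace Vale.Agent.P071.Lim

theorem px_shift (w : ℂ → ℝ) (z₀ : ℂ) : px (fun y => w (z₀ + y)) = fun y => px w (z₀ + y) := by
  funext y; unfold px; rw [fderiv_comp_add_left]

theorem py_shift (w : ℂ → ℝ) (z₀ : ℂ) : py (fun y => w (z₀ + y)) = fun y => py w (z₀ + y) := by
  funext y; unfold py; rw [fderiv_comp_add_left]

theorem gsq_shift (w : ℂ → ℝ) (z₀ : ℂ) : gsq (fun y => w (z₀ + y)) = fun y => gsq w (z₀ + y) := by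
  funext y; unfold gsq; rw [px_shift, py_shift]

theorem lap_shift (w : ℂ → ℝ) (z₀ : ℂ) : lap (fun y => w (z₀ + y)) = fun y => lap w (z₀ + y) := by
  funext y; unfold lap; rw [px_shift, py_shift, px_shift, py_shift]

theorem preimage_ball_shift (z₀ : ℂ) (r : ℝ) : (fun y => z₀ + y) ⁻¹' ball z₀ r = ball 0 r := by
  ext y; simp only [preimage_add_ball, sub_self, mem_ball, dist_eq_norm, sub_zero]

theorem setIntegral_shift (g : ℂ → ℝ) (z₀ : ℂ) (r : ℝ) :
    ∫ y in ball 0 r, g (z₀ + y) = ∫ z in ball z₀ r, g z := by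
  rw [← preimage_ball_shift z₀ r]
  exact (measurePreserving_add_left volume z₀).setIntegral_preimage_emb
    (measurableEmbedding_addLeft z₀) g (ball z₀ r)

theorem integrableOn_shift {g : ℂ → ℝ} {z₀ : ℂ} {r : ℝ} :
    IntegrableOn (fun y => g (z₀ + y)) (ball 0 r) ↔ IntegrableOn g (ball z₀ r) := by
  rw [← preimage_ball_shift z₀ r]
  exact (measurePreserving_add_left volume z₀).integrableOn_comp_preimage
    (measurableEmbedding_addLeft z₀)

theorem contDiffOn_shift {w : ℂ → ℝ} {z₀ : ℂ} {r : ℝ} (h : ContDiffOn ℝ 2 w (ball z₀ r)) :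
    ContDiffOn ℝ 2 (fun y => w (z₀ + y)) (ball 0 r) := by
  rw [← preimage_ball_shift z₀ r]
  exact h.comp (contDiff_const.add contDiff_id).contDiffOn (fun _ h => h)

/-- `w_x - i w_y` -/
noncomputable def cgr (v : ℂ → ℝ) (y : ℂ) : ℂ := (px v y : ℂ) - Complex.I * (py v y : ℂ)

theorem norm_cgr (v : ℂ → ℝ) (y : ℂ) : ‖cgr v y‖ = Real.sqrt (gsq v y) := by
  have h : cgr v y = ⟨px v y, - py v y⟩ := by
    apply Complex.ext <;> simp [cgr]
  rw [h, Complex.norm_def, Complex.normSq_mk, gsq]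
  congr 1
  ring

theorem px_contDiffOn {v : ℂ → ℝ} {S : Set ℂ} (hS : IsOpen S) (hv : ContDiffOn ℝ 2 v S) :
    ContDiffOn ℝ 1 (px v) S :=
  (hv.fderiv_of_isOpen hS (by norm_num)).clm_apply contDiffOn_const

theorem py_contDiffOn {v : ℂ → ℝ} {S : Set ℂ} (hS : IsOpen S) (hv : ContDiffOn ℝ 2 v S) :
    ContDiffOn ℝ 1 (py v) S :=
  (hv.fderiv_of_isOpen hS (by norm_num)).clm_apply contDiffOn_const

theorem cgr_contDiffOn {v : ℂ → ℝ} {S : Set ℂ} (hS : IsOpen S) (hv : ContDiffOn ℝ 2 v S) :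
    ContDiffOn ℝ 1 (cgr v) S := by
  have h1 : ContDiffOn ℝ 1 (fun y => ((px v y : ℝ) : ℂ)) S :=
    Complex.ofRealCLM.contDiff.comp_contDiffOn (px_contDiffOn hS hv)
  have h2 : ContDiffOn ℝ 1 (fun y => ((py v y : ℝ) : ℂ)) S :=
    Complex.ofRealCLM.contDiff.comp_contDiffOn (py_contDiffOn hS hv)
  exact h1.sub (contDiffOn_const.mul h2)

/-- the d-bar derivative of `w_x - i w_y` is the Laplacian -/
theorem db_cgr {v : ℂ → ℝ} {S : Set ℂ} (hS : IsOpen S) (hv : ContDiffOn ℝ 2 v S) {y : ℂ}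
    (hy : y ∈ S) : P136.SF.db (cgr v) y = (lap v y : ℂ) := by
  have hx : DifferentiableAt ℝ (px v) y :=
    ((px_contDiffOn hS hv).differentiableOn one_ne_zero).differentiableAt (hS.mem_nhds hy)
  have hy' : DifferentiableAt ℝ (py v) y :=
    ((py_contDiffOn hS hv).differentiableOn one_ne_zero).differentiableAt (hS.mem_nhds hy)
  have h1 : HasFDerivAt (fun y => ((px v y : ℝ) : ℂ))
      (Complex.ofRealCLM.comp (fderiv ℝ (px v) y)) y :=
    Complex.ofRealCLM.hasFDerivAt.comp y hx.hasFDerivAt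
  have h2 : HasFDerivAt (fun y => ((py v y : ℝ) : ℂ))
      (Complex.ofRealCLM.comp (fderiv ℝ (py v) y)) y :=
    Complex.ofRealCLM.hasFDerivAt.comp y hy'.hasFDerivAt
  have h3 : HasFDerivAt (cgr v) (Complex.ofRealCLM.comp (fderiv ℝ (px v) y) -
      Complex.I • Complex.ofRealCLM.comp (fderiv ℝ (py v) y)) y :=
    h1.sub (h2.const_mul Complex.I)
  -- symmetry of second derivatives
  have hvd : ContDiffAt ℝ 2 v y := hv.contDiffAt (hS.mem_nhds hy)
  have hsym := hvd.isSymmSndFDerivAt (by simp)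
  have hD : DifferentiableAt ℝ (fderiv ℝ v) y :=
    ((hv.fderiv_of_isOpen (m := 1) hS (by norm_num)).differentiableOn one_ne_zero).differentiableAt
      (hS.mem_nhds hy)
  have e : ∀ a b : ℂ, fderiv ℝ (fun z => fderiv ℝ v z a) y b = fderiv ℝ (fderiv ℝ v) y b a := by
    intro a b
    have h4 : HasFDerivAt (fun z => fderiv ℝ v z a)
        ((ContinuousLinearMap.apply ℝ ℝ a).comp (fderiv ℝ (fderiv ℝ v) y)) y :=
      (ContinuousLinearMap.apply ℝ ℝ a).hasFDerivAt.comp y hD.hasFDerivAt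
    rw [h4.fderiv]
    rfl
  have hs : fderiv ℝ (py v) y 1 = fderiv ℝ (px v) y Complex.I := by
    change fderiv ℝ (fun z => fderiv ℝ v z Complex.I) y 1 =
      fderiv ℝ (fun z => fderiv ℝ v z 1) y Complex.I
    rw [e, e]
    exact hsym 1 Complex.I
  unfold P136.SF.db lap
  rw [h3.fderiv]
  simp only [_root_.sub_apply, _root_.smul_apply,
    ContinuousLinearMap.comp_apply, Complex.ofRealCLM_apply, smul_eq_mul]
  rw [hs]
  have e1 : px (px v) y = fderiv ℝ (px v) y 1 := rfl
  have e2 : py (py v) y = fderiv ℝ (py v) y Complex.I := rfl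
  rw [e1, e2]
  push_cast
  ring_nf
  rw [Complex.I_sq]
  ring

theorem integrableOn_inv_norm (r : ℝ) : IntegrableOn (fun y : ℂ => ‖y‖⁻¹) (ball 0 r) := by
  have h := integrableOn_fun_norm_addHaar (E := ℂ) (volume : Measure ℂ) (f := fun r : ℝ => r⁻¹)
    (r := r)
  rw [h]
  refine IntegrableOn.congr_fun (f := fun _ => (1 : ℝ)) ?_ ?_ measurableSet_Ioo
  · exact integrableOn_const (by simp only [volume_Ioo, sub_zero, ne_eq, ENNReal.ofReal_ne_top, not_false_eq_true]) (by simp only [enorm_one, ne_eq, ENNReal.one_ne_top, not_false_eq_true])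
  · intro x hx
    have : x ≠ 0 := hx.1.ne'
    simp only [Complex.finrank_real_complex, Nat.add_one_sub_one, pow_one, smul_eq_mul, ne_eq, this, not_false_eq_true, mul_inv_cancel₀]

theorem gsq_nonneg_bd400 (w : ℂ → ℝ) (z : ℂ) : 0 ≤ gsq w z := by unfold gsq; positivity

theorem integrableOn_const_ball (c R : ℝ) : IntegrableOn (fun _ : ℂ => c) (ball (0 : ℂ) R) :=
  integrableOn_const measure_ball_lt_top.ne enorm_ne_top

theorem integrableOn_sqrt_gsq {v : ℂ → ℝ} {R : ℝ} (h : IntegrableOn (gsq v) (ball 0 R)) :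
    IntegrableOn (fun z => Real.sqrt (gsq v z)) (ball 0 R) := by
  have h1 := integrableOn_const_ball 1 R
  refine Integrable.mono' (h1.add h) (Real.continuous_sqrt.comp_aestronglyMeasurable
    h.aestronglyMeasurable) (Eventually.of_forall fun z => ?_)
  have h2 := gsq_nonneg_bd400 v z
  have h3 := Real.sq_sqrt h2
  have h4 := Real.sqrt_nonneg (gsq v z)
  rw [Real.norm_of_nonneg h4]
  simp only [Pi.add_apply]
  nlinarith only [h3]

theorem cauchy_sqrt {v : ℂ → ℝ} {R : ℝ} (h : IntegrableOn (gsq v) (ball 0 R)) :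
    (∫ z in ball 0 R, Real.sqrt (gsq v z)) ^ 2 ≤
      volume.real (ball (0 : ℂ) R) * ∫ z in ball 0 R, gsq v z := by
  set I := ∫ z in ball 0 R, Real.sqrt (gsq v z)
  set E := ∫ z in ball 0 R, gsq v z
  set V := volume.real (ball (0 : ℂ) R)
  have hs := integrableOn_sqrt_gsq h
  have h0 : ∀ t : ℝ, 0 ≤ V * (t * t) + (-2 * I) * t + E := by
    intro t
    have h1 := integrableOn_const_ball (t ^ 2) R
    have h2 : IntegrableOn (fun z : ℂ => (2 * t) * Real.sqrt (gsq v z)) (ball (0 : ℂ) R) :=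
      hs.const_mul _
    have h3 : ∫ z in ball 0 R, (t - Real.sqrt (gsq v z)) ^ 2 =
        ∫ z in ball 0 R, (t ^ 2 - (2 * t) * Real.sqrt (gsq v z) + gsq v z) := by
      refine integral_congr_ae (Eventually.of_forall fun z => ?_)
      have := Real.sq_sqrt (gsq_nonneg_bd400 v z)
      simp only
      linarith
    have h4 : (0 : ℝ) ≤ ∫ z in ball 0 R, (t - Real.sqrt (gsq v z)) ^ 2 :=
      integral_nonneg fun z => sq_nonneg _
    have h12 : IntegrableOn (fun z : ℂ => t ^ 2 - (2 * t) * Real.sqrt (gsq v z)) (ball 0 R) :=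
      h1.sub h2
    rw [h3, integral_add h12 h, integral_sub h1 h2, integral_const_mul,
      setIntegral_const, smul_eq_mul] at h4
    change 0 ≤ V * t ^ 2 - 2 * t * I + E at h4
    linarith
  have h5 := discrim_le_zero h0
  unfold discrim at h5
  linarith

theorem energy0 {R : ℝ} (hR : 0 < R) : ∃ C : ℝ, 0 < C ∧
    ∀ (v : ℂ → ℝ) (M : ℝ),
    ContDiffOn ℝ 2 v (ball 0 R) → (∀ z ∈ ball 0 R, |lap v z| ≤ M) →
    IntegrableOn (gsq v) (ball 0 R) →
    gsq v 0 ≤ C * (M ^ 2 + ∫ z in ball 0 R, gsq v z) := by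
  set b : ContDiffBump (0 : ℂ) := ⟨R / 2, 3 * R / 4, by positivity, by linarith⟩ with hb
  have hbc : ContDiff ℝ 1 b := b.contDiff
  obtain ⟨K, hK⟩ := (hbc.continuous_fderiv one_ne_zero).bounded_above_of_compact_support
    (b.hasCompactSupport.fderiv (𝕜 := ℝ))
  have hK0 : 0 ≤ K := (norm_nonneg _).trans (hK 0)
  set S : Set ℂ := ball 0 R with hS
  have hSo : IsOpen S := isOpen_ball
  set J := ∫ y in S, ‖y‖⁻¹ with hJ
  set V := volume.real S with hV
  set k := 2 / R * (2 * K) with hk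
  have hk0 : 0 ≤ k := by (clear * - hR hK0; positivity)
  have hV0 : 0 ≤ V := measureReal_nonneg
  have hts : tsupport b ⊆ S := by
    rw [b.tsupport_eq]
    exact closedBall_subset_ball (by simp only [hb]; linarith only [hR])
  refine ⟨J ^ 2 + k ^ 2 * V + 1, by (clear * -; positivity), ?_⟩
  intro v M hv hM hg
  set E := ∫ z in S, gsq v z with hE
  have hE0 : 0 ≤ E := integral_nonneg fun z => gsq_nonneg_bd400 v z
  have h0S : (0 : ℂ) ∈ S := mem_ball_self hR
  have hM0 : 0 ≤ M := (abs_nonneg _).trans (hM 0 h0S)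
  set ψ : ℂ → ℂ := fun y => (b y : ℂ) * cgr v y with hψ
  have hG := cgr_contDiffOn hSo hv
  have hbC : ContDiff ℝ 1 (fun y => ((b y : ℝ) : ℂ)) := Complex.ofRealCLM.contDiff.comp hbc
  have hψ1 : ContDiff ℝ 1 ψ := by
    rw [contDiff_iff_contDiffAt]
    intro z
    by_cases hz : z ∈ S
    · exact hbC.contDiffAt.mul (hG.contDiffAt (hSo.mem_nhds hz))
    · have h1 : (b : ℂ → ℝ) =ᶠ[𝓝 z] 0 :=
        notMem_tsupport_iff_eventuallyEq.1 fun h => hz (hts h)
      have h2 : ψ =ᶠ[𝓝 z] fun _ => 0 := by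
        filter_upwards [h1] with w hw
        simp [hψ, hw]
      exact contDiffAt_const.congr_of_eventuallyEq h2
  have hψs : HasCompactSupport ψ := by
    have : HasCompactSupport (fun y => ((b y : ℝ) : ℂ)) :=
      b.hasCompactSupport.comp_left (g := fun t : ℝ => (t : ℂ)) (by simp)
    exact this.mul_right
  have hP := P136.SF.pompeiu hψ1 hψs
  -- the pointwise bound
  have hdb0 : ∀ y, y ∉ S → P136.SF.db ψ y = 0 := by
    intro z hz
    have h1 : (b : ℂ → ℝ) =ᶠ[𝓝 z] 0 :=
      notMem_tsupport_iff_eventuallyEq.1 fun h => hz (hts h)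
    have h2 : ψ =ᶠ[𝓝 z] fun _ => 0 := by
      filter_upwards [h1] with w hw
      simp [hψ, hw]
    unfold P136.SF.db
    rw [h2.fderiv_eq]
    simp only [fderiv_fun_const, Pi.zero_apply, zero_apply, mul_zero, add_zero]
  have hdb : ∀ y ∈ S, P136.SF.db ψ y = (b y : ℂ) * (lap v y : ℂ) +
      ((fderiv ℝ b y 1 : ℝ) + Complex.I * (fderiv ℝ b y Complex.I : ℝ)) * cgr v y := by
    intro y hy
    have h1 : HasFDerivAt (fun y => ((b y : ℝ) : ℂ))
        (Complex.ofRealCLM.comp (fderiv ℝ b y)) y :=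
      Complex.ofRealCLM.hasFDerivAt.comp y (hbc.differentiable one_ne_zero y).hasFDerivAt
    have h2 : HasFDerivAt (cgr v) (fderiv ℝ (cgr v) y) y :=
      ((hG.differentiableOn one_ne_zero).differentiableAt (hSo.mem_nhds hy)).hasFDerivAt
    have h3 : fderiv ℝ ψ y = _ := (h1.mul h2).fderiv
    have h4 := db_cgr hSo hv hy
    unfold P136.SF.db at h4 ⊢
    rw [h3, ← h4]
    simp only [_root_.add_apply, _root_.smul_apply, ContinuousLinearMap.comp_apply,
      Complex.ofRealCLM_apply, smul_eq_mul]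
    ring
  have hbound : ∀ y, ‖y⁻¹ * P136.SF.db ψ y‖ ≤
      S.indicator (fun y => M * ‖y‖⁻¹ + k * Real.sqrt (gsq v y)) y := by
    intro y
    by_cases hy : y ∈ S
    · rw [Set.indicator_of_mem hy, norm_mul, norm_inv, hdb y hy]
      have hb1 : ‖(b y : ℂ) * (lap v y : ℂ)‖ ≤ M := by
        rw [norm_mul, Complex.norm_real, Complex.norm_real, Real.norm_of_nonneg b.nonneg]
        calc b y * ‖lap v y‖ ≤ 1 * M := mul_le_mul b.le_one (hM y hy) (norm_nonneg _) zero_le_one
          _ = M := one_mul M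
      have hinv : 0 ≤ ‖y‖⁻¹ := by (clear * -; positivity)
      have hb2 : ‖y‖⁻¹ * ‖((fderiv ℝ b y 1 : ℝ) + Complex.I * (fderiv ℝ b y Complex.I : ℝ) : ℂ)‖
          ≤ k := by
        by_cases hyR : ‖y‖ < R / 2
        · have h1 : (b : ℂ → ℝ) =ᶠ[𝓝 y] fun _ => 1 := by
            filter_upwards [isOpen_ball.mem_nhds (mem_ball_zero_iff.2 hyR)] with w hw
            exact b.one_of_mem_closedBall (ball_subset_closedBall hw)
          rw [h1.fderiv_eq]
          simp only [fderiv_fun_const, Pi.zero_apply, zero_apply, Complex.ofReal_zero, mul_zero, add_zero, norm_zero, hk0]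
        · push Not at hyR
          have h1 : ‖y‖⁻¹ ≤ 2 / R := by
            rw [inv_eq_one_div, div_le_div_iff₀ (by linarith only [hR, hyR]) hR]
            linarith only [hyR]
          have h2 : ‖((fderiv ℝ b y 1 : ℝ) + Complex.I * (fderiv ℝ b y Complex.I : ℝ) : ℂ)‖ ≤
              2 * K := by
            refine (norm_add_le _ _).trans ?_
            rw [norm_mul, Complex.norm_I, one_mul, Complex.norm_real, Complex.norm_real]
            have h3 := (fderiv ℝ b y).le_opNorm 1
            have h4 := (fderiv ℝ b y).le_opNorm Complex.I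
            rw [norm_one, mul_one] at h3
            rw [Complex.norm_I, mul_one] at h4
            linarith only [h3, h4, hK y]
          exact mul_le_mul h1 h2 (norm_nonneg _) (by positivity)
      calc ‖y‖⁻¹ * ‖(b y : ℂ) * (lap v y : ℂ) +
          ((fderiv ℝ b y 1 : ℝ) + Complex.I * (fderiv ℝ b y Complex.I : ℝ)) * cgr v y‖
          ≤ ‖y‖⁻¹ * (M + ‖((fderiv ℝ b y 1 : ℝ) +
            Complex.I * (fderiv ℝ b y Complex.I : ℝ) : ℂ)‖ * Real.sqrt (gsq v y)) := by
            refine mul_le_mul_of_nonneg_left ?_ hinv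
            refine (norm_add_le _ _).trans (add_le_add hb1 ?_)
            rw [norm_mul, norm_cgr]
        _ = M * ‖y‖⁻¹ + (‖y‖⁻¹ * ‖((fderiv ℝ b y 1 : ℝ) +
            Complex.I * (fderiv ℝ b y Complex.I : ℝ) : ℂ)‖) * Real.sqrt (gsq v y) := by ring
        _ ≤ M * ‖y‖⁻¹ + k * Real.sqrt (gsq v y) := by
            (clear * - hb2; gcongr)
    · rw [Set.indicator_of_notMem hy, hdb0 y hy]
      simp
  have hi1 : IntegrableOn (fun y : ℂ => M * ‖y‖⁻¹) S := (integrableOn_inv_norm R).const_mul M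
  have hi2 : IntegrableOn (fun y : ℂ => k * Real.sqrt (gsq v y)) S :=
    (integrableOn_sqrt_gsq hg).const_mul k
  have hi : IntegrableOn (fun y : ℂ => M * ‖y‖⁻¹ + k * Real.sqrt (gsq v y)) S := hi1.add hi2
  have hnorm := norm_integral_le_of_norm_le
    (hi.integrable_indicator hSo.measurableSet) (Eventually.of_forall hbound)
  rw [hP, integral_indicator hSo.measurableSet, integral_add hi1 hi2, integral_const_mul,
    integral_const_mul] at hnorm
  have hψ0 : ‖ψ 0‖ = Real.sqrt (gsq v 0) := by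
    have : b (0 : ℂ) = 1 := b.one_of_mem_closedBall (mem_closedBall_self b.rIn_pos.le)
    simp only [hψ, this, Complex.ofReal_one, one_mul, norm_cgr]
  have h2π : ‖(-(2 * π) * ψ 0 : ℂ)‖ = 2 * π * Real.sqrt (gsq v 0) := by
    rw [norm_mul, hψ0, norm_neg]
    congr 1
    rw [norm_mul, Complex.norm_real, Real.norm_of_nonneg Real.pi_pos.le]
    simp
  rw [h2π] at hnorm
  have hc := cauchy_sqrt hg
  change (∫ z in S, Real.sqrt (gsq v z)) ^ 2 ≤ V * E at hc
  set I := ∫ z in S, Real.sqrt (gsq v z) with hI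
  have hI0 : 0 ≤ I := integral_nonneg fun z => Real.sqrt_nonneg _
  have hJ0 : 0 ≤ J := integral_nonneg fun z => by (clear * -; positivity)
  have hA := Real.sq_sqrt (gsq_nonneg_bd400 v 0)
  set A := Real.sqrt (gsq v 0) with hAdef
  have hA0 : 0 ≤ A := Real.sqrt_nonneg _
  rw [← hA]
  have hA1 : A * 2 ≤ M * J + k * I := by
    have : A * 2 ≤ 2 * π * A := by nlinarith only [hA0, Real.pi_gt_three]
    exact this.trans hnorm
  have hA2 : (A * 2) ^ 2 ≤ (M * J + k * I) ^ 2 := by
    exact pow_le_pow_left₀ (by (clear * -; positivity)) hA1 2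
  have hA3 : (M * J + k * I) ^ 2 ≤ 2 * (M ^ 2 * J ^ 2 + k ^ 2 * I ^ 2) := by
    nlinarith only [sq_nonneg (M * J - k * I)]
  have hA4 : k ^ 2 * I ^ 2 ≤ k ^ 2 * (V * E) := mul_le_mul_of_nonneg_left hc (sq_nonneg k)
  have hA5 : A ^ 2 ≤ M ^ 2 * J ^ 2 + k ^ 2 * (V * E) := by nlinarith only [hA2, hA3, hA4]
  have p1 : 0 ≤ M ^ 2 * (k ^ 2 * V + 1) := by (clear * -; positivity)
  have p2 : 0 ≤ E * (J ^ 2 + 1) := by (clear * - hE0; positivity)
  linarith

theorem gsq_le_of_energy {R : ℝ} (hR : 0 < R) : ∃ C : ℝ, 0 < C ∧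
    ∀ (z₀ : ℂ) (w : ℂ → ℝ) (M : ℝ),
    ContDiffOn ℝ 2 w (ball z₀ R) → (∀ z ∈ ball z₀ R, |lap w z| ≤ M) →
    IntegrableOn (gsq w) (ball z₀ R) →
    gsq w z₀ ≤ C * (M ^ 2 + ∫ z in ball z₀ R, gsq w z) := by
  obtain ⟨C, hC, h⟩ := energy0 hR
  refine ⟨C, hC, ?_⟩
  intro z₀ w M hw hl hg
  have h1 := h (fun y => w (z₀ + y)) M (contDiffOn_shift hw) (by
    intro z hz
    rw [lap_shift]
    refine hl _ ?_
    rw [← preimage_ball_shift z₀ R] at hz
    exact hz) (by
    rw [gsq_shift]
    exact integrableOn_shift.2 hg)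
  rw [gsq_shift] at h1
  simp only [add_zero] at h1
  rwa [setIntegral_shift] at h1

/-- Caccioppoli at the origin, for a fixed bump. -/
theorem caccioppoli0 {R : ℝ} (hR : 0 < R) : ∃ C : ℝ, 0 < C ∧
    ∀ (v : ℂ → ℝ) (M : ℝ),
    ContDiffOn ℝ 2 v (ball 0 R) → (∀ z ∈ ball 0 R, |v z| ≤ M ∧ |lap v z| ≤ M) →
    IntegrableOn (gsq v) (ball 0 (R / 2)) ∧ ∫ z in ball 0 (R / 2), gsq v z ≤ C * M ^ 2 := by
  set b : ContDiffBump (0 : ℂ) := ⟨R / 2, 3 * R / 4, by positivity, by linarith⟩ with hb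
  have hbc : ContDiff ℝ 1 b := b.contDiff
  set S : Set ℂ := ball 0 R with hS
  have hSo : IsOpen S := isOpen_ball
  have hts : tsupport b ⊆ S := by
    rw [b.tsupport_eq]
    exact closedBall_subset_ball (by simp only [hb]; linarith only [hR])
  have hη2 : ContDiff ℝ 1 (fun z => b z ^ 2) := hbc.pow 2
  have hc2 : HasCompactSupport (fun z => b z ^ 2) :=
    b.hasCompactSupport.comp_left (g := fun t : ℝ => t ^ 2) (by norm_num)
  have hs2 : tsupport (fun z => b z ^ 2) ⊆ S := by
    refine Set.Subset.trans ?_ hts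
    refine closure_mono fun z hz => ?_
    simp only [Function.mem_support] at hz ⊢
    intro h
    exact hz (by rw [h]; norm_num)
  have hgb : ∀ u : ℂ, Continuous (fun z => fderiv ℝ b z u) := fun u =>
    (hbc.continuous_fderiv one_ne_zero).clm_apply continuous_const
  have hgbi : ∀ u : ℂ, Integrable (fun z => fderiv ℝ b z u ^ 2) := by
    intro u
    refine Continuous.integrable_of_hasCompactSupport ((hgb u).pow 2) ?_
    exact (b.hasCompactSupport.fderiv (𝕜 := ℝ)).comp_left (g := fun L : ℂ →L[ℝ] ℝ => L u ^ 2)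
      (by simp)
  have hbi : Integrable (fun z => b z ^ 2) := hη2.continuous.integrable_of_hasCompactSupport hc2
  set B0 := ∫ z, b z ^ 2 with hB0
  set B1 := ∫ z, (fderiv ℝ b z 1 ^ 2 + fderiv ℝ b z Complex.I ^ 2) with hB1
  have hB0n : 0 ≤ B0 := integral_nonneg fun z => sq_nonneg _
  have hB1n : 0 ≤ B1 := integral_nonneg fun z => by (clear * -; positivity)
  refine ⟨2 * B0 + 4 * B1 + 1, by (clear * -; positivity), ?_⟩
  intro v M hv hM
  have hv1 : ContDiffOn ℝ 1 v S := hv.of_le (by norm_num)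
  have hgu : ∀ u : ℂ, ContDiffOn ℝ 1 (fun z => fderiv ℝ v z u) S := fun u =>
    (hv.fderiv_of_isOpen hSo (by norm_num)).clm_apply contDiffOn_const
  have hW : ∀ u : ℂ, ContDiffOn ℝ 1 (fun z => v z * fderiv ℝ v z u) S := fun u => hv1.mul (hgu u)
  have hdη : ∀ u z, fderiv ℝ (fun z => b z ^ 2) z u = 2 * b z * fderiv ℝ b z u := by
    intro u z
    have h1 : HasFDerivAt b (fderiv ℝ b z) z := (hbc.differentiable one_ne_zero z).hasFDerivAt
    rw [(h1.pow 2).fderiv]
    simp only [Nat.add_one_sub_one, pow_one, nsmul_eq_mul, Nat.cast_ofNat, smul_apply, smul_eq_mul]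
  have hdW : ∀ u, ∀ z ∈ S, fderiv ℝ (fun z => v z * fderiv ℝ v z u) z u =
      fderiv ℝ v z u ^ 2 + v z * fderiv ℝ (fun z => fderiv ℝ v z u) z u := by
    intro u z hz
    have h1 : HasFDerivAt v (fderiv ℝ v z) z :=
      ((hv1.differentiableOn one_ne_zero).differentiableAt (hSo.mem_nhds hz)).hasFDerivAt
    have h2 : HasFDerivAt (fun z => fderiv ℝ v z u) (fderiv ℝ (fun z => fderiv ℝ v z u) z) z :=
      (((hgu u).differentiableOn one_ne_zero).differentiableAt (hSo.mem_nhds hz)).hasFDerivAt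
    have h3 : fderiv ℝ (fun z => v z * fderiv ℝ v z u) z = _ := (h1.mul h2).fderiv
    rw [h3]
    simp only [add_apply, smul_apply, smul_eq_mul]
    ring
  -- continuity of all the pieces
  have hcg : ∀ u : ℂ, ContinuousOn (fun z => fderiv ℝ v z u) S := fun u => (hgu u).continuousOn
  have hcg2 : ∀ u : ℂ, ContinuousOn (fun z => fderiv ℝ (fun z => fderiv ℝ v z u) z u) S := fun u =>
    ((hgu u).continuousOn_fderiv_of_isOpen hSo le_rfl).clm_apply continuousOn_const
  have hi1 : ∀ u : ℂ, Integrable (fun z => b z ^ 2 * fderiv ℝ v z u ^ 2) := fun u =>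
    Loc.int_mul hSo hη2.continuous hc2 hs2 ((hcg u).pow 2)
  have hi2 : ∀ u : ℂ, Integrable
      (fun z => b z ^ 2 * (v z * fderiv ℝ (fun z => fderiv ℝ v z u) z u)) := fun u =>
    Loc.int_mul hSo hη2.continuous hc2 hs2 (hv1.continuousOn.mul (hcg2 u))
  have hi3 : ∀ u : ℂ, Integrable
      (fun z => 2 * b z * fderiv ℝ b z u * (v z * fderiv ℝ v z u)) := by
    intro u
    have h1 : Integrable (fun z => b z * (2 * fderiv ℝ b z u * (v z * fderiv ℝ v z u))) := by
      refine Loc.int_mul hSo hbc.continuous b.hasCompactSupport hts ?_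
      exact (continuousOn_const.mul (hgb u).continuousOn).mul (hv1.continuousOn.mul (hcg u))
    refine h1.congr (Eventually.of_forall fun z => ?_)
    simp only
    ring
  have key : ∀ u : ℂ, ∫ z, b z ^ 2 * fderiv ℝ v z u ^ 2 =
      -(∫ z, b z ^ 2 * (v z * fderiv ℝ (fun z => fderiv ℝ v z u) z u)) -
        ∫ z, 2 * b z * fderiv ℝ b z u * (v z * fderiv ℝ v z u) := by
    intro u
    have h1 := Loc.ibp hSo hη2 hc2 hs2 (hW u) u
    have h2 : ∫ z, b z ^ 2 * fderiv ℝ (fun z => v z * fderiv ℝ v z u) z u =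
        ∫ z, (b z ^ 2 * fderiv ℝ v z u ^ 2 +
          b z ^ 2 * (v z * fderiv ℝ (fun z => fderiv ℝ v z u) z u)) := by
      refine integral_congr_ae (Eventually.of_forall fun z => ?_)
      by_cases hz : z ∈ S
      · simp only [hdW u z hz]
        ring
      · have : b z = 0 := by
          by_contra hne
          exact hz (hts (subset_tsupport _ hne))
        simp only [this, ne_eq, OfNat.ofNat_ne_zero, not_false_eq_true, zero_pow, zero_mul, add_zero]
    have h3 : ∫ z, fderiv ℝ (fun z => b z ^ 2) z u * (v z * fderiv ℝ v z u) =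
        ∫ z, 2 * b z * fderiv ℝ b z u * (v z * fderiv ℝ v z u) := by
      refine integral_congr_ae (Eventually.of_forall fun z => ?_)
      simp only [hdη]
    rw [h2, integral_add (hi1 u) (hi2 u), h3] at h1
    linarith only [h1]
  -- summing up
  have hX : Integrable (fun z => b z ^ 2 * gsq v z) := by
    refine ((hi1 1).add (hi1 Complex.I)).congr (Eventually.of_forall fun z => ?_)
    simp only [Pi.add_apply, gsq, px, py]
    ring
  have hXe : ∫ z, b z ^ 2 * gsq v z =
      (∫ z, b z ^ 2 * fderiv ℝ v z 1 ^ 2) + ∫ z, b z ^ 2 * fderiv ℝ v z Complex.I ^ 2 := by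
    rw [← integral_add (hi1 1) (hi1 Complex.I)]
    refine integral_congr_ae (Eventually.of_forall fun z => ?_)
    simp only [gsq, px, py]
    ring
  have hM0 : 0 ≤ M := (abs_nonneg _).trans (hM 0 (mem_ball_self hR)).1
  have hR1 : Integrable (fun z => M ^ 2 * b z ^ 2 + ((1 / 2) * (b z ^ 2 * gsq v z) +
      (2 * M ^ 2) * (fderiv ℝ b z 1 ^ 2 + fderiv ℝ b z Complex.I ^ 2))) :=
    (hbi.const_mul _).add ((hX.const_mul _).add (((hgbi 1).add (hgbi Complex.I)).const_mul _))
  have hmain : ∫ z, b z ^ 2 * gsq v z ≤ ∫ z, (M ^ 2 * b z ^ 2 + ((1 / 2) * (b z ^ 2 * gsq v z) +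
      (2 * M ^ 2) * (fderiv ℝ b z 1 ^ 2 + fderiv ℝ b z Complex.I ^ 2))) := by
    have hL : Integrable (fun z =>
        -(b z ^ 2 * (v z * fderiv ℝ (fun z => fderiv ℝ v z 1) z 1)) -
          2 * b z * fderiv ℝ b z 1 * (v z * fderiv ℝ v z 1) +
        (-(b z ^ 2 * (v z * fderiv ℝ (fun z => fderiv ℝ v z Complex.I) z Complex.I)) -
          2 * b z * fderiv ℝ b z Complex.I * (v z * fderiv ℝ v z Complex.I))) :=
      ((hi2 1).neg.sub (hi3 1)).add ((hi2 Complex.I).neg.sub (hi3 Complex.I))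
    have hLe : ∫ z, b z ^ 2 * gsq v z = ∫ z,
        (-(b z ^ 2 * (v z * fderiv ℝ (fun z => fderiv ℝ v z 1) z 1)) -
          2 * b z * fderiv ℝ b z 1 * (v z * fderiv ℝ v z 1) +
        (-(b z ^ 2 * (v z * fderiv ℝ (fun z => fderiv ℝ v z Complex.I) z Complex.I)) -
          2 * b z * fderiv ℝ b z Complex.I * (v z * fderiv ℝ v z Complex.I))) := by
      have a1 : Integrable (fun z => -(b z ^ 2 * (v z * fderiv ℝ (fun z => fderiv ℝ v z 1) z 1)) -
          2 * b z * fderiv ℝ b z 1 * (v z * fderiv ℝ v z 1)) := (hi2 1).neg.sub (hi3 1)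
      have a2 : Integrable (fun z =>
          -(b z ^ 2 * (v z * fderiv ℝ (fun z => fderiv ℝ v z Complex.I) z Complex.I)) -
          2 * b z * fderiv ℝ b z Complex.I * (v z * fderiv ℝ v z Complex.I)) :=
        (hi2 Complex.I).neg.sub (hi3 Complex.I)
      have a3 : Integrable (fun z =>
          -(b z ^ 2 * (v z * fderiv ℝ (fun z => fderiv ℝ v z 1) z 1))) := (hi2 1).neg
      have a4 : Integrable (fun z =>
          -(b z ^ 2 * (v z * fderiv ℝ (fun z => fderiv ℝ v z Complex.I) z Complex.I))) :=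
        (hi2 Complex.I).neg
      rw [integral_add a1 a2, integral_sub a3 (hi3 1), integral_sub a4 (hi3 Complex.I),
        integral_neg, integral_neg, hXe, key 1, key Complex.I]
    rw [hLe]
    refine integral_mono hL hR1 fun z => ?_
    simp only
    by_cases hz : z ∈ S
    · obtain ⟨hm1, hm2⟩ := hM z hz
      have e1 : px (px v) z = fderiv ℝ (fun z => fderiv ℝ v z 1) z 1 := rfl
      have e2 : py (py v) z = fderiv ℝ (fun z => fderiv ℝ v z Complex.I) z Complex.I := rfl
      have hl : v z * lap v z = v z * fderiv ℝ (fun z => fderiv ℝ v z 1) z 1 +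
          v z * fderiv ℝ (fun z => fderiv ℝ v z Complex.I) z Complex.I := by
        rw [lap, e1, e2]; ring
      have hvl : -(v z * lap v z) ≤ M ^ 2 := by
        have h1 : |v z * lap v z| ≤ M * M := by
          rw [abs_mul]
          exact mul_le_mul hm1 hm2 (abs_nonneg _) hM0
        have h2 := neg_abs_le (v z * lap v z)
        linarith
      have hv2 : v z ^ 2 ≤ M ^ 2 := by
        rw [← sq_abs (v z)]
        exact pow_le_pow_left₀ (abs_nonneg _) hm1 2
      have hg : gsq v z = fderiv ℝ v z 1 ^ 2 + fderiv ℝ v z Complex.I ^ 2 := rfl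
      rw [hg]
      have t1 : b z ^ 2 * (-(v z * lap v z)) ≤ b z ^ 2 * M ^ 2 :=
        mul_le_mul_of_nonneg_left hvl (sq_nonneg _)
      have t2 : ∀ p q : ℝ, -(2 * b z * p * (v z * q)) ≤
          (1 / 2) * (b z ^ 2 * q ^ 2) + 2 * M ^ 2 * p ^ 2 := by
        intro p q
        have h1 : 0 ≤ (M ^ 2 - v z ^ 2) * p ^ 2 :=
          mul_nonneg (by linarith only [hv2]) (sq_nonneg p)
        nlinarith only [h1, sq_nonneg (b z * q + 2 * v z * p)]
      have t3 := t2 (fderiv ℝ b z 1) (fderiv ℝ v z 1)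
      have t4 := t2 (fderiv ℝ b z Complex.I) (fderiv ℝ v z Complex.I)
      rw [hl] at t1
      linarith
    · have h0 : b z = 0 := by
        by_contra hne
        exact hz (hts (subset_tsupport _ hne))
      rw [h0]
      have : 0 ≤ (2 * M ^ 2) * (fderiv ℝ b z 1 ^ 2 + fderiv ℝ b z Complex.I ^ 2) := by (clear * -; positivity)
      linarith only [this]
  have hsplit : ∫ z, (M ^ 2 * b z ^ 2 + ((1 / 2) * (b z ^ 2 * gsq v z) +
      (2 * M ^ 2) * (fderiv ℝ b z 1 ^ 2 + fderiv ℝ b z Complex.I ^ 2))) =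
      M ^ 2 * B0 + ((1 / 2) * (∫ z, b z ^ 2 * gsq v z) + (2 * M ^ 2) * B1) := by
    have a1 : Integrable (fun z => M ^ 2 * b z ^ 2) := hbi.const_mul _
    have a2 : Integrable (fun z => (1 / 2) * (b z ^ 2 * gsq v z)) := hX.const_mul _
    have a3 : Integrable (fun z =>
      (2 * M ^ 2) * (fderiv ℝ b z 1 ^ 2 + fderiv ℝ b z Complex.I ^ 2)) :=
      ((hgbi 1).add (hgbi Complex.I)).const_mul _
    have a4 : Integrable (fun z => (1 / 2) * (b z ^ 2 * gsq v z) +
      (2 * M ^ 2) * (fderiv ℝ b z 1 ^ 2 + fderiv ℝ b z Complex.I ^ 2)) := a2.add a3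
    rw [integral_add a1 a4, integral_add a2 a3, integral_const_mul, integral_const_mul,
      integral_const_mul]
  rw [hsplit] at hmain
  have hfin : ∫ z, b z ^ 2 * gsq v z ≤ (2 * B0 + 4 * B1 + 1) * M ^ 2 := by
    nlinarith only [hmain]
  have heq : Set.EqOn (fun z => b z ^ 2 * gsq v z) (gsq v) (ball 0 (R / 2)) := by
    intro z hz
    have : b z = 1 := b.one_of_mem_closedBall (ball_subset_closedBall hz)
    simp [this]
  have hint : IntegrableOn (gsq v) (ball 0 (R / 2)) :=
    (hX.integrableOn (s := ball 0 (R / 2))).congr_fun heq measurableSet_ball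
  refine ⟨hint, ?_⟩
  calc ∫ z in ball 0 (R / 2), gsq v z = ∫ z in ball 0 (R / 2), b z ^ 2 * gsq v z :=
        (setIntegral_congr_fun measurableSet_ball heq).symm
    _ ≤ ∫ z, b z ^ 2 * gsq v z := setIntegral_le_integral hX
        (Eventually.of_forall fun z => mul_nonneg (sq_nonneg _) (gsq_nonneg_bd400 v z))
    _ ≤ _ := hfin

/-- Caccioppoli inequality. -/
theorem caccioppoli {R : ℝ} (hR : 0 < R) : ∃ C : ℝ, 0 < C ∧
    ∀ (z₀ : ℂ) (w : ℂ → ℝ) (M : ℝ),
    ContDiffOn ℝ 2 w (ball z₀ R) → (∀ z ∈ ball z₀ R, |w z| ≤ M ∧ |lap w z| ≤ M) →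
    IntegrableOn (gsq w) (ball z₀ (R / 2)) ∧ ∫ z in ball z₀ (R / 2), gsq w z ≤ C * M ^ 2 := by
  obtain ⟨C, hC, h⟩ := caccioppoli0 hR
  refine ⟨C, hC, ?_⟩
  intro z₀ w M hw hl
  have h1 := h (fun y => w (z₀ + y)) M (contDiffOn_shift hw) (by
    intro z hz
    rw [lap_shift]
    refine hl _ ?_
    rw [← preimage_ball_shift z₀ R] at hz
    exact hz)
  rw [gsq_shift] at h1
  refine ⟨integrableOn_shift.1 h1.1, ?_⟩
  have h2 := h1.2
  rwa [setIntegral_shift] at h2

/-- Gradient estimate (sup form). -/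
theorem gsq_le_of_sup {R : ℝ} (hR : 0 < R) : ∃ C : ℝ, 0 < C ∧
    ∀ (z₀ : ℂ) (w : ℂ → ℝ) (M : ℝ),
    ContDiffOn ℝ 2 w (ball z₀ R) → (∀ z ∈ ball z₀ R, |w z| ≤ M ∧ |lap w z| ≤ M) →
    gsq w z₀ ≤ C * M ^ 2 := by
  obtain ⟨C1, hC1, h1⟩ := caccioppoli hR
  obtain ⟨C2, hC2, h2⟩ := gsq_le_of_energy (R := R / 2) (by positivity)
  refine ⟨C2 * (1 + C1), by positivity, ?_⟩
  intro z₀ w M hw hl
  obtain ⟨h3, h4⟩ := h1 z₀ w M hw hl
  have hsub : ball z₀ (R / 2) ⊆ ball z₀ R := ball_subset_ball (by linarith only [hR])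
  have h5 := h2 z₀ w M (hw.mono hsub) (fun z hz => (hl z (hsub hz)).2) h3
  calc gsq w z₀ ≤ _ := h5
    _ ≤ C2 * (M ^ 2 + C1 * M ^ 2) := by (clear * - h4 hC2; gcongr)
    _ = C2 * (1 + C1) * M ^ 2 := by ring

end Vale.Agent.P071.Lim
end

section

/-!
# Local compactness of eigenfunctions (task LIM-COMPa)
-/

open MeasureTheory Metric Filter Topology Real
open scoped ContDiff ENNReal

namespace Vale.Agent.P071.Lim

namespace CompA

theorem tlu_iff {E : Type*} [UniformSpace E] {F : ℕ → ℂ → E} {f : ℂ → E} :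
    TendstoLocallyUniformlyOn F f atTop DD ↔
      ∀ R < 1, TendstoUniformlyOn F f atTop (closedBall (0 : ℂ) R) := by
  rw [tendstoLocallyUniformlyOn_iff_forall_isCompact isOpen_ball]
  constructor
  · intro h R hR
    exact h _ (closedBall_subset_ball hR) (isCompact_closedBall _ _)
  · intro h K hK hKc
    obtain ⟨R, hR, hKR⟩ := exists_lt_subset_ball hKc.isClosed hK
    exact (h R hR).mono (hKR.trans ball_subset_closedBall)

/-- Diagonal extraction for locally bounded, locally equi-Lipschitz sequences. -/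
theorem extract {u : ℕ → ℂ → ℝ}
    (h : ∀ R < 1, ∃ (L : ℝ) (N : ℕ), ∀ n ≥ N, (∀ x ∈ closedBall (0 : ℂ) R, |u n x| ≤ L) ∧
      ∀ x ∈ closedBall (0 : ℂ) R, ∀ y ∈ closedBall (0 : ℂ) R, |u n x - u n y| ≤ L * ‖x - y‖) :
    ∃ (ν : ℕ → ℕ) (w : ℂ → ℝ), StrictMono ν ∧
      ∀ R < 1, TendstoUniformlyOn (fun n => u (ν n)) w atTop (closedBall (0 : ℂ) R) := by
  classical
  let q : ℕ → ℂ := TopologicalSpace.denseSeq ℂ
  have hq : DenseRange q := TopologicalSpace.denseRange_denseSeq ℂ
  let v : ℕ → ℕ → ℝ := fun n k => if ‖q k‖ < 1 then u n (q k) else 0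
  have hb : ∀ k, ∃ B : ℝ, ∀ n, |v n k| ≤ B := by
    intro k
    by_cases hk : ‖q k‖ < 1
    · obtain ⟨L, N, hL⟩ := h ‖q k‖ hk
      refine ⟨|L| + ∑ n ∈ Finset.range N, |u n (q k)|, fun n => ?_⟩
      have hv : v n k = u n (q k) := if_pos hk
      rw [hv]
      have hs : 0 ≤ ∑ n ∈ Finset.range N, |u n (q k)| := Finset.sum_nonneg fun _ _ => abs_nonneg _
      rcases lt_or_ge n N with hn | hn
      · have h1 : |u n (q k)| ≤ ∑ n ∈ Finset.range N, |u n (q k)| :=
          Finset.single_le_sum (f := fun n => |u n (q k)|) (fun _ _ => abs_nonneg _)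
            (Finset.mem_range.2 hn)
        have := abs_nonneg L
        linarith only [h1, this]
      · have h1 := (hL n hn).1 (q k) (by simp only [mem_closedBall, dist_zero_right, Std.le_refl])
        have := le_abs_self L
        linarith only [hs, h1, this]
    · refine ⟨0, fun n => ?_⟩
      have hv : v n k = 0 := if_neg hk
      simp [hv]
  choose B hB using hb
  have hc : IsCompact (Set.pi Set.univ fun k => Set.Icc (-B k) (B k)) :=
    isCompact_univ_pi fun k => isCompact_Icc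
  obtain ⟨v₀, -, ν, hν, hlim⟩ := hc.tendsto_subseq (x := v) (fun n k _ => abs_le.1 (hB k n))
  have hlim' : ∀ k, Tendsto (fun n => v (ν n) k) atTop (𝓝 (v₀ k)) := fun k =>
    ((continuous_apply k).tendsto v₀).comp hlim
  have hcau : ∀ R < 1, UniformCauchySeqOn (fun n => u (ν n)) atTop (closedBall (0 : ℂ) R) := by
    intro R hR
    rw [Metric.uniformCauchySeqOn_iff]
    intro ε hε
    obtain ⟨L, N, hL⟩ := h ((R + 1) / 2) (by linarith only [hR])
    have hδ : 0 < min (ε / (4 * (|L| + 1))) ((1 - R) / 2) :=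
      lt_min (by have := abs_nonneg L; (clear * - hε; positivity)) (by linarith only [hR])
    set δ := min (ε / (4 * (|L| + 1))) ((1 - R) / 2) with hδdef
    obtain ⟨t, ht⟩ := (isCompact_closedBall (0 : ℂ) R).elim_finite_subcover
      (fun k : ℕ => ball (q k) δ) (fun k => isOpen_ball) (by
        intro x _
        obtain ⟨k, hk⟩ := hq.exists_dist_lt x hδ
        exact Set.mem_iUnion.2 ⟨k, mem_ball.2 hk⟩)
    have h1 : ∀ k ∈ t, ∃ N' : ℕ, ∀ m ≥ N', ∀ n ≥ N', dist (v (ν m) k) (v (ν n) k) < ε / 4 := by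
      intro k _
      exact Metric.cauchySeq_iff.1 (hlim' k).cauchySeq (ε / 4) (by linarith only [hε])
    choose! N' hN' using h1
    refine ⟨max N (t.sup N'), fun m hm n hn x hx => ?_⟩
    obtain ⟨k, hkt, hxk⟩ : ∃ k ∈ t, x ∈ ball (q k) δ := by
      simpa only [mem_ball, Set.mem_iUnion, exists_prop] using ht hx
    have hm1 : N ≤ ν m := (le_max_left _ _).trans (hm.trans (hν.id_le m))
    have hn1 : N ≤ ν n := (le_max_left _ _).trans (hn.trans (hν.id_le n))
    have hm2 : N' k ≤ m := (Finset.le_sup hkt).trans ((le_max_right _ _).trans hm)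
    have hn2 : N' k ≤ n := (Finset.le_sup hkt).trans ((le_max_right _ _).trans hn)
    have hx0 : ‖x‖ ≤ R := by simpa only [mem_closedBall, dist_zero_right] using hx
    have hxd : ‖x - q k‖ < δ := by simpa [dist_eq_norm] using hxk
    have hqk : ‖q k‖ ≤ (R + 1) / 2 := by
      have e : q k = x - (x - q k) := by ring
      have e1 : ‖q k‖ ≤ ‖x‖ + ‖x - q k‖ := by
        conv_lhs => rw [e]
        exact norm_sub_le _ _
      have : δ ≤ (1 - R) / 2 := min_le_right _ _
      linarith only [hx0, hxd, e1, this]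
    have hqk1 : ‖q k‖ < 1 := by linarith only [hR, hqk]
    have hxR : x ∈ closedBall (0 : ℂ) ((R + 1) / 2) := by
      simp only [mem_closedBall, dist_zero_right]; linarith only [hR, hx0]
    have hqR : q k ∈ closedBall (0 : ℂ) ((R + 1) / 2) := by
      simpa only [mem_closedBall, dist_zero_right] using hqk
    have e1 := (hL _ hm1).2 x hxR (q k) hqR
    have e2 := (hL _ hn1).2 x hxR (q k) hqR
    have e3 := hN' k hkt m hm2 n hn2
    have hvm : v (ν m) k = u (ν m) (q k) := if_pos hqk1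
    have hvn : v (ν n) k = u (ν n) (q k) := if_pos hqk1
    rw [hvm, hvn, Real.dist_eq] at e3
    have e4 : L * ‖x - q k‖ ≤ ε / 4 := by
      have h5 : δ ≤ ε / (4 * (|L| + 1)) := min_le_left _ _
      have h6 : L * ‖x - q k‖ ≤ (|L| + 1) * (ε / (4 * (|L| + 1))) := by
        have h7 := le_abs_self L
        have h8 := abs_nonneg L
        have h9 := norm_nonneg (x - q k)
        calc L * ‖x - q k‖ ≤ (|L| + 1) * ‖x - q k‖ := by nlinarith only [h9, h7]
          _ ≤ (|L| + 1) * (ε / (4 * (|L| + 1))) := by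
            apply mul_le_mul_of_nonneg_left _ (by linarith only [h8])
            linarith only [hxd, h5]
      have h10 : (|L| + 1) * (ε / (4 * (|L| + 1))) = ε / 4 := by
        have h8 := abs_nonneg L
        (clear * - hε; field_simp)
      linarith only [h6, h10]
    rw [Real.dist_eq]
    have e5 : u (ν m) x - u (ν n) x = (u (ν m) x - u (ν m) (q k)) +
      (u (ν m) (q k) - u (ν n) (q k)) - (u (ν n) x - u (ν n) (q k)) := by ring
    rw [e5]
    calc |(u (ν m) x - u (ν m) (q k)) + (u (ν m) (q k) - u (ν n) (q k))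
          - (u (ν n) x - u (ν n) (q k))|
        ≤ |(u (ν m) x - u (ν m) (q k)) + (u (ν m) (q k) - u (ν n) (q k))|
          + |u (ν n) x - u (ν n) (q k)| := abs_sub _ _
      _ ≤ |u (ν m) x - u (ν m) (q k)| + |u (ν m) (q k) - u (ν n) (q k)|
          + |u (ν n) x - u (ν n) (q k)| := by
          gcongr
          exact abs_add_le _ _
      _ < ε := by linarith only [hε, e1, e2, e3, e4]
  refine ⟨ν, fun x => limUnder atTop fun n => u (ν n) x, hν, fun R hR => ?_⟩
  refine (hcau R hR).tendstoUniformlyOn_of_tendsto fun x hx => ?_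
  exact ((hcau R hR).cauchySeq hx).tendsto_limUnder

theorem contOn_px {w : ℂ → ℝ} (h : ContDiffOn ℝ 1 w DD) : ContinuousOn (px w) DD :=
  (h.continuousOn_fderiv_of_isOpen isOpen_ball le_rfl).clm_apply continuousOn_const

theorem contOn_py {w : ℂ → ℝ} (h : ContDiffOn ℝ 1 w DD) : ContinuousOn (py w) DD :=
  (h.continuousOn_fderiv_of_isOpen isOpen_ball le_rfl).clm_apply continuousOn_const

theorem contOn_gsq {w : ℂ → ℝ} (h : ContDiffOn ℝ 1 w DD) : ContinuousOn (gsq w) DD :=
  ((contOn_px h).pow 2).add ((contOn_py h).pow 2)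

theorem gsq_nonneg' (w : ℂ → ℝ) (z : ℂ) : 0 ≤ gsq w z := by unfold gsq; positivity

theorem cd_px {w : ℂ → ℝ} (h : ContDiffOn ℝ 2 w DD) : ContDiffOn ℝ 1 (px w) DD :=
  (h.fderiv_of_isOpen isOpen_ball (by norm_num)).clm_apply contDiffOn_const

theorem cd_py {w : ℂ → ℝ} (h : ContDiffOn ℝ 2 w DD) : ContDiffOn ℝ 1 (py w) DD :=
  (h.fderiv_of_isOpen isOpen_ball (by norm_num)).clm_apply contDiffOn_const

theorem contOn_lap {w : ℂ → ℝ} (h : ContDiffOn ℝ 2 w DD) : ContinuousOn (lap w) DD :=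
  (contOn_px (cd_px h)).add (contOn_py (cd_py h))

theorem fderiv_apply_eq (w : ℂ → ℝ) (z v : ℂ) :
    fderiv ℝ w z v = v.re * px w z + v.im * py w z := by
  have e : v = v.re • (1 : ℂ) + v.im • Complex.I := by
    apply Complex.ext <;> simp only [Complex.real_smul, mul_one, Complex.re_add_im]
  conv_lhs => rw [e]
  rw [map_add, map_smul, map_smul]
  simp only [smul_eq_mul, px, py]

theorem norm_fderiv_le_gsq (w : ℂ → ℝ) (z : ℂ) : ‖fderiv ℝ w z‖ ≤ 2 * √(gsq w z) := by
  apply ContinuousLinearMap.opNorm_le_bound _ (by positivity)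
  intro v
  rw [fderiv_apply_eq, Real.norm_eq_abs]
  have h1 : |px w z| ≤ √(gsq w z) := by
    apply Real.abs_le_sqrt; unfold gsq; nlinarith only []
  have h2 : |py w z| ≤ √(gsq w z) := by
    apply Real.abs_le_sqrt; unfold gsq; nlinarith only []
  have h3 := Complex.abs_re_le_norm v
  have h4 := Complex.abs_im_le_norm v
  calc |v.re * px w z + v.im * py w z| ≤ |v.re * px w z| + |v.im * py w z| := abs_add_le _ _
    _ = |v.re| * |px w z| + |v.im| * |py w z| := by rw [abs_mul, abs_mul]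
    _ ≤ ‖v‖ * √(gsq w z) + ‖v‖ * √(gsq w z) := by gcongr
    _ = 2 * √(gsq w z) * ‖v‖ := by ring

/-- Local bounds. -/
theorem bounds {κ : ℕ → ℂ → ℝ} {κ₀ : ℂ → ℝ} {μ : ℕ → ℝ} {u : ℕ → ℂ → ℝ} {M : ℝ}
    (hκ₀ : ContinuousOn κ₀ DD) (hpos : ∀ z ∈ DD, 0 < κ₀ z)
    (hκlim : ∀ R < 1, TendstoUniformlyOn κ κ₀ atTop (closedBall 0 R))
    (hμ : ∀ n, 0 ≤ μ n ∧ μ n ≤ M)
    (hu : ∀ n, ContDiffOn ℝ 2 (u n) DD)
    (heq : ∀ n, ∀ z ∈ DD, -lap (u n) z = μ n * κ n z * u n z)
    (hi1 : ∀ n, IntegrableOn (fun z => κ n z * u n z ^ 2) DD)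
    (hb1 : ∀ n, ∫ z in DD, κ n z * u n z ^ 2 ≤ M)
    (hκ0 : ∀ n, ∀ z ∈ DD, 0 ≤ κ n z)
    (hi2 : ∀ n, IntegrableOn (gsq (u n)) DD) (hb2 : ∀ n, ∫ z in DD, gsq (u n) z ≤ M) :
    ∀ R < 1, ∃ (A : ℝ) (N : ℕ), 0 ≤ A ∧ ∀ n ≥ N, ∀ z ∈ closedBall (0 : ℂ) R,
      |u n z| ≤ A ∧ gsq (u n) z ≤ A ^ 2 ∧ κ n z ≤ A := by
  intro R hR
  have hM : 0 ≤ M := (hμ 0).1.trans (hμ 0).2
  -- radii
  set r : ℝ := (1 - R) / 4 with hr
  have hr0 : 0 < r := by rw [hr]; linarith only [hR]
  have hR2 : R + 2 * r < 1 := by rw [hr]; linarith only [hR]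
  set K : Set ℂ := closedBall (0 : ℂ) (R + 2 * r) with hK
  have hKD : K ⊆ DD := closedBall_subset_ball hR2
  have hKc : IsCompact K := isCompact_closedBall _ _
  obtain ⟨c, hc, hcK⟩ : ∃ c > 0, ∀ z ∈ K, 2 * c ≤ κ₀ z := by
    rcases K.eq_empty_or_nonempty with hE | hne
    · exact ⟨1, one_pos, by simp only [hE, Set.mem_empty_iff_false, mul_one, IsEmpty.forall_iff, implies_true]⟩
    · obtain ⟨z, hz, hmin⟩ := hKc.exists_isMinOn hne (hκ₀.mono hKD)
      refine ⟨κ₀ z / 2, by have := hpos z (hKD hz); linarith only [this], fun y hy => ?_⟩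
      have := hmin hy
      simp only [Set.mem_ofPred_eq] at this
      linarith only [this]
  obtain ⟨C, hC⟩ : ∃ C : ℝ, ∀ z ∈ K, κ₀ z ≤ C := by
    obtain ⟨C, hC⟩ := hKc.bddAbove_image (hκ₀.mono hKD)
    exact ⟨C, fun z hz => hC (Set.mem_image_of_mem _ hz)⟩
  have hev := Metric.tendstoUniformlyOn_iff.1 (hκlim (R + 2 * r) hR2) (min c 1)
    (lt_min hc one_pos)
  obtain ⟨N, hN⟩ := eventually_atTop.1 hev
  set C₁ : ℝ := |C| + 1 with hC₁
  have hC₁0 : 0 < C₁ := by (clear * -; positivity)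
  have hk : ∀ n ≥ N, ∀ z ∈ K, c ≤ κ n z ∧ κ n z ≤ C₁ := by
    intro n hn z hz
    have h1 := hN n hn z hz
    rw [Real.dist_eq, abs_lt] at h1
    have h2 := hcK z hz
    have h3 := hC z hz
    have h4 : min c 1 ≤ c := min_le_left _ _
    have h5 : min c 1 ≤ 1 := min_le_right _ _
    have h6 := le_abs_self C
    constructor <;> linarith only [h1, h2, h4, h3, h5, h6]
  obtain ⟨D₁, hD₁, hv⟩ := sq_le_of_ball hr0
  obtain ⟨D₂, hD₂, hg⟩ := gsq_le_of_sup hr0
  set B : ℝ := (1 / c + M ^ 2 * C₁) * M + M with hB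
  have hB0 : 0 ≤ B := by (clear * - hc hM; positivity)
  -- values
  have hval : ∀ n ≥ N, ∀ z ∈ closedBall (0 : ℂ) (R + r), u n z ^ 2 ≤ D₁ * B := by
    intro n hn z hz
    have hsub : closedBall z r ⊆ K := by
      intro y hy
      simp only [mem_closedBall, dist_zero_right, hK] at *
      rw [dist_eq_norm] at hy
      have : ‖y‖ ≤ ‖y - z‖ + ‖z‖ := by
        have e : y = (y - z) + z := by ring
        conv_lhs => rw [e]
        exact norm_add_le _ _
      linarith only [hz, hy, this]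
    have hsubb : ball z r ⊆ K := ball_subset_closedBall.trans hsub
    have hcont : ContinuousOn (fun y => u n y ^ 2 + gsq (u n) y + lap (u n) y ^ 2) DD :=
      (((hu n).continuousOn.pow 2).add (contOn_gsq ((hu n).of_le (by norm_num)))).add
        ((contOn_lap (hu n)).pow 2)
    have hint : IntegrableOn (fun y => u n y ^ 2 + gsq (u n) y + lap (u n) y ^ 2) (ball z r) :=
      ((hcont.mono hKD).integrableOn_compact hKc).mono_set hsubb
    have h1 := hv z (u n) ((hu n).mono (hsubb.trans hKD)) hint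
    refine h1.trans (mul_le_mul_of_nonneg_left ?_ hD₁.le)
    have hG : IntegrableOn (fun y => (1 / c + M ^ 2 * C₁) * (κ n y * u n y ^ 2) + gsq (u n) y)
        DD := ((hi1 n).const_mul _).add (hi2 n)
    calc ∫ y in ball z r, (u n y ^ 2 + gsq (u n) y + lap (u n) y ^ 2)
        ≤ ∫ y in ball z r, ((1 / c + M ^ 2 * C₁) * (κ n y * u n y ^ 2) + gsq (u n) y) := by
          apply setIntegral_mono_on hint (hG.mono_set (hsubb.trans hKD)) measurableSet_ball
          intro y hy
          have hyK := hsubb hy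
          obtain ⟨hk1, hk2⟩ := hk n hn y hyK
          have e := heq n y (hKD hyK)
          have e1 : lap (u n) y = -(μ n * κ n y * u n y) := by linarith only [e]
          have hk0 : 0 ≤ κ n y := hκ0 n y (hKD hyK)
          have e2 : lap (u n) y ^ 2 ≤ M ^ 2 * C₁ * (κ n y * u n y ^ 2) := by
            rw [e1]
            have : (-(μ n * κ n y * u n y)) ^ 2 = μ n ^ 2 * (κ n y * (κ n y * u n y ^ 2)) := by
              ring
            rw [this, mul_assoc]
            have hs : 0 ≤ κ n y * u n y ^ 2 := mul_nonneg hk0 (sq_nonneg _)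
            exact mul_le_mul (pow_le_pow_left₀ (hμ n).1 (hμ n).2 2)
              (mul_le_mul_of_nonneg_right hk2 hs) (mul_nonneg hk0 hs) (sq_nonneg M)
          have e3 : u n y ^ 2 ≤ 1 / c * (κ n y * u n y ^ 2) := by
            rw [div_mul_eq_mul_div, one_mul, le_div_iff₀ hc, mul_comm]
            exact mul_le_mul_of_nonneg_right hk1 (sq_nonneg _)
          have e4 : (1 / c + M ^ 2 * C₁) * (κ n y * u n y ^ 2) =
              1 / c * (κ n y * u n y ^ 2) + M ^ 2 * C₁ * (κ n y * u n y ^ 2) := by ring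
          change u n y ^ 2 + gsq (u n) y + lap (u n) y ^ 2 ≤
            (1 / c + M ^ 2 * C₁) * (κ n y * u n y ^ 2) + gsq (u n) y
          rw [e4]
          linarith only [e2, e3]
      _ ≤ ∫ y in DD, ((1 / c + M ^ 2 * C₁) * (κ n y * u n y ^ 2) + gsq (u n) y) := by
          apply setIntegral_mono_set hG
          · filter_upwards [ae_restrict_mem measurableSet_ball] with y hy
            have h2 := hκ0 n y hy
            have h3 := gsq_nonneg' (u n) y
            simp only [Pi.zero_apply]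
            exact add_nonneg (mul_nonneg (by (clear * - hc; positivity)) (mul_nonneg h2 (sq_nonneg _))) h3
          · exact (hsubb.trans hKD).eventuallyLE
      _ = (1 / c + M ^ 2 * C₁) * (∫ y in DD, κ n y * u n y ^ 2) + ∫ y in DD, gsq (u n) y := by
          rw [integral_add ((hi1 n).const_mul _) (hi2 n), integral_const_mul]
      _ ≤ B := by
          rw [hB]
          exact add_le_add (mul_le_mul_of_nonneg_left (hb1 n) (by (clear * - hc; positivity))) (hb2 n)
  set A₁ : ℝ := √(D₁ * B) with hA₁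
  have hval' : ∀ n ≥ N, ∀ z ∈ closedBall (0 : ℂ) (R + r), |u n z| ≤ A₁ := fun n hn z hz =>
    Real.abs_le_sqrt (hval n hn z hz)
  set A₂ : ℝ := A₁ + M * C₁ * A₁ with hA₂
  have hA₁0 : 0 ≤ A₁ := Real.sqrt_nonneg _
  have hA₂0 : 0 ≤ A₂ := by (clear * - hM; positivity)
  have hgr : ∀ n ≥ N, ∀ z ∈ closedBall (0 : ℂ) R, gsq (u n) z ≤ D₂ * A₂ ^ 2 := by
    intro n hn z hz
    have hsub : ball z r ⊆ closedBall (0 : ℂ) (R + r) := by
      intro y hy
      simp only [mem_closedBall, dist_zero_right, mem_ball] at *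
      rw [dist_eq_norm] at hy
      have : ‖y‖ ≤ ‖y - z‖ + ‖z‖ := by
        have e : y = (y - z) + z := by ring
        conv_lhs => rw [e]
        exact norm_add_le _ _
      linarith only [hz, hy, this]
    have hsub2 : closedBall (0 : ℂ) (R + r) ⊆ K := closedBall_subset_closedBall (by linarith only [hr0])
    apply hg z (u n) A₂ ((hu n).mono ((hsub.trans hsub2).trans hKD))
    intro y hy
    have h1 := hval' n hn y (hsub hy)
    obtain ⟨h2, h3⟩ := hk n hn y (hsub2 (hsub hy))
    have e := heq n y (hKD (hsub2 (hsub hy)))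
    have e1 : |lap (u n) y| = μ n * κ n y * |u n y| := by
      rw [← abs_neg, e, abs_mul, abs_of_nonneg (mul_nonneg (hμ n).1 (hc.le.trans h2))]
    have h4 : μ n * κ n y * |u n y| ≤ M * C₁ * A₁ := by
      have := hμ n
      have h0 : 0 ≤ κ n y := hc.le.trans h2
      have := this.1
      have := (hμ n).2
      (clear * - this h3 h0 hM h1; gcongr)
    constructor
    · have : 0 ≤ M * C₁ * A₁ := by (clear * - hM; positivity)
      linarith only [h1, this]
    · rw [e1]; linarith only [hA₁0, h4]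
  refine ⟨A₁ + √(D₂ * A₂ ^ 2) + C₁, N, by (clear * -; positivity), fun n hn z hz => ⟨?_, ?_, ?_⟩⟩
  · have h1 := hval' n hn z (closedBall_subset_closedBall (by linarith only [hr0]) hz)
    have := Real.sqrt_nonneg (D₂ * A₂ ^ 2)
    linarith only [hC₁0, h1, this]
  · have h1 := hgr n hn z hz
    have h2 : √(D₂ * A₂ ^ 2) ≤ A₁ + √(D₂ * A₂ ^ 2) + C₁ := by linarith only [hC₁0, hA₁0]
    calc gsq (u n) z ≤ D₂ * A₂ ^ 2 := h1
      _ = √(D₂ * A₂ ^ 2) ^ 2 := (Real.sq_sqrt (by (clear * - hD₂; positivity))).symm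
      _ ≤ _ := by (clear * - h2; gcongr)
  · have h1 := (hk n hn z (closedBall_subset_closedBall (by linarith only [hr0]) hz)).2
    have := Real.sqrt_nonneg (D₂ * A₂ ^ 2)
    linarith only [hA₁0, h1, this]

theorem lip_of_bounds {u : ℂ → ℝ} {R A : ℝ} (hR : R < 1) (hu : ContDiffOn ℝ 1 u DD) (hA : 0 ≤ A)
    (h : ∀ z ∈ closedBall (0 : ℂ) R, gsq u z ≤ A ^ 2) :
    ∀ x ∈ closedBall (0 : ℂ) R, ∀ y ∈ closedBall (0 : ℂ) R, |u x - u y| ≤ 2 * A * ‖x - y‖ := by
  intro x hx y hy
  have h1 := (convex_closedBall (0 : ℂ) R).norm_image_sub_le_of_norm_fderiv_le (𝕜 := ℝ)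
    (f := u) (C := 2 * A) (fun z hz => ?_) (fun z hz => ?_) hy hx
  · simpa only [ge_iff_le, norm_eq_abs] using h1
  · exact (hu.differentiableOn one_ne_zero).differentiableAt
      (isOpen_ball.mem_nhds (closedBall_subset_ball hR hz))
  · refine (norm_fderiv_le_gsq u z).trans ?_
    have : √(gsq u z) ≤ A := by
      rw [← Real.sqrt_sq hA]
      exact Real.sqrt_le_sqrt (h z hz)
    linarith only [this]

theorem px_sub {f g : ℂ → ℝ} {z : ℂ} (hf : DifferentiableAt ℝ f z) (hg : DifferentiableAt ℝ g z) :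
    px (fun y => f y - g y) z = px f z - px g z := by
  unfold px
  rw [fderiv_fun_sub hf hg]
  simp only [sub_apply]

theorem py_sub {f g : ℂ → ℝ} {z : ℂ} (hf : DifferentiableAt ℝ f z) (hg : DifferentiableAt ℝ g z) :
    py (fun y => f y - g y) z = py f z - py g z := by
  unfold py
  rw [fderiv_fun_sub hf hg]
  simp only [sub_apply]

theorem diffAt {f : ℂ → ℝ} (h : ContDiffOn ℝ 1 f DD) {z : ℂ} (hz : z ∈ DD) :
    DifferentiableAt ℝ f z :=
  (h.differentiableOn one_ne_zero).differentiableAt (isOpen_ball.mem_nhds hz)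

theorem lap_sub {f g : ℂ → ℝ} (hf : ContDiffOn ℝ 2 f DD) (hg : ContDiffOn ℝ 2 g DD) {z : ℂ}
    (hz : z ∈ DD) : lap (fun y => f y - g y) z = lap f z - lap g z := by
  have hf1 : ContDiffOn ℝ 1 f DD := hf.of_le (by norm_num)
  have hg1 : ContDiffOn ℝ 1 g DD := hg.of_le (by norm_num)
  have e1 : px (fun y => f y - g y) =ᶠ[𝓝 z] fun y => px f y - px g y := by
    filter_upwards [isOpen_ball.mem_nhds hz] with y hy using px_sub (diffAt hf1 hy) (diffAt hg1 hy)
  have e2 : py (fun y => f y - g y) =ᶠ[𝓝 z] fun y => py f y - py g y := by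
    filter_upwards [isOpen_ball.mem_nhds hz] with y hy using py_sub (diffAt hf1 hy) (diffAt hg1 hy)
  have e3 : px (px (fun y => f y - g y)) z = px (fun y => px f y - px g y) z := by
    unfold px at e1 ⊢; rw [e1.fderiv_eq]
  have e4 : py (py (fun y => f y - g y)) z = py (fun y => py f y - py g y) z := by
    unfold py at e2 ⊢; rw [e2.fderiv_eq]
  unfold lap
  rw [e3, e4, px_sub (diffAt (cd_px hf) hz) (diffAt (cd_px hg) hz),
    py_sub (diffAt (cd_py hf) hz) (diffAt (cd_py hg) hz)]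
  ring

/-- Convergence of the gradients. -/
theorem grad {u : ℕ → ℂ → ℝ} {w g : ℂ → ℝ} (hu : ∀ n, ContDiffOn ℝ 2 (u n) DD)
    (h1 : TendstoLocallyUniformlyOn u w atTop DD)
    (h2 : TendstoLocallyUniformlyOn (fun n => lap (u n)) g atTop DD) :
    ContDiffOn ℝ 1 w DD ∧
      (∀ R < 1, TendstoUniformlyOn (fun n => px (u n)) (px w) atTop (closedBall (0 : ℂ) R)) ∧
      (∀ R < 1, TendstoUniformlyOn (fun n => py (u n)) (py w) atTop (closedBall (0 : ℂ) R)) := by
  have hu1 : ∀ n, ContDiffOn ℝ 1 (u n) DD := fun n => (hu n).of_le (by norm_num)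
  have hcau : ∀ R < 1, UniformCauchySeqOn (fun n => fderiv ℝ (u n)) atTop
      (closedBall (0 : ℂ) R) := by
    intro R hR
    set r : ℝ := (1 - R) / 2 with hr
    have hr0 : 0 < r := by rw [hr]; linarith
    have hR1 : R + r < 1 := by rw [hr]; linarith only [hR]
    obtain ⟨C, hC, hg⟩ := gsq_le_of_sup hr0
    rw [Metric.uniformCauchySeqOn_iff]
    intro ε hε
    set δ : ℝ := ε / (4 * √C) with hδ
    have hsC : 0 < √C := Real.sqrt_pos.2 hC
    have hδ0 : 0 < δ := by (clear * - hε hC; positivity)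
    obtain ⟨N₁, hN₁⟩ := Metric.uniformCauchySeqOn_iff.1 ((tlu_iff.1 h1 _ hR1).uniformCauchySeqOn) δ
      hδ0
    obtain ⟨N₂, hN₂⟩ := Metric.uniformCauchySeqOn_iff.1 ((tlu_iff.1 h2 _ hR1).uniformCauchySeqOn) δ
      hδ0
    refine ⟨max N₁ N₂, fun m hm n hn z hz => ?_⟩
    have hzD : z ∈ DD := closedBall_subset_ball hR hz
    have hsub : ball z r ⊆ closedBall (0 : ℂ) (R + r) := by
      intro y hy
      simp only [mem_closedBall, dist_zero_right, mem_ball] at *
      rw [dist_eq_norm] at hy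
      have : ‖y‖ ≤ ‖y - z‖ + ‖z‖ := by
        have e : y = (y - z) + z := by ring
        conv_lhs => rw [e]
        exact norm_add_le _ _
      linarith only [hz, hy, this]
    have hsubD : ball z r ⊆ DD := hsub.trans (closedBall_subset_ball hR1)
    have hb := hg z (fun y => u m y - u n y) δ (((hu m).sub (hu n)).mono hsubD) (by
      intro y hy
      have e1 := hN₁ m ((le_max_left _ _).trans hm) n ((le_max_left _ _).trans hn) y (hsub hy)
      have e2 := hN₂ m ((le_max_right _ _).trans hm) n ((le_max_right _ _).trans hn) y (hsub hy)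
      rw [Real.dist_eq] at e1 e2
      refine ⟨e1.le, ?_⟩
      rw [lap_sub (hu m) (hu n) (hsubD hy)]
      exact e2.le)
    have hd : fderiv ℝ (u m) z - fderiv ℝ (u n) z = fderiv ℝ (fun y => u m y - u n y) z := by
      rw [fderiv_fun_sub (diffAt (hu1 m) hzD) (diffAt (hu1 n) hzD)]
    rw [dist_eq_norm, hd]
    refine (norm_fderiv_le_gsq _ z).trans_lt ?_
    have e3 : √(gsq (fun y => u m y - u n y) z) ≤ √C * δ := by
      calc √(gsq (fun y => u m y - u n y) z) ≤ √(C * δ ^ 2) := Real.sqrt_le_sqrt hb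
        _ = √C * δ := by rw [Real.sqrt_mul hC.le, Real.sqrt_sq hδ0.le]
    have e4 : √C * δ = ε / 4 := by
      rw [hδ]; (clear * - hC hε; field_simp)
    linarith only [hε, e3, e4]
  set g' : ℂ → ℂ →L[ℝ] ℝ := fun z => limUnder atTop fun n => fderiv ℝ (u n) z with hg'
  have hlim : ∀ R < 1, TendstoUniformlyOn (fun n => fderiv ℝ (u n)) g' atTop
      (closedBall (0 : ℂ) R) := by
    intro R hR
    refine (hcau R hR).tendstoUniformlyOn_of_tendsto fun x hx => ?_
    exact ((hcau R hR).cauchySeq hx).tendsto_limUnder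
  have hlim' : TendstoLocallyUniformlyOn (fun n => fderiv ℝ (u n)) g' atTop DD := tlu_iff.2 hlim
  have hder : ∀ z ∈ DD, HasFDerivAt w (g' z) z := fun z hz =>
    hasFDerivAt_of_tendstoLocallyUniformlyOn isOpen_ball hlim'
      (fun n x hx => (diffAt (hu1 n) hx).hasFDerivAt) (fun x hx => h1.tendsto_at hx) hz
  have hfd : ∀ z ∈ DD, g' z = fderiv ℝ w z := fun z hz => (hder z hz).fderiv.symm
  have hlim2 : TendstoLocallyUniformlyOn (fun n => fderiv ℝ (u n)) (fderiv ℝ w) atTop DD :=
    hlim'.congr_right hfd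
  have hc : ContinuousOn (fderiv ℝ w) DD := by
    apply hlim2.continuousOn
    exact (Eventually.of_forall fun n =>
      (hu1 n).continuousOn_fderiv_of_isOpen isOpen_ball le_rfl).frequently
  have hev : ∀ v : ℂ, ∀ R < 1, TendstoUniformlyOn (fun n z => fderiv ℝ (u n) z v)
      (fun z => fderiv ℝ w z v) atTop (closedBall (0 : ℂ) R) := by
    intro v R hR
    have h3 : UniformContinuous fun L : ℂ →L[ℝ] ℝ => L v :=
      (ContinuousLinearMap.apply ℝ ℝ v).uniformContinuous
    exact h3.comp_tendstoUniformlyOn (tlu_iff.1 hlim2 R hR)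
  refine ⟨?_, fun R hR => hev 1 R hR, fun R hR => hev Complex.I R hR⟩
  have h0 : ContDiffOn ℝ (0 + 1) w DD := by
    rw [contDiffOn_succ_iff_fderiv_of_isOpen isOpen_ball]
    refine ⟨fun z hz => (hder z hz).differentiableAt.differentiableWithinAt, ?_, ?_⟩
    · intro h; simp only [WithTop.zero_ne_top] at h
    · exact contDiffOn_zero.2 hc
  simpa using h0

/-- Integration by parts in one direction. -/
theorem ibp {η W : ℂ → ℝ} {S : Set ℂ} (hS : IsOpen S) (hη : ContDiff ℝ 1 η)
    (hc : HasCompactSupport η) (hs : tsupport η ⊆ S) (hW : ContDiffOn ℝ 1 W S) (v : ℂ) :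
    Integrable (fun z => η z * fderiv ℝ W z v) ∧ Integrable (fun z => fderiv ℝ η z v * W z) ∧
    ∫ z, η z * fderiv ℝ W z v = - ∫ z, fderiv ℝ η z v * W z := by
  have cont_mul : ∀ {η W : ℂ → ℝ}, Continuous η → tsupport η ⊆ S → ContinuousOn W S →
      Continuous (fun z => η z * W z) := by
    intro η W hη hs hW
    rw [continuous_iff_continuousAt]
    intro z
    by_cases hz : z ∈ tsupport η
    · exact hη.continuousAt.mul (hW.continuousAt (hS.mem_nhds (hs hz)))
    · have h1 : η =ᶠ[𝓝 z] 0 := notMem_tsupport_iff_eventuallyEq.1 hz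
      have h2 : (fun z => η z * W z) =ᶠ[𝓝 z] fun _ => 0 := by
        filter_upwards [h1] with w hw
        simp [hw]
      exact continuousAt_const.congr h2.symm
  have int_mul : ∀ {η W : ℂ → ℝ}, Continuous η → HasCompactSupport η → tsupport η ⊆ S →
      ContinuousOn W S → Integrable (fun z => η z * W z) := by
    intro η W hη hc hs hW
    exact (cont_mul hη hs hW).integrable_of_hasCompactSupport (hc.mul_right)
  have hWc : ContinuousOn W S := hW.continuousOn
  have hW' : ContinuousOn (fun z => fderiv ℝ W z v) S :=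
    (hW.continuousOn_fderiv_of_isOpen hS le_rfl).clm_apply continuousOn_const
  have hη' : Continuous (fun z => fderiv ℝ η z v) :=
    (hη.continuous_fderiv one_ne_zero).clm_apply continuous_const
  have hc' : HasCompactSupport (fun z => fderiv ℝ η z v) :=
    (hc.fderiv (𝕜 := ℝ)).comp_left (g := fun L : ℂ →L[ℝ] ℝ => L v) rfl
  have hs' : tsupport (fun z => fderiv ℝ η z v) ⊆ S := by
    refine Set.Subset.trans ?_ hs
    exact tsupport_fderiv_apply_subset ℝ v
  refine ⟨int_mul hη.continuous hc hs hW', int_mul hη' hc' hs' hWc, ?_⟩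
  refine integral_mul_fderiv_eq_neg_fderiv_mul_of_integrable ?_ ?_ ?_ ?_ ?_
  · exact int_mul hη' hc' hs' hWc
  · exact int_mul hη.continuous hc hs hW'
  · exact int_mul hη.continuous hc hs hWc
  · intro z _
    exact hη.differentiable one_ne_zero z
  · intro z hz
    exact (hW.differentiableOn one_ne_zero).differentiableAt (hS.mem_nhds (hs hz))

/-- Green's formula. -/
theorem green {u φ : ℂ → ℝ} (hu : ContDiffOn ℝ 2 u DD) (hφ : ContDiff ℝ 1 φ)
    (hc : HasCompactSupport φ) (hs : tsupport φ ⊆ DD) :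
    ∫ z, (px u z * px φ z + py u z * py φ z + lap u z * φ z) = 0 := by
  obtain ⟨a1, a2, a3⟩ := ibp isOpen_ball hφ hc hs (cd_px hu) 1
  obtain ⟨b1, b2, b3⟩ := ibp isOpen_ball hφ hc hs (cd_py hu) Complex.I
  have e : ∀ z, px u z * px φ z + py u z * py φ z + lap u z * φ z =
      ((φ z * fderiv ℝ (px u) z 1 + fderiv ℝ φ z 1 * px u z) +
        (φ z * fderiv ℝ (py u) z Complex.I + fderiv ℝ φ z Complex.I * py u z)) := by
    intro z
    simp only [lap, px, py]
    ring
  simp_rw [e]
  calc _ = (∫ z, (φ z * fderiv ℝ (px u) z 1 + fderiv ℝ φ z 1 * px u z)) +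
        ∫ z, (φ z * fderiv ℝ (py u) z Complex.I + fderiv ℝ φ z Complex.I * py u z) :=
        integral_add (a1.add a2) (b1.add b2)
    _ = 0 := by
      rw [integral_add a1 a2, integral_add b1 b2, a3, b3]
      ring

/-- The weak equation for the limit. -/
theorem weak {κ : ℕ → ℂ → ℝ} {κ₀ : ℂ → ℝ} {μ : ℕ → ℝ} {u : ℕ → ℂ → ℝ} {M μ₀ : ℝ} {w : ℂ → ℝ}
    (hκ : ∀ n, ContinuousOn (κ n) DD) (hκ₀ : ContinuousOn κ₀ DD)
    (hκlim : ∀ R < 1, TendstoUniformlyOn κ κ₀ atTop (closedBall 0 R))
    (hμ : ∀ n, 0 ≤ μ n ∧ μ n ≤ M)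
    (hu : ∀ n, ContDiffOn ℝ 2 (u n) DD)
    (heq : ∀ n, ∀ z ∈ DD, -lap (u n) z = μ n * κ n z * u n z)
    (hκ0 : ∀ n, ∀ z ∈ DD, 0 ≤ κ n z)
    (hbd : ∀ R < 1, ∃ (A : ℝ) (N : ℕ), 0 ≤ A ∧ ∀ n ≥ N, ∀ z ∈ closedBall (0 : ℂ) R,
      |u n z| ≤ A ∧ gsq (u n) z ≤ A ^ 2 ∧ κ n z ≤ A)
    (hμlim : Tendsto μ atTop (𝓝 μ₀)) (hw : ContDiffOn ℝ 1 w DD)
    (h1 : ∀ R < 1, TendstoUniformlyOn u w atTop (closedBall (0 : ℂ) R))
    (h2 : ∀ R < 1, TendstoUniformlyOn (fun n => px (u n)) (px w) atTop (closedBall (0 : ℂ) R))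
    (h3 : ∀ R < 1, TendstoUniformlyOn (fun n => py (u n)) (py w) atTop (closedBall (0 : ℂ) R))
    (φ : ℂ → ℝ) (hφ : ContDiff ℝ ∞ φ) (hc : HasCompactSupport φ) (hs : tsupport φ ⊆ DD) :
    ∫ z in DD, (px w z * px φ z + py w z * py φ z) = ∫ z in DD, μ₀ * κ₀ z * w z * φ z := by
  have hφ1 : ContDiff ℝ 1 φ := hφ.of_le (by exact_mod_cast le_top)
  obtain ⟨R, hR, hKR⟩ := exists_lt_subset_ball (isClosed_tsupport φ) hs
  set K : Set ℂ := closedBall (0 : ℂ) R with hK
  have hKD : K ⊆ DD := closedBall_subset_ball hR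
  have hKc : IsCompact K := isCompact_closedBall _ _
  have hsK : tsupport φ ⊆ K := hKR.trans ball_subset_closedBall
  have hφ0 : ∀ z ∉ K, φ z = 0 ∧ px φ z = 0 ∧ py φ z = 0 := by
    intro z hz
    have hz' : z ∉ tsupport φ := fun h => hz (hsK h)
    have hf : fderiv ℝ φ z = 0 := by
      have h0 : φ =ᶠ[𝓝 z] fun _ => 0 := notMem_tsupport_iff_eventuallyEq.1 hz'
      rw [h0.fderiv_eq]; simp only [fderiv_fun_const, Pi.zero_apply]
    refine ⟨image_eq_zero_of_notMem_tsupport hz', ?_, ?_⟩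
    · unfold px; rw [hf]; simp only [zero_apply]
    · unfold py; rw [hf]; simp
  have hcpx : Continuous (px φ) := (hφ1.continuous_fderiv one_ne_zero).clm_apply continuous_const
  have hcpy : Continuous (py φ) := (hφ1.continuous_fderiv one_ne_zero).clm_apply continuous_const
  let G : (ℂ → ℝ) → (ℂ → ℝ) → ℝ → ℂ → ℝ := fun v k m z =>
    px v z * px φ z + py v z * py φ z - m * k z * v z * φ z
  have hn : ∀ n, ∫ z in K, G (u n) (κ n) (μ n) z = 0 := by
    intro n
    rw [setIntegral_eq_integral_of_forall_compl_eq_zero (fun z hz => ?_),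
      ← green (hu n) hφ1 hc hs]
    · apply integral_congr_ae
      refine Eventually.of_forall fun z => ?_
      by_cases hz : z ∈ K
      · have e := heq n z (hKD hz)
        have e1 : lap (u n) z = -(μ n * κ n z * u n z) := by (clear * - e; linarith)
        simp only [G, e1]
        ring
      · obtain ⟨e1, e2, e3⟩ := hφ0 z hz
        simp only [e2, e3, e1, G]
        ring
    · obtain ⟨e1, e2, e3⟩ := hφ0 z hz
      simp only [G, e1, e2, e3]
      ring
  obtain ⟨A, N, hA, hAN⟩ := hbd R hR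
  have hlim : Tendsto (fun n => ∫ z in K, G (u n) (κ n) (μ n) z) atTop
      (𝓝 (∫ z in K, G w κ₀ μ₀ z)) := by
    apply tendsto_integral_filter_of_dominated_convergence
      (fun z => A * |px φ z| + A * |py φ z| + M * A * A * |φ z|)
    · refine Eventually.of_forall fun n => ?_
      have hc1 : ContinuousOn (G (u n) (κ n) (μ n)) K := by
        have c1 := (contOn_px ((hu n).of_le (by norm_num))).mono hKD
        have c2 := (contOn_py ((hu n).of_le (by norm_num))).mono hKD
        have c3 := (hκ n).mono hKD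
        have c4 := (hu n).continuousOn.mono hKD
        exact ((c1.mul hcpx.continuousOn).add (c2.mul hcpy.continuousOn)).sub
          (((continuousOn_const.mul c3).mul c4).mul hφ.continuous.continuousOn)
      exact hc1.aestronglyMeasurable hKc.measurableSet
    · refine eventually_atTop.2 ⟨N, fun n hn => ?_⟩
      filter_upwards [ae_restrict_mem hKc.measurableSet] with z hz
      obtain ⟨b1, b2, b3⟩ := hAN n hn z hz
      have hM := hμ n
      have hk0 := hκ0 n z (hKD hz)
      have hx : |px (u n) z| ≤ A := by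
        apply abs_le_of_sq_le_sq _ hA
        unfold gsq at b2; nlinarith only [b2]
      have hy : |py (u n) z| ≤ A := by
        apply abs_le_of_sq_le_sq _ hA
        unfold gsq at b2; nlinarith only [b2]
      rw [Real.norm_eq_abs]
      simp only [G]
      calc |px (u n) z * px φ z + py (u n) z * py φ z - μ n * κ n z * u n z * φ z|
          ≤ |px (u n) z * px φ z + py (u n) z * py φ z| + |μ n * κ n z * u n z * φ z| :=
            abs_sub _ _
        _ ≤ |px (u n) z * px φ z| + |py (u n) z * py φ z| + |μ n * κ n z * u n z * φ z| := by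
            gcongr; exact abs_add_le _ _
        _ = |px (u n) z| * |px φ z| + |py (u n) z| * |py φ z| +
              μ n * κ n z * |u n z| * |φ z| := by
            rw [abs_mul, abs_mul, abs_mul, abs_mul, abs_of_nonneg (mul_nonneg hM.1 hk0)]
        _ ≤ A * |px φ z| + A * |py φ z| + M * A * A * |φ z| := by
            have := hM.1
            have := hM.2
            have := hM.1.trans hM.2
            (clear κ₀ μ₀ w hκ hκ₀ hκlim hbd hμlim hw h1 h2 h3 hK hKc hcpx hcpy N hAN hn; gcongr)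
    · have c : Continuous fun z => A * |px φ z| + A * |py φ z| + M * A * A * |φ z| := by
        have := hφ.continuous
        (clear * - hcpx hcpy this; fun_prop)
      exact c.continuousOn.integrableOn_compact hKc
    · filter_upwards [ae_restrict_mem hKc.measurableSet] with z hz
      have t1 := (h1 R hR).tendsto_at hz
      have t2 := (h2 R hR).tendsto_at hz
      have t3 := (h3 R hR).tendsto_at hz
      have t4 := (hκlim R hR).tendsto_at hz
      exact ((t2.mul_const _).add (t3.mul_const _)).sub (((hμlim.mul t4).mul t1).mul_const _)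
  have h0 : ∫ z in K, G w κ₀ μ₀ z = 0 := by
    simp_rw [hn] at hlim
    exact tendsto_nhds_unique hlim tendsto_const_nhds |>.symm ▸ rfl
  have i1 : ∫ z in DD, (px w z * px φ z + py w z * py φ z) =
      ∫ z in K, (px w z * px φ z + py w z * py φ z) := by
    apply setIntegral_eq_of_subset_of_forall_sdiff_eq_zero measurableSet_ball hKD
    intro z hz
    obtain ⟨-, e2, e3⟩ := hφ0 z hz.2
    simp [e2, e3]
  have i2 : ∫ z in DD, μ₀ * κ₀ z * w z * φ z = ∫ z in K, μ₀ * κ₀ z * w z * φ z := by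
    apply setIntegral_eq_of_subset_of_forall_sdiff_eq_zero measurableSet_ball hKD
    intro z hz
    obtain ⟨e1, -, -⟩ := hφ0 z hz.2
    simp [e1]
  have j1 : IntegrableOn (fun z => px w z * px φ z + py w z * py φ z) K := by
    refine ContinuousOn.integrableOn_compact hKc ?_
    exact (((contOn_px hw).mono hKD).mul hcpx.continuousOn).add
      (((contOn_py hw).mono hKD).mul hcpy.continuousOn)
  have j2 : IntegrableOn (fun z => μ₀ * κ₀ z * w z * φ z) K := by
    refine ContinuousOn.integrableOn_compact hKc ?_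
    exact ((continuousOn_const.mul (hκ₀.mono hKD)).mul (hw.continuousOn.mono hKD)).mul
      hφ.continuous.continuousOn
  rw [i1, i2]
  have e : ∫ z in K, G w κ₀ μ₀ z = (∫ z in K, (px w z * px φ z + py w z * py φ z)) -
      ∫ z in K, μ₀ * κ₀ z * w z * φ z := integral_sub j1 j2
  linarith only [h0, e]

end CompA

/-- Sequences of solutions of `-Δu_n = μ_n κ_n u_n` with bounded energy are precompact in
`C¹_loc` of the disc. -/
theorem exists_subseq {κ : ℕ → ℂ → ℝ} {κ₀ : ℂ → ℝ} {μ : ℕ → ℝ} {u : ℕ → ℂ → ℝ} {M : ℝ}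
    (hκ : ∀ n, ContinuousOn (κ n) DD) (hκ₀ : ContinuousOn κ₀ DD) (hpos : ∀ z ∈ DD, 0 < κ₀ z)
    (hκlim : ∀ R < 1, TendstoUniformlyOn κ κ₀ atTop (closedBall 0 R))
    (hμ : ∀ n, 0 ≤ μ n ∧ μ n ≤ M)
    (hu : ∀ n, ContDiffOn ℝ 2 (u n) DD)
    (heq : ∀ n, ∀ z ∈ DD, -lap (u n) z = μ n * κ n z * u n z)
    (hi1 : ∀ n, IntegrableOn (fun z => κ n z * u n z ^ 2) DD)
    (hb1 : ∀ n, ∫ z in DD, κ n z * u n z ^ 2 ≤ M)
    (hκ0 : ∀ n, ∀ z ∈ DD, 0 ≤ κ n z)
    (hi2 : ∀ n, IntegrableOn (gsq (u n)) DD) (hb2 : ∀ n, ∫ z in DD, gsq (u n) z ≤ M) :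
    ∃ (ν : ℕ → ℕ) (w : ℂ → ℝ) (μ₀ : ℝ), StrictMono ν ∧ ContDiffOn ℝ 1 w DD ∧
      Tendsto (fun n => μ (ν n)) atTop (𝓝 μ₀) ∧
      (∀ R < 1, TendstoUniformlyOn (fun n => u (ν n)) w atTop (closedBall 0 R)) ∧
      (∀ R < 1, TendstoUniformlyOn (fun n => px (u (ν n))) (px w) atTop (closedBall 0 R)) ∧
      (∀ R < 1, TendstoUniformlyOn (fun n => py (u (ν n))) (py w) atTop (closedBall 0 R)) ∧
      (∀ φ : ℂ → ℝ, ContDiff ℝ ∞ φ → HasCompactSupport φ → tsupport φ ⊆ DD →
        ∫ z in DD, (px w z * px φ z + py w z * py φ z) =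
          ∫ z in DD, μ₀ * κ₀ z * w z * φ z) := by
  have hbd := CompA.bounds hκ₀ hpos hκlim hμ hu heq hi1 hb1 hκ0 hi2 hb2
  obtain ⟨μ₀, -, ν₁, hν₁, hμlim⟩ := (isCompact_Icc (a := (0 : ℝ)) (b := M)).tendsto_subseq
    (x := μ) (fun n => hμ n)
  obtain ⟨ν₂, w, hν₂, hw⟩ := CompA.extract (u := fun n => u (ν₁ n)) (by
    intro R hR
    obtain ⟨A, N, hA, hAN⟩ := hbd R hR
    refine ⟨2 * A, N, fun n hn => ⟨fun x hx => ?_, ?_⟩⟩
    · have := (hAN (ν₁ n) (hn.trans (hν₁.id_le n)) x hx).1
      linarith only [hA, this]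
    · exact CompA.lip_of_bounds hR ((hu _).of_le (by norm_num)) hA
        (fun z hz => (hAN (ν₁ n) (hn.trans (hν₁.id_le n)) z hz).2.1))
  set ν : ℕ → ℕ := fun n => ν₁ (ν₂ n) with hν
  have hνm : StrictMono ν := hν₁.comp hν₂
  have hμlim' : Tendsto (fun n => μ (ν n)) atTop (𝓝 μ₀) := hμlim.comp hν₂.tendsto_atTop
  have hκlim' : ∀ R < 1, TendstoUniformlyOn (fun n => κ (ν n)) κ₀ atTop
      (closedBall (0 : ℂ) R) := fun R hR u hu' =>
    hνm.tendsto_atTop.eventually (hκlim R hR u hu')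
  have hwc : ContinuousOn w DD := by
    apply (CompA.tlu_iff.2 hw).continuousOn
    exact (Eventually.of_forall fun n => (hu _).continuousOn).frequently
  have hlap : TendstoLocallyUniformlyOn (fun n => lap (u (ν n)))
      (fun z => -(μ₀ * κ₀ z * w z)) atTop DD := by
    have t1 : TendstoLocallyUniformlyOn (fun n (_ : ℂ) => μ (ν n)) (fun _ => μ₀) atTop DD := by
      rw [CompA.tlu_iff]
      intro R _
      rw [Metric.tendstoUniformlyOn_iff]
      intro ε hε
      filter_upwards [Metric.tendsto_nhds.1 hμlim' ε hε] with n hn z _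
      rw [dist_comm]; exact hn
    have t2 := CompA.tlu_iff.2 hκlim'
    have t3 := CompA.tlu_iff.2 hw
    have t4 := t1.fun_mul₀ t2 continuousOn_const hκ₀
    have t5 := t4.fun_mul₀ t3 (continuousOn_const.mul hκ₀) hwc
    have t6 := t5.neg
    refine TendstoLocallyUniformlyOn.congr t6 ?_
    refine fun n z hz => ?_
    have e := heq (ν n) z hz
    simp only [Pi.neg_apply]
    linarith only [e]
  obtain ⟨g1, g2, g3⟩ := CompA.grad (u := fun n => u (ν n)) (fun n => hu _)
    (CompA.tlu_iff.2 hw) hlap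
  refine ⟨ν, w, μ₀, hνm, g1, hμlim', hw, g2, g3, fun φ hφ hc hs => ?_⟩
  refine CompA.weak (κ := fun n => κ (ν n)) (μ := fun n => μ (ν n)) (u := fun n => u (ν n))
    (M := M) (fun n => hκ _) hκ₀ hκlim' (fun n => hμ _) (fun n => hu _) (fun n => heq _)
    (fun n => hκ0 _) ?_ hμlim' g1 hw g2 g3 φ hφ hc hs
  intro R hR
  obtain ⟨A, N, hA, hAN⟩ := hbd R hR
  exact ⟨A, N, hA, fun n hn => hAN (ν n) (hn.trans (hνm.id_le n))⟩

end Vale.Agent.P071.Lim
end

section

/-!
# Regularity of weak solutions (task LIM-REGa)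
-/

open MeasureTheory Metric Filter Topology Real
open scoped ContDiff ENNReal

namespace Vale.Agent.P071.Lim

namespace RegA

/-- bump functions -/
noncomputable def bmp (n : ℕ) : ContDiffBump (0 : ℂ) where
  rIn := 1 / (2 * ((n : ℝ) + 1))
  rOut := 1 / ((n : ℝ) + 1)
  rIn_pos := by positivity
  rIn_lt_rOut := by
    apply one_div_lt_one_div_of_lt <;> have : (0 : ℝ) ≤ n := by positivity
    · linarith
    · linarith

/-- mollifiers -/
noncomputable def ker (n : ℕ) : ℂ → ℝ := (bmp n).normed volume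

lemma ker_contDiff (n : ℕ) : ContDiff ℝ ∞ (ker n) := (bmp n).contDiff_normed

lemma ker_cs (n : ℕ) : HasCompactSupport (ker n) := (bmp n).hasCompactSupport_normed

lemma ker_tsupport (n : ℕ) : tsupport (ker n) = closedBall 0 (1 / ((n : ℝ) + 1)) :=
  (bmp n).tsupport_normed_eq

lemma cv_dist {w : ℂ → ℝ} {z : ℂ} {n : ℕ} {ε : ℝ} (hw : AEStronglyMeasurable w volume)
    (h : ∀ y ∈ ball z (1 / ((n : ℝ) + 1)), dist (w y) (w z) ≤ ε) :
    |cv w (ker n) z - w z| ≤ ε := by
  have h1 := (bmp n).dist_normed_convolution_le (μ := volume) (x₀ := z) (ε := ε) hw h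
  have h2 : cv w (ker n) z =
      MeasureTheory.convolution ((bmp n).normed volume) w (ContinuousLinearMap.lsmul ℝ ℝ) volume z := by
    rw [cv_apply, MeasureTheory.convolution_def, ← integral_sub_left_eq_self _ _ z]
    apply integral_congr_ae
    filter_upwards with t
    simp only [ker, sub_sub_cancel, ContinuousLinearMap.lsmul_apply, smul_eq_mul, mul_comm]
  rw [h2]
  rwa [Real.dist_eq] at h1

lemma opNorm_sq_le (L : ℂ →L[ℝ] ℝ) : ‖L‖ ^ 2 ≤ 2 * ((L 1) ^ 2 + (L Complex.I) ^ 2) := by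
  have h1 : ‖L‖ ≤ |L 1| + |L Complex.I| := by
    apply L.opNorm_le_bound (by positivity)
    intro z
    have hz : L z = z.re * L 1 + z.im * L Complex.I := by
      conv_lhs => rw [← Complex.re_add_im z]
      rw [map_add]
      congr 1
      · rw [show (z.re : ℂ) = z.re • (1 : ℂ) by simp only [Complex.real_smul, mul_one], map_smul, smul_eq_mul]
      · rw [show (z.im : ℂ) * Complex.I = z.im • Complex.I by simp, map_smul, smul_eq_mul]
    rw [hz, Real.norm_eq_abs]
    calc |z.re * L 1 + z.im * L Complex.I| ≤ |z.re * L 1| + |z.im * L Complex.I| := abs_add_le _ _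
      _ = |z.re| * |L 1| + |z.im| * |L Complex.I| := by rw [abs_mul, abs_mul]
      _ ≤ ‖z‖ * |L 1| + ‖z‖ * |L Complex.I| := by
          gcongr
          · exact Complex.abs_re_le_norm z
          · exact Complex.abs_im_le_norm z
      _ = (|L 1| + |L Complex.I|) * ‖z‖ := by ring
  calc ‖L‖ ^ 2 ≤ (|L 1| + |L Complex.I|) ^ 2 := by gcongr
    _ ≤ 2 * (|L 1| ^ 2 + |L Complex.I| ^ 2) := by nlinarith only [sq_nonneg (|L 1| - |L Complex.I|)]
    _ = _ := by rw [sq_abs, sq_abs]

lemma c1_of_hasFDerivAt {V : Set ℂ} (hV : IsOpen V) {w : ℂ → ℝ} {g : ℂ → ℂ →L[ℝ] ℝ}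
    (hg : ContinuousOn g V) (h : ∀ x ∈ V, HasFDerivAt w (g x) x) : ContDiffOn ℝ 1 w V := by
  rw [show (1 : WithTop ℕ∞) = 0 + 1 from rfl, contDiffOn_succ_iff_fderiv_of_isOpen hV]
  refine ⟨fun x hx => (h x hx).differentiableAt.differentiableWithinAt, by simp only [WithTop.zero_ne_top, IsEmpty.forall_iff], ?_⟩
  rw [contDiffOn_zero]
  exact hg.congr (fun x hx => (h x hx).fderiv)

lemma c1_local {U : Set ℂ} {w h : ℂ → ℝ} (hw : ContinuousOn w U)
    (hh : ContinuousOn h U)
    (hweak : ∀ φ : ℂ → ℝ, ContDiff ℝ ∞ φ → HasCompactSupport φ → tsupport φ ⊆ U →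
      ∫ z in U, w z * lap φ z = -∫ z in U, h z * φ z)
    {z₀ : ℂ} {r : ℝ} (hr : 0 < r) (hball : closedBall z₀ (3 * r) ⊆ U) :
    ContDiffOn ℝ 1 w (ball z₀ r) := by
  set K := closedBall z₀ (3 * r) with hKdef
  have hKc : IsCompact K := isCompact_closedBall _ _
  have hKm : MeasurableSet K := hKc.isClosed.measurableSet
  have hWi : Integrable (K.indicator w) :=
    (integrable_indicator_iff hKm).2 ((hw.mono hball).integrableOn_compact hKc)
  have hHi : Integrable (K.indicator h) :=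
    (integrable_indicator_iff hKm).2 ((hh.mono hball).integrableOn_compact hKc)
  -- uniform convergence
  have unif : ∀ g : ℂ → ℝ, ContinuousOn g U → Integrable (K.indicator g) → ∀ ε > 0, ∃ N : ℕ,
      ∀ n ≥ N, ∀ z ∈ ball z₀ (2 * r), |cv (K.indicator g) (ker n) z - g z| ≤ ε := by
    intro g hg hgi ε hε
    have huc := hKc.uniformContinuousOn_of_continuous (hg.mono hball)
    rw [Metric.uniformContinuousOn_iff] at huc
    obtain ⟨δ, hδ, hd⟩ := huc ε hε
    obtain ⟨N, hN⟩ := exists_nat_one_div_lt (lt_min hδ hr)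
    refine ⟨N, fun n hn z hz => ?_⟩
    have hnN : 1 / ((n : ℝ) + 1) ≤ 1 / ((N : ℝ) + 1) := by
      apply one_div_le_one_div_of_le (by (clear * -; positivity))
      have : (N : ℝ) ≤ n := by exact_mod_cast hn
      linarith only [this]
    have hnδ : 1 / ((n : ℝ) + 1) < δ := lt_of_le_of_lt hnN (hN.trans_le (min_le_left _ _))
    have hnr : 1 / ((n : ℝ) + 1) < r := lt_of_le_of_lt hnN (hN.trans_le (min_le_right _ _))
    have hzK : z ∈ K := by
      rw [hKdef, mem_closedBall]
      rw [mem_ball] at hz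
      linarith only [hr, hz]
    have h1 : |cv (K.indicator g) (ker n) z - K.indicator g z| ≤ ε := by
      apply cv_dist hgi.aestronglyMeasurable
      intro y hy
      rw [mem_ball] at hy hz
      have hyK : y ∈ K := by
        rw [hKdef, mem_closedBall]
        have := dist_triangle y z z₀
        linarith only [hz, hnr, hy, this]
      rw [Set.indicator_of_mem hyK, Set.indicator_of_mem hzK]
      exact (hd y hyK z hzK (hy.trans hnδ)).le
    rwa [Set.indicator_of_mem hzK] at h1
  have hsm : ∀ n, ContDiff ℝ ∞ (cv (K.indicator w) (ker n)) := fun n =>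
    cv_contDiff hWi.locallyIntegrable (ker_contDiff n) (ker_cs n)
  -- Laplacian
  obtain ⟨N₀, hN₀⟩ := exists_nat_one_div_lt hr
  have hlap : ∀ n ≥ N₀, ∀ z ∈ ball z₀ (2 * r),
      lap (cv (K.indicator w) (ker n)) z = -cv (K.indicator h) (ker n) z := by
    intro n hn z hz
    rw [cv_lap hWi.locallyIntegrable (ker_contDiff n) (ker_cs n)]
    apply cv_sub_test hweak (ker_contDiff n) (ker_cs n) hball
    intro t ht
    rw [ker_tsupport, mem_closedBall, dist_zero_right] at ht
    have hnN : 1 / ((n : ℝ) + 1) ≤ 1 / ((N₀ : ℝ) + 1) := by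
      apply one_div_le_one_div_of_le (by (clear * -; positivity))
      have : (N₀ : ℝ) ≤ n := by exact_mod_cast hn
      linarith only [this]
    rw [hKdef, mem_closedBall]
    rw [mem_ball] at hz
    have h2 := dist_triangle t z z₀
    rw [dist_eq_norm t z, norm_sub_rev] at h2
    linarith
  -- uniform Cauchy property of the gradients
  obtain ⟨C, hC, hCb⟩ := gsq_le_of_sup hr
  have hUC : UniformCauchySeqOn (fun n => fderiv ℝ (cv (K.indicator w) (ker n))) atTop
      (ball z₀ r) := by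
    rw [Metric.uniformCauchySeqOn_iff]
    intro η hη
    set ε := η / (4 * (C + 1)) with hεdef
    have hε : 0 < ε := by (clear * - hη hC; positivity)
    obtain ⟨N₁, hN₁⟩ := unif w hw hWi ε hε
    obtain ⟨N₂, hN₂⟩ := unif h hh hHi ε hε
    refine ⟨max N₀ (max N₁ N₂), fun m hm n hn x hx => ?_⟩
    have hm0 : N₀ ≤ m := le_trans (le_max_left _ _) hm
    have hm1 : N₁ ≤ m := le_trans ((le_max_left _ _).trans (le_max_right _ _)) hm
    have hm2 : N₂ ≤ m := le_trans ((le_max_right _ _).trans (le_max_right _ _)) hm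
    have hn0 : N₀ ≤ n := le_trans (le_max_left _ _) hn
    have hn1 : N₁ ≤ n := le_trans ((le_max_left _ _).trans (le_max_right _ _)) hn
    have hn2 : N₂ ≤ n := le_trans ((le_max_right _ _).trans (le_max_right _ _)) hn
    set v : ℂ → ℝ := fun z => cv (K.indicator w) (ker m) z - cv (K.indicator w) (ker n) z with hv
    have hvs : ContDiff ℝ ∞ v := (hsm m).sub (hsm n)
    have hfd : ∀ (a b : ℂ → ℝ), ContDiff ℝ ∞ a → ContDiff ℝ ∞ b → ∀ z,
        fderiv ℝ (fun z => a z - b z) z = fderiv ℝ a z - fderiv ℝ b z := fun a b ha hb z =>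
      fderiv_sub ((ha.differentiable (by simp)) z) ((hb.differentiable (by simp)) z)
    have hpx : ∀ (a b : ℂ → ℝ), ContDiff ℝ ∞ a → ContDiff ℝ ∞ b →
        px (fun z => a z - b z) = fun z => px a z - px b z := by
      intro a b ha hb; funext z; simp only [px, hfd a b ha hb z, sub_apply]
    have hpy : ∀ (a b : ℂ → ℝ), ContDiff ℝ ∞ a → ContDiff ℝ ∞ b →
        py (fun z => a z - b z) = fun z => py a z - py b z := by
      intro a b ha hb; funext z; simp only [py, hfd a b ha hb z, sub_apply]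
    have hlv : ∀ z, lap v z = lap (cv (K.indicator w) (ker m)) z -
        lap (cv (K.indicator w) (ker n)) z := by
      intro z
      unfold lap
      rw [hv, hpx _ _ (hsm m) (hsm n), hpy _ _ (hsm m) (hsm n),
        hpx _ _ (px_contDiff (hsm m)) (px_contDiff (hsm n)),
        hpy _ _ (py_contDiff (hsm m)) (py_contDiff (hsm n))]
      ring
    have hsub : ∀ z ∈ ball x r, z ∈ ball z₀ (2 * r) := by
      intro z hz
      rw [mem_ball] at hz hx ⊢
      have := dist_triangle z x z₀
      linarith only [hx, hz, this]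
    have hg := hCb x v (2 * ε) (hvs.of_le (WithTop.coe_le_coe.2 (le_top : (2 : ℕ∞) ≤ ⊤))).contDiffOn (by
      intro z hz
      have hz2 := hsub z hz
      have a1 := abs_le.1 (hN₁ m hm1 z hz2)
      have a2 := abs_le.1 (hN₁ n hn1 z hz2)
      have a3 := abs_le.1 (hN₂ m hm2 z hz2)
      have a4 := abs_le.1 (hN₂ n hn2 z hz2)
      constructor
      · simp only [hv]
        rw [abs_le]
        constructor <;> linarith only [a1, a2]
      · rw [hlv, hlap m hm0 z hz2, hlap n hn0 z hz2, abs_le]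
        constructor <;> linarith only [a3, a4])
    have hn2' := opNorm_sq_le (fderiv ℝ v x)
    have hfv : fderiv ℝ v x = fderiv ℝ (cv (K.indicator w) (ker m)) x -
        fderiv ℝ (cv (K.indicator w) (ker n)) x := hfd _ _ (hsm m) (hsm n) x
    rw [dist_eq_norm, ← hfv]
    have hgs : 2 * (fderiv ℝ v x 1 ^ 2 + fderiv ℝ v x Complex.I ^ 2) = 2 * gsq v x := rfl
    rw [hgs] at hn2'
    have hlt : 2 * (C * (2 * ε) ^ 2) < η ^ 2 := by
      have : η = ε * (4 * (C + 1)) := by rw [hεdef]; (clear * - hC hη; field_simp)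
      rw [this]
      have : 0 < ε ^ 2 := by (clear * - hη hC; positivity)
      nlinarith only [this]
    exact lt_of_pow_lt_pow_left₀ 2 hη.le (by linarith only [hg, hn2', hlt])
  -- the limit of the gradients
  have hlim : ∀ x : ℂ, ∃ g : ℂ →L[ℝ] ℝ, x ∈ ball z₀ r →
      Tendsto (fun n => fderiv ℝ (cv (K.indicator w) (ker n)) x) atTop (𝓝 g) := by
    intro x
    by_cases hx : x ∈ ball z₀ r
    · obtain ⟨g, hg⟩ := cauchySeq_tendsto_of_complete (hUC.cauchySeq hx)
      exact ⟨g, fun _ => hg⟩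
    · exact ⟨0, fun h => absurd h hx⟩
  choose g hg using hlim
  have hTU : TendstoUniformlyOn (fun n => fderiv ℝ (cv (K.indicator w) (ker n))) g atTop
      (ball z₀ r) := hUC.tendstoUniformlyOn_of_tendsto hg
  have hgc : ContinuousOn g (ball z₀ r) :=
    hTU.continuousOn (Filter.Frequently.of_forall fun n =>
      ((hsm n).continuous_fderiv (by simp)).continuousOn)
  refine c1_of_hasFDerivAt isOpen_ball hgc ?_
  intro x hx
  refine hasFDerivAt_of_tendstoUniformlyOn (f := fun n => cv (K.indicator w) (ker n))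
    isOpen_ball hTU ?_ ?_ hx
  · intro n y _
    exact ((hsm n).differentiable (by simp) y).hasFDerivAt
  · intro y hy
    rw [Metric.tendsto_atTop]
    intro ε hε
    obtain ⟨N, hN⟩ := unif w hw hWi (ε / 2) (by (clear * - hε; positivity))
    refine ⟨N, fun n hn => ?_⟩
    rw [Real.dist_eq]
    have hy2 : y ∈ ball z₀ (2 * r) := by
      rw [mem_ball] at hy ⊢
      linarith only [hr, hy]
    exact (hN n hn y hy2).trans_lt (by linarith only [hε])

end RegA

/-- A continuous function whose distributional Laplacian is continuous is `C¹`. -/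
theorem c1_of_weak {U : Set ℂ} (hU : IsOpen U) {w h : ℂ → ℝ} (hw : ContinuousOn w U)
    (hh : ContinuousOn h U)
    (hweak : ∀ φ : ℂ → ℝ, ContDiff ℝ ∞ φ → HasCompactSupport φ → tsupport φ ⊆ U →
      ∫ z in U, w z * lap φ z = -∫ z in U, h z * φ z) :
    ContDiffOn ℝ 1 w U := by
  intro z₀ hz₀
  obtain ⟨R, hR, hRU⟩ := Metric.isOpen_iff.1 hU z₀ hz₀
  have hr : 0 < R / 4 := by (clear * - hR; positivity)
  have h1 : ContDiffOn ℝ 1 w (ball z₀ (R / 4)) := by
    apply RegA.c1_local hw hh hweak hr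
    intro z hz
    apply hRU
    rw [mem_closedBall] at hz
    rw [mem_ball]
    linarith only [hR, hz]
  exact (h1.contDiffAt (ball_mem_nhds z₀ hr)).contDiffWithinAt

/-- A `C¹` weak solution of `-Δw = h` with `h ∈ C¹` is a classical solution. -/
theorem c2_of_weak {U : Set ℂ} (hU : IsOpen U) {w h : ℂ → ℝ} (hw : ContDiffOn ℝ 1 w U)
    (hh : ContDiffOn ℝ 1 h U)
    (hweak : ∀ φ : ℂ → ℝ, ContDiff ℝ ∞ φ → HasCompactSupport φ → tsupport φ ⊆ U →
      ∫ z in U, (px w z * px φ z + py w z * py φ z) = ∫ z in U, h z * φ z) :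
    ContDiffOn ℝ 2 w U ∧ ∀ z ∈ U, -lap w z = h z := by
  open RegA in
  have hpxc : ContinuousOn (px w) U :=
    (hw.continuousOn_fderiv_of_isOpen hU le_rfl).clm_apply continuousOn_const
  have hpyc : ContinuousOn (py w) U :=
    (hw.continuousOn_fderiv_of_isOpen hU le_rfl).clm_apply continuousOn_const
  have hhx : ContinuousOn (px h) U :=
    (hh.continuousOn_fderiv_of_isOpen hU le_rfl).clm_apply continuousOn_const
  have hhy : ContinuousOn (py h) U :=
    (hh.continuousOn_fderiv_of_isOpen hU le_rfl).clm_apply continuousOn_const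
  -- the weak formulation on the whole plane
  have hweak' : ∀ φ : ℂ → ℝ, ContDiff ℝ ∞ φ → HasCompactSupport φ → tsupport φ ⊆ U →
      (∫ z, px w z * px φ z) + (∫ z, py w z * py φ z) = ∫ z, h z * φ z := by
    intro φ hφ hc hs
    have h1 := hweak φ hφ hc hs
    rw [RegA.setInt_eq hs, integral_add, RegA.setInt_eq ((RegA.px_tsupport φ).trans hs),
      RegA.setInt_eq ((RegA.py_tsupport φ).trans hs)] at h1
    · exact h1
    · exact (RegA.mul_cs_integrable hU hpxc (RegA.px_contDiff hφ).continuous (RegA.px_cs hc)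
        ((RegA.px_tsupport φ).trans hs)).integrableOn
    · exact (RegA.mul_cs_integrable hU hpyc (RegA.py_contDiff hφ).continuous (RegA.py_cs hc)
        ((RegA.py_tsupport φ).trans hs)).integrableOn
  have hlapts : ∀ φ : ℂ → ℝ, tsupport (lap φ) ⊆ tsupport φ := by
    intro φ
    refine closure_minimal ?_ (isClosed_tsupport _)
    intro t ht
    by_contra h
    apply ht
    unfold lap
    rw [image_eq_zero_of_notMem_tsupport
        (fun h' => h (RegA.px_tsupport _ (RegA.px_tsupport _ h'))),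
      image_eq_zero_of_notMem_tsupport
        (fun h' => h (RegA.py_tsupport _ (RegA.py_tsupport _ h'))), add_zero]
  have c1x : ContDiffOn ℝ 1 (px w) U := by
    apply c1_of_weak hU hpxc hhx
    intro φ hφ hc hs
    have sx := (RegA.px_tsupport φ).trans hs
    have sy := (RegA.py_tsupport φ).trans hs
    have sxx := (RegA.px_tsupport (px φ)).trans sx
    have syx := (RegA.py_tsupport (px φ)).trans sx
    have syy := (RegA.py_tsupport (py φ)).trans sy
    have Cx := RegA.px_contDiff hφ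
    have Cy := RegA.py_contDiff hφ
    have Kx := RegA.px_cs hc
    have Ky := RegA.py_cs hc
    rw [RegA.setInt_eq hs, RegA.setInt_eq ((hlapts φ).trans hs)]
    have e0 : ∫ z, px w z * lap φ z = (∫ z, px w z * px (px φ) z) + ∫ z, px w z * py (py φ) z := by
      rw [← integral_add]
      · apply integral_congr_ae
        filter_upwards with z
        simp only [lap]
        ring
      · exact RegA.mul_cs_integrable hU hpxc (RegA.px_contDiff Cx).continuous (RegA.px_cs Kx) sxx
      · exact RegA.mul_cs_integrable hU hpxc (RegA.py_contDiff Cy).continuous (RegA.py_cs Ky) syy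
    have e1 := RegA.ibp_x hU hw (RegA.py_contDiff Cy) (RegA.py_cs Ky) syy
    have e2 := RegA.ibp_y hU hw (RegA.py_contDiff Cx) (RegA.py_cs Kx) syx
    have e3 : px (py (py φ)) = py (py (px φ)) := by
      rw [RegA.px_py Cy, RegA.px_py hφ]
    have e4 := hweak' (px φ) Cx Kx sx
    have e5 := RegA.ibp_x hU hh hφ hc hs
    rw [e3] at e1
    rw [e0]
    linarith only [e1, e2, e4, e5]
  have c1y : ContDiffOn ℝ 1 (py w) U := by
    apply c1_of_weak hU hpyc hhy
    intro φ hφ hc hs
    have sx := (RegA.px_tsupport φ).trans hs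
    have sy := (RegA.py_tsupport φ).trans hs
    have sxx := (RegA.px_tsupport (px φ)).trans sx
    have sxy := (RegA.px_tsupport (py φ)).trans sy
    have syy := (RegA.py_tsupport (py φ)).trans sy
    have Cx := RegA.px_contDiff hφ
    have Cy := RegA.py_contDiff hφ
    have Kx := RegA.px_cs hc
    have Ky := RegA.py_cs hc
    rw [RegA.setInt_eq hs, RegA.setInt_eq ((hlapts φ).trans hs)]
    have e0 : ∫ z, py w z * lap φ z = (∫ z, py w z * px (px φ) z) + ∫ z, py w z * py (py φ) z := by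
      rw [← integral_add]
      · apply integral_congr_ae
        filter_upwards with z
        simp only [lap]
        ring
      · exact RegA.mul_cs_integrable hU hpyc (RegA.px_contDiff Cx).continuous (RegA.px_cs Kx) sxx
      · exact RegA.mul_cs_integrable hU hpyc (RegA.py_contDiff Cy).continuous (RegA.py_cs Ky) syy
    have e1 := RegA.ibp_y hU hw (RegA.px_contDiff Cx) (RegA.px_cs Kx) sxx
    have e2 := RegA.ibp_x hU hw (RegA.px_contDiff Cy) (RegA.px_cs Ky) sxy
    have e3 : py (px (px φ)) = px (px (py φ)) := by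
      rw [← RegA.px_py Cx, ← RegA.px_py hφ]
    have e4 := hweak' (py φ) Cy Ky sy
    have e5 := RegA.ibp_y hU hh hφ hc hs
    rw [e3] at e1
    rw [e0]
    linarith only [e1, e2, e4, e5]
  have hfd : ∀ z, fderiv ℝ w z = px w z • Complex.reCLM + py w z • Complex.imCLM := by
    intro z
    ext v
    have hz : fderiv ℝ w z v = v.re * fderiv ℝ w z 1 + v.im * fderiv ℝ w z Complex.I := by
      conv_lhs => rw [← Complex.re_add_im v]
      rw [map_add]
      congr 1
      · rw [show (v.re : ℂ) = v.re • (1 : ℂ) by simp only [Complex.real_smul, mul_one], map_smul, smul_eq_mul]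
      · rw [show (v.im : ℂ) * Complex.I = v.im • Complex.I by simp, map_smul, smul_eq_mul]
    rw [hz]
    simp only [px, py, add_apply, smul_apply, Complex.reCLM_apply, smul_eq_mul, Complex.imCLM_apply]
    ring
  have c2 : ContDiffOn ℝ 2 w U := by
    rw [show (2 : WithTop ℕ∞) = 1 + 1 from rfl, contDiffOn_succ_iff_fderiv_of_isOpen hU]
    refine ⟨hw.differentiableOn (by simp), by simp, ?_⟩
    have : fderiv ℝ w = fun z => px w z • Complex.reCLM + py w z • Complex.imCLM := funext hfd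
    rw [this]
    exact (c1x.smul contDiffOn_const).add (c1y.smul contDiffOn_const)
  refine ⟨c2, ?_⟩
  have hcxx : ContinuousOn (px (px w)) U :=
    (c1x.continuousOn_fderiv_of_isOpen hU le_rfl).clm_apply continuousOn_const
  have hcyy : ContinuousOn (py (py w)) U :=
    (c1y.continuousOn_fderiv_of_isOpen hU le_rfl).clm_apply continuousOn_const
  have hcont : ContinuousOn (fun z => -lap w z - h z) U :=
    ((hcxx.add hcyy).neg).sub hh.continuousOn
  have hae : ∀ᵐ x ∂(volume : Measure ℂ), x ∈ U → (fun z => -lap w z - h z) x = 0 := by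
    refine IsOpen.ae_eq_zero_of_integral_contDiff_smul_eq_zero hU
      (hcont.locallyIntegrableOn hU.measurableSet) ?_
    intro φ hφ hc hs
    have e1 := RegA.ibp_x hU c1x hφ hc hs
    have e2 := RegA.ibp_y hU c1y hφ hc hs
    have e3 := hweak' φ hφ hc hs
    have i1 := RegA.mul_cs_integrable hU hcxx hφ.continuous hc hs
    have i2 := RegA.mul_cs_integrable hU hcyy hφ.continuous hc hs
    have i3 := RegA.mul_cs_integrable hU hh.continuousOn hφ.continuous hc hs
    have i1' : Integrable (fun x => -(px (px w) x * φ x)) := i1.neg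
    have i4 : Integrable (fun x => -(px (px w) x * φ x) - py (py w) x * φ x) := i1'.sub i2
    have e4 : ∫ x, φ x • (-lap w x - h x) =
        -(∫ x, px (px w) x * φ x) - (∫ x, py (py w) x * φ x) - ∫ x, h x * φ x := by
      rw [← integral_neg, ← integral_sub i1' i2, ← integral_sub i4 i3]
      apply integral_congr_ae
      filter_upwards with x
      simp only [lap, smul_eq_mul]
      ring
    rw [e4]
    linarith only [e1, e2, e3]
  have heq : Set.EqOn (fun z => -lap w z - h z) (fun _ => 0) U := by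
    apply MeasureTheory.Measure.eqOn_open_of_ae_eq (μ := volume) _ hU hcont continuousOn_const
    exact (ae_restrict_iff' hU.measurableSet).2 hae
  intro z hz
  have := heq hz
  simp only at this
  linarith

end Vale.Agent.P071.Lim
end

section

/-!
# Scaling and elementary integrability (auxiliary lemmas for LIM-SELa)
-/

open MeasureTheory Metric Filter Topology Real
open scoped ContDiff ENNReal ComplexConjugate

namespace Vale.Agent.P071.Lim

namespace SelA

lemma scale_mem {r : ℝ} (hr : 0 < r) {z : ℂ} (hz : z ∈ DD) :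
    (r : ℂ) * z ∈ closedBall (0 : ℂ) r := by
  rw [mem_closedBall_zero_iff, norm_mul, Complex.norm_real, Real.norm_of_nonneg hr.le]
  rw [mem_ball_zero_iff] at hz
  nlinarith only [hr, hz]

lemma scale_mem' {r : ℝ} (hr : 0 < r) (hr1 : r < 1) {z : ℂ} (hz : z ∈ DD) :
    (r : ℂ) * z ∈ DD := by
  have := scale_mem hr hz
  rw [mem_closedBall_zero_iff] at this
  rw [mem_ball_zero_iff]
  linarith only [hr1, this]

lemma scale_integral (h : ℂ → ℝ) {r : ℝ} (hr : 0 < r) :
    ∫ z in DD, r ^ 2 * h (r * z) = ∫ z in ball 0 r, h z := by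
  have h1 := MeasureTheory.Measure.setIntegral_comp_smul_of_pos (volume : Measure ℂ) h
    (ball (0 : ℂ) 1) hr
  rw [smul_unitBall_of_pos hr, Complex.finrank_real_complex] at h1
  have h2 : ∀ z : ℂ, (r : ℂ) * z = r • z := fun z => (Complex.real_smul).symm
  rw [integral_const_mul]
  simp only [h2]
  rw [h1, smul_eq_mul, ← mul_assoc, mul_inv_cancel₀ (pow_ne_zero _ hr.ne'), one_mul]

lemma int_of_bdd {h : ℂ → ℝ} (hc : ContinuousOn h DD) {C : ℝ} (hb : ∀ z ∈ DD, |h z| ≤ C) :
    IntegrableOn h DD := by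
  have h1 : IntegrableOn (fun _ : ℂ => C) DD := by
    refine integrableOn_const ?_
    exact measure_ball_lt_top.ne
  refine Integrable.mono' h1 (hc.aestronglyMeasurable measurableSet_ball) ?_
  refine (ae_restrict_iff' measurableSet_ball).2 (Eventually.of_forall fun z hz => ?_)
  rw [Real.norm_eq_abs]
  exact hb z hz

lemma bg_scale {U : ℂ → ℝ} (hU : ContDiffOn ℝ 1 U DD) {r : ℝ} (hr : 0 < r) (hr1 : r < 1) :
    BG (fun z => U (r * z)) ∧ ∀ z ∈ DD, gsq (fun z => U (r * z)) z = r ^ 2 * gsq U (r * z) := by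
  have hmul : ContDiff ℝ 1 (fun z : ℂ => (r : ℂ) * z) := contDiff_const.mul contDiff_id
  have hd : ∀ z ∈ DD, DifferentiableAt ℝ U ((r : ℂ) * z) := fun z hz =>
    (hU.differentiableOn (by simp)).differentiableAt
      (isOpen_ball.mem_nhds (scale_mem' hr hr1 hz))
  have hfd : ∀ z ∈ DD, ∀ v : ℂ, fderiv ℝ (fun z => U ((r : ℂ) * z)) z v =
      r * fderiv ℝ U ((r : ℂ) * z) v := by
    intro z hz v
    have h1 : HasFDerivAt (fun z : ℂ => (r : ℂ) * z) (r • ContinuousLinearMap.id ℝ ℂ) z := by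
      have h0 : HasFDerivAt (fun z : ℂ => r • z) (r • ContinuousLinearMap.id ℝ ℂ) z :=
        (hasFDerivAt_id z).const_smul r
      have : (fun z : ℂ => (r : ℂ) * z) = fun z : ℂ => r • z := by
        funext z
        rw [Complex.real_smul]
      rw [this]
      exact h0
    have h2 := (hd z hz).hasFDerivAt.comp z h1
    have h3 : HasFDerivAt (fun z => U ((r : ℂ) * z))
      ((fderiv ℝ U ((r : ℂ) * z)).comp (r • ContinuousLinearMap.id ℝ ℂ)) z := h2
    rw [h3.fderiv]
    simp
  have hgsq : ∀ z ∈ DD, gsq (fun z => U (r * z)) z = r ^ 2 * gsq U (r * z) := by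
    intro z hz
    rw [gsq, px, py, hfd z hz, hfd z hz, gsq, px, py]
    ring
  refine ⟨⟨?_, ?_⟩, hgsq⟩
  · exact hU.comp hmul.contDiffOn fun z hz => scale_mem' hr hr1 hz
  · have hK : IsCompact (closedBall (0 : ℂ) r) := isCompact_closedBall _ _
    have hsub : closedBall (0 : ℂ) r ⊆ DD := closedBall_subset_ball hr1
    obtain ⟨B1, hB1⟩ := hK.exists_bound_of_continuousOn (hU.continuousOn.mono hsub)
    have hc2 : ContinuousOn (gsq U) DD := by
      have hf : ContinuousOn (fderiv ℝ U) DD := hU.continuousOn_fderiv_of_isOpen isOpen_ball le_rfl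
      exact ((hf.clm_apply continuousOn_const).pow 2).add
        ((hf.clm_apply continuousOn_const).pow 2)
    obtain ⟨B2, hB2⟩ := hK.exists_bound_of_continuousOn (hc2.mono hsub)
    refine ⟨max B1 (r ^ 2 * B2), fun z hz => ⟨?_, ?_⟩⟩
    · have := hB1 _ (scale_mem hr hz)
      rw [Real.norm_eq_abs] at this
      exact this.trans (le_max_left _ _)
    · rw [hgsq z hz]
      have := hB2 _ (scale_mem hr hz)
      rw [Real.norm_eq_abs] at this
      refine le_trans ?_ (le_max_right _ _)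
      exact mul_le_mul_of_nonneg_left ((le_abs_self _).trans this) (by positivity)

lemma gsq_sub_const (g : ℂ → ℝ) (c : ℝ) (z : ℂ) : gsq (fun z => g z - c) z = gsq g z := by
  rw [gsq, gsq, px, py, px, py, fderiv_sub_const]

lemma bg_sub_const {g : ℂ → ℝ} (hg : BG g) (c : ℝ) : BG (fun z => g z - c) := by
  obtain ⟨h1, C, hC⟩ := hg
  refine ⟨h1.sub contDiffOn_const, C + |c|, fun z hz => ⟨?_, ?_⟩⟩
  · calc |g z - c| ≤ |g z| + |c| := abs_sub _ _
      _ ≤ C + |c| := by linarith only [(hC z hz).1]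
  · rw [gsq_sub_const]
    linarith only [(hC z hz).2, abs_nonneg c]

/-- the weights are continuous and bounded in the disc. -/
lemma kap_props {f F : ℂ → ℂ} (hf : Conf f F) {ρ : ℂ → ℝ} (hρ : Continuous ρ) {r : ℝ}
    (hr : 0 < r) (hr1 : r < 1) :
    ContinuousOn (kap f F ρ r) DD ∧ ∃ K : ℝ, 0 ≤ K ∧ ∀ z ∈ DD, |kap f F ρ r z| ≤ K := by
  have hfc : ContinuousOn f DD := fun z hz => (hf.deriv z hz).continuousAt.continuousWithinAt
  have hFc : ContinuousOn F DD := by
    have h1 : DifferentiableOn ℂ f DD := fun z hz =>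
      (hf.deriv z hz).differentiableAt.differentiableWithinAt
    have h2 : ContinuousOn (deriv f) DD := (h1.deriv isOpen_ball).continuousOn
    exact h2.congr fun z hz => (hf.deriv z hz).deriv.symm
  have hc : ContinuousOn (fun y => ‖F y‖ ^ 2 * ρ (f y)) DD :=
    (hFc.norm.pow 2).mul (hρ.comp_continuousOn hfc)
  have hmul : Continuous (fun z : ℂ => (r : ℂ) * z) := continuous_const.mul continuous_id
  have hcomp : ContinuousOn (fun z : ℂ => ‖F (r * z)‖ ^ 2 * ρ (f (r * z))) DD :=
    hc.comp hmul.continuousOn fun z hz => scale_mem' hr hr1 hz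
  refine ⟨?_, ?_⟩
  · have := (continuousOn_const (c := r ^ 2)).mul hcomp
    refine this.congr fun z hz => ?_
    simp only [kap, Pi.mul_apply]
    ring
  · obtain ⟨K, hK⟩ := (isCompact_closedBall (0 : ℂ) r).exists_bound_of_continuousOn
      (hc.mono (closedBall_subset_ball hr1))
    refine ⟨r ^ 2 * |K|, by (clear * - hr; positivity), fun z hz => ?_⟩
    have := hK _ (scale_mem hr hz)
    rw [Real.norm_eq_abs] at this
    rw [kap, mul_assoc, abs_mul, abs_of_nonneg (sq_nonneg r)]
    exact mul_le_mul_of_nonneg_left (this.trans (le_abs_self K)) (by positivity)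

lemma tendsto_balls {h : ℂ → ℝ} (hh : IntegrableOn h DD) :
    Tendsto (fun n : ℕ => ∫ z in ball (0 : ℂ) (1 - 1 / ((n : ℝ) + 2)), h z) atTop
      (𝓝 (∫ z in DD, h z)) := by
  have hU : (⋃ n : ℕ, ball (0 : ℂ) (1 - 1 / ((n : ℝ) + 2))) = DD := by
    ext z
    simp only [Set.mem_iUnion, mem_ball_zero_iff]
    constructor
    · rintro ⟨n, hn⟩
      have : (0 : ℝ) < 1 / ((n : ℝ) + 2) := by (clear * -; positivity)
      linarith only [hn, this]
    · intro hz
      obtain ⟨n, hn⟩ := exists_nat_one_div_lt (sub_pos.2 hz)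
      refine ⟨n, ?_⟩
      have : 1 / ((n : ℝ) + 2) ≤ 1 / ((n : ℝ) + 1) :=
        one_div_le_one_div_of_le (by positivity) (by linarith only [])
      linarith
  have hmono : Monotone (fun n : ℕ => ball (0 : ℂ) (1 - 1 / ((n : ℝ) + 2))) := by
    intro a b hab
    refine ball_subset_ball ?_
    have : 1 / ((b : ℝ) + 2) ≤ 1 / ((a : ℝ) + 2) := by
      refine one_div_le_one_div_of_le (by positivity) ?_
      have : (a : ℝ) ≤ b := by exact_mod_cast hab
      linarith only [this]
    linarith only [this]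
  have := tendsto_setIntegral_of_monotone (μ := (volume : Measure ℂ)) (f := h)
    (s := fun n : ℕ => ball (0 : ℂ) (1 - 1 / ((n : ℝ) + 2)))
    (fun _ => measurableSet_ball) hmono (by rw [hU]; exact hh)
  rwa [hU] at this

end SelA

end Vale.Agent.P071.Lim
end

section

/-!
# Lower bound (auxiliary lemma for LIM-SELa)
-/

open MeasureTheory Metric Filter Topology Real
open scoped ContDiff ENNReal ComplexConjugate

namespace Vale.Agent.P071.Lim

namespace SelA

/-- continuous and bounded in the disc. -/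
def CB (h : ℂ → ℝ) : Prop := ContinuousOn h DD ∧ ∃ C : ℝ, ∀ z ∈ DD, |h z| ≤ C

lemma CB.int {h : ℂ → ℝ} (hh : CB h) : IntegrableOn h DD := by
  obtain ⟨hc, C, hC⟩ := hh
  exact int_of_bdd hc hC

lemma CB.mul {g h : ℂ → ℝ} (hg : CB g) (hh : CB h) : CB (fun z => g z * h z) := by
  obtain ⟨hc, C, hC⟩ := hh
  obtain ⟨gc, D, hD⟩ := hg
  refine ⟨gc.mul hc, D * C, fun z hz => ?_⟩
  rw [abs_mul]
  exact mul_le_mul (hD z hz) (hC z hz) (abs_nonneg _) ((abs_nonneg _).trans (hD z hz))

lemma CB.of_bg {g : ℂ → ℝ} (hg : BG g) : CB g := by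
  obtain ⟨h1, C, hC⟩ := hg
  exact ⟨h1.continuousOn, C, fun z hz => (hC z hz).1⟩

lemma CB.kap {f F : ℂ → ℂ} (hf : Conf f F) {ρ : ℂ → ℝ} (hρ : Continuous ρ) {r : ℝ}
    (hr : 0 < r) (hr1 : r < 1) : CB (kap f F ρ r) := by
  obtain ⟨h1, K, _, hK⟩ := kap_props hf hρ hr hr1
  exact ⟨h1, K, hK⟩

lemma conf_continuousOn {f F : ℂ → ℂ} (hf : Conf f F) : ContinuousOn f DD :=
  fun z hz => (hf.deriv z hz).continuousAt.continuousWithinAt

lemma CB.comp_s {f F : ℂ → ℂ} (hf : Conf f F) {s : ℂ → ℝ} (hs : Continuous s) {B : ℝ}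
    (hB : ∀ z ∈ DD, |s (f z)| ≤ B) {r : ℝ} (hr : 0 < r) (hr1 : r < 1) :
    CB (fun z => s (f (r * z))) := by
  have hmul : Continuous (fun z : ℂ => (r : ℂ) * z) := continuous_const.mul continuous_id
  refine ⟨?_, B, fun z hz => hB _ (scale_mem' hr hr1 hz)⟩
  exact (hs.comp_continuousOn (conf_continuousOn hf)).comp hmul.continuousOn
    fun z hz => scale_mem' hr hr1 hz

lemma kap_affine {f F : ℂ → ℂ} {s : ℂ → ℝ} (ε r : ℝ) (z : ℂ) :
    kap f F (fun x => 1 + ε * s x) r z =
      kap f F (fun _ => 1) r z * (1 + ε * s (f (r * z))) := by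
  simp only [kap]
  ring

lemma kap_one_pos {f F : ℂ → ℂ} (hf : Conf f F) {r : ℝ} (hr : 0 < r) (hr1 : r < 1) {z : ℂ}
    (hz : z ∈ DD) : 0 < kap f F (fun _ => 1) r z := by
  have := norm_pos_iff.2 (hf.ne_zero _ (scale_mem' hr hr1 hz))
  rw [kap]
  positivity

lemma int_kap_one_pos {f F : ℂ → ℂ} (hf : Conf f F) {r : ℝ} (hr : 0 < r) (hr1 : r < 1) :
    0 < ∫ z in DD, kap f F (fun _ => 1) r z := by
  have hint : IntegrableOn (kap f F (fun _ => 1) r) DD := (CB.kap hf continuous_const hr hr1).int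
  rw [setIntegral_pos_iff_support_of_nonneg_ae _ hint]
  · have h1 : Function.support (kap f F (fun _ => 1) r) ∩ DD = DD := by
      ext z
      simp only [Set.mem_inter_iff, Function.mem_support, and_iff_right_iff_imp]
      exact fun hz => (kap_one_pos hf hr hr1 hz).ne'
    rw [h1]
    exact measure_ball_pos _ _ one_pos
  · exact (ae_restrict_iff' measurableSet_ball).2
      (Eventually.of_forall fun z hz => (kap_one_pos hf hr hr1 hz).le)

lemma integral_lin3 {g1 g2 g3 : ℂ → ℝ} (i1 : IntegrableOn g1 DD) (i2 : IntegrableOn g2 DD)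
    (i3 : IntegrableOn g3 DD) (a b c : ℝ) :
    ∫ z in DD, (a * g1 z + b * g2 z + c * g3 z) =
      a * (∫ z in DD, g1 z) + b * (∫ z in DD, g2 z) + c * ∫ z in DD, g3 z := by
  have h1 := integral_add (μ := volume.restrict DD) (f := fun z => a * g1 z + b * g2 z)
    (g := fun z => c * g3 z) ((i1.const_mul a).add (i2.const_mul b)) (i3.const_mul c)
  have h2 := integral_add (μ := volume.restrict DD) (f := fun z => a * g1 z)
    (g := fun z => b * g2 z) (i1.const_mul a) (i2.const_mul b)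
  rw [h1, h2, integral_const_mul, integral_const_mul, integral_const_mul]

lemma lower {f F : ℂ → ℂ} (hf : Conf f F) {s : ℂ → ℝ} (hs : Continuous s) {B : ℝ}
    (hB1 : 1 ≤ B) (hB : ∀ z ∈ DD, |s (f z)| ≤ B) {ε : ℝ} (hε : 0 < ε) (hεB : ε * B ≤ 1 / 2)
    {r : ℝ} (hr : 0 < r) (hr1 : r < 1) {L μ' : ℝ} (hL : 0 ≤ L)
    (hmin : ∀ φ : ℂ → ℝ, BG φ → ∫ z in DD, kap f F (fun _ => 1) r z * φ z = 0 →
      L * ∫ z in DD, kap f F (fun _ => 1) r z * φ z ^ 2 ≤ ∫ z in DD, gsq φ z)
    {w : ℂ → ℝ} (hw : DiscMin (kap f F (fun x => 1 + ε * s x) r) μ' w) :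
    L * (1 - ε * (∫ z in DD, kap f F (fun _ => 1) r z * s (f (r * z)) * w z ^ 2) -
      2 * ε ^ 2 * B ^ 2) ≤ μ' := by
  set κ : ℂ → ℝ := kap f F (fun _ => 1) r with hκ
  set t : ℂ → ℝ := fun z => s (f (r * z)) with ht
  have cκ : CB κ := CB.kap hf continuous_const hr hr1
  have ct : CB t := CB.comp_s hf hs hB hr hr1
  have cw : CB w := CB.of_bg hw.bg
  have hκpos : ∀ z ∈ DD, 0 < κ z := fun z hz => kap_one_pos hf hr hr1 hz
  have htB : ∀ z ∈ DD, |t z| ≤ B := fun z hz => hB _ (scale_mem' hr hr1 hz)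
  set A := ∫ z in DD, κ z with hA
  have hApos : 0 < A := int_kap_one_pos hf hr hr1
  set b1 := ∫ z in DD, κ z * w z with hb1
  set b2 := ∫ z in DD, κ z * w z ^ 2 with hb2
  set T := ∫ z in DD, κ z * (t z * w z) with hT
  set Sw := ∫ z in DD, κ z * t z * w z ^ 2 with hSw
  have i0 : IntegrableOn κ DD := cκ.int
  have i1 : IntegrableOn (fun z => κ z * w z) DD := (cκ.mul cw).int
  have i2 : IntegrableOn (fun z => κ z * w z ^ 2) DD := by
    have := (cκ.mul (cw.mul cw)).int
    simpa only [pow_two] using this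
  have i3 : IntegrableOn (fun z => κ z * (t z * w z)) DD := (cκ.mul (ct.mul cw)).int
  have i4 : IntegrableOn (fun z => κ z * t z * w z ^ 2) DD := by
    have := ((cκ.mul ct).mul (cw.mul cw)).int
    simpa only [pow_two] using this
  have i5 : IntegrableOn (fun z => κ z * (t z * w z) ^ 2) DD := by
    have := (cκ.mul ((ct.mul cw).mul (ct.mul cw))).int
    simpa only [pow_two] using this
  -- mean
  have e1 : b1 = -(ε * T) := by
    have h := hw.mean
    have h' : ∫ z in DD, (κ z * w z + ε * (κ z * (t z * w z))) = 0 := by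
      rw [← h]
      refine setIntegral_congr_fun measurableSet_ball fun z _ => ?_
      simp only [kap_affine, ← hκ, ht]
      ring
    rw [integral_add i1 (i3.const_mul ε), integral_const_mul] at h'
    linarith only [h']
  have e2 : b2 = 1 - ε * Sw := by
    have h := hw.norm
    have h' : ∫ z in DD, (κ z * w z ^ 2 + ε * (κ z * t z * w z ^ 2)) = 1 := by
      rw [← h]
      refine setIntegral_congr_fun measurableSet_ball fun z _ => ?_
      simp only [kap_affine, ← hκ, ht]
      ring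
    rw [integral_add i2 (i4.const_mul ε), integral_const_mul] at h'
    linarith only [h']
  have hb2n : 0 ≤ b2 := setIntegral_nonneg measurableSet_ball fun z hz =>
    mul_nonneg (hκpos z hz).le (sq_nonneg _)
  have e3 : b2 ≤ 2 := by
    have h : (1 / 2 : ℝ) * b2 ≤
        ∫ z in DD, kap f F (fun x => 1 + ε * s x) r z * w z ^ 2 := by
      rw [← integral_const_mul]
      refine setIntegral_mono_on (i2.const_mul _) ?_ measurableSet_ball fun z hz => ?_
      · have : IntegrableOn (fun z => κ z * w z ^ 2 + ε * (κ z * t z * w z ^ 2)) DD :=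
          i2.add (i4.const_mul ε)
        refine this.congr_fun (fun z _ => ?_) measurableSet_ball
        simp only [kap_affine, ← hκ, ht]
        ring
      · rw [kap_affine]
        have h1 : 1 / 2 ≤ 1 + ε * t z := by
          have := abs_le.1 (htB z hz)
          nlinarith only [hεB, hε, this]
        have h2 : 0 ≤ κ z * w z ^ 2 := mul_nonneg (hκpos z hz).le (sq_nonneg _)
        calc 1 / 2 * (κ z * w z ^ 2) ≤ (1 + ε * t z) * (κ z * w z ^ 2) :=
              mul_le_mul_of_nonneg_right h1 h2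
          _ = κ z * (1 + ε * s (f (r * z))) * w z ^ 2 := by
            simp only [ht]
            ring
    rw [hw.norm] at h
    linarith only [h]
  -- Cauchy-Schwarz
  have e4 : T ^ 2 ≤ A * (B ^ 2 * b2) := by
    set T2 := ∫ z in DD, κ z * (t z * w z) ^ 2 with hT2
    have h1 : 0 ≤ ∫ z in DD, κ z * (t z * w z - T / A) ^ 2 :=
      setIntegral_nonneg measurableSet_ball fun z hz =>
        mul_nonneg (hκpos z hz).le (sq_nonneg _)
    have h2 : ∫ z in DD, κ z * (t z * w z - T / A) ^ 2 = T2 - T ^ 2 / A := by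
      have h3 : ∫ z in DD, κ z * (t z * w z - T / A) ^ 2 =
          ∫ z in DD, (1 * (κ z * (t z * w z) ^ 2) + (-2 * (T / A)) * (κ z * (t z * w z)) +
            (T / A) ^ 2 * κ z) := by
        refine setIntegral_congr_fun measurableSet_ball fun z _ => ?_
        ring
      rw [h3, integral_lin3 i5 i3 i0, ← hT, ← hA, ← hT2]
      field_simp
      ring
    have h4 : T2 ≤ B ^ 2 * b2 := by
      rw [← integral_const_mul]
      refine setIntegral_mono_on i5 (i2.const_mul _) measurableSet_ball fun z hz => ?_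
      have h5 : t z ^ 2 ≤ B ^ 2 := by
        rw [← sq_abs]
        exact pow_le_pow_left₀ (abs_nonneg _) (htB z hz) 2
      have h6 : 0 ≤ κ z * w z ^ 2 := mul_nonneg (hκpos z hz).le (sq_nonneg _)
      calc κ z * (t z * w z) ^ 2 = t z ^ 2 * (κ z * w z ^ 2) := by ring
        _ ≤ B ^ 2 * (κ z * w z ^ 2) := mul_le_mul_of_nonneg_right h5 h6
    have h7 : T ^ 2 / A ≤ B ^ 2 * b2 := by linarith only [h1, h2, h4]
    rw [div_le_iff₀ hApos] at h7
    linarith only [h7]
  -- test function
  have h8 := hmin (fun z => w z - b1 / A) (bg_sub_const hw.bg _) (by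
    have h9 : ∫ z in DD, κ z * (w z - b1 / A) =
        ∫ z in DD, (1 * (κ z * w z) + (-(b1 / A)) * κ z + 0 * κ z) := by
      refine setIntegral_congr_fun measurableSet_ball fun z _ => ?_
      ring
    rw [h9, integral_lin3 i1 i0 i0, ← hb1, ← hA]
    field_simp
    ring)
  have h10 : ∫ z in DD, κ z * (w z - b1 / A) ^ 2 = b2 - b1 ^ 2 / A := by
    have h3 : ∫ z in DD, κ z * (w z - b1 / A) ^ 2 =
        ∫ z in DD, (1 * (κ z * w z ^ 2) + (-2 * (b1 / A)) * (κ z * w z) +
          (b1 / A) ^ 2 * κ z) := by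
      refine setIntegral_congr_fun measurableSet_ball fun z _ => ?_
      ring
    rw [h3, integral_lin3 i2 i1 i0, ← hb1, ← hA, ← hb2]
    field_simp
    ring
  have h11 : ∫ z in DD, gsq (fun z => w z - b1 / A) z = μ' := by
    rw [← hw.energy]
    refine setIntegral_congr_fun measurableSet_ball fun z _ => ?_
    exact gsq_sub_const _ _ _
  rw [h10, h11] at h8
  have h12 : b1 ^ 2 / A ≤ 2 * ε ^ 2 * B ^ 2 := by
    rw [div_le_iff₀ hApos, e1]
    have h13 : T ^ 2 ≤ A * (B ^ 2 * 2) :=
      e4.trans (by (clear * - e3 hB1 hApos; gcongr))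
    nlinarith only [h13]
  calc L * (1 - ε * Sw - 2 * ε ^ 2 * B ^ 2) ≤ L * (b2 - b1 ^ 2 / A) := by
        refine mul_le_mul_of_nonneg_left ?_ hL
        linarith only [e2, h12]
    _ ≤ μ' := h8

end SelA

end Vale.Agent.P071.Lim
end

section

/-!
# The given eigenfunction is smooth inside (task LIM-REGb)
-/

open MeasureTheory Metric Filter Topology Real
open scoped ContDiff ENNReal

namespace Vale.Agent.P071.Lim

namespace RegBaux

/-- A function continuous on `U` times a continuous function supported inside `U`. -/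
theorem continuous_mul {U : Set ℂ} (hU : IsOpen U) {a φ : ℂ → ℝ} (ha : ContinuousOn a U)
    (hφ : Continuous φ) (hs : tsupport φ ⊆ U) : Continuous (fun z => a z * φ z) := by
  rw [continuous_iff_continuousAt]
  intro z
  by_cases hz : z ∈ U
  · exact (ha.continuousAt (hU.mem_nhds hz)).mul hφ.continuousAt
  · have hz' : z ∉ tsupport φ := fun h => hz (hs h)
    have h0 : (fun z => a z * φ z) =ᶠ[𝓝 z] fun _ => 0 := by
      filter_upwards [notMem_tsupport_iff_eventuallyEq.1 hz'] with w hw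
      simp [hw]
    exact continuousAt_const.congr h0.symm

theorem integrable_mul {U : Set ℂ} (hU : IsOpen U) {a φ : ℂ → ℝ} (ha : ContinuousOn a U)
    (hφ : Continuous φ) (hc : HasCompactSupport φ) (hs : tsupport φ ⊆ U) :
    Integrable (fun z => a z * φ z) :=
  (continuous_mul hU ha hφ hs).integrable_of_hasCompactSupport hc.mul_left

theorem setIntegral_eq {U : Set ℂ} {a φ : ℂ → ℝ} (hs : tsupport φ ⊆ U) :
    ∫ z in U, a z * φ z = ∫ z, a z * φ z := by
  apply setIntegral_eq_integral_of_forall_compl_eq_zero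
  intro z hz
  have : φ z = 0 := by
    by_contra h
    exact hz (hs (subset_tsupport φ h))
  simp [this]

theorem tsupport_fderiv_apply (φ : ℂ → ℝ) (e : ℂ) :
    tsupport (fun z => fderiv ℝ φ z e) ⊆ tsupport φ := by
  refine (closure_mono ?_).trans (tsupport_fderiv_subset ℝ (f := φ))
  intro z hz
  simp only [Function.mem_support] at hz ⊢
  intro h
  exact hz (by rw [h]; rfl)

theorem continuousOn_fderiv_apply {U : Set ℂ} (hU : IsOpen U) {v : ℂ → ℝ}
    (hv : ContDiffOn ℝ 1 v U) (e : ℂ) : ContinuousOn (fun z => fderiv ℝ v z e) U :=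
  (hv.continuousOn_fderiv_of_isOpen hU le_rfl).clm_apply continuousOn_const

/-- Integration by parts for `C¹` functions on an open set. -/
theorem parts {U : Set ℂ} (hU : IsOpen U) {v : ℂ → ℝ} (hv : ContDiffOn ℝ 1 v U) (e : ℂ)
    {φ : ℂ → ℝ} (hφ : ContDiff ℝ ∞ φ) (hc : HasCompactSupport φ) (hs : tsupport φ ⊆ U) :
    ∫ z in U, v z * fderiv ℝ φ z e = -∫ z in U, fderiv ℝ v z e * φ z := by
  have hφ1 : Continuous (fun z => fderiv ℝ φ z e) :=
    (hφ.continuous_fderiv (by simp)).clm_apply continuous_const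
  have hs' : tsupport (fun z => fderiv ℝ φ z e) ⊆ U := (tsupport_fderiv_apply φ e).trans hs
  have hc' : HasCompactSupport (fun z => fderiv ℝ φ z e) :=
    hc.of_isClosed_subset isClosed_closure (tsupport_fderiv_apply φ e)
  rw [setIntegral_eq hs', setIntegral_eq hs]
  refine integral_mul_fderiv_eq_neg_fderiv_mul_of_integrable
    (integrable_mul hU (continuousOn_fderiv_apply hU hv e) hφ.continuous hc hs)
    (integrable_mul hU hv.continuousOn hφ1 hc' hs')
    (integrable_mul hU hv.continuousOn hφ.continuous hc hs) ?_ ?_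
  · intro x hx
    exact (hv.contDiffAt (hU.mem_nhds (hs hx))).differentiableAt (by simp)
  · intro x _
    exact (hφ.differentiable (by simp)) x

theorem contDiff_fderiv_apply {φ : ℂ → ℝ} (hφ : ContDiff ℝ ∞ φ) (e : ℂ) :
    ContDiff ℝ ∞ (fun z => fderiv ℝ φ z e) :=
  (hφ.fderiv_right (m := ∞) (by simp)).clm_apply contDiff_const

/-- A weak derivative which is locally integrable agrees with the classical one. -/
theorem ae_eq {U : Set ℂ} (hU : IsOpen U) {v g : ℂ → ℝ} (hv : ContDiffOn ℝ 1 v U) (e : ℂ)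
    (hg : MemLp g 2 (volume.restrict U))
    (hw : ∀ φ : ℂ → ℝ, ContDiff ℝ ∞ φ → HasCompactSupport φ → tsupport φ ⊆ U →
      ∫ z in U, v z * fderiv ℝ φ z e = -∫ z in U, g z * φ z) :
    ∀ᵐ z ∂(volume.restrict U), g z = fderiv ℝ v z e := by
  have hcont := continuousOn_fderiv_apply hU hv e
  have hgl : LocallyIntegrableOn g U volume := by
    rw [locallyIntegrableOn_iff hU.isLocallyClosed]
    intro k hk hkc
    have h1 : MemLp g 2 (volume.restrict k) := hg.mono_measure (Measure.restrict_mono hk le_rfl)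
    have : IsFiniteMeasure (volume.restrict k) := ⟨by
      rw [Measure.restrict_apply_univ]; exact hkc.measure_lt_top⟩
    exact h1.integrable (by norm_num)
  have hdl : LocallyIntegrableOn (fun z => fderiv ℝ v z e) U volume :=
    hcont.locallyIntegrableOn hU.measurableSet
  have key := hU.ae_eq_zero_of_integral_contDiff_smul_eq_zero (μ := volume)
    (f := fun z => g z - fderiv ℝ v z e) (hgl.sub hdl) ?_
  · rw [ae_restrict_iff' hU.measurableSet]
    filter_upwards [key] with z hz hzU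
    have := hz hzU
    linarith only [this]
  · intro φ hφ hc hs
    have e1 := hw φ hφ hc hs
    have e2 := parts hU hv e hφ hc hs
    have e3 : ∫ z in U, g z * φ z = ∫ z in U, fderiv ℝ v z e * φ z := by linarith
    rw [setIntegral_eq hs, setIntegral_eq hs] at e3
    have i1 : Integrable (fun z => g z * φ z) := by
      have h0 : IntegrableOn (fun z => g z * φ z) (tsupport φ) := by
        have hk : IntegrableOn g (tsupport φ) := by
          have := (locallyIntegrableOn_iff hU.isLocallyClosed).1 hgl (tsupport φ) hs hc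
          exact this
        exact hk.mul_continuousOn hφ.continuous.continuousOn hc
      refine (integrableOn_iff_integrable_of_support_subset ?_).1 h0
      intro z hz
      apply subset_tsupport φ
      intro h
      exact hz (by simp [h])
    have i2 : Integrable (fun z => fderiv ℝ v z e * φ z) :=
      integrable_mul hU hcont hφ.continuous hc hs
    have : ∀ z, φ z • (g z - fderiv ℝ v z e) = g z * φ z - fderiv ℝ v z e * φ z := by
      intro z; simp only [smul_eq_mul]; ring
    simp_rw [this]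
    rw [integral_sub i1 i2, e3, sub_self]

end RegBaux

open RegBaux

/-- `C¹` functions with finite energy are in `H¹`. -/
theorem isH1_of_c1 {U : Set ℂ} (hU : IsOpen U) {v : ℂ → ℝ} (hv : ContDiffOn ℝ 1 v U)
    (h2 : IntegrableOn (fun z => v z ^ 2) U) (hg : IntegrableOn (gsq v) U) :
    IsH1 U v (px v) (py v) := by
  have cx : ContinuousOn (px v) U := continuousOn_fderiv_apply hU hv 1
  have cy : ContinuousOn (py v) U := continuousOn_fderiv_apply hU hv Complex.I
  have mx : AEStronglyMeasurable (px v) (volume.restrict U) :=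
    cx.aestronglyMeasurable hU.measurableSet
  have my : AEStronglyMeasurable (py v) (volume.restrict U) :=
    cy.aestronglyMeasurable hU.measurableSet
  refine ⟨(memLp_two_iff_integrable_sq (hv.continuousOn.aestronglyMeasurable
    hU.measurableSet)).2 h2, (memLp_two_iff_integrable_sq mx).2 ?_,
    (memLp_two_iff_integrable_sq my).2 ?_, ?_, ?_⟩
  · refine Integrable.mono' hg (mx.pow 2) (Eventually.of_forall fun z => ?_)
    rw [Real.norm_of_nonneg (sq_nonneg _)]
    exact le_add_of_nonneg_right (sq_nonneg _)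
  · refine Integrable.mono' hg (my.pow 2) (Eventually.of_forall fun z => ?_)
    rw [Real.norm_of_nonneg (sq_nonneg _)]
    exact le_add_of_nonneg_left (sq_nonneg _)
  · intro φ hφ hc hs
    exact parts hU hv 1 hφ hc hs
  · intro φ hφ hc hs
    exact parts hU hv Complex.I hφ hc hs

/-- The given eigenfunction is smooth inside. -/
theorem reg_H1 {U : Set ℂ} (hU : IsOpen U) {u gx gy : ℂ → ℝ} {μ : ℝ} (hu : IsH1 U u gx gy)
    (hc : ContinuousOn u U)
    (hweak : ∀ φ : ℂ → ℝ, ContDiff ℝ ∞ φ → HasCompactSupport φ → tsupport φ ⊆ U →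
      ∫ z in U, (gx z * px φ z + gy z * py φ z) = μ * ∫ z in U, u z * φ z) :
    ContDiffOn ℝ 2 u U ∧ (∀ z ∈ U, -lap u z = μ * u z) ∧
      (∀ᵐ z ∂(volume.restrict U), gx z = px u z ∧ gy z = py u z) := by
  -- integrability of products with test functions
  have memφ : ∀ φ : ℂ → ℝ, Continuous φ → HasCompactSupport φ →
      MemLp φ 2 (volume.restrict U) := fun φ h1 h2 =>
    (h1.memLp_of_hasCompactSupport h2).restrict U
  have hint : ∀ g φ : ℂ → ℝ, MemLp g 2 (volume.restrict U) → Continuous φ →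
      HasCompactSupport φ → IntegrableOn (fun z => g z * φ z) U := fun g φ hg h1 h2 =>
    hg.integrable_mul (memφ φ h1 h2)
  have hpx : ∀ φ : ℂ → ℝ, ContDiff ℝ ∞ φ → HasCompactSupport φ → tsupport φ ⊆ U →
      ∀ e : ℂ, ContDiff ℝ ∞ (fun z => fderiv ℝ φ z e) ∧
        HasCompactSupport (fun z => fderiv ℝ φ z e) ∧
        tsupport (fun z => fderiv ℝ φ z e) ⊆ U := fun φ h1 h2 h3 e =>
    ⟨contDiff_fderiv_apply h1 e,
      h2.of_isClosed_subset isClosed_closure (tsupport_fderiv_apply φ e),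
      (tsupport_fderiv_apply φ e).trans h3⟩
  have hC1 : ContDiffOn ℝ 1 u U := by
    refine c1_of_weak hU hc (h := fun z => μ * u z) (continuousOn_const.mul hc) ?_
    intro φ hφ hcs hs
    obtain ⟨a1, a2, a3⟩ := hpx φ hφ hcs hs 1
    obtain ⟨b1, b2, b3⟩ := hpx φ hφ hcs hs Complex.I
    have ex := hu.weak_x (px φ) a1 a2 a3
    have ey := hu.weak_y (py φ) b1 b2 b3
    obtain ⟨a1', a2', -⟩ := hpx _ a1 a2 a3 1
    obtain ⟨b1', b2', -⟩ := hpx _ b1 b2 b3 Complex.I
    have i1 : IntegrableOn (fun z => u z * px (px φ) z) U :=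
      hint u _ hu.v_mem a1'.continuous a2'
    have i2 : IntegrableOn (fun z => u z * py (py φ) z) U :=
      hint u _ hu.v_mem b1'.continuous b2'
    have i3 : IntegrableOn (fun z => gx z * px φ z) U := hint gx _ hu.gx_mem a1.continuous a2
    have i4 : IntegrableOn (fun z => gy z * py φ z) U := hint gy _ hu.gy_mem b1.continuous b2
    have e1 : ∫ z in U, u z * lap φ z =
        (∫ z in U, u z * px (px φ) z) + ∫ z in U, u z * py (py φ) z := by
      rw [← integral_add i1 i2]
      refine integral_congr_ae (Eventually.of_forall fun z => ?_)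
      simp only [lap]; ring
    have e2 := hweak φ hφ hcs hs
    rw [integral_add i3 i4] at e2
    have e3 : ∫ z in U, μ * u z * φ z = μ * ∫ z in U, u z * φ z := by
      rw [← integral_const_mul]
      refine integral_congr_ae (Eventually.of_forall fun z => ?_)
      simp only []; ring
    rw [e1, ex, ey, e3, ← e2]
    ring
  have ax : ∀ᵐ z ∂(volume.restrict U), gx z = px u z :=
    ae_eq hU hC1 1 hu.gx_mem hu.weak_x
  have ay : ∀ᵐ z ∂(volume.restrict U), gy z = py u z :=
    ae_eq hU hC1 Complex.I hu.gy_mem hu.weak_y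
  have hfin := c2_of_weak hU hC1 (h := fun z => μ * u z) (contDiffOn_const.mul hC1) (by
    intro φ hφ hcs hs
    have e2 := hweak φ hφ hcs hs
    have e3 : ∫ z in U, μ * u z * φ z = μ * ∫ z in U, u z * φ z := by
      rw [← integral_const_mul]
      refine integral_congr_ae (Eventually.of_forall fun z => ?_)
      simp only []; ring
    rw [e3, ← e2]
    refine integral_congr_ae ?_
    filter_upwards [ax, ay] with z hx hy
    rw [hx, hy])
  exact ⟨hfin.1, hfin.2, by filter_upwards [ax, ay] with z hx hy using ⟨hx, hy⟩⟩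

end Vale.Agent.P071.Lim
end
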