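import Vale.Agent.P071.MathlibUsed
import Vale.Agent.P071.Bdl.B7
import Vale.Agent.P071.Bdl.B1
import Vale.Agent.P071.Bdl.B5
attribute [-instance] ProperSMul.toContinuousSMul IsTopologicalTorsor.toContinuousSMul IdemSemiring.toCanonicallyOrderedAdd IdemSemiring.toMulLeftMono IdemSemiring.toMulRightMono AddQuantale.instAddLeftMono AddQuantale.instAddRightMono Quantale.instMulLeftMono Quantale.instMulRightMono FiniteDimensional.rclike_to_real IsScalarTower.complexToReal FiniteDimensional.complexToReal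

set_option linter.all false

section

/-!
# The Riemann mapping theorem

`riemann_mapping`: every simply connected open `U ⊂ ℂ`, `U ≠ ℂ`, is the image of the unit disc
under an injective holomorphic function with nonvanishing derivative.
-/

open Function Filter Metric Set Topology Complex
open scoped Pointwise ComplexConjugate

namespace Vale.Agent.P071.RMT

/-! ### Steps 1 and 2 (following the partial file in Mathlib, Y. Kudryashov) -/

theorem step1 {U : Set ℂ} (hUo : IsOpen U)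
    (hUc : IsSimplyConnected U) (hU : U ≠ univ) :
    ∃ f : ℂ → ℂ, Injective f ∧ ¬Dense (f '' U) ∧ ∀ z ∈ U, deriv f z ≠ 0 := by
  wlog hU₀ : 0 ∉ U
  · rw [ne_univ_iff_exists_notMem] at hU
    rcases hU with ⟨a, ha⟩
    specialize this (hUo.vadd (-a)) (by simpa only [isSimplyConnected_vadd_set_iff, ne_eq]) (by simp [hU])
      (by simpa only [mem_vadd_set_iff_neg_vadd_mem, neg_neg, vadd_eq_add, add_zero, ne_eq])
    rcases this with ⟨f, hf_inj, hf_dense, hdf⟩
    refine ⟨f ∘ (-a + ·), hf_inj.comp (add_right_injective (-a)), ?_, fun z hz ↦ ?_⟩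
    · simpa only [← image_vadd, Set.image_image] using! hf_dense
    · simpa only [comp_def, deriv_comp_const_add, ne_eq] using hdf (-a + z) (mapsTo_image _ _ hz)
  rcases exists_continuousOn_pow_eq hUc hUo continuousOn_id (by rwa [image_id]) two_ne_zero
    with ⟨f, hfc, hf_inv⟩
  replace hf_inv : LeftInverse (· ^ 2) f := hf_inv
  have hf₀ : ∀ z ∈ U, f z ≠ 0 := by
    intro z hz hfz
    simpa only [hfz, ne_eq, OfNat.ofNat_ne_zero, not_false_eq_true, zero_pow,     (ne_of_mem_of_not_mem hz hU₀).symm] using hf_inv z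
  have hdf : ∀ z ∈ U, HasStrictDerivAt f (2 * f z)⁻¹ z := by
    intro z hz
    apply HasStrictDerivAt.of_local_left_inverse
    · exact hfc.continuousAt <| hUo.mem_nhds hz
    · simpa only [Nat.cast_ofNat, Nat.add_one_sub_one, pow_one] using hasStrictDerivAt_pow 2 (f z)
    · simpa only [ne_eq, mul_eq_zero, OfNat.ofNat_ne_zero, false_or] using hf₀ z hz
    · exact .of_forall hf_inv
  refine ⟨f, hf_inv.injective, ?_, fun z hz ↦ ?_⟩
  · simp only [Dense, not_forall, mem_closure_iff_frequently, not_frequently]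
    rcases hUc.nonempty with ⟨x, hx⟩
    use -f x
    have : f '' U ∈ 𝓝 (f x) := by
      rw [← (hdf x hx).map_nhds_eq (by simpa only [mul_inv_rev, ne_eq, mul_eq_zero, inv_eq_zero, OfNat.ofNat_ne_zero, or_false] using hf₀ x hx)]
      exact Filter.image_mem_map <| hUo.mem_nhds hx
    rw [nhds_neg, eventually_neg]
    filter_upwards [this]
    rintro _ ⟨a, ha, rfl⟩ ⟨b, hb, hab⟩
    obtain rfl : a = b := by
      rw [← hf_inv b, hab]
      simp only [even_two, Even.neg_pow, hf_inv a]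
    refine hf₀ a ha ?_
    linear_combination hab / 2
  · simpa only [(hdf z hz).hasDerivAt.deriv, mul_inv_rev, ne_eq, mul_eq_zero, inv_eq_zero, OfNat.ofNat_ne_zero,     or_false] using hf₀ z hz

theorem step2 {U : Set ℂ} (hUo : IsOpen U)
    (hUc : IsSimplyConnected U) (hU : U ≠ univ) :
    ∃ f : ℂ → ℂ, MapsTo f U (ball 0 1) ∧ InjOn f U ∧ ∀ z ∈ U, deriv f z ≠ 0 := by
  rcases step1 hUo hUc hU with ⟨f, hf_inj, hfd, hdf⟩
  obtain ⟨x, ε, hε₀, hε⟩ : ∃ (x : ℂ) (ε : ℝ), 0 < ε ∧ ∀ a ∈ U, ε < dist (f a) x := by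
    simpa [Dense, mem_closure_iff_nhds_basis Metric.nhds_basis_closedBall] using hfd
  have hfx : ∀ z ∈ U, f z ≠ x := fun z hz ↦ by simpa using hε₀.trans (hε z hz)
  use fun z ↦ ε / (f z - x)
  refine ⟨?mapsTo, ?injOn, ?deriv⟩
  case mapsTo =>
    intro z hz
    rw [mem_ball_zero_iff, norm_div, norm_real, Real.norm_of_nonneg hε₀.le, div_lt_one₀]
    · simpa [dist_eq_norm] using hε z hz
    · simpa only [norm_pos_iff, ne_eq, sub_eq_zero] using hfx z hz
  case injOn =>
    intro z hz w hw heq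
    simpa only [div_eq_mul_inv, mul_eq_mul_left_iff, inv_inj, sub_left_inj, hf_inj.eq_iff, ofReal_eq_zero,     hε₀.ne', or_false] using heq
  case deriv =>
    intro z hz
    have hdz : DifferentiableAt ℂ f z := differentiableAt_of_deriv_ne_zero (hdf z hz)
    rw [(hasDerivAt_const _ _).fun_div (hdz.hasDerivAt.sub_const _) _ |>.deriv] <;>
      simp [*, ne_of_gt, sub_eq_zero]

/-! ### Moebius maps of the disc -/

/-- the Moebius map `(z - w) / (1 - conj w * z)` -/
noncomputable def mob (w z : ℂ) : ℂ := (z - w) / (1 - conj w * z)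

theorem mob_den {w z : ℂ} (hw : ‖w‖ < 1) (hz : ‖z‖ < 1) : 1 - conj w * z ≠ 0 := by
  intro h
  have h1 : conj w * z = 1 := by linear_combination -h
  have h2 : ‖conj w * z‖ = 1 := by rw [h1]; simp
  rw [norm_mul, RCLike.norm_conj] at h2
  have := mul_lt_one_of_nonneg_of_lt_one_left (norm_nonneg w) hw hz.le
  linarith only [h2, this]

theorem mob_norm {w z : ℂ} (hw : ‖w‖ < 1) (hz : ‖z‖ < 1) : ‖mob w z‖ < 1 := by
  unfold mob
  have h0 := mob_den hw hz
  rw [norm_div, div_lt_one (norm_pos_iff.2 h0)]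
  have h1 : ‖z - w‖ ^ 2 < ‖1 - conj w * z‖ ^ 2 := by
    have e1 : ‖1 - conj w * z‖ ^ 2 - ‖z - w‖ ^ 2 = (1 - ‖w‖ ^ 2) * (1 - ‖z‖ ^ 2) := by
      rw [← Complex.normSq_eq_norm_sq, ← Complex.normSq_eq_norm_sq, ← Complex.normSq_eq_norm_sq,
        ← Complex.normSq_eq_norm_sq]
      simp only [Complex.normSq_apply, Complex.sub_re, Complex.sub_im, Complex.mul_re,
        Complex.mul_im, Complex.one_re, Complex.one_im, Complex.conj_re, Complex.conj_im]
      ring
    have h2 : 0 < (1 - ‖w‖ ^ 2) * (1 - ‖z‖ ^ 2) := by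
      apply mul_pos
      · nlinarith only [hw, norm_nonneg w]
      · nlinarith only [hz, norm_nonneg z]
    linarith only [e1, h2]
  exact lt_of_pow_lt_pow_left₀ 2 (norm_nonneg _) h1

theorem mob_hasDerivAt {w z : ℂ} (hw : ‖w‖ < 1) (hz : ‖z‖ < 1) :
    HasDerivAt (mob w) ((1 - ‖w‖ ^ 2) / (1 - conj w * z) ^ 2) z := by
  have h0 := mob_den hw hz
  have h1 : HasDerivAt (fun z : ℂ => z - w) 1 z := (hasDerivAt_id z).sub_const w
  have h2 : HasDerivAt (fun z : ℂ => 1 - conj w * z) (-(conj w)) z := by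
    simpa only [id_eq, mul_one] using ((hasDerivAt_id z).const_mul (conj w)).const_sub 1
  have h3 := h1.fun_div h2 h0
  refine h3.congr_deriv ?_
  congr 1
  have : (‖w‖ ^ 2 : ℂ) = conj w * w := by
    rw [Complex.conj_mul']
  rw [this]
  ring

theorem mob_deriv_ne {w z : ℂ} (hw : ‖w‖ < 1) (hz : ‖z‖ < 1) :
    (1 - (‖w‖ : ℂ) ^ 2) / (1 - conj w * z) ^ 2 ≠ 0 := by
  apply div_ne_zero
  · have : (1 - (‖w‖ : ℂ) ^ 2) = ((1 - ‖w‖ ^ 2 : ℝ) : ℂ) := by push_cast; rfl
    rw [this]
    have : 0 < 1 - ‖w‖ ^ 2 := by nlinarith only [hw, norm_nonneg w]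
    exact_mod_cast this.ne'
  · exact pow_ne_zero 2 (mob_den hw hz)

theorem mob_inj {w z z' : ℂ} (hw : ‖w‖ < 1) (hz : ‖z‖ < 1) (hz' : ‖z'‖ < 1)
    (h : mob w z = mob w z') : z = z' := by
  unfold mob at h
  rw [div_eq_div_iff (mob_den hw hz) (mob_den hw hz')] at h
  have h1 : (z - z') * (1 - conj w * w) = 0 := by linear_combination h
  have h2 : (1 - conj w * w) ≠ 0 := mob_den hw hw
  have h3 := (mul_eq_zero.1 h1).resolve_right h2
  exact sub_eq_zero.1 h3

theorem mob_self (w : ℂ) : mob w w = 0 := by simp only [mob, sub_self, zero_div]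

theorem mob_zero (w : ℂ) : mob w 0 = -w := by simp only [mob, zero_sub, mul_zero, sub_zero, div_one]

theorem mob_eq_zero {w z : ℂ} (hw : ‖w‖ < 1) (hz : ‖z‖ < 1) (h : mob w z = 0) : z = w := by
  apply mob_inj hw hz hw
  rw [h, mob_self]

/-! ### Compactness and Hurwitz -/

theorem lip_bound {U : Set ℂ} {f : ℂ → ℂ} (hd : DifferentiableOn ℂ f U)
    (hb : ∀ z ∈ U, ‖f z‖ ≤ 1) {z₀ : ℂ} {r : ℝ} (hr : 0 < r) (hball : ball z₀ (2 * r) ⊆ U)
    {y z : ℂ} (hy : y ∈ ball z₀ (r / 2)) (hz : z ∈ ball z₀ (r / 2)) :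
    dist (f z) (f y) ≤ 2 / r * dist z y := by
  have hyU : ball y r ⊆ U := by
    refine (ball_subset_ball' ?_).trans hball
    rw [mem_ball] at hy
    linarith only [hr, hy]
  refine Complex.dist_le_div_mul_dist_of_mapsTo_ball (hd.mono hyU) ?_ ?_
  · intro x hx
    rw [mem_closedBall, dist_eq_norm]
    have h1 := hb x (hyU hx)
    have h2 := hb y (hyU (mem_ball_self hr))
    have := norm_sub_le (f x) (f y)
    linarith only [h1, h2, this]
  · rw [mem_ball] at *
    have := dist_triangle_right z y z₀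
    linarith

theorem exists_limit {U : Set ℂ} (hU : IsOpen U) (𝒰 : Ultrafilter ℕ) (f : ℕ → ℂ → ℂ)
    (hd : ∀ n, DifferentiableOn ℂ (f n) U) (hb : ∀ n, ∀ z ∈ U, ‖f n z‖ ≤ 1) :
    ∃ g : ℂ → ℂ, TendstoLocallyUniformlyOn f g (𝒰 : Filter ℕ) U := by
  have hlim : ∀ z : ℂ, ∃ w : ℂ, z ∈ U → Tendsto (fun n => f n z) 𝒰 (𝓝 w) := by
    intro z
    by_cases hz : z ∈ U
    · obtain ⟨w, -, hw⟩ := (isCompact_closedBall (0 : ℂ) 1).ultrafilter_le_nhds
        (𝒰.map (fun n => f n z)) (by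
          rw [le_principal_iff, Ultrafilter.coe_map, Filter.mem_map]
          exact Filter.Eventually.of_forall (p := fun n => f n z ∈ closedBall (0 : ℂ) 1)
            (fun n => by simpa only [mem_closedBall, dist_zero_right] using hb n z hz))
      exact ⟨w, fun _ => hw⟩
    · exact ⟨0, fun h => absurd h hz⟩
  choose g hg using hlim
  refine ⟨g, ?_⟩
  rw [Metric.tendstoLocallyUniformlyOn_iff]
  intro ε hε z₀ hz₀
  obtain ⟨r0, hr0, hball0⟩ := Metric.isOpen_iff.1 hU z₀ hz₀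
  set r := r0 / 2 with hrdef
  have hr : 0 < r := by (clear * - hr0; positivity)
  have hball : ball z₀ (2 * r) ⊆ U := by
    have : 2 * r = r0 := by rw [hrdef]; ring
    rw [this]; exact hball0
  have hhalf : ball z₀ (r / 2) ⊆ U := (ball_subset_ball (by linarith only [hr])).trans hball
  have hlipg : ∀ y ∈ ball z₀ (r / 2), ∀ z ∈ ball z₀ (r / 2),
      dist (g z) (g y) ≤ 2 / r * dist z y := by
    intro y hy z hz
    refine le_of_tendsto ((hg z (hhalf hz)).dist (hg y (hhalf hy))) ?_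
    exact Filter.Eventually.of_forall fun n => lip_bound (hd n) (hb n) hr hball hy hz
  refine ⟨closedBall z₀ (r / 4), mem_nhdsWithin_of_mem_nhds (closedBall_mem_nhds _ (by positivity)),
    ?_⟩
  have hsub : closedBall z₀ (r / 4) ⊆ ball z₀ (r / 2) := closedBall_subset_ball (by linarith only [hr])
  obtain ⟨t, ht, htf, htc⟩ := (isCompact_closedBall z₀ (r / 4)).finite_cover_balls
    (show 0 < ε * r / 8 by (clear * - hε hr0; positivity))
  have hev : ∀ᶠ n in (𝒰 : Filter ℕ), ∀ x ∈ t, dist (f n x) (g x) < ε / 4 := by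
    rw [Filter.eventually_all_finite htf]
    intro x hx
    have hxU : x ∈ U := hhalf (hsub (ht hx))
    exact (hg x hxU).eventually (ball_mem_nhds _ (by positivity))
  filter_upwards [hev] with n hn z hz
  obtain ⟨x, hx, hzx⟩ := mem_iUnion₂.1 (htc hz)
  have h1 := lip_bound (hd n) (hb n) hr hball (hsub (ht hx)) (hsub hz)
  have h2 := hlipg x (hsub (ht hx)) z (hsub hz)
  have h3 := hn x hx
  rw [mem_ball] at hzx
  have h4 : 2 / r * dist z x ≤ ε / 4 := by
    calc 2 / r * dist z x ≤ 2 / r * (ε * r / 8) := by (clear * - hzx hr0; gcongr)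
      _ = ε / 4 := by field_simp; ring
  calc dist (g z) (f n z) ≤ dist (g z) (g x) + dist (g x) (f n x) + dist (f n x) (f n z) :=
        dist_triangle4 _ _ _ _
    _ < ε := by
        rw [dist_comm (g x), dist_comm (f n x) (f n z)]
        linarith only [hε, h1, h2, h3, h4]

theorem hurwitz {U : Set ℂ} (hU : IsOpen U) {ι : Type*} {l : Filter ι} [l.NeBot]
    {F : ι → ℂ → ℂ} {g : ℂ → ℂ} (hF : TendstoLocallyUniformlyOn F g l U)
    (hd : ∀ᶠ n in l, DifferentiableOn ℂ (F n) U) {b : ℂ} (hb : b ∈ U)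
    (h0 : ∀ᶠ n in l, ∀ z ∈ U, F n z ≠ 0) (hg : ¬ ∀ᶠ z in 𝓝 b, g z = 0) : g b ≠ 0 := by
  intro hgb
  have hgd : DifferentiableOn ℂ g U := hF.differentiableOn hd hU
  have hga : AnalyticAt ℂ g b := (hgd.analyticOnNhd hU) b hb
  have hne : ∀ᶠ z in 𝓝[≠] b, g z ≠ 0 :=
    (hga.eventually_eq_zero_or_eventually_ne_zero).resolve_left hg
  rw [eventually_nhdsWithin_iff] at hne
  obtain ⟨ρ0, hρ0, hρ⟩ := Metric.eventually_nhds_iff_ball.1 (hne.and (hU.mem_nhds hb))
  set ρ := ρ0 / 2 with hρdef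
  have hρpos : 0 < ρ := by (clear * - hρ0; positivity)
  have hcl : closedBall b ρ ⊆ ball b ρ0 := closedBall_subset_ball (by linarith)
  have hclU : closedBall b ρ ⊆ U := fun z hz => (hρ z (hcl hz)).2
  have hsphere : ∀ z ∈ sphere b ρ, g z ≠ 0 := by
    intro z hz
    refine (hρ z (hcl (sphere_subset_closedBall hz))).1 ?_
    intro h
    rw [mem_singleton_iff] at h
    rw [h, mem_sphere, dist_self] at hz
    linarith only [hρpos, hz]
  have hcomp : IsCompact (sphere b ρ) := isCompact_sphere _ _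
  have hnon : (sphere b ρ).Nonempty := NormedSpace.sphere_nonempty.2 hρpos.le
  have hcont : ContinuousOn (fun z => ‖g z‖) (sphere b ρ) :=
    (hgd.continuousOn.mono (sphere_subset_closedBall.trans hclU)).norm
  obtain ⟨z1, hz1, hmin⟩ := hcomp.exists_isMinOn hnon hcont
  set m := ‖g z1‖ with hm
  have hmpos : 0 < m := norm_pos_iff.2 (hsphere z1 hz1)
  have hunif : ∀ᶠ n in l, ∀ z ∈ closedBall b ρ, dist (g z) (F n z) < m / 2 := by
    have h1 := (tendstoLocallyUniformlyOn_iff_forall_isCompact hU).1 hF (closedBall b ρ) hclU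
      (isCompact_closedBall b ρ)
    exact Metric.tendstoUniformlyOn_iff.1 h1 (m / 2) (by (clear * - hmpos; positivity))
  obtain ⟨n, hn1, hn2, hn3⟩ := (hunif.and (hd.and h0)).exists
  have hinv : DiffContOnCl ℂ (fun z => (F n z)⁻¹) (ball b ρ) := by
    refine DifferentiableOn.diffContOnCl ?_
    rw [closure_ball _ hρpos.ne']
    exact (hn2.mono hclU).inv fun z hz => hn3 z (hclU hz)
  have hbd := Complex.norm_le_of_forall_mem_frontier_norm_le isBounded_ball hinv (C := 2 / m) (by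
    intro z hz
    rw [frontier_ball _ hρpos.ne'] at hz
    have h1 := hn1 z (sphere_subset_closedBall hz)
    have h2 : m ≤ ‖g z‖ := hmin hz
    have h3 : ‖g z‖ ≤ ‖F n z‖ + dist (g z) (F n z) := by
      rw [dist_eq_norm]
      have := norm_add_le (F n z) (g z - F n z)
      simpa only [ge_iff_le, add_sub_cancel] using this
    have h4 : m / 2 ≤ ‖F n z‖ := by linarith only [h1, h2, h3]
    rw [norm_inv, inv_eq_one_div, div_le_div_iff₀ (by linarith only [hmpos, h1, h2, h3]) hmpos]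
    linarith only [h1, h2, h3]) (subset_closure (mem_ball_self hρpos))
  have h5 := hn1 b (mem_closedBall_self hρpos.le)
  rw [hgb, dist_zero_left] at h5
  rw [norm_inv, inv_eq_one_div, div_le_div_iff₀
    (norm_pos_iff.2 (hn3 b hb)) hmpos] at hbd
  linarith only [hbd, h5]

/-- a continuous square root of a differentiable function is differentiable -/
theorem sqrt_hasDerivAt {q h : ℂ → ℂ} {z h' : ℂ} (hq : ContinuousAt q z) (hz : q z ≠ 0)
    (hsq : ∀ x, q x ^ 2 = h x) (hh : HasDerivAt h h' z) :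
    HasDerivAt q (h' / (2 * q z)) z := by
  rw [hasDerivAt_iff_tendsto_slope] at hh ⊢
  have h1 : Tendsto (fun y => q y + q z) (𝓝[≠] z) (𝓝 (2 * q z)) := by
    have : Tendsto (fun y => q y + q z) (𝓝 z) (𝓝 (q z + q z)) := hq.tendsto.add_const _
    rw [← two_mul] at this
    exact this.mono_left nhdsWithin_le_nhds
  have h2 : (2 * q z) ≠ 0 := mul_ne_zero two_ne_zero hz
  have h3 := hh.div h1 h2
  refine h3.congr' ?_
  filter_upwards [h1.eventually_ne h2, self_mem_nhdsWithin] with y hy hyz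
  have hyz' : y - z ≠ 0 := sub_ne_zero.2 hyz
  simp only [Pi.div_apply, slope_def_field]
  rw [← hsq y, ← hsq z]
  field_simp
  ring

/-- the family of competitors -/
def Fam (U : Set ℂ) (z₀ : ℂ) (f : ℂ → ℂ) : Prop :=
  DifferentiableOn ℂ f U ∧ MapsTo f U (ball 0 1) ∧ InjOn f U ∧ (∀ z ∈ U, deriv f z ≠ 0) ∧
    f z₀ = 0

theorem fam_mob {U : Set ℂ} (hU : IsOpen U) {z₀ : ℂ} (hz₀ : z₀ ∈ U) {f : ℂ → ℂ}
    (h1 : DifferentiableOn ℂ f U) (h2 : MapsTo f U (ball 0 1)) (h3 : InjOn f U)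
    (h4 : ∀ z ∈ U, deriv f z ≠ 0) : Fam U z₀ (fun z => mob (f z₀) (f z)) ∧
      deriv (fun z => mob (f z₀) (f z)) z₀ = deriv f z₀ / (1 - ‖f z₀‖ ^ 2) := by
  have hb : ∀ z ∈ U, ‖f z‖ < 1 := fun z hz => by simpa only [mem_ball, dist_zero_right] using h2 hz
  have hder : ∀ z ∈ U, HasDerivAt (fun z => mob (f z₀) (f z))
      ((1 - ‖f z₀‖ ^ 2) / (1 - conj (f z₀) * f z) ^ 2 * deriv f z) z := by
    intro z hz
    have e1 := (h1.differentiableAt (hU.mem_nhds hz)).hasDerivAt
    exact (mob_hasDerivAt (hb z₀ hz₀) (hb z hz)).comp z e1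
  refine ⟨⟨fun z hz => (hder z hz).differentiableAt.differentiableWithinAt, ?_, ?_, ?_, ?_⟩, ?_⟩
  · intro z hz
    simpa only [mem_ball, dist_zero_right] using mob_norm (hb z₀ hz₀) (hb z hz)
  · intro z hz z' hz' h
    exact h3 hz hz' (mob_inj (hb z₀ hz₀) (hb z hz) (hb z' hz') h)
  · intro z hz
    rw [(hder z hz).deriv]
    exact mul_ne_zero (mob_deriv_ne (hb z₀ hz₀) (hb z hz)) (h4 z hz)
  · exact mob_self _
  · rw [(hder z₀ hz₀).deriv]
    have e1 : (1 : ℂ) - conj (f z₀) * f z₀ = 1 - ‖f z₀‖ ^ 2 := by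
      rw [Complex.conj_mul']
    have e2 : (1 : ℂ) - ‖f z₀‖ ^ 2 ≠ 0 := by
      rw [← e1]; exact mob_den (hb z₀ hz₀) (hb z₀ hz₀)
    rw [e1]
    field_simp

/-- if a competitor is not onto the disc, there is a better one -/
theorem fam_improve {U : Set ℂ} (hU : IsOpen U) (hUc : IsSimplyConnected U) {z₀ : ℂ}
    (hz₀ : z₀ ∈ U) {f : ℂ → ℂ} (hf : Fam U z₀ f) {w : ℂ} (hw : ‖w‖ < 1) (hwf : w ∉ f '' U) :
    ∃ F, Fam U z₀ F ∧ ‖deriv f z₀‖ < ‖deriv F z₀‖ := by
  obtain ⟨h1, h2, h3, h4, h5⟩ := hf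
  have hb : ∀ z ∈ U, ‖f z‖ < 1 := fun z hz => by simpa only [mem_ball, dist_zero_right] using h2 hz
  set h : ℂ → ℂ := fun z => mob w (f z) with hh
  have hder : ∀ z ∈ U, HasDerivAt h
      ((1 - ‖w‖ ^ 2) / (1 - conj w * f z) ^ 2 * deriv f z) z := by
    intro z hz
    have e1 := (h1.differentiableAt (hU.mem_nhds hz)).hasDerivAt
    exact (mob_hasDerivAt hw (hb z hz)).comp z e1
  have hne : ∀ z ∈ U, h z ≠ 0 := by
    intro z hz h0
    exact hwf ⟨z, hz, mob_eq_zero hw (hb z hz) h0⟩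
  have hcont : ContinuousOn h U := fun z hz => (hder z hz).continuousAt.continuousWithinAt
  obtain ⟨q, hqc, hq⟩ := exists_continuousOn_pow_eq hUc hU hcont (by
    rintro ⟨z, hz, h0⟩
    exact hne z hz h0) two_ne_zero
  have hq0 : ∀ z ∈ U, q z ≠ 0 := by
    intro z hz h0
    apply hne z hz
    rw [← hq z, h0]; simp
  have hqder : ∀ z ∈ U, HasDerivAt q
      (((1 - ‖w‖ ^ 2) / (1 - conj w * f z) ^ 2 * deriv f z) / (2 * q z)) z := by
    intro z hz
    exact sqrt_hasDerivAt (hqc.continuousAt (hU.mem_nhds hz)) (hq0 z hz) hq (hder z hz)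
  have hqb : ∀ z ∈ U, ‖q z‖ < 1 := by
    intro z hz
    have e1 : ‖q z‖ ^ 2 < 1 := by
      rw [← norm_pow, hq z]; exact mob_norm hw (hb z hz)
    by_contra hcon
    push Not at hcon
    nlinarith only [e1, hcon]
  have hqd : DifferentiableOn ℂ q U := fun z hz =>
    (hqder z hz).differentiableAt.differentiableWithinAt
  have hqinj : InjOn q U := by
    intro z hz z' hz' he
    have e1 : h z = h z' := by rw [← hq z, ← hq z', he]
    exact h3 hz hz' (mob_inj hw (hb z hz) (hb z' hz') e1)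
  have hqne : ∀ z ∈ U, deriv q z ≠ 0 := by
    intro z hz
    rw [(hqder z hz).deriv]
    exact div_ne_zero (mul_ne_zero (mob_deriv_ne hw (hb z hz)) (h4 z hz))
      (mul_ne_zero two_ne_zero (hq0 z hz))
  obtain ⟨hF, hFd⟩ := fam_mob hU hz₀ hqd (fun z hz => by simpa only [mem_ball, dist_zero_right] using hqb z hz) hqinj hqne
  refine ⟨_, hF, ?_⟩
  rw [hFd, (hqder z₀ hz₀).deriv, h5]
  set t := ‖q z₀‖ with ht
  have hwt : ‖w‖ = t ^ 2 := by
    rw [ht, ← norm_pow, hq z₀, hh]
    simp only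
    rw [h5, mob_zero, norm_neg]
  have ht0 : 0 < t := norm_pos_iff.2 (hq0 z₀ hz₀)
  have ht1 : t < 1 := hqb z₀ hz₀
  have hd0 : 0 < ‖deriv f z₀‖ := norm_pos_iff.2 (h4 z₀ hz₀)
  have e1 : ‖(1 - (‖w‖ : ℂ) ^ 2) / (1 - conj w * 0) ^ 2 * deriv f z₀ / (2 * q z₀) /
      (1 - (t : ℂ) ^ 2)‖ = (1 - t ^ 4) * ‖deriv f z₀‖ / (2 * t) / (1 - t ^ 2) := by
    have a1 : (1 : ℂ) - (‖w‖ : ℂ) ^ 2 = ((1 - t ^ 4 : ℝ) : ℂ) := by
      rw [hwt]; push_cast; ring
    have a2 : (1 : ℂ) - (t : ℂ) ^ 2 = ((1 - t ^ 2 : ℝ) : ℂ) := by push_cast; ring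
    rw [a1, a2]
    simp only [norm_div, norm_mul, Complex.norm_real, Real.norm_eq_abs, mul_zero, sub_zero,
      one_pow, norm_one, div_one, Complex.norm_ofNat]
    rw [abs_of_nonneg (by nlinarith only [pow_le_one₀ ht0.le ht1.le (n := 4)] : 0 ≤ 1 - t ^ 4),
      abs_of_nonneg (by linarith : 0 ≤ 1 - t ^ 2)]
  rw [e1]
  have h6 : 0 < 1 - t ^ 2 := by nlinarith only [hw, hwt]
  rw [div_div, lt_div_iff₀ (by (clear * - ht0 h6; positivity))]
  have h7 : ‖deriv f z₀‖ * (2 * t * (1 - t ^ 2)) < ‖deriv f z₀‖ * (1 - t ^ 4) := by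
    apply mul_lt_mul_of_pos_left _ hd0
    have : 1 - t ^ 4 = (1 - t ^ 2) * (1 + t ^ 2) := by ring
    rw [this]
    have h8 : 2 * t < 1 + t ^ 2 := by nlinarith only [ht1]
    (clear * - hwt hw h8 ht0; nlinarith)
  linarith only [h7]

theorem exists_extremal {U : Set ℂ} (hU : IsOpen U) (hUc : IsSimplyConnected U)
    (hne : U ≠ univ) {z₀ : ℂ} (hz₀ : z₀ ∈ U) :
    ∃ g, Fam U z₀ g ∧ ∀ f, Fam U z₀ f → ‖deriv f z₀‖ ≤ ‖deriv g z₀‖ := by
  -- nonempty
  obtain ⟨f0, hf01, hf02, hf03⟩ := step2 hU hUc hne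
  have hf0d : DifferentiableOn ℂ f0 U := fun z hz =>
    (differentiableAt_of_deriv_ne_zero (hf03 z hz)).differentiableWithinAt
  obtain ⟨hF0, -⟩ := fam_mob hU hz₀ hf0d hf01 hf02 hf03
  set S : Set ℝ := {x | ∃ f, Fam U z₀ f ∧ x = ‖deriv f z₀‖} with hS
  have hSne : S.Nonempty := ⟨_, _, hF0, rfl⟩
  obtain ⟨R, hR, hRU⟩ := Metric.isOpen_iff.1 hU z₀ hz₀
  have hSb : BddAbove S := by
    refine ⟨1 / R, ?_⟩
    rintro _ ⟨f, ⟨h1, h2, -, -, h5⟩, rfl⟩
    apply Complex.norm_deriv_le_div_of_mapsTo_ball (h1.mono hRU) _ hR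
    intro z hz
    rw [h5]
    exact ball_subset_closedBall (h2 (hRU hz))
  have hseq : ∀ n : ℕ, ∃ f, Fam U z₀ f ∧ sSup S - 1 / ((n : ℝ) + 1) < ‖deriv f z₀‖ := by
    intro n
    obtain ⟨x, ⟨f, hf, rfl⟩, hx⟩ := exists_lt_of_lt_csSup hSne
      (show sSup S - 1 / ((n : ℝ) + 1) < sSup S by
        have : (0 : ℝ) < 1 / ((n : ℝ) + 1) := by (clear * -; positivity)
        linarith only [this])
    exact ⟨f, hf, hx⟩
  choose f hf hfx using hseq
  let 𝒰 : Ultrafilter ℕ := hyperfilter ℕ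
  have h𝒰 : (𝒰 : Filter ℕ) ≤ atTop := Nat.hyperfilter_le_atTop
  obtain ⟨g, hg⟩ := exists_limit hU 𝒰 f (fun n => (hf n).1)
    (fun n z hz => by
      have := (hf n).2.1 hz
      rw [mem_ball_zero_iff] at this
      exact this.le)
  have hdall : ∀ᶠ n in (𝒰 : Filter ℕ), DifferentiableOn ℂ (f n) U :=
    Filter.Eventually.of_forall fun n => (hf n).1
  have hgd : DifferentiableOn ℂ g U := hg.differentiableOn hdall hU
  have hgder := hg.deriv hdall hU
  have hpt : ∀ z ∈ U, Tendsto (fun n => f n z) 𝒰 (𝓝 (g z)) := fun z hz =>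
    hg.tendsto_at hz
  have hptd : ∀ z ∈ U, Tendsto (fun n => deriv (f n) z) 𝒰 (𝓝 (deriv g z)) := fun z hz =>
    hgder.tendsto_at hz
  have hMle : sSup S ≤ ‖deriv g z₀‖ := by
    have h1 : Tendsto (fun n : ℕ => sSup S - 1 / ((n : ℝ) + 1)) 𝒰 (𝓝 (sSup S - 0)) :=
      (tendsto_one_div_add_atTop_nhds_zero_nat.mono_left h𝒰).const_sub _
    rw [sub_zero] at h1
    exact le_of_tendsto_of_tendsto' h1 (hptd z₀ hz₀).norm (fun n => (hfx n).le)
  have hMpos : 0 < sSup S := by
    refine lt_of_lt_of_le (norm_pos_iff.2 (hF0.2.2.2.1 z₀ hz₀)) (le_csSup hSb ⟨_, hF0, rfl⟩)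
  have hgz₀ : deriv g z₀ ≠ 0 := norm_pos_iff.1 (lt_of_lt_of_le hMpos hMle)
  have hconn : IsPreconnected U := hUc.isPathConnected.isConnected.isPreconnected
  -- derivative does not vanish
  have hderne : ∀ z ∈ U, deriv g z ≠ 0 := by
    intro b hb
    have hdd : ∀ᶠ n in (𝒰 : Filter ℕ), DifferentiableOn ℂ ((deriv ∘ f) n) U :=
      Filter.Eventually.of_forall fun n => (hf n).1.deriv hU
    refine hurwitz hU hgder hdd hb (Filter.Eventually.of_forall fun n => (hf n).2.2.2.1) ?_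
    intro h0
    have han : AnalyticOnNhd ℂ (deriv g) U := (hgd.deriv hU).analyticOnNhd hU
    exact hgz₀ (han.eqOn_zero_of_preconnected_of_eventuallyEq_zero hconn hb h0 hz₀)
  have hgle : ∀ z ∈ U, ‖g z‖ ≤ 1 := by
    intro z hz
    refine le_of_tendsto (hpt z hz).norm (Filter.Eventually.of_forall fun n => ?_)
    have := (hf n).2.1 hz
    rw [mem_ball_zero_iff] at this
    exact this.le
  have hglt : MapsTo g U (ball 0 1) := by
    intro z hz
    rw [mem_ball_zero_iff]
    refine lt_of_le_of_ne (hgle z hz) ?_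
    intro h1
    have hmax : IsMaxOn (norm ∘ g) U z := by
      intro y hy
      simp only [Function.comp]
      show ‖g y‖ ≤ ‖g z‖
      rw [h1]; exact hgle y hy
    have hconst := Complex.eqOn_of_isPreconnected_of_isMaxOn_norm hconn hU hgd hz hmax
    have h2 : deriv g z₀ = 0 := by
      have : g =ᶠ[𝓝 z₀] fun _ => g z := by
        filter_upwards [hU.mem_nhds hz₀] with y hy
        exact hconst hy
      rw [this.deriv_eq]; simp
    exact hgz₀ h2
  have hinj : InjOn g U := by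
    intro a ha b hb hab
    by_contra hne
    have hU' : IsOpen (U \ {a}) := hU.sdiff isClosed_singleton
    have hbU' : b ∈ U \ {a} := ⟨hb, fun h => hne (by rw [mem_singleton_iff] at h; exact h.symm)⟩
    have hconv : TendstoLocallyUniformlyOn (fun n z => f n z - f n a) (fun z => g z - g a)
        (𝒰 : Filter ℕ) (U \ {a}) := by
      have h1 : TendstoLocallyUniformlyOn f g (𝒰 : Filter ℕ) (U \ {a}) :=
        hg.mono sdiff_subset
      rw [Metric.tendstoLocallyUniformlyOn_iff] at h1 ⊢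
      intro ε hε x hx
      obtain ⟨t, ht, h2⟩ := h1 (ε / 2) (by (clear * - hε; positivity)) x hx
      refine ⟨t, ht, ?_⟩
      have h3 := (hpt a ha).eventually (ball_mem_nhds _ (show 0 < ε / 2 by (clear * - hε; positivity)))
      filter_upwards [h2, h3] with n hn hn2 y hy
      have h4 := hn y hy
      rw [dist_eq_norm] at hn2 h4 ⊢
      have h5 : g y - g a - (f n y - f n a) = (g y - f n y) + (f n a - g a) := by ring
      rw [h5]
      have := norm_add_le (g y - f n y) (f n a - g a)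
      linarith only [hn2, h4, this]
    have h0 : ∀ᶠ n in (𝒰 : Filter ℕ), ∀ z ∈ U \ {a}, f n z - f n a ≠ 0 := by
      refine Filter.Eventually.of_forall fun n z hz h => ?_
      have := (hf n).2.2.1 hz.1 ha (sub_eq_zero.1 h)
      exact hz.2 (by rw [mem_singleton_iff]; exact this)
    have hdd : ∀ᶠ n in (𝒰 : Filter ℕ), DifferentiableOn ℂ (fun z => f n z - f n a) (U \ {a}) :=
      Filter.Eventually.of_forall fun n => ((hf n).1.mono sdiff_subset).sub_const _
    refine hurwitz hU' hconv hdd hbU' h0 ?_ (by rw [hab]; ring)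
    intro h1
    have h2 : deriv (fun z => g z - g a) b = 0 := by
      have : (fun z => g z - g a) =ᶠ[𝓝 b] fun _ => 0 := h1
      rw [this.deriv_eq]; simp
    rw [deriv_sub_const] at h2
    exact hderne b hb h2
  have hg0 : g z₀ = 0 := by
    refine tendsto_nhds_unique (hpt z₀ hz₀) ?_
    refine tendsto_const_nhds.congr (fun n => ?_)
    exact ((hf n).2.2.2.2).symm
  refine ⟨g, ⟨hgd, hglt, hinj, hderne, hg0⟩, fun f hf => ?_⟩
  exact (le_csSup hSb ⟨f, hf, rfl⟩).trans hMle

/-- Riemann mapping theorem, map onto the disc -/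
theorem exists_onto_disc {U : Set ℂ} (hU : IsOpen U) (hUc : IsSimplyConnected U)
    (hne : U ≠ univ) {z₀ : ℂ} (hz₀ : z₀ ∈ U) :
    ∃ g : ℂ → ℂ, DifferentiableOn ℂ g U ∧ InjOn g U ∧ g '' U = ball 0 1 ∧
      (∀ z ∈ U, deriv g z ≠ 0) ∧ g z₀ = 0 := by
  obtain ⟨g, hg, hmax⟩ := exists_extremal hU hUc hne hz₀
  refine ⟨g, hg.1, hg.2.2.1, ?_, hg.2.2.2.1, hg.2.2.2.2⟩
  apply Subset.antisymm
  · exact hg.2.1.image_subset
  · intro w hw
    by_contra hwf
    rw [mem_ball_zero_iff] at hw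
    obtain ⟨F, hF, hlt⟩ := fam_improve hU hUc hz₀ hg hw hwf
    exact absurd (hmax F hF) (not_le.2 hlt)

/-- **Riemann mapping theorem**: parametrization of `U` by the unit disc. -/
theorem riemann_mapping {U : Set ℂ} (hU : IsOpen U) (hUc : IsSimplyConnected U)
    (hne : U ≠ univ) :
    ∃ f : ℂ → ℂ, DifferentiableOn ℂ f (ball 0 1) ∧ InjOn f (ball 0 1) ∧
      f '' (ball 0 1) = U ∧ ∀ z ∈ ball (0 : ℂ) 1, deriv f z ≠ 0 := by
  obtain ⟨z₀, hz₀⟩ := hUc.nonempty
  obtain ⟨g, h1, h2, h3, h4, h5⟩ := exists_onto_disc hU hUc hne hz₀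
  have hsd : ∀ z ∈ U, HasStrictDerivAt g (deriv g z) z := fun z hz =>
    (h1.analyticOnNhd hU z hz).hasStrictDerivAt
  set f : ℂ → ℂ := invFunOn g U with hf
  have hfU : ∀ w ∈ ball (0 : ℂ) 1, f w ∈ U ∧ g (f w) = w := by
    intro w hw
    rw [← h3] at hw
    exact ⟨invFunOn_mem hw, invFunOn_eq hw⟩
  have hcont : ∀ w ∈ ball (0 : ℂ) 1, ContinuousAt f w := by
    intro w hw
    obtain ⟨hz, hgz⟩ := hfU w hw
    rw [ContinuousAt, Filter.tendsto_def]
    intro s hs
    have h6 : g '' (s ∩ U) ∈ 𝓝 (g (f w)) := by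
      rw [← (hsd _ hz).map_nhds_eq (h4 _ hz)]
      exact image_mem_map (inter_mem hs (hU.mem_nhds hz))
    rw [hgz] at h6
    filter_upwards [h6] with y hy
    obtain ⟨x, ⟨hxs, hxU⟩, rfl⟩ := hy
    have hy' : g x ∈ ball (0 : ℂ) 1 := by rw [← h3]; exact mem_image_of_mem _ hxU
    have := h2 (hfU _ hy').1 hxU (hfU _ hy').2
    show f (g x) ∈ s
    rw [this]; exact hxs
  have hder : ∀ w ∈ ball (0 : ℂ) 1, HasStrictDerivAt f (deriv g (f w))⁻¹ w := by
    intro w hw
    obtain ⟨hz, hgz⟩ := hfU w hw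
    refine HasStrictDerivAt.of_local_left_inverse (hcont w hw) (hsd _ hz) (h4 _ hz) ?_
    filter_upwards [isOpen_ball.mem_nhds hw] with y hy
    exact (hfU y hy).2
  refine ⟨f, fun w hw => (hder w hw).hasDerivAt.differentiableAt.differentiableWithinAt, ?_, ?_, ?_⟩
  · intro w hw w' hw' h
    rw [← (hfU w hw).2, ← (hfU w' hw').2, h]
  · apply Subset.antisymm
    · rintro _ ⟨w, hw, rfl⟩
      exact (hfU w hw).1
    · intro z hz
      have hy' : g z ∈ ball (0 : ℂ) 1 := by rw [← h3]; exact mem_image_of_mem _ hz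
      exact ⟨g z, hy', h2 (hfU _ hy').1 hz (hfU _ hy').2⟩
  · intro w hw
    rw [(hder w hw).hasDerivAt.deriv]
    exact inv_ne_zero (h4 _ (hfU w hw).1)

end Vale.Agent.P071.RMT
end

section

/-!
# REG-5: the maximum principle on a box
-/

open MeasureTheory Metric Filter Topology Real
open scoped ContDiff ENNReal ComplexConjugate

namespace Vale.Agent.P071.Reg

open Vale.Agent.P071.Lim

theorem pd_comp {F : ℝ → ℝ} {F' : ℝ} {t : ℂ → ℝ} {z e : ℂ} (hF : HasDerivAt F F' (t z))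
    (ht : DifferentiableAt ℝ t z) :
    fderiv ℝ (fun y => F (t y)) z e = F' * fderiv ℝ t z e := by
  have h := (hF.comp_hasFDerivAt z ht.hasFDerivAt).fderiv
  have h2 : (fun y => F (t y)) = F ∘ t := rfl
  rw [h2, h]
  simp

/-- the barrier -/
noncomputable def bar (b K η : ℝ) (z : ℂ) : ℝ := b * K * (η - z.im) + b / 2 * (η ^ 2 - z.im ^ 2)

theorem bar_contDiff (b K η : ℝ) : ContDiff ℝ ∞ (bar b K η) := by
  unfold bar
  have : ContDiff ℝ ∞ fun z : ℂ => z.im := Complex.imCLM.contDiff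
  fun_prop

theorem hasFDerivAt_bar (b K η : ℝ) (z : ℂ) :
    HasFDerivAt (bar b K η) ((-(b * K + b * z.im)) • Complex.imCLM) z := by
  have h1 : HasFDerivAt (fun z : ℂ => z.im) Complex.imCLM z := Complex.imCLM.hasFDerivAt
  have h2 := ((h1.const_sub η).const_mul (b * K)).add
    (((h1.pow 2).const_sub (η ^ 2)).const_mul (b / 2))
  refine (h2.congr_fderiv ?_)
  ext v
  simp only [smul_neg, Nat.add_one_sub_one, pow_one, nsmul_eq_mul, Nat.cast_ofNat, add_apply, neg_apply, smul_apply, Complex.imCLM_apply, smul_eq_mul, neg_add_rev]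
  ring

theorem px_bar (b K η : ℝ) (z : ℂ) : px (bar b K η) z = 0 := by
  unfold px; rw [(hasFDerivAt_bar b K η z).fderiv]; simp only [neg_add_rev, smul_apply, Complex.imCLM_apply, Complex.one_im, smul_eq_mul, mul_zero]

theorem py_bar (b K η : ℝ) (z : ℂ) : py (bar b K η) z = -(b * K + b * z.im) := by
  unfold py; rw [(hasFDerivAt_bar b K η z).fderiv]; simp

/-- **Maximum principle** on a box: `w < M` on the inner boundary implies
`w ≤ M + 2 μ ℓ² |M|` inside. -/
theorem box_max {Ω : Set ℂ} (ho : IsOpen Ω) {μ : ℝ} (hμ : 0 ≤ μ) {w : ℂ → ℝ} (h : WN Ω μ w)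
    {g : ℝ → ℝ} (hg : Continuous g) {ρ η K ℓ : ℝ} (hη0 : 0 ≤ η) (hK0 : 0 ≤ K)
    (hK : ∀ x : ℝ, |x| ≤ ρ → -K ≤ g x) (hℓ : η + K ≤ ℓ) (hsmall : 4 * μ * ℓ ^ 2 < 1)
    (hQ : Box g ρ η ⊆ Ω) (hU : Ucurve g ρ η ⊆ Ω)
    (hcl : ∀ z ∈ Ω, z ∈ closure (Box g ρ η) → z ∈ Box g ρ η ∨ z ∈ Ucurve g ρ η)
    {M : ℝ} (hM : ∀ z ∈ Ucurve g ρ η, w z < M) :
    ∀ z ∈ Box g ρ η, w z ≤ M + 2 * μ * ℓ ^ 2 * |M| := by
  set Q := Box g ρ η with hQd
  have hQo : IsOpen Q := isOpen_Box hg ρ η
  set b : ℝ := 2 * μ * |M| with hb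
  have hb0 : 0 ≤ b := by (clear * - hμ; positivity)
  have hℓ0 : 0 ≤ ℓ := by linarith only [hη0, hK0, hℓ]
  set s : ℂ → ℝ := bar b K η with hs
  set t : ℂ → ℝ := fun z => w z - M - s z with ht
  -- range of `s`
  have him : ∀ z ∈ Q, -K < z.im ∧ z.im < η := by
    intro z hz
    exact ⟨(hK _ hz.1.le).trans_lt hz.2.1, hz.2.2⟩
  have hs0 : ∀ z : ℂ, -K ≤ z.im → z.im ≤ η → 0 ≤ s z := by
    intro z h1 h2
    simp only [hs, bar]
    have e : b * K * (η - z.im) + b / 2 * (η ^ 2 - z.im ^ 2) =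
        b * (η - z.im) * (K + (η + z.im) / 2) := by ring
    rw [e]
    have : 0 ≤ K + (η + z.im) / 2 := by linarith only [hη0, hK0, h1]
    have : 0 ≤ η - z.im := by linarith only [h2]
    (clear Ω ho w h g hg ρ ℓ hK hℓ hsmall hU hM Q hQ hcl hQd hQo hb hb0 hℓ0 s hs t ht him e this; positivity)
  have hs1 : ∀ z : ℂ, -K ≤ z.im → z.im ≤ η → s z ≤ b * ℓ ^ 2 := by
    intro z h1 h2
    simp only [hs, bar]
    have e : b * K * (η - z.im) + b / 2 * (η ^ 2 - z.im ^ 2) =
        b * ((η - z.im) * (K + (η + z.im) / 2)) := by ring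
    rw [e]
    apply mul_le_mul_of_nonneg_left _ hb0
    have a1 : 0 ≤ K + (η + z.im) / 2 := by linarith only [hη0, hK0, h1]
    have a2 : 0 ≤ η - z.im := by linarith only [h2]
    have a3 : η - z.im ≤ ℓ := by linarith only [hℓ, h1]
    have a4 : K + (η + z.im) / 2 ≤ ℓ := by linarith only [hℓ, h2]
    rw [pow_two]
    exact mul_le_mul a3 a4 a1 hℓ0
  have hbM : b * ℓ ^ 2 ≤ |M| := by
    have : b * ℓ ^ 2 = (2 * μ * ℓ ^ 2) * |M| := by rw [hb]; ring
    rw [this]
    have : 2 * μ * ℓ ^ 2 ≤ 1 := by nlinarith only [hsmall]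
    nlinarith only [hsmall, abs_nonneg M]
  -- smoothness of `t`
  have hsC : ContDiff ℝ 1 s := (bar_contDiff b K η).of_le (by norm_cast)
  have htC : ContDiffOn ℝ 1 t Ω := (h.smooth.sub contDiffOn_const).sub hsC.contDiffOn
  have htd : ∀ z ∈ Ω, DifferentiableAt ℝ t z := fun z hz =>
    (htC.differentiableOn (by norm_num)).differentiableAt (ho.mem_nhds hz)
  have hwd : ∀ z ∈ Ω, DifferentiableAt ℝ w z := fun z hz =>
    (h.smooth.differentiableOn (by norm_num)).differentiableAt (ho.mem_nhds hz)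
  have hpd : ∀ z ∈ Ω, ∀ e : ℂ, fderiv ℝ t z e = fderiv ℝ w z e - fderiv ℝ s z e := by
    intro z hz e
    have h1 := (((hwd z hz).hasFDerivAt.sub_const M).sub (hasFDerivAt_bar b K η z)).fderiv
    have h2 : t = (fun x => w x - M) - bar b K η := rfl
    rw [h2, h1, sub_apply, ← (hasFDerivAt_bar b K η z).fderiv]
  have hpx : ∀ z ∈ Ω, px t z = px w z := by
    intro z hz
    have := hpd z hz 1
    have h2 := px_bar b K η z
    unfold px at *
    rw [this, hs, h2, sub_zero]
  have hpy : ∀ z ∈ Ω, py t z = py w z + (b * K + b * z.im) := by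
    intro z hz
    have := hpd z hz Complex.I
    have h2 := py_bar b K η z
    unfold py at *
    rw [this, hs, h2]
    ring
  -- `t < 0` on the inner boundary
  have htU : ∀ z ∈ Ucurve g ρ η, t z < 0 := by
    intro z hz
    have h1 := hM z hz
    have h2 : 0 ≤ s z := by
      rcases hz with ⟨h3, h4, h5⟩ | ⟨h3, h4⟩
      · exact hs0 z ((hK _ h3.le).trans h4.le) h5
      · exact hs0 z (by rw [h4]; linarith only [hη0, hK0]) h4.le
    simp only [ht]
    linarith only [h1, h2]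
  set v : ℂ → ℝ := fun z => by classical exact if z ∈ Q then FF (t z) else 0 with hv
  have hvQ : ∀ z ∈ Q, v z = FF (t z) := by
    intro z hz
    simp only [hv, if_pos hz]
  have hvN : ∀ z, z ∉ Q → v z = 0 := by
    intro z hz
    simp only [hv, if_neg hz]
  have hnear : ∀ z ∈ Ω, z ∉ Q → v =ᶠ[𝓝 z] fun _ => 0 := by
    intro z hz hzQ
    by_cases hzc : z ∈ closure Q
    · have hzU : z ∈ Ucurve g ρ η := (hcl z hz hzc).resolve_left hzQ
      have h1 : ∀ᶠ y in 𝓝 z, t y < 0 :=
        ((htC.continuousOn.continuousAt (ho.mem_nhds hz)).tendsto).eventually_lt_const (htU z hzU)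
      filter_upwards [h1] with y hy
      by_cases hyQ : y ∈ Q
      · rw [hvQ y hyQ, FF_of_nonpos hy.le]
      · exact hvN y hyQ
    · have h1 : (closure Q)ᶜ ∈ 𝓝 z := isClosed_closure.isOpen_compl.mem_nhds hzc
      filter_upwards [h1] with y hy
      exact hvN y fun hyQ => hy (subset_closure hyQ)
  have hnearQ : ∀ z ∈ Q, v =ᶠ[𝓝 z] fun y => FF (t y) := by
    intro z hz
    filter_upwards [hQo.mem_nhds hz] with y hy
    exact hvQ y hy
  have hvC : ContDiffOn ℝ 1 v Ω := by
    intro z hz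
    apply ContDiffAt.contDiffWithinAt
    by_cases hzQ : z ∈ Q
    · have h1 : ContDiffAt ℝ 1 (fun y => FF (t y)) z :=
        contDiff_FF.contDiffAt.comp z (htC.contDiffAt (ho.mem_nhds hz))
      exact h1.congr_of_eventuallyEq (hnearQ z hzQ)
    · exact contDiffAt_const.congr_of_eventuallyEq (hnear z hz hzQ)
  have hpvQ : ∀ z ∈ Q, ∀ e : ℂ, fderiv ℝ v z e = gp (t z) ^ 2 * fderiv ℝ t z e := by
    intro z hz e
    rw [(hnearQ z hz).fderiv_eq]
    exact pd_comp (hasDerivAt_FF _) (htd z (hQ hz))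
  have hpvN : ∀ z ∈ Ω, z ∉ Q → ∀ e : ℂ, fderiv ℝ v z e = 0 := by
    intro z hz hzQ e
    rw [(hnear z hz hzQ).fderiv_eq]
    simp only [fderiv_fun_const, Pi.zero_apply, zero_apply]
  have hvx : ∀ z ∈ Q, px v z = gp (t z) ^ 2 * px w z := by
    intro z hz
    rw [← hpx z (hQ hz)]
    exact hpvQ z hz 1
  have hvy : ∀ z ∈ Q, py v z = gp (t z) ^ 2 * (py w z + (b * K + b * z.im)) := by
    intro z hz
    rw [← hpy z (hQ hz)]
    exact hpvQ z hz Complex.I
  -- integrability on `Q`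
  have hQfin : volume Q < ⊤ := by
    have hsub : Q ⊆ Complex.reCLM ⁻¹' Set.Icc (-ρ) ρ ∩ Complex.imCLM ⁻¹' Set.Icc (-K) η := by
      intro z hz
      have := him z hz
      exact ⟨abs_le.1 hz.1.le, ⟨this.1.le, this.2.le⟩⟩
    have hbd : Bornology.IsBounded Q := by
      rw [isBounded_iff_forall_norm_le]
      refine ⟨|ρ| + (|K| + |η|), fun z hz => ?_⟩
      have h1 := him z hz
      have h2 : |z.re| < ρ := hz.1
      refine (Complex.norm_le_abs_re_add_abs_im z).trans (add_le_add (h2.le.trans (le_abs_self _)) ?_)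
      rw [abs_le]
      constructor
      · have := le_abs_self K; have := abs_nonneg η; (clear Ω ho μ hμ w h hg ℓ hη0 hK0 hℓ hsmall hU M hM hQ hcl hQd hQo b hb hb0 hℓ0 s hs t ht hs0 hs1 hbM hsC htC htd hwd hpd hpx hpy htU v hv hvQ hvN hnear hnearQ hvC hpvQ hpvN hvx hvy hsub h2; linarith)
      · have := le_abs_self η; have := abs_nonneg K; (clear Ω ho μ hμ w h hg ℓ hη0 hK0 hℓ hsmall hU M hM hQ hcl hQd hQo b hb hb0 hℓ0 s hs t ht hs0 hs1 hbM hsC htC htd hwd hpd hpx hpy htU v hv hvQ hvN hnear hnearQ hvC hpvQ hpvN hvx hvy hsub h2; linarith)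
    exact hbd.measure_lt_top
  have hcont : ∀ {f : ℂ → ℝ}, ContinuousOn f Q → AEStronglyMeasurable f (volume.restrict Q) :=
    fun hf => hf.aestronglyMeasurable hQo.measurableSet
  have hwc : ContinuousOn w Q := h.smooth.continuousOn.mono hQ
  have hwxc : ContinuousOn (px w) Q := (continuousOn_px ho h.smooth).mono hQ
  have hwyc : ContinuousOn (py w) Q := (continuousOn_py ho h.smooth).mono hQ
  have htc : ContinuousOn t Q := htC.continuousOn.mono hQ
  have hgpc : ContinuousOn (fun z => gp (t z)) Q := gp_continuous.comp_continuousOn htc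
  have hFFc : ContinuousOn (fun z => FF (t z)) Q := contDiff_FF.continuous.comp_continuousOn htc
  have hGGc : ContinuousOn (fun z => GG (t z)) Q := contDiff_GG.continuous.comp_continuousOn htc
  have hqc : ContinuousOn (fun z : ℂ => b * K + b * z.im) Q := by (clear * -; fun_prop)
  have hq0 : ∀ z ∈ Q, 0 ≤ b * K + b * z.im := by
    intro z hz
    have := (him z hz).1
    have : 0 ≤ b * (K + z.im) := mul_nonneg hb0 (by linarith only [this])
    linarith only [this]
  have hq1 : ∀ z ∈ Q, b * K + b * z.im ≤ b * ℓ := by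
    intro z hz
    have := (him z hz).2
    have : b * (K + z.im) ≤ b * ℓ := mul_le_mul_of_nonneg_left (by linarith only [hℓ, this]) hb0
    linarith only [this]
  have hconst : ∀ c : ℝ, IntegrableOn (fun _ : ℂ => c) Q := fun c => integrableOn_const hQfin.ne
  have hw2 : IntegrableOn (fun z => w z ^ 2) Q := h.sq.mono_set hQ
  have hgw : IntegrableOn (gsq w) Q := h.en.mono_set hQ
  -- the bound of `t`
  have htb : ∀ z ∈ Q, t z ^ 2 ≤ 2 * w z ^ 2 + 8 * M ^ 2 := by
    intro z hz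
    have h1 := him z hz
    have h2 := hs0 z h1.1.le h1.2.le
    have h3 := (hs1 z h1.1.le h1.2.le).trans hbM
    have h4 : |M + s z| ≤ 2 * |M| := by
      refine (abs_add_le _ _).trans ?_
      rw [abs_of_nonneg h2]
      linarith only [h3]
    have h5 : (M + s z) ^ 2 ≤ 4 * M ^ 2 := by
      rw [← sq_abs (M + s z), ← sq_abs M]
      have := pow_le_pow_left₀ (abs_nonneg _) h4 2
      linarith only [this]
    have h6 : t z = w z - (M + s z) := by simp only [ht]; ring
    rw [h6]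
    nlinarith only [h5, sq_nonneg (w z + (M + s z))]
  have hgs : ∀ z ∈ Q, (py w z + (b * K + b * z.im)) ^ 2 ≤ 2 * py w z ^ 2 + 2 * (b * ℓ) ^ 2 := by
    intro z hz
    have h1 := hq0 z hz
    have h2 := hq1 z hz
    have h3 : (b * K + b * z.im) ^ 2 ≤ (b * ℓ) ^ 2 := pow_le_pow_left₀ h1 h2 2
    nlinarith only [h3, sq_nonneg (py w z - (b * K + b * z.im))]
  have hgp1 : ∀ z, gp (t z) ^ 2 ≤ 1 := fun z => pow_le_one₀ (gp_nonneg _) (gp_le_one _)
  have hgp0 : ∀ z, 0 ≤ gp (t z) ^ 2 := fun z => sq_nonneg _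
  have hgx0 : ∀ z, 0 ≤ gsq w z := fun z => by unfold gsq; (clear * -; positivity)
  -- restriction of integrals to `Q`
  have hresI : ∀ {f : ℂ → ℝ}, (∀ z ∈ Ω, z ∉ Q → f z = 0) → IntegrableOn f Q →
      IntegrableOn f Ω := by
    intro f hf hi
    exact hi.of_forall_sdiff_eq_zero ho.measurableSet fun z hz => hf z hz.1 hz.2
  have hres : ∀ {f : ℂ → ℝ}, (∀ z ∈ Ω, z ∉ Q → f z = 0) →
      ∫ z in Ω, f z = ∫ z in Q, f z := by
    intro f hf
    exact setIntegral_eq_of_subset_of_forall_sdiff_eq_zero ho.measurableSet hQ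
      fun z hz => hf z hz.1 hz.2
  -- `v` is a test function
  have hv2Q : IntegrableOn (fun z => v z ^ 2) Q := by
    have hmaj : IntegrableOn (fun z => 2 * w z ^ 2 + 8 * M ^ 2) Q :=
      (hw2.const_mul 2).add (hconst _)
    refine hmaj.mono' (hcont ?_) ?_
    · exact (hFFc.congr fun z hz => hvQ z hz).pow 2
    · filter_upwards [ae_restrict_mem hQo.measurableSet] with z hz
      rw [Real.norm_eq_abs, abs_of_nonneg (sq_nonneg _), hvQ z hz]
      have h1 : FF (t z) ^ 2 ≤ t z ^ 2 := by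
        rw [← sq_abs (t z)]
        exact pow_le_pow_left₀ (FF_nonneg _) FF_le 2
      exact h1.trans (htb z hz)
  have hv2 : IntegrableOn (fun z => v z ^ 2) Ω :=
    hresI (fun z _ hz => by rw [hvN z hz]; norm_num) hv2Q
  have hgvQ : IntegrableOn (gsq v) Q := by
    have hmaj : IntegrableOn (fun z => 2 * gsq w z + 2 * (b * ℓ) ^ 2) Q :=
      (hgw.const_mul 2).add (hconst _)
    refine hmaj.mono' (hcont ?_) ?_
    · exact (continuousOn_gsq ho hvC).mono hQ
    · filter_upwards [ae_restrict_mem hQo.measurableSet] with z hz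
      have h0 : 0 ≤ gsq v z := by unfold gsq; (clear * -; positivity)
      rw [Real.norm_eq_abs, abs_of_nonneg h0]
      unfold gsq
      rw [hvx z hz, hvy z hz, mul_pow, mul_pow]
      have h1 := hgs z hz
      have h2 : (gp (t z) ^ 2) ^ 2 ≤ 1 := pow_le_one₀ (hgp0 z) (hgp1 z)
      have h3 : 0 ≤ px w z ^ 2 := sq_nonneg _
      have h4 : (gp (t z) ^ 2) ^ 2 * px w z ^ 2 ≤ px w z ^ 2 := mul_le_of_le_one_left h3 h2
      have h5 : (gp (t z) ^ 2) ^ 2 * (py w z + (b * K + b * z.im)) ^ 2 ≤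
          (py w z + (b * K + b * z.im)) ^ 2 := mul_le_of_le_one_left (sq_nonneg _) h2
      linarith only [h1, h3, h4, h5]
  have hgv : IntegrableOn (gsq v) Ω := by
    refine hresI (fun z hz hzQ => ?_) hgvQ
    have h1 := hpvN z hz hzQ
    unfold gsq px py
    rw [h1, h1]
    norm_num
  have hweak := h.weak v hvC hv2 hgv
  rw [hres (f := fun z => px w z * px v z + py w z * py v z) (fun z hz hzQ => by
    have h1 := hpvN z hz hzQ
    unfold px py
    rw [h1, h1]
    ring), hres (f := fun z => w z * v z) (fun z _ hzQ => by rw [hvN z hzQ, mul_zero])] at hweak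
  -- vanishing near the top
  obtain ⟨δ, hδ, hδs⟩ : ∃ δ > 0, ∀ z : ℂ, |z.re| ≤ ρ → η - δ ≤ z.im → z.im ≤ η → t z < 0 := by
    set S : Set ℂ := Ω ∩ t ⁻¹' Set.Iio 0 with hS
    have hSo : IsOpen S := htC.continuousOn.isOpen_inter_preimage ho isOpen_Iio
    set T : Set ℂ := (fun x : ℝ => (⟨x, η⟩ : ℂ)) '' Set.Icc (-ρ) ρ with hT
    have hTc : IsCompact T := by
      refine isCompact_Icc.image ?_
      have : (fun x : ℝ => (⟨x, η⟩ : ℂ)) = fun x : ℝ => (x : ℂ) + (η : ℂ) * Complex.I := by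
        funext x; apply Complex.ext <;> simp
      rw [this]
      (clear * -; fun_prop)
    have hTS : T ⊆ S := by
      rintro _ ⟨x, hx, rfl⟩
      have hmem : (⟨x, η⟩ : ℂ) ∈ Ucurve g ρ η := Or.inr ⟨abs_le.2 hx, rfl⟩
      exact ⟨hU hmem, htU _ hmem⟩
    obtain ⟨δ, hδ, hsub⟩ := hTc.exists_thickening_subset_open hSo hTS
    refine ⟨δ / 2, half_pos hδ, fun z h1 h2 h3 => ?_⟩
    have hz : z ∈ thickening δ T := by
      rw [mem_thickening_iff]
      refine ⟨⟨z.re, η⟩, ⟨z.re, abs_le.1 h1, rfl⟩, ?_⟩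
      rw [dist_eq_norm]
      have : z - ⟨z.re, η⟩ = ((z.im - η : ℝ) : ℂ) * Complex.I := by
        apply Complex.ext <;> simp
      rw [this, norm_mul, Complex.norm_I, mul_one, Complex.norm_real, Real.norm_eq_abs, abs_lt]
      constructor <;> linarith only [hδ, h2, h3]
    exact (hsub hz).2
  have hη' : η - δ < η := by linarith only [hδ]
  -- integrals on `Q`
  have hvI : IntegrableOn v Q := by
    have hmaj : IntegrableOn (fun z => v z ^ 2 + 1) Q := hv2Q.add (hconst 1)
    refine hmaj.mono' (hcont (hFFc.congr fun z hz => hvQ z hz)) (ae_of_all _ fun z => ?_)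
    rw [Real.norm_eq_abs]
    nlinarith only [sq_abs (v z)]
  have hvyI : IntegrableOn (py v) Q := by
    have hmaj : IntegrableOn (fun z => gsq v z + 1) Q := hgvQ.add (hconst 1)
    refine hmaj.mono' (hcont ((continuousOn_py ho hvC).mono hQ)) (ae_of_all _ fun z => ?_)
    rw [Real.norm_eq_abs]
    unfold gsq
    nlinarith only [sq_abs (py v z)]
  have hibp := vert_ibp hg (a := b * K) (b := b) (v := v) (hvC.mono hQ)
    (fun z hz => by rw [hvQ z hz]; exact FF_nonneg _) hη'
    (fun z hz hz2 => by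
      rw [hvQ z hz]
      exact FF_of_nonpos (hδs z hz.1.le hz2 hz.2.2.le).le) hvyI hvI hq0
  -- the energy of `G(t)`
  set X : ℝ := ∫ z in Q, gp (t z) ^ 2 * (px w z ^ 2 + (py w z + (b * K + b * z.im)) ^ 2) with hX
  have hXi : IntegrableOn (fun z => gp (t z) ^ 2 *
      (px w z ^ 2 + (py w z + (b * K + b * z.im)) ^ 2)) Q := by
    have hmaj : IntegrableOn (fun z => 2 * gsq w z + 2 * (b * ℓ) ^ 2) Q :=
      (hgw.const_mul 2).add (hconst _)
    refine hmaj.mono' (hcont ?_) ?_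
    · exact (hgpc.pow 2).mul ((hwxc.pow 2).add ((hwyc.add hqc).pow 2))
    · filter_upwards [ae_restrict_mem hQo.measurableSet] with z hz
      have h0 : 0 ≤ px w z ^ 2 + (py w z + (b * K + b * z.im)) ^ 2 := by (clear * -; positivity)
      rw [Real.norm_eq_abs, abs_of_nonneg (mul_nonneg (hgp0 z) h0)]
      have h1 := hgs z hz
      have h5 := mul_le_of_le_one_left h0 (hgp1 z)
      unfold gsq
      nlinarith only [h1, h5]
  have hX0 : 0 ≤ X := integral_nonneg fun z => mul_nonneg (hgp0 z) (by (clear * -; positivity))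
  have hwvI : IntegrableOn (fun z => w z * v z) Q := by
    have hmaj : IntegrableOn (fun z => w z ^ 2 + v z ^ 2) Q := hw2.add hv2Q
    refine hmaj.mono' (hcont (hwc.mul (hFFc.congr fun z hz => hvQ z hz))) (ae_of_all _ fun z => ?_)
    rw [Real.norm_eq_abs, abs_mul]
    nlinarith only [sq_abs (w z), sq_abs (v z)]
  have hqvI : IntegrableOn (fun z => (b * K + b * z.im) * py v z) Q := by
    have hmaj : IntegrableOn (fun z => b * ℓ * (gsq v z + 1)) Q := (hgvQ.add (hconst 1)).const_mul _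
    refine hmaj.mono' (hcont (hqc.mul ((continuousOn_py ho hvC).mono hQ))) ?_
    filter_upwards [ae_restrict_mem hQo.measurableSet] with z hz
    rw [Real.norm_eq_abs, abs_mul, abs_of_nonneg (hq0 z hz)]
    refine mul_le_mul (hq1 z hz) ?_ (abs_nonneg _) (by (clear * - hμ hℓ0; positivity))
    unfold gsq
    nlinarith only [sq_abs (py v z)]
  have hid : X = μ * (∫ z in Q, w z * v z) + ∫ z in Q, (b * K + b * z.im) * py v z := by
    rw [← hweak]
    have hi1 : IntegrableOn (fun z => px w z * px v z + py w z * py v z) Q := by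
      have : IntegrableOn (fun z => gp (t z) ^ 2 *
          (px w z ^ 2 + (py w z + (b * K + b * z.im)) ^ 2) -
          (b * K + b * z.im) * py v z) Q := hXi.sub hqvI
      refine this.congr_fun (fun z hz => ?_) hQo.measurableSet
      simp only
      rw [hvx z hz, hvy z hz]
      ring
    rw [← integral_add hi1 hqvI, hX]
    refine setIntegral_congr_fun hQo.measurableSet fun z hz => ?_
    rw [hvx z hz, hvy z hz]
    ring
  have hneg : ∫ z in Q, (b * K + b * z.im) * py v z ≤ -(b * ∫ z in Q, v z) := by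
    have e1 : ∫ z in Q, -(b * K + b * z.im) * py v z =
        -∫ z in Q, (b * K + b * z.im) * py v z := by
      rw [← integral_neg]
      congr 1; funext z; ring
    rw [← hQd, e1] at hibp
    linarith only [hibp]
  -- `∫ (μ w - b) F ≤ 4 μ ∫ G²`
  have hG2 : IntegrableOn (fun z => GG (t z) ^ 2) Q := by
    have hmaj : IntegrableOn (fun z => 2 * w z ^ 2 + 8 * M ^ 2) Q :=
      (hw2.const_mul 2).add (hconst _)
    refine hmaj.mono' (hcont (hGGc.pow 2)) ?_
    filter_upwards [ae_restrict_mem hQo.measurableSet] with z hz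
    rw [Real.norm_eq_abs, abs_of_nonneg (sq_nonneg _)]
    have h1 : GG (t z) ^ 2 ≤ t z ^ 2 := by
      rw [← sq_abs (t z)]
      exact pow_le_pow_left₀ (GG_nonneg _) GG_le 2
    exact h1.trans (htb z hz)
  have hle1 : μ * (∫ z in Q, w z * v z) - b * (∫ z in Q, v z) ≤
      4 * μ * ∫ z in Q, GG (t z) ^ 2 := by
    rw [← integral_const_mul, ← integral_const_mul, ← integral_const_mul,
      ← integral_sub (hwvI.const_mul μ) (hvI.const_mul b)]
    refine setIntegral_mono_on ((hwvI.const_mul μ).sub (hvI.const_mul b)) (hG2.const_mul _)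
      hQo.measurableSet fun z hz => ?_
    rw [hvQ z hz]
    rcases le_total (t z) 0 with h0 | h0
    · rw [FF_of_nonpos h0, GG_of_nonpos h0]
      simp
    · have h1 := him z hz
      have h2 := (hs1 z h1.1.le h1.2.le).trans hbM
      have h3 := mul_FF_le h0
      have h4 := FF_nonneg (t z)
      have h5 : μ * w z - b ≤ μ * t z := by
        have e1 : w z = t z + M + s z := by simp only [ht]; ring
        have e2 : M ≤ |M| := le_abs_self M
        have e3 : μ * (M + s z) ≤ μ * (2 * |M|) := mul_le_mul_of_nonneg_left (by linarith only [h2, e2]) hμ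
        rw [e1, hb]
        nlinarith only [e3]
      calc μ * (w z * FF (t z)) - b * FF (t z) = (μ * w z - b) * FF (t z) := by ring
        _ ≤ μ * t z * FF (t z) := mul_le_mul_of_nonneg_right h5 h4
        _ = μ * (t z * FF (t z)) := by ring
        _ ≤ μ * (4 * GG (t z) ^ 2) := mul_le_mul_of_nonneg_left h3 hμ
        _ = 4 * μ * GG (t z) ^ 2 := by ring
  -- vertical Poincaré
  have hGC : ContDiffOn ℝ 1 (fun z => GG (t z)) Q := fun z hz =>
    (contDiff_GG.contDiffAt.comp z (htC.contDiffAt (ho.mem_nhds (hQ hz)))).contDiffWithinAt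
  have hGy : ∀ z ∈ Q, py (fun z => GG (t z)) z =
      gp (t z) * (py w z + (b * K + b * z.im)) := by
    intro z hz
    rw [← hpy z (hQ hz)]
    exact pd_comp (hasDerivAt_GG _) (htd z (hQ hz))
  have hGyI : IntegrableOn (fun z => py (fun z => GG (t z)) z ^ 2) Q := by
    refine hXi.mono' (hcont ((continuousOn_py hQo hGC).pow 2)) ?_
    filter_upwards [ae_restrict_mem hQo.measurableSet] with z hz
    rw [Real.norm_eq_abs, abs_of_nonneg (sq_nonneg _), hGy z hz, mul_pow]
    have := mul_nonneg (hgp0 z) (sq_nonneg (px w z))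
    linarith only [this]
  have hPo := (vert_poincare hg (ρ := ρ) (η := η) (ℓ := ℓ)
    (fun x hx => by have := hK x hx.le; linarith only [hℓ, this]) hGC hη'
    (fun z hz hz2 => GG_of_nonpos (hδs z hz.1.le hz2 hz.2.2.le).le) hGyI).2
  rw [← hQd] at hPo
  have hYX : ∫ z in Q, py (fun z => GG (t z)) z ^ 2 ≤ X := by
    refine setIntegral_mono_on hGyI hXi hQo.measurableSet fun z hz => ?_
    rw [hGy z hz, mul_pow]
    have := mul_nonneg (hgp0 z) (sq_nonneg (px w z))
    linarith only [this]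
  have hGX : ∫ z in Q, GG (t z) ^ 2 ≤ ℓ ^ 2 * X :=
    hPo.trans (mul_le_mul_of_nonneg_left hYX (sq_nonneg ℓ))
  have hXle : X ≤ 4 * μ * ℓ ^ 2 * X := by
    calc X ≤ μ * (∫ z in Q, w z * v z) - b * (∫ z in Q, v z) := by rw [hid]; linarith only [hneg]
      _ ≤ 4 * μ * ∫ z in Q, GG (t z) ^ 2 := hle1
      _ ≤ 4 * μ * (ℓ ^ 2 * X) := mul_le_mul_of_nonneg_left hGX (by (clear * - hμ; positivity))
      _ = _ := by ring
  have hX00 : X = 0 := by
    by_contra hne
    have hpos : 0 < X := lt_of_le_of_ne hX0 (Ne.symm hne)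
    have := mul_lt_mul_of_pos_right hsmall hpos
    linarith only [hXle, this]
  have hG0 : ∫ z in Q, GG (t z) ^ 2 = 0 := by
    apply le_antisymm
    · rw [hX00, mul_zero] at hGX; exact hGX
    · exact integral_nonneg fun z => sq_nonneg _
  have hae : (fun z => GG (t z) ^ 2) =ᵐ[volume.restrict Q] 0 :=
    (integral_eq_zero_iff_of_nonneg (fun z => sq_nonneg _) hG2).1 hG0
  have heq : Set.EqOn (fun z => GG (t z) ^ 2) 0 Q :=
    Measure.eqOn_open_of_ae_eq hae hQo (hGGc.pow 2) continuousOn_const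
  intro z hz
  have h1 : GG (t z) = 0 := by
    have := heq hz
    simpa using this
  have h2 := nonpos_of_GG h1
  have h3 := him z hz
  have h4 := hs1 z h3.1.le h3.2.le
  simp only [ht] at h2
  have h5 : b * ℓ ^ 2 = 2 * μ * ℓ ^ 2 * |M| := by rw [hb]; ring
  linarith only [h4, h2]

end Vale.Agent.P071.Reg
end

section

/-!
# REG-6: choice of the sides (Courant-Lebesgue)
-/

open MeasureTheory Metric Filter Topology Real
open scoped ContDiff ENNReal ComplexConjugate

namespace Vale.Agent.P071.Reg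

open Vale.Agent.P071.Lim

/-- Oscillation of a `C¹` function of one variable. -/
theorem sides_osc {f f' : ℝ → ℝ} {a b C : ℝ} (hab : a ≤ b)
    (hf : ∀ t ∈ Set.Icc a b, HasDerivAt f (f' t) t) (hc : ContinuousOn f' (Set.Icc a b))
    (hC : 0 ≤ C) (h : ∫⁻ t in Set.Icc a b, ENNReal.ofReal (f' t ^ 2) ≤ ENNReal.ofReal C) :
    |f b - f a| ≤ √((b - a) * C) := by
  have hcI : IntervalIntegrable f' volume a b := by
    apply ContinuousOn.intervalIntegrable
    rwa [Set.uIcc_of_le hab]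
  have h1 : ∫ t in a..b, f' t = f b - f a :=
    intervalIntegral.integral_eq_sub_of_hasDerivAt
      (fun t ht => hf t (by rwa [Set.uIcc_of_le hab] at ht)) hcI
  have hI1 : IntegrableOn f' (Set.Ioc a b) := (hc.integrableOn_Icc).mono_set Set.Ioc_subset_Icc_self
  have hI2 : IntegrableOn (fun t => f' t ^ 2) (Set.Icc a b) := (hc.pow 2).integrableOn_Icc
  have h2 := integral_mul_sq_le (ν := volume.restrict (Set.Ioc a b)) (f := fun _ : ℝ => (1 : ℝ))
    (g := f') (by simp only [one_pow, enorm_one, ne_eq, ENNReal.one_ne_top, not_false_eq_true, integrable_const_enorm]) (hI2.mono_set Set.Ioc_subset_Icc_self) (by simp only [one_mul]; exact hI1)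
  have h3 : ∫ t in Set.Ioc a b, (1 : ℝ) * f' t = f b - f a := by
    rw [← h1, intervalIntegral.integral_of_le hab]
    simp only [one_mul]
  have h4 : ∫ _t in Set.Ioc a b, (1 : ℝ) ^ 2 = b - a := by
    simp only [one_pow, integral_const, MeasurableSet.univ, measureReal_restrict_apply, Set.univ_inter, volume_real_Ioc, sub_nonneg, hab, sup_of_le_left, smul_eq_mul, mul_one]
  have h5 : ∫ t in Set.Ioc a b, f' t ^ 2 ≤ C := by
    rw [← integral_Icc_eq_integral_Ioc]
    have h6 : ENNReal.ofReal (∫ t in Set.Icc a b, f' t ^ 2) ≤ ENNReal.ofReal C := by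
      rw [ofReal_integral_eq_lintegral_ofReal hI2 (Eventually.of_forall fun t => sq_nonneg _)]
      exact h
    exact (ENNReal.ofReal_le_ofReal_iff hC).1 h6
  rw [h3, h4] at h2
  refine Real.abs_le_sqrt (h2.trans ?_)
  exact mul_le_mul_of_nonneg_left h5 (by linarith only [hab])

/-- The line in the direction `e` through `p`. -/
theorem sides_deriv {w : ℂ → ℝ} {U : Set ℂ} (hU : IsOpen U) (hw : ContDiffOn ℝ 1 w U)
    (p e : ℂ) (t : ℝ) (ht : p + t * e ∈ U) :
    HasDerivAt (fun s : ℝ => w (p + s * e)) (fderiv ℝ w (p + t * e) e) t := by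
  have h1 : HasFDerivAt w (fderiv ℝ w (p + t * e)) (p + t * e) :=
    ((hw.differentiableOn one_ne_zero).differentiableAt (hU.mem_nhds ht)).hasFDerivAt
  have h2 : HasDerivAt (fun s : ℝ => p + (s : ℂ) * e) e t := by
    have h3 : HasDerivAt (fun s : ℝ => (s : ℂ)) 1 t := Complex.ofRealCLM.hasDerivAt
    simpa using (h3.mul_const e).const_add p
  exact h1.comp_hasDerivAt t h2

theorem sides_cont {w : ℂ → ℝ} {U : Set ℂ} (hU : IsOpen U) (hw : ContDiffOn ℝ 1 w U)
    (p e : ℂ) {s : Set ℝ} (hs : ∀ t ∈ s, p + (t : ℂ) * e ∈ U) :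
    ContinuousOn (fun t : ℝ => fderiv ℝ w (p + t * e) e) s := by
  have h1 : ContinuousOn (fun z => fderiv ℝ w z e) U :=
    (hw.continuousOn_fderiv_of_isOpen hU le_rfl).clm_apply continuousOn_const
  exact h1.comp (by fun_prop) hs

/-- Oscillation along a segment, from a bound of the energy on the line. -/
theorem sides_seg {w : ℂ → ℝ} {U : Set ℂ} (hU : IsOpen U) (hw : ContDiffOn ℝ 1 w U)
    (p e : ℂ) {a b C : ℝ} (hab : a ≤ b) (hC : 0 ≤ C)
    (hs : ∀ t ∈ Set.Icc a b, p + (t : ℂ) * e ∈ U)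
    (he : ∀ z, (fderiv ℝ w z e) ^ 2 ≤ gsq w z)
    (h : ∫⁻ t : ℝ, U.indicator (fun z => ENNReal.ofReal (gsq w z)) (p + t * e) ≤
      ENNReal.ofReal C) :
    |w (p + b * e) - w (p + a * e)| ≤ √((b - a) * C) := by
  refine sides_osc (f := fun t : ℝ => w (p + t * e)) hab
    (fun t ht => sides_deriv hU hw p e t (hs t ht)) (sides_cont hU hw p e hs) hC (le_trans ?_ h)
  refine le_trans ?_ (setLIntegral_le_lintegral (Set.Icc a b) _)
  refine setLIntegral_mono' measurableSet_Icc fun t ht => ?_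
  rw [Set.indicator_of_mem (hs t ht)]
  exact ENNReal.ofReal_le_ofReal (he _)

theorem sides_gsq_meas (w : ℂ → ℝ) : Measurable (gsq w) := by
  have h1 : Measurable fun z => fderiv ℝ w z 1 := measurable_fderiv_apply_const ℝ w 1
  have h2 : Measurable fun z => fderiv ℝ w z Complex.I :=
    measurable_fderiv_apply_const ℝ w Complex.I
  exact (h1.pow_const 2).add (h2.pow_const 2)

/-- Choice of the width and the height such that the oscillation on the inner boundary is
controlled by the energy of the big box. -/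
theorem exists_sides {g : ℝ → ℝ} {L : NNReal} (hg : LipschitzWith L g) (hg0 : g 0 = 0)
    {R : ℝ} (hR : 0 < R) {w : ℂ → ℝ}
    (hw : ContDiffOn ℝ 1 w (Box g R (2 * (L + 1) * R)))
    (hi : IntegrableOn (gsq w) (Box g R (2 * (L + 1) * R))) :
    ∃ ρ η : ℝ, R / 2 < ρ ∧ ρ < R ∧ (L + 1) * R < η ∧ η < 2 * (L + 1) * R ∧
      ∀ z ∈ Ucurve g ρ η, ∀ z' ∈ Ucurve g ρ η,
        |w z - w z'| ≤ 20 * (L + 1) * √(∫ z in Box g R (2 * (L + 1) * R), gsq w z) := by
  set H : ℝ := 2 * (L + 1) * R with hH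
  set U := Box g R H with hUdef
  set E := ∫ z in U, gsq w z with hE
  have hL0 : (0 : ℝ) ≤ L := L.2
  have hLR : 0 < (L + 1) * R := by (clear * - hR; positivity)
  have hU : IsOpen U := isOpen_Box hg.continuous R H
  have hgs : ∀ z, 0 ≤ gsq w z := fun z => add_nonneg (sq_nonneg _) (sq_nonneg _)
  have hE0 : 0 ≤ E := integral_nonneg fun z => hgs z
  have hgx : ∀ x, g x ≤ L * |x| := by
    intro x
    have h1 := hg.dist_le_mul x 0
    rw [Real.dist_eq, Real.dist_eq, hg0, sub_zero, sub_zero] at h1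
    exact (le_abs_self _).trans h1
  have hgx' : ∀ x, -(L * |x|) ≤ g x := by
    intro x
    have h1 := hg.dist_le_mul x 0
    rw [Real.dist_eq, Real.dist_eq, hg0, sub_zero, sub_zero] at h1
    exact (abs_le.1 h1).1
  set F : ℂ → ℝ≥0∞ := U.indicator fun z => ENNReal.ofReal (gsq w z) with hF
  have hFm : Measurable F := (sides_gsq_meas w).ennreal_ofReal.indicator hU.measurableSet
  have hFE : ∫⁻ z, F z = ENNReal.ofReal E := by
    rw [hF, lintegral_indicator hU.measurableSet, hE,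
      ofReal_integral_eq_lintegral_ofReal hi (Eventually.of_forall hgs)]
  have hFp : ∫⁻ p : ℝ × ℝ, F (p.1 + p.2 * Complex.I) = ENNReal.ofReal E := by
    rw [← hFE, ← (Complex.volume_preserving_equiv_real_prod.symm).lintegral_comp hFm]
    refine lintegral_congr fun p => ?_
    congr 1
    exact (Complex.mk_eq_add_mul_I p.1 p.2).symm
  have hmp : Measurable fun p : ℝ × ℝ => F (p.1 + p.2 * Complex.I) :=
    hFm.comp (by fun_prop)
  have hFx : ∫⁻ x : ℝ, ∫⁻ y : ℝ, F (x + y * Complex.I) = ENNReal.ofReal E := by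
    rw [← hFp, Measure.volume_eq_prod, lintegral_prod _ hmp.aemeasurable]
  have hFy : ∫⁻ y : ℝ, ∫⁻ x : ℝ, F (x + y * Complex.I) = ENNReal.ofReal E := by
    rw [← hFp, Measure.volume_eq_prod, lintegral_prod_symm _ hmp.aemeasurable]
  have hAm : Measurable fun x : ℝ => ∫⁻ y : ℝ, F (x + y * Complex.I) := hmp.lintegral_prod_right'
  have hBm : Measurable fun y : ℝ => ∫⁻ x : ℝ, F (x + y * Complex.I) := hmp.lintegral_prod_left'
  set A : ℝ → ℝ≥0∞ := fun x => ∫⁻ y : ℝ, F (x + y * Complex.I) with hA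
  set B : ℝ → ℝ≥0∞ := fun y => ∫⁻ x : ℝ, F (x + y * Complex.I) with hB
  -- the width
  obtain ⟨ρ, ⟨hρ1, hρ2⟩, hρ⟩ : ∃ ρ ∈ Set.Ioo (R / 2) R,
      A ρ + A (-ρ) ≤ ENNReal.ofReal (4 * E / R) := by
    have hvol : volume (Set.Ioo (R / 2) R) = ENNReal.ofReal (R / 2) := by
      rw [Real.volume_Ioo]
      congr 1
      ring
    obtain ⟨ρ, hρ, h1⟩ := exists_le_setLAverage (μ := volume) (s := Set.Ioo (R / 2) R)
      (f := fun x => A x + A (-x)) (by rw [hvol]; simpa only [ne_eq, ENNReal.ofReal_eq_zero, not_le, Nat.ofNat_pos, div_pos_iff_of_pos_right] using hR) (by rw [hvol]; simp)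
      (hAm.add (hAm.comp measurable_neg)).aemeasurable
    refine ⟨ρ, hρ, h1.trans ?_⟩
    rw [setLAverage_eq, hvol]
    have h2 : ∫⁻ x in Set.Ioo (R / 2) R, (A x + A (-x)) ≤ ENNReal.ofReal (2 * E) := by
      refine (setLIntegral_le_lintegral _ _).trans ?_
      rw [lintegral_add_left hAm, lintegral_neg_eq_self (μ := volume) (f := A), hFx,
        ← ENNReal.ofReal_add hE0 hE0]
      exact ENNReal.ofReal_le_ofReal (by linarith only [])
    calc (∫⁻ x in Set.Ioo (R / 2) R, (A x + A (-x))) / ENNReal.ofReal (R / 2) ≤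
        ENNReal.ofReal (2 * E) / ENNReal.ofReal (R / 2) := by (clear * - h2; gcongr)
      _ = ENNReal.ofReal (2 * E / (R / 2)) := (ENNReal.ofReal_div_of_pos (by positivity)).symm
      _ = ENNReal.ofReal (4 * E / R) := by
        congr 1
        field_simp
        ring
  -- the height
  obtain ⟨η, ⟨hη1, hη2⟩, hη⟩ : ∃ η ∈ Set.Ioo ((L + 1) * R) H,
      B η ≤ ENNReal.ofReal (E / ((L + 1) * R)) := by
    have hvol : volume (Set.Ioo ((L + 1) * R) H) = ENNReal.ofReal ((L + 1) * R) := by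
      rw [Real.volume_Ioo]
      congr 1
      rw [hH]
      ring
    obtain ⟨η, hη, h1⟩ := exists_le_setLAverage (μ := volume) (s := Set.Ioo ((L + 1) * R) H)
      (f := B) (by rw [hvol]; simpa only [ne_eq, ENNReal.ofReal_eq_zero, not_le] using hLR) (by rw [hvol]; simp only [ne_eq, ENNReal.ofReal_ne_top, not_false_eq_true]) hBm.aemeasurable
    refine ⟨η, hη, h1.trans ?_⟩
    rw [setLAverage_eq, hvol]
    have h2 : ∫⁻ x in Set.Ioo ((L + 1) * R) H, B x ≤ ENNReal.ofReal E :=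
      (setLIntegral_le_lintegral _ _).trans hFy.le
    calc (∫⁻ x in Set.Ioo ((L + 1) * R) H, B x) / ENNReal.ofReal ((L + 1) * R) ≤
        ENNReal.ofReal E / ENNReal.ofReal ((L + 1) * R) := by (clear * - h2; gcongr)
      _ = ENNReal.ofReal (E / ((L + 1) * R)) := (ENNReal.ofReal_div_of_pos hLR).symm
  have hρpos : 0 < ρ := by linarith only [hρ1, hρ2]
  have hηpos : 0 < η := by linarith only [hη1, hη2]
  have hpx : ∀ z, (fderiv ℝ w z 1) ^ 2 ≤ gsq w z := fun z => by
    have : 0 ≤ py w z ^ 2 := sq_nonneg _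
    simp only [gsq, px] at *
    linarith only [this]
  have hpy : ∀ z, (fderiv ℝ w z Complex.I) ^ 2 ≤ gsq w z := fun z => by
    have : 0 ≤ px w z ^ 2 := sq_nonneg _
    simp only [gsq, py] at *
    linarith only [this]
  -- the top
  have htop : ∀ x : ℝ, |x| ≤ ρ → |x| < R ∧ g x < η := by
    intro x hx
    refine ⟨by linarith only [hρ2, hx], ?_⟩
    have h1 := hgx x
    nlinarith only [hρ1, hρ2, hη1, h1, hx]
  have hmemtop : ∀ x : ℝ, |x| ≤ ρ → (η : ℂ) * Complex.I + (x : ℂ) * 1 ∈ U := by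
    intro x hx
    obtain ⟨h1, h2⟩ := htop x hx
    refine ⟨?_, ?_, ?_⟩ <;> simp [h1, h2, hη2]
  have hBη : ∫⁻ t : ℝ, U.indicator (fun z => ENNReal.ofReal (gsq w z))
      ((η : ℂ) * Complex.I + t * 1) ≤ ENNReal.ofReal (E / ((L + 1) * R)) := by
    refine le_trans (le_of_eq ?_) hη
    rw [hB]
    refine lintegral_congr fun t => ?_
    rw [hF]
    congr 1
    ring
  have hc0 : 0 ≤ E / ((L + 1) * R) := by (clear * - hE0 hR; positivity)
  have hER : R * (E / ((L + 1) * R)) ≤ E := by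
    have h1 : R * (E / ((L + 1) * R)) = E / (L + 1) := by
      (clear * - hR; field_simp)
    rw [h1]
    exact div_le_self hE0 (by linarith only [])
  have hcenter : ∀ x : ℝ, |x| ≤ ρ →
      |w ((η : ℂ) * Complex.I + x * 1) - w ((η : ℂ) * Complex.I + (0 : ℝ) * 1)| ≤ √E := by
    intro x hx
    rcases le_total 0 x with h0 | h0
    · have h1 := sides_seg hU hw ((η : ℂ) * Complex.I) 1 h0 hc0
        (fun t ht => hmemtop t (by rw [abs_of_nonneg ht.1]; exact ht.2.trans ((le_abs_self x).trans hx)))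
        hpx hBη
      refine h1.trans (Real.sqrt_le_sqrt (le_trans ?_ hER))
      have h2 : x ≤ R := ((le_abs_self x).trans hx).trans hρ2.le
      exact mul_le_mul_of_nonneg_right (by linarith only [h2]) hc0
    · have h1 := sides_seg hU hw ((η : ℂ) * Complex.I) 1 h0 hc0
        (fun t ht => hmemtop t (by
          rw [abs_of_nonpos ht.2]; exact (neg_le_neg ht.1).trans ((neg_le_abs x).trans hx)))
        hpx hBη
      rw [abs_sub_comm]
      refine h1.trans (Real.sqrt_le_sqrt (le_trans ?_ hER))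
      have h2 : -x ≤ R := ((neg_le_abs x).trans hx).trans hρ2.le
      exact mul_le_mul_of_nonneg_right (by linarith only [h2]) hc0
  -- the sides
  have hside : ∀ x y : ℝ, |x| = ρ → g x < y → y ≤ η →
      |w ((x : ℂ) + η * Complex.I) - w ((x : ℂ) + y * Complex.I)| ≤ 4 * (L + 1) * √E := by
    intro x y hx hy hyη
    have hAx : ∫⁻ t : ℝ, U.indicator (fun z => ENNReal.ofReal (gsq w z))
        ((x : ℂ) + t * Complex.I) ≤ ENNReal.ofReal (4 * E / R) := by
      refine le_trans ?_ hρ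
      rcases (abs_eq hρpos.le).1 hx with h | h
      · rw [h]; exact le_self_add
      · rw [h]; exact le_add_self
    have hmem : ∀ t ∈ Set.Icc y η, (x : ℂ) + (t : ℂ) * Complex.I ∈ U := by
      intro t ht
      refine ⟨?_, ?_, ?_⟩
      · simp only [Complex.add_re, Complex.ofReal_re, Complex.mul_re, Complex.I_re, mul_zero,
          Complex.ofReal_im, Complex.I_im, mul_one, sub_self, add_zero]
        rw [hx]; exact hρ2
      · simp only [Complex.add_re, Complex.ofReal_re, Complex.mul_re, Complex.I_re, mul_zero,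
          Complex.ofReal_im, Complex.I_im, mul_one, sub_self, add_zero, Complex.add_im,
          Complex.mul_im, zero_add]
        exact hy.trans_le ht.1
      · simp only [Complex.add_im, Complex.ofReal_im, Complex.mul_im, Complex.ofReal_re, Complex.I_im, mul_one, Complex.I_re, mul_zero, add_zero, zero_add]
        exact ht.2.trans_lt hη2
    have h1 := sides_seg hU hw (x : ℂ) Complex.I hyη (by (clear * - hE0 hR; positivity)) hmem hpy hAx
    refine h1.trans ?_
    have h2 : η - y ≤ 3 * (L + 1) * R := by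
      have h3 := hgx' x
      rw [hx] at h3
      have h4 : (L : ℝ) * ρ ≤ L * R := mul_le_mul_of_nonneg_left hρ2.le hL0
      nlinarith only [hρ1, hρ2, hη2, hy, h3]
    have h5 : (η - y) * (4 * E / R) ≤ (4 * (L + 1)) ^ 2 * E := by
      calc (η - y) * (4 * E / R) ≤ (3 * (L + 1) * R) * (4 * E / R) :=
            mul_le_mul_of_nonneg_right h2 (by (clear * - hE0 hR; positivity))
        _ = 12 * (L + 1) * E := by field_simp; ring
        _ ≤ (4 * (L + 1)) ^ 2 * E := by
            apply mul_le_mul_of_nonneg_right _ hE0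
            nlinarith only []
    calc √((η - y) * (4 * E / R)) ≤ √((4 * (L + 1)) ^ 2 * E) := Real.sqrt_le_sqrt h5
      _ = 4 * (L + 1) * √E := by
        rw [Real.sqrt_mul (sq_nonneg _), Real.sqrt_sq (by (clear * -; positivity))]
  have hs0 : 0 ≤ √E := Real.sqrt_nonneg _
  have hall : ∀ z ∈ Ucurve g ρ η,
      |w z - w ((η : ℂ) * Complex.I + (0 : ℝ) * 1)| ≤ 5 * (L + 1) * √E := by
    intro z hz
    rcases hz with ⟨h1, h2, h3⟩ | ⟨h1, h2⟩
    · have h4 := hside z.re z.im h1 h2 h3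
      rw [Complex.re_add_im] at h4
      have h5 := hcenter z.re h1.le
      have h6 : (η : ℂ) * Complex.I + (z.re : ℂ) * 1 = (z.re : ℂ) + η * Complex.I := by ring
      rw [h6] at h5
      have h7 : w z - w ((η : ℂ) * Complex.I + (0 : ℝ) * 1) =
          -(w ((z.re : ℂ) + η * Complex.I) - w z) +
          (w ((z.re : ℂ) + η * Complex.I) - w ((η : ℂ) * Complex.I + (0 : ℝ) * 1)) := by ring
      rw [h7]
      refine (abs_add_le _ _).trans ?_
      rw [abs_neg]
      nlinarith only [h4, h5, hs0]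
    · have h5 := hcenter z.re h1
      have h6 : (η : ℂ) * Complex.I + (z.re : ℂ) * 1 = z := by
        rw [← h2, mul_one, add_comm]
        exact Complex.re_add_im z
      rw [h6] at h5
      nlinarith only [hs0, h5]
  refine ⟨ρ, η, hρ1, hρ2, hη1, hη2, fun z hz z' hz' => ?_⟩
  have h1 := hall z hz
  have h2 := hall z' hz'
  have h3 : w z - w z' = (w z - w ((η : ℂ) * Complex.I + (0 : ℝ) * 1)) -
      (w z' - w ((η : ℂ) * Complex.I + (0 : ℝ) * 1)) := by ring
  rw [h3]
  refine (abs_sub _ _).trans ?_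
  have h4 : 0 ≤ (L + 1) * √E := by (clear * -; positivity)
  linarith only [h1, h2, h4]

end Vale.Agent.P071.Reg
end

section

/-!
# REG-7: the limit at a boundary point, in graph coordinates
-/

open MeasureTheory Metric Filter Topology Real
open scoped ContDiff ENNReal ComplexConjugate

namespace Vale.Agent.P071.Reg

open Vale.Agent.P071.Lim

theorem px_neg' (w : ℂ → ℝ) (z : ℂ) : px (fun y => -w y) z = -px w z := by
  unfold px
  have : (fun y => -w y) = -w := rfl
  rw [this, fderiv_neg]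
  rfl

theorem py_neg' (w : ℂ → ℝ) (z : ℂ) : py (fun y => -w y) z = -py w z := by
  unfold py
  have : (fun y => -w y) = -w := rfl
  rw [this, fderiv_neg]
  rfl

theorem WN.neg {Ω : Set ℂ} {μ : ℝ} {w : ℂ → ℝ} (h : WN Ω μ w) : WN Ω μ (fun z => -w z) where
  smooth := h.smooth.neg
  sq := by simpa only [even_two, Even.neg_pow] using h.sq
  en := by
    have : gsq (fun z => -w z) = gsq w := by
      funext z
      unfold gsq
      rw [px_neg', py_neg']
      ring
    rw [this]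
    exact h.en
  weak v h1 h2 h3 := by
    have := h.weak v h1 h2 h3
    have e1 : ∫ z in Ω, (px (fun z => -w z) z * px v z + py (fun z => -w z) z * py v z) =
        -∫ z in Ω, (px w z * px v z + py w z * py v z) := by
      rw [← integral_neg]
      congr 1
      funext z
      rw [px_neg', py_neg']
      ring
    have e2 : ∫ z in Ω, -w z * v z = -∫ z in Ω, w z * v z := by
      rw [← integral_neg]
      congr 1
      funext z
      ring
    rw [e1, e2, this]
    ring

section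

variable {Ω : Set ℂ} {μ : ℝ} {w : ℂ → ℝ} {r : ℝ} {L : NNReal} {g : ℝ → ℝ}

theorem abs_g_le (hg : LipschitzWith L g) (hg0 : g 0 = 0) (x : ℝ) : |g x| ≤ L * |x| := by
  have := hg.dist_le_mul x 0
  rw [hg0, Real.dist_eq, Real.dist_eq, sub_zero, sub_zero] at this
  exact this

theorem mem_ball_of_box {R : ℝ} (hRr : R * (1 + 2 * (L + 1)) < r) {z : ℂ}
    (h1 : |z.re| ≤ R) (h2 : -(L * R) ≤ z.im) (h3 : z.im ≤ 2 * (L + 1) * R) :
    z ∈ ball (0 : ℂ) r := by
  have hL : (0 : ℝ) ≤ L := L.2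
  have hR0 : 0 ≤ R := (abs_nonneg _).trans h1
  rw [mem_ball_zero_iff]
  refine (Complex.norm_le_abs_re_add_abs_im z).trans_lt ?_
  have : |z.im| ≤ 2 * (L + 1) * R := by
    rw [abs_le]
    refine ⟨?_, h3⟩
    linarith
  linarith only [hRr, h1, this]

/-- Oscillation estimate on one box. -/
theorem local_osc (ho : IsOpen Ω) (hμ : 0 ≤ μ) (h : WN Ω μ w) (hg : LipschitzWith L g)
    (hg0 : g 0 = 0) (hΩ : ∀ z ∈ ball (0 : ℂ) r, z ∈ Ω ↔ g z.re < z.im) {R : ℝ} (hR : 0 < R)
    (hRr : R * (1 + 2 * (L + 1)) < r) (hsmall : 4 * μ * (3 * (L + 1) * R) ^ 2 < 1) :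
    ∃ η : ℝ, (L + 1) * R < η ∧ η < 2 * (L + 1) * R ∧
      ∀ z ∈ Box g (R / 2) ((L + 1) * R), |w z - w ⟨0, η⟩| ≤
        (20 * (L + 1) * √(∫ z in Box g R (2 * (L + 1) * R), gsq w z) + R) +
          2 * μ * (3 * (L + 1) * R) ^ 2 * (|w ⟨0, η⟩| +
            (20 * (L + 1) * √(∫ z in Box g R (2 * (L + 1) * R), gsq w z) + R)) := by
  have hL : (0 : ℝ) ≤ L := L.2
  have hbig : Box g R (2 * (L + 1) * R) ⊆ Ω := by
    intro z hz
    have h1 := abs_g_le hg hg0 z.re
    have h2 : -(L * R) ≤ z.im := by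
      have h3 : L * |z.re| ≤ L * R := mul_le_mul_of_nonneg_left hz.1.le hL
      have h4 := (abs_le.1 h1).1
      linarith only [h3, h4, hz.2.1]
    exact (hΩ z (mem_ball_of_box hRr hz.1.le h2 hz.2.2.le)).2 hz.2.1
  obtain ⟨ρ, η, hρ1, hρ2, hη1, hη2, hosc⟩ := exists_sides hg hg0 hR (h.smooth.mono hbig)
    (h.en.mono_set hbig)
  set E : ℝ := ∫ z in Box g R (2 * (L + 1) * R), gsq w z with hE
  set ε : ℝ := 20 * (L + 1) * √E + R with hε
  have hε0 : 0 < ε := by (clear * - hR; positivity)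
  have hgb : ∀ x : ℝ, |x| ≤ R → -(L * R) ≤ g x ∧ g x ≤ L * R := by
    intro x hx
    have h1 := abs_g_le hg hg0 x
    have h3 : L * |x| ≤ L * R := mul_le_mul_of_nonneg_left hx hL
    exact ⟨by linarith only [h3, (abs_le.1 h1).1], by linarith only [h3, (abs_le.1 h1).2]⟩
  have hU : Ucurve g ρ η ⊆ Ω := by
    rintro z (⟨h1, h2, h3⟩ | ⟨h1, h2⟩)
    · have h4 : |z.re| ≤ R := by linarith only [hρ2, h1]
      have h5 := hgb z.re h4
      exact (hΩ z (mem_ball_of_box hRr h4 (by linarith only [h2, h5]) (by linarith only [hη2, h3]))).2 h2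
    · have h4 : |z.re| ≤ R := by linarith only [hρ2, h1]
      have h5 := hgb z.re h4
      have h6 : L * R < z.im := by rw [h2]; linarith
      exact (hΩ z (mem_ball_of_box hRr h4 (by linarith)
        (by linarith only [hη2, h2]))).2 (by linarith only [hρ1, hρ2, hη1, h2, h5])
  have hQ : Box g ρ η ⊆ Ω := by
    intro z hz
    exact hbig ⟨hz.1.trans hρ2, hz.2.1, hz.2.2.trans hη2⟩
  have hcl : ∀ z ∈ Ω, z ∈ closure (Box g ρ η) → z ∈ Box g ρ η ∨ z ∈ Ucurve g ρ η := by
    intro z hz hzc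
    have hclosed : IsClosed {z : ℂ | |z.re| ≤ ρ ∧ g z.re ≤ z.im ∧ z.im ≤ η} := by
      have hgc := hg.continuous
      have h1 : IsClosed {z : ℂ | |z.re| ≤ ρ} := isClosed_le (by fun_prop) continuous_const
      have h2 : IsClosed {z : ℂ | g z.re ≤ z.im} := isClosed_le (by fun_prop) (by fun_prop)
      have h3 : IsClosed {z : ℂ | z.im ≤ η} := isClosed_le (by fun_prop) continuous_const
      exact h1.inter (h2.inter h3)
    have hsub : closure (Box g ρ η) ⊆ {z : ℂ | |z.re| ≤ ρ ∧ g z.re ≤ z.im ∧ z.im ≤ η} :=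
      closure_minimal (fun y hy => ⟨hy.1.le, hy.2.1.le, hy.2.2.le⟩) hclosed
    obtain ⟨h1, h2, h3⟩ := hsub hzc
    have h4 : |z.re| ≤ R := by linarith only [hρ2, h1]
    have h5 := hgb z.re h4
    have h6 : g z.re < z.im :=
      (hΩ z (mem_ball_of_box hRr h4 (by linarith only [h2, h5]) (by linarith only [hη2, h3]))).1 hz
    rcases h1.lt_or_eq with h7 | h7
    · rcases h3.lt_or_eq with h8 | h8
      · exact Or.inl ⟨h7, h6, h8⟩
      · exact Or.inr (Or.inr ⟨h1, h8⟩)
    · exact Or.inr (Or.inl ⟨h7, h6, h3⟩)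
  have hmem : (⟨0, η⟩ : ℂ) ∈ Ucurve g ρ η := Or.inr ⟨by simp only [abs_zero]; linarith only [hρ1, hρ2], rfl⟩
  set m : ℝ := w ⟨0, η⟩ with hm
  have hℓ : η + L * R ≤ 3 * (L + 1) * R := by nlinarith only [hρ1, hρ2, hη2]
  have hη0 : 0 ≤ η := by nlinarith only [hη1, hη2]
  have hK : ∀ x : ℝ, |x| ≤ ρ → -(L * R) ≤ g x := fun x hx => (hgb x (by linarith only [hρ2, hx])).1
  have hup := box_max ho hμ h hg.continuous hη0 (mul_nonneg hL hR.le) hK hℓ hsmall hQ hU hcl
    (M := m + ε) (fun z hz => by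
      have := (abs_le.1 (hosc z hz _ hmem)).2
      rw [← hm] at this
      linarith)
  have hlo := box_max ho hμ h.neg hg.continuous hη0 (mul_nonneg hL hR.le) hK hℓ hsmall hQ hU hcl
    (M := -m + ε) (fun z hz => by
      have := (abs_le.1 (hosc z hz _ hmem)).1
      rw [← hm] at this
      linarith only [hρ1, hρ2, this])
  refine ⟨η, hη1, hη2, fun z hz => ?_⟩
  have hz' : z ∈ Box g ρ η := ⟨hz.1.trans hρ1, hz.2.1, hz.2.2.trans hη1⟩
  have h1 := hup z hz'
  have h2 := hlo z hz'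
  have h3 : |m + ε| ≤ |m| + ε := by
    refine (abs_add_le _ _).trans ?_
    rw [abs_of_pos hε0]
  have h4 : |-m + ε| ≤ |m| + ε := by
    refine (abs_add_le _ _).trans ?_
    rw [abs_of_pos hε0, abs_neg]
  have h5 : 0 ≤ 2 * μ * (3 * (L + 1) * R) ^ 2 := by (clear * - hμ hR; positivity)
  have h6 := mul_le_mul_of_nonneg_left h3 h5
  have h7 := mul_le_mul_of_nonneg_left h4 h5
  rw [abs_le]
  constructor <;> linarith only [h1, h6, h2, h7]

/-- **The limit at a boundary point**, in graph coordinates. -/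
theorem local_limit (ho : IsOpen Ω) (hμ : 0 ≤ μ) (h : WN Ω μ w) (hr : 0 < r)
    (hg : LipschitzWith L g) (hg0 : g 0 = 0)
    (hΩ : ∀ z ∈ ball (0 : ℂ) r, z ∈ Ω ↔ g z.re < z.im) :
    ∃ y : ℝ, Tendsto w (𝓝[Ω] 0) (𝓝 y) := by
  have hL : (0 : ℝ) ≤ L := L.2
  set H : ℝ := (L : ℝ) + 1 with hH
  have hH1 : 1 ≤ H := by rw [hH]; linarith only []
  -- the first radius
  obtain ⟨R₀, hR₀, hR₀r, hR₀s⟩ : ∃ R₀ > 0, R₀ * (1 + 2 * H) < r ∧
      4 * μ * (3 * H * R₀) ^ 2 < 1 := by
    refine ⟨min (r / (2 * (1 + 2 * H))) (1 / (6 * H * (2 * μ + 1))), ?_, ?_, ?_⟩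
    · (clear * - hr hμ; positivity)
    · calc min (r / (2 * (1 + 2 * H))) (1 / (6 * H * (2 * μ + 1))) * (1 + 2 * H)
          ≤ r / (2 * (1 + 2 * H)) * (1 + 2 * H) := by gcongr; exact min_le_left _ _
        _ = r / 2 := by (clear * - hH1 hr; field_simp)
        _ < r := by linarith only [hr]
    · have h1 : 3 * H * min (r / (2 * (1 + 2 * H))) (1 / (6 * H * (2 * μ + 1))) ≤
          1 / (2 * (2 * μ + 1)) := by
        calc 3 * H * min (r / (2 * (1 + 2 * H))) (1 / (6 * H * (2 * μ + 1)))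
            ≤ 3 * H * (1 / (6 * H * (2 * μ + 1))) := by gcongr; exact min_le_right _ _
          _ = 1 / (2 * (2 * μ + 1)) := by field_simp; norm_num
      have h0 : 0 ≤ 3 * H * min (r / (2 * (1 + 2 * H))) (1 / (6 * H * (2 * μ + 1))) := by
        (clear * - hr hμ; positivity)
      have h2 := pow_le_pow_left₀ h0 h1 2
      have h3 : 4 * μ * (1 / (2 * (2 * μ + 1))) ^ 2 < 1 := by
        have : 4 * μ * (1 / (2 * (2 * μ + 1))) ^ 2 = μ / (2 * μ + 1) ^ 2 := by
          field_simp; ring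
        rw [this, div_lt_one (by (clear * - hμ; positivity))]
        nlinarith only []
      calc 4 * μ * (3 * H * min (r / (2 * (1 + 2 * H))) (1 / (6 * H * (2 * μ + 1)))) ^ 2
          ≤ 4 * μ * (1 / (2 * (2 * μ + 1))) ^ 2 := by (clear * - h2 hμ; gcongr)
        _ < 1 := h3
  -- the energies
  set E : ℝ → ℝ := fun R => ∫ z in Box g R (2 * H * R), gsq w z with hE
  have hosc : ∀ R : ℝ, 0 < R → R ≤ R₀ → ∃ η : ℝ, H * R < η ∧ η < 2 * H * R ∧
      ∀ z ∈ Box g (R / 2) (H * R), |w z - w ⟨0, η⟩| ≤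
        (20 * H * √(E R) + R) + 2 * μ * (3 * H * R) ^ 2 * (|w ⟨0, η⟩| + (20 * H * √(E R) + R)) := by
    intro R hR hRR
    refine local_osc ho hμ h hg hg0 hΩ hR ?_ ?_
    · exact (mul_le_mul_of_nonneg_right hRR (by (clear * -; positivity))).trans_lt hR₀r
    · have : (3 * H * R) ^ 2 ≤ (3 * H * R₀) ^ 2 := by (clear * - hR hRR; gcongr)
      calc 4 * μ * (3 * (L + 1) * R) ^ 2 = 4 * μ * (3 * H * R) ^ 2 := by rw [hH]
        _ ≤ 4 * μ * (3 * H * R₀) ^ 2 := by (clear * - this hμ; gcongr)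
        _ < 1 := hR₀s
  -- boundedness
  obtain ⟨W, hW0, hW⟩ : ∃ W : ℝ, 0 ≤ W ∧ ∀ z ∈ Box g (R₀ / 2) (H * R₀), |w z| ≤ W := by
    obtain ⟨η, -, -, hb⟩ := hosc R₀ hR₀ le_rfl
    refine ⟨|w ⟨0, η⟩| + ((20 * H * √(E R₀) + R₀) +
        2 * μ * (3 * H * R₀) ^ 2 * (|w ⟨0, η⟩| + (20 * H * √(E R₀) + R₀))), ?_, fun z hz => ?_⟩
    · (clear * - hR₀ hμ; positivity)
    · have h1 := hb z hz
      have h2 : |w z| ≤ |w ⟨0, η⟩| + |w z - w ⟨0, η⟩| := by
        have : w z = w ⟨0, η⟩ + (w z - w ⟨0, η⟩) := by ring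
        conv_lhs => rw [this]
        exact abs_add_le _ _
      linarith only [h1, h2]
  -- the bound of the oscillation
  set B : ℝ → ℝ := fun R => 2 * ((20 * H * √(E R) + R) +
    2 * μ * (3 * H * R) ^ 2 * (W + (20 * H * √(E R) + R))) with hB
  have hosc2 : ∀ R : ℝ, 0 < R → R ≤ R₀ / 2 → ∀ z ∈ Box g (R / 2) (H * R),
      ∀ z' ∈ Box g (R / 2) (H * R), |w z - w z'| ≤ B R := by
    intro R hR hRR z hz z' hz'
    obtain ⟨η, hη1, hη2, hb⟩ := hosc R hR (by linarith only [hR, hRR])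
    have hmem : (⟨0, η⟩ : ℂ) ∈ Box g (R₀ / 2) (H * R₀) := by
      refine ⟨?_, ?_, ?_⟩
      · simp; (clear * - hR₀; positivity)
      · show g 0 < η
        rw [hg0]
        exact lt_trans (by (clear * - hR; positivity)) hη1
      · show η < H * R₀
        have : 2 * H * R ≤ H * R₀ := by nlinarith
        linarith only [hη2, this]
    have h1 := hb z hz
    have h2 := hb z' hz'
    have h3 := hW _ hmem
    have h4 : 2 * μ * (3 * H * R) ^ 2 * (|w ⟨0, η⟩| + (20 * H * √(E R) + R)) ≤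
        2 * μ * (3 * H * R) ^ 2 * (W + (20 * H * √(E R) + R)) := by (clear * - h3 hμ hR; gcongr)
    have h5 : |w z - w z'| ≤ |w z - w ⟨0, η⟩| + |w z' - w ⟨0, η⟩| := by
      have : w z - w z' = (w z - w ⟨0, η⟩) - (w z' - w ⟨0, η⟩) := by ring
      rw [this]
      exact abs_sub _ _
    simp only [hB]
    linarith only [h1, h2, h4, h5]
  -- the energies tend to zero
  set Rn : ℕ → ℝ := fun n => R₀ / 2 / ((n : ℝ) + 1) with hRn
  have hRn0 : ∀ n, 0 < Rn n := fun n => by simp only [hRn]; (clear * - hR₀; positivity)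
  have hRnle : ∀ n, Rn n ≤ R₀ / 2 := by
    intro n
    simp only [hRn]
    rw [div_le_iff₀ (by (clear * -; positivity))]
    have : (0 : ℝ) ≤ n := Nat.cast_nonneg n
    nlinarith only [hR₀]
  have hRnanti : Antitone Rn := by
    intro m n hmn
    simp only [hRn]
    have : (m : ℝ) ≤ n := by exact_mod_cast hmn
    (clear * - hR₀ this; gcongr)
  have hRnlim : Tendsto Rn atTop (𝓝 0) := by
    have h1 := (tendsto_one_div_add_atTop_nhds_zero_nat (𝕜 := ℝ)).const_mul (R₀ / 2)
    rw [mul_zero] at h1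
    refine h1.congr fun n => ?_
    simp only [hRn]
    ring
  have hElim : Tendsto (fun n => E (Rn n)) atTop (𝓝 0) := by
    have hBoxsub : ∀ {R R' : ℝ}, R ≤ R' → Box g R (2 * H * R) ⊆ Box g R' (2 * H * R') := by
      intro R R' hRR z hz
      refine ⟨hz.1.trans_le hRR, hz.2.1, hz.2.2.trans_le ?_⟩
      (clear * - hRR; gcongr)
    have hsubΩ : Box g (Rn 0) (2 * H * Rn 0) ⊆ Ω := by
      intro z hz
      have hz1 : |z.re| ≤ R₀ := by
        have := hz.1.le
        have := hRnle 0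
        linarith
      have h1 := abs_g_le hg hg0 z.re
      have h2 : -(L * R₀) ≤ z.im := by
        have h3 : L * |z.re| ≤ L * R₀ := mul_le_mul_of_nonneg_left hz1 hL
        have h4 := (abs_le.1 h1).1
        linarith only [h3, h4, hz.2.1]
      have h3 : z.im ≤ 2 * (L + 1) * R₀ := by
        have h4 := hz.2.2.le
        have h5 := hRnle 0
        have h6 : 2 * H * Rn 0 ≤ 2 * H * R₀ := by
          apply mul_le_mul_of_nonneg_left _ (by (clear * -; positivity))
          linarith only [hR₀, h5]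
        rw [← hH]
        linarith only [h4, h6]
      exact (hΩ z (mem_ball_of_box hR₀r hz1 h2 h3)).2 hz.2.1
    have hT := tendsto_setIntegral_of_antitone (μ := volume) (f := gsq w)
      (s := fun n => Box g (Rn n) (2 * H * Rn n))
      (fun n => (isOpen_Box hg.continuous _ _).measurableSet)
      (fun m n hmn => hBoxsub (hRnanti hmn)) ⟨0, h.en.mono_set hsubΩ⟩
    have hempty : (⋂ n, Box g (Rn n) (2 * H * Rn n)) = ∅ := by
      rw [Set.eq_empty_iff_forall_notMem]
      intro z hz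
      rw [Set.mem_iInter] at hz
      have h1 : |z.re| ≤ 0 := ge_of_tendsto' hRnlim fun n => (hz n).1.le
      have h2 : z.re = 0 := abs_eq_zero.1 (le_antisymm h1 (abs_nonneg _))
      have h3 : z.im ≤ 0 := by
        have h4 := hRnlim.const_mul (2 * H)
        rw [mul_zero] at h4
        exact ge_of_tendsto' h4 fun n => (hz n).2.2.le
      have h4 := (hz 0).2.1
      rw [h2, hg0] at h4
      linarith only [h3, h4]
    rw [hempty, Measure.restrict_empty, integral_zero_measure] at hT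
    exact hT
  have hBlim : Tendsto (fun n => B (Rn n)) atTop (𝓝 0) := by
    have h1 : Tendsto (fun n => √(E (Rn n))) atTop (𝓝 0) := by
      have := (Real.continuous_sqrt.tendsto 0).comp hElim
      rwa [Real.sqrt_zero] at this
    have h2 : Tendsto (fun n => 20 * H * √(E (Rn n)) + Rn n) atTop (𝓝 (20 * H * 0 + 0)) :=
      (h1.const_mul _).add hRnlim
    have h3 : Tendsto (fun n => 2 * μ * (3 * H * Rn n) ^ 2 *
        (W + (20 * H * √(E (Rn n)) + Rn n))) atTop
        (𝓝 (2 * μ * (3 * H * 0) ^ 2 * (W + (20 * H * 0 + 0)))) :=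
      (((hRnlim.const_mul (3 * H)).pow 2).const_mul (2 * μ)).mul (h2.const_add W)
    have h4 := (h2.add h3).const_mul 2
    simp only [mul_zero, add_zero, ne_eq, OfNat.ofNat_ne_zero, not_false_eq_true, zero_pow, zero_mul] at h4
    exact h4
  -- Cauchy
  have hsubBox : ∀ R : ℝ, 0 < R → R ≤ R₀ → ball 0 (R / 2) ∩ Ω ⊆ Box g (R / 2) (H * R) := by
    intro R hR hRR z hz
    have h1 : ‖z‖ < R / 2 := mem_ball_zero_iff.1 hz.1
    have h2 : |z.re| < R / 2 := (Complex.abs_re_le_norm z).trans_lt h1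
    have h3 : |z.im| < R / 2 := (Complex.abs_im_le_norm z).trans_lt h1
    have h4 : R ≤ r := by
      have : R₀ * 1 ≤ R₀ * (1 + 2 * H) := by gcongr; linarith
      linarith only [hR₀r, hRR, this]
    have h5 : z ∈ ball (0 : ℂ) r := by rw [mem_ball_zero_iff]; linarith only [hr, h1, h4]
    refine ⟨h2, (hΩ z h5).1 hz.2, ?_⟩
    have h6 := (abs_lt.1 h3).2
    nlinarith
  have hne : (𝓝[Ω] (0 : ℂ)).NeBot := by
    rw [← mem_closure_iff_nhdsWithin_neBot, Metric.mem_closure_iff]
    intro ε hε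
    refine ⟨⟨0, min ε r / 2⟩, ?_, ?_⟩
    · have h1 : 0 < min ε r / 2 := by (clear * - hε hr; positivity)
      have hn : ‖(⟨0, min ε r / 2⟩ : ℂ)‖ = min ε r / 2 := by
        have : (⟨0, min ε r / 2⟩ : ℂ) = ((min ε r / 2 : ℝ) : ℂ) * Complex.I := by
          apply Complex.ext <;> simp
        rw [this, norm_mul, Complex.norm_I, mul_one, Complex.norm_real, Real.norm_eq_abs,
          abs_of_pos h1]
      refine (hΩ _ ?_).2 ?_
      · rw [mem_ball_zero_iff, hn]
        have := min_le_right ε r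
        linarith only [hr, this]
      · show g 0 < min ε r / 2
        rw [hg0]; exact h1
    · have h1 : 0 < min ε r / 2 := by (clear * - hε hr; positivity)
      rw [dist_eq_norm, zero_sub, norm_neg]
      have : (⟨0, min ε r / 2⟩ : ℂ) = ((min ε r / 2 : ℝ) : ℂ) * Complex.I := by
        apply Complex.ext <;> simp
      rw [this, norm_mul, Complex.norm_I, mul_one, Complex.norm_real, Real.norm_eq_abs,
        abs_of_pos h1]
      have := min_le_left ε r
      linarith only [hε, this]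
  apply cauchy_map_iff_exists_tendsto.1
  rw [Metric.cauchy_iff]
  refine ⟨inferInstance, fun ε hε => ?_⟩
  obtain ⟨n, hn⟩ := ((hBlim.eventually_lt_const hε)).exists
  refine ⟨w '' Box g (Rn n / 2) (H * Rn n), ?_, ?_⟩
  · apply image_mem_map
    rw [mem_nhdsWithin]
    exact ⟨ball 0 (Rn n / 2), isOpen_ball, mem_ball_self (half_pos (hRn0 n)),
      hsubBox (Rn n) (hRn0 n) (by have := hRnle n; linarith only [hR₀, this])⟩
  · rintro _ ⟨z, hz, rfl⟩ _ ⟨z', hz', rfl⟩
    rw [Real.dist_eq]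
    exact (hosc2 (Rn n) (hRn0 n) (hRnle n) z hz z' hz').trans_lt hn

end

end Vale.Agent.P071.Reg
end

section

/-!
# REG-8: elements of `V(Ω)` have a version continuous on the closure
-/

open MeasureTheory Metric Filter Topology Real
open scoped ContDiff ENNReal ComplexConjugate

namespace Vale.Agent.P071.Reg

open Vale.Agent.P071.Lim

/-- The limit at a boundary point. -/
theorem boundary_limit {Ω : Set ℂ} (ho : IsOpen Ω) (hL : LipschitzBoundary Ω) {μ : ℝ}
    (hμ : 0 ≤ μ) {w : ℂ → ℝ} (h : WN Ω μ w) {p : ℂ} (hp : p ∈ frontier Ω) :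
    ∃ y : ℝ, Tendsto w (𝓝[Ω] p) (𝓝 y) := by
  obtain ⟨e, r, L, g, he, hr, hg, hΩ⟩ := hL p hp
  have hee : conj e * e = 1 := by
    rw [mul_comm, Complex.mul_conj, Complex.normSq_eq_norm_sq, he]; norm_num
  have hee' : e * conj e = 1 := by rw [mul_comm]; exact hee
  have hinv : ∀ ζ : ℂ, conj e * (p + e * ζ - p) = ζ := by
    intro ζ
    rw [add_sub_cancel_left, ← mul_assoc, hee, one_mul]
  have hΩ' : ∀ ζ ∈ ball (0 : ℂ) r, ζ ∈ {ζ : ℂ | p + e * ζ ∈ Ω} ↔ g ζ.re < ζ.im := by
    intro ζ hζ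
    have h1 : p + e * ζ ∈ ball p r := by
      rw [mem_ball, dist_eq_norm, add_sub_cancel_left, norm_mul, he, one_mul]
      exact mem_ball_zero_iff.1 hζ
    have h2 := hΩ _ h1
    rw [hinv] at h2
    exact h2
  have hpn : p ∉ Ω := by
    rw [ho.frontier_eq] at hp
    exact hp.2
  have hpc : p ∈ closure Ω := frontier_subset_closure hp
  have hg0 : g 0 = 0 := by
    apply le_antisymm
    · by_contra hcon
      push Not at hcon
      have hcont : Continuous fun z : ℂ =>
          g ((conj e * (z - p)).re) - (conj e * (z - p)).im := by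
        have := hg.continuous
        fun_prop
      have hpos : 0 < g ((conj e * (p - p)).re) - (conj e * (p - p)).im := by
        simpa only [sub_self, mul_zero, Complex.zero_re, Complex.zero_im, sub_zero] using hcon
      have hev : ∀ᶠ z in 𝓝 p, 0 < g ((conj e * (z - p)).re) - (conj e * (z - p)).im :=
        hcont.continuousAt.eventually_const_lt hpos
      have hev2 : ∀ᶠ z in 𝓝 p, z ∈ ball p r := ball_mem_nhds p hr
      rw [mem_closure_iff_frequently] at hpc
      obtain ⟨z, hz1, hz2, hz3⟩ := (hpc.and_eventually (hev.and hev2)).exists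
      have := (hΩ z hz3).1 hz1
      linarith only [hz2, this]
    · by_contra hcon
      push Not at hcon
      apply hpn
      refine (hΩ p (mem_ball_self hr)).2 ?_
      simpa only [sub_self, mul_zero, Complex.zero_re, Complex.zero_im] using hcon
  obtain ⟨y, hy⟩ := local_limit (ho.preimage (by fun_prop : Continuous fun ζ : ℂ => p + e * ζ)) hμ
    (h.rigid ho p e he) hr hg hg0 hΩ'
  refine ⟨y, ?_⟩
  have hmap : Tendsto (fun z : ℂ => conj e * (z - p)) (𝓝[Ω] p) (𝓝[{ζ : ℂ | p + e * ζ ∈ Ω}] 0) := by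
    apply tendsto_nhdsWithin_of_tendsto_nhds_of_eventually_within
    · have h1 : Continuous fun z : ℂ => conj e * (z - p) := by fun_prop
      have h2 := h1.tendsto p
      simp only [sub_self, mul_zero] at h2
      exact h2.mono_left nhdsWithin_le_nhds
    · filter_upwards [self_mem_nhdsWithin] with z hz
      show p + e * (conj e * (z - p)) ∈ Ω
      rw [← mul_assoc, hee', one_mul, add_sub_cancel]
      exact hz
  have h3 := hy.comp hmap
  refine h3.congr fun z => ?_
  simp only [Function.comp]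
  rw [← mul_assoc, hee', one_mul, add_sub_cancel]

theorem exists_extension {Ω : Set ℂ} (ho : IsOpen Ω) (hL : LipschitzBoundary Ω) {μ : ℝ}
    (hμ : 0 ≤ μ) {w : ℂ → ℝ} (h : WN Ω μ w) :
    ∃ W : ℂ → ℝ, ContinuousOn W (closure Ω) ∧ ∀ z ∈ Ω, W z = w z := by
  refine ⟨extendFrom Ω w, continuousOn_extendFrom le_rfl fun p hp => ?_, fun z hz => ?_⟩
  · by_cases hpΩ : p ∈ Ω
    · exact ⟨w p, (h.smooth.continuousOn p hpΩ)⟩
    · exact boundary_limit ho hL hμ h (by rw [ho.frontier_eq]; exact ⟨hp, hpΩ⟩)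
  · exact extendFrom_eq (subset_closure hz) (h.smooth.continuousOn z hz)

theorem IsH1.congr {Ω : Set ℂ} {u w gx gy : ℂ → ℝ} (hu : IsH1 Ω u gx gy)
    (hw : ∀ᵐ z ∂(volume.restrict Ω), w z = u z) : IsH1 Ω w gx gy where
  v_mem := hu.v_mem.ae_eq (hw.mono fun z hz => hz.symm)
  gx_mem := hu.gx_mem
  gy_mem := hu.gy_mem
  weak_x φ h1 h2 h3 := by
    rw [← hu.weak_x φ h1 h2 h3]
    refine integral_congr_ae (hw.mono fun z hz => ?_)
    simp only
    rw [hz]
  weak_y φ h1 h2 h3 := by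
    rw [← hu.weak_y φ h1 h2 h3]
    refine integral_congr_ae (hw.mono fun z hz => ?_)
    simp only
    rw [hz]

theorem muOne_nonneg (Ω : Set ℂ) : 0 ≤ muOne Ω := by
  unfold muOne
  apply Real.sInf_nonneg
  rintro q ⟨v, gx, gy, -, -, h1, rfl⟩
  exact div_nonneg (integral_nonneg fun z => by positivity) h1.le

/-- **Elements of `V(Ω)` have a version which is continuous on the closure of `Ω`.** -/
theorem InV.exists_continuous {Ω : Set ℂ} (ho : IsOpen Ω) (hL : LipschitzBoundary Ω)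
    {u : ℂ → ℝ} (hu : InV Ω u) :
    ∃ w : ℂ → ℝ, ContinuousOn w (closure Ω) ∧ (∀ᵐ z ∂(volume.restrict Ω), w z = u z) ∧
      InV Ω w := by
  obtain ⟨gx, gy, hH, hweak⟩ := hu
  set μ := muOne Ω with hμ
  have hμ0 : 0 ≤ μ := muOne_nonneg Ω
  -- smooth test functions
  have hφ : ∀ φ : ℂ → ℝ, ContDiff ℝ ∞ φ → HasCompactSupport φ → IsH1 Ω φ (px φ) (py φ) := by
    intro φ h1 h2
    have h3 : ContDiff ℝ 1 φ := h1.of_le (by norm_cast)
    have hc : Continuous (gsq φ) := continuousOn_univ.1 (continuousOn_gsq isOpen_univ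
      h3.contDiffOn)
    have hcx : Continuous (px φ) := continuousOn_univ.1 (continuousOn_px isOpen_univ
      h3.contDiffOn)
    have hcy : Continuous (py φ) := continuousOn_univ.1 (continuousOn_py isOpen_univ
      h3.contDiffOn)
    have hsx : HasCompactSupport (px φ) := h2.fderiv_apply ℝ 1
    have hsy : HasCompactSupport (py φ) := h2.fderiv_apply ℝ Complex.I
    refine isH1_of_c1 ho h3.contDiffOn ?_ ?_
    · have : Integrable fun z => φ z ^ 2 := by
        have h5 : (fun z => φ z ^ 2) = fun z => φ z * φ z := by funext z; ring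
        rw [h5]
        exact (h3.continuous.mul h3.continuous).integrable_of_hasCompactSupport h2.mul_left
      exact this.integrableOn
    · have : Integrable (gsq φ) := by
        have h5 : gsq φ = fun z => px φ z * px φ z + py φ z * py φ z := by
          funext z; unfold gsq; ring
        rw [h5]
        exact ((hcx.mul hcx).integrable_of_hasCompactSupport hsx.mul_left).add
          ((hcy.mul hcy).integrable_of_hasCompactSupport hsy.mul_left)
      exact this.integrableOn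
  have hweak' : ∀ φ : ℂ → ℝ, ContDiff ℝ ∞ φ → HasCompactSupport φ → tsupport φ ⊆ Ω →
      ∫ z in Ω, (gx z * px φ z + gy z * py φ z) = μ * ∫ z in Ω, u z * φ z :=
    fun φ h1 h2 _ => hweak φ _ _ (hφ φ h1 h2)
  obtain ⟨w, hwc, hwu⟩ := exists_continuous_version ho hH hweak'
  have hHw : IsH1 Ω w gx gy := IsH1.congr hH hwu
  have hint : ∀ v : ℂ → ℝ, ∫ z in Ω, w z * v z = ∫ z in Ω, u z * v z := fun v =>
    integral_congr_ae (hwu.mono fun z hz => by simp only; rw [hz])
  have hweakw : ∀ v hx hy : ℂ → ℝ, IsH1 Ω v hx hy →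
      ∫ z in Ω, (gx z * hx z + gy z * hy z) = μ * ∫ z in Ω, w z * v z := by
    intro v hx hy hv
    rw [hint v]
    exact hweak v hx hy hv
  obtain ⟨h1, -, h3⟩ := reg_H1 ho hHw hwc (fun φ a b _ => hweakw φ _ _ (hφ φ a b))
  have hWN : WN Ω μ w := by
    have h1' : ContDiffOn ℝ 1 w Ω := h1.of_le (by norm_num)
    refine ⟨h1', hHw.v_mem.integrable_sq, ?_, ?_⟩
    · have h4 : IntegrableOn (fun z => gx z ^ 2 + gy z ^ 2) Ω :=
        hHw.gx_mem.integrable_sq.add hHw.gy_mem.integrable_sq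
      refine h4.congr (h3.mono fun z hz => ?_)
      simp only
      rw [hz.1, hz.2]
      rfl
    · intro v hv hv2 hvg
      have h5 := hweakw v _ _ (isH1_of_c1 ho hv hv2 hvg)
      rw [← h5]
      refine integral_congr_ae (h3.mono fun z hz => ?_)
      simp only
      rw [hz.1, hz.2]
  obtain ⟨W, hWc, hWw⟩ := exists_extension ho hL hμ0 hWN
  have hWae : ∀ᵐ z ∂(volume.restrict Ω), W z = w z := by
    filter_upwards [ae_restrict_mem ho.measurableSet] with z hz
    exact hWw z hz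
  refine ⟨W, hWc, ?_, gx, gy, IsH1.congr hHw hWae, ?_⟩
  · filter_upwards [hWae, hwu] with z h4 h5
    rw [h4, h5]
  · intro v hx hy hv
    rw [hweakw v hx hy hv]
    congr 1
    exact integral_congr_ae (hWae.mono fun z hz => by simp only; rw [hz])

end Vale.Agent.P071.Reg
end
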