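import Vale.Agent.P071.MathlibUsed
import Vale.Agent.P071.Bdl.B1
import Vale.Agent.P071.Bdl.B3
attribute [-instance] ProperSMul.toContinuousSMul IsTopologicalTorsor.toContinuousSMul IdemSemiring.toCanonicallyOrderedAdd IdemSemiring.toMulLeftMono IdemSemiring.toMulRightMono AddQuantale.instAddLeftMono AddQuantale.instAddRightMono Quantale.instMulLeftMono Quantale.instMulRightMono FiniteDimensional.rclike_to_real IsScalarTower.complexToReal FiniteDimensional.complexToReal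

set_option linter.all false

section

/-!
# Conformal change of variables (task LIM-CONF)
-/

open MeasureTheory Metric Filter Topology Real
open scoped ContDiff ENNReal

namespace Vale.Agent.P071.Lim

lemma Conf.differentiableOn {f F : ℂ → ℂ} (hf : Conf f F) : DifferentiableOn ℂ f (ball 0 1) :=
  fun z hz => (hf.deriv z hz).differentiableAt.differentiableWithinAt

lemma Conf.deriv_eq {f F : ℂ → ℂ} (hf : Conf f F) {z : ℂ} (hz : z ∈ DD) : _root_.deriv f z = F z :=
  (hf.deriv z hz).deriv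

lemma Conf.deriv_ne {f F : ℂ → ℂ} (hf : Conf f F) : ∀ z ∈ ball (0:ℂ) 1, _root_.deriv f z ≠ 0 := by
  intro z hz
  rw [hf.deriv_eq hz]
  exact hf.ne_zero z hz

lemma Conf.F_differentiableOn {f F : ℂ → ℂ} (hf : Conf f F) : DifferentiableOn ℂ F (ball 0 1) :=
  (hf.differentiableOn.deriv isOpen_ball).congr fun _ hz => (hf.deriv_eq hz).symm

lemma Conf.isOpen_image {f F : ℂ → ℂ} (hf : Conf f F) : IsOpen (f '' DD) :=
  Vale.P071.isOpen_image_ball hf.differentiableOn hf.deriv_ne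

lemma Conf.isBounded_image {f F : ℂ → ℂ} (hf : Conf f F) : Bornology.IsBounded (f '' DD) := by
  obtain ⟨C, hC⟩ := hf.bdd
  rw [isBounded_iff_forall_norm_le]
  refine ⟨C, ?_⟩
  rintro _ ⟨z, hz, rfl⟩
  exact hC z hz

/-- the inverse of `f` -/
theorem exists_inverse {f F : ℂ → ℂ} (hf : Conf f F) : ∃ g : ℂ → ℂ,
    IsOpen (f '' DD) ∧ (∀ z ∈ DD, g (f z) = z) ∧ (∀ x ∈ f '' DD, g x ∈ DD ∧ f (g x) = x) ∧
      (∀ x ∈ f '' DD, HasDerivAt g (F (g x))⁻¹ x) ∧ ContDiffOn ℂ ∞ g (f '' DD) := by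
  have h1 := hf.differentiableOn
  have h2 := hf.deriv_ne
  refine ⟨Vale.P071.invD f, hf.isOpen_image, fun z hz => Vale.P071.invD_apply hf.inj hz,
    fun x hx => ⟨Vale.P071.invD_mem hx, Vale.P071.apply_invD hx⟩, ?_, ?_⟩
  · rintro _ ⟨z, hz, rfl⟩
    rw [Vale.P071.invD_apply hf.inj hz, ← hf.deriv_eq hz]
    exact Vale.P071.invD_hasDerivAt h1 hf.inj h2 hz
  · exact (Vale.P071.invD_differentiableOn h1 hf.inj h2).contDiffOn hf.isOpen_image

lemma Conf.hasFDerivWithinAt {f F : ℂ → ℂ} (hf : Conf f F) :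
    ∀ z ∈ DD, HasFDerivWithinAt f
      ((ContinuousLinearMap.toSpanSingleton ℂ (F z)).restrictScalars ℝ) DD z :=
  fun z hz => (Vale.P071.hasFDerivAt_real (hf.deriv z hz)).hasFDerivWithinAt

lemma abs_det_toSpanSingleton (a : ℂ) :
    |((ContinuousLinearMap.toSpanSingleton ℂ a).restrictScalars ℝ : ℂ →L[ℝ] ℂ).det| = ‖a‖ ^ 2 := by
  rw [Vale.P071.det_of_eq_mul a]
  · rw [abs_of_nonneg (by positivity)]
  · intro v
    simp [mul_comm]

/-- Change of variables `z ↦ f z`. -/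
theorem conf_integral {f F : ℂ → ℂ} (hf : Conf f F) (h : ℂ → ℝ) :
    ∫ x in f '' DD, h x = ∫ z in DD, ‖F z‖ ^ 2 * h (f z) := by
  rw [integral_image_eq_integral_abs_det_fderiv_smul volume measurableSet_ball
    hf.hasFDerivWithinAt hf.inj]
  congr 1
  ext z
  rw [abs_det_toSpanSingleton, smul_eq_mul]

theorem conf_integrable_iff {f F : ℂ → ℂ} (hf : Conf f F) (h : ℂ → ℝ) :
    IntegrableOn h (f '' DD) ↔ IntegrableOn (fun z => ‖F z‖ ^ 2 * h (f z)) DD := by
  rw [integrableOn_image_iff_integrableOn_abs_det_fderiv_smul volume measurableSet_ball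
    hf.hasFDerivWithinAt hf.inj]
  simp only [abs_det_toSpanSingleton, smul_eq_mul]

/-- `|F|²` is integrable (the area of `f(D)`). -/
theorem conf_area {f F : ℂ → ℂ} (hf : Conf f F) : IntegrableOn (fun z => ‖F z‖ ^ 2) DD := by
  have h := (conf_integrable_iff hf (fun _ => 1)).1
    (integrableOn_const hf.isBounded_image.measure_lt_top.ne)
  simpa only [mul_one] using h

/-- Conformal change of the gradient: `|∇(v ∘ f)|² = |F|² |∇v|² ∘ f`. -/
theorem gsq_comp {f F : ℂ → ℂ} (hf : Conf f F) {v : ℂ → ℝ} (hv : ContDiffOn ℝ 1 v (f '' DD))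
    {z : ℂ} (hz : z ∈ DD) : gsq (fun y => v (f y)) z = ‖F z‖ ^ 2 * gsq v (f z) := by
  have hvd : DifferentiableAt ℝ v (f z) :=
    (hv.differentiableOn (by norm_num)).differentiableAt
      (hf.isOpen_image.mem_nhds (Set.mem_image_of_mem f hz))
  exact Vale.P071.gradSq_comp hvd (hf.deriv z hz)

/-- first derivatives of a composition with a holomorphic function -/
lemma px_py_comp {f : ℂ → ℂ} {a z : ℂ} {v : ℂ → ℝ} (hv : DifferentiableAt ℝ v (f z))
    (hf : HasDerivAt f a z) :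
    px (fun y => v (f y)) z = px v (f z) * a.re + py v (f z) * a.im ∧
      py (fun y => v (f y)) z = py v (f z) * a.re - px v (f z) * a.im := by
  have h1 : HasFDerivAt (fun x => v (f x))
      ((fderiv ℝ v (f z)).comp ((ContinuousLinearMap.toSpanSingleton ℂ a).restrictScalars ℝ)) z :=
    hv.hasFDerivAt.comp z (Vale.P071.hasFDerivAt_real hf)
  unfold px py
  rw [h1.fderiv]
  have e1 : a = a.re • (1 : ℂ) + a.im • Complex.I := by simp only [Complex.real_smul, mul_one, Complex.re_add_im]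
  have e2 : Complex.I * a = (-a.im) • (1 : ℂ) + a.re • Complex.I := by
    apply Complex.ext <;> simp
  simp only [ContinuousLinearMap.coe_comp, ContinuousLinearMap.coe_restrictScalars', Function.comp,
    ContinuousLinearMap.toSpanSingleton_apply, smul_eq_mul, one_mul]
  have e3 : fderiv ℝ v (f z) a = a.re * fderiv ℝ v (f z) 1 + a.im * fderiv ℝ v (f z) Complex.I := by
    calc fderiv ℝ v (f z) a = fderiv ℝ v (f z) (a.re • (1 : ℂ) + a.im • Complex.I) := by rw [← e1]
      _ = _ := by rw [map_add, map_smul, map_smul, smul_eq_mul, smul_eq_mul]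
  constructor
  · rw [e3]; ring
  · rw [e2, map_add, map_smul, map_smul, smul_eq_mul, smul_eq_mul]; ring

/-- Conformal change of the Laplacian: `Δ(v ∘ f) = |F|² (Δv) ∘ f`. -/
theorem lap_comp {f F : ℂ → ℂ} (hf : Conf f F) {v : ℂ → ℝ} (hv : ContDiffOn ℝ 2 v (f '' DD))
    {z : ℂ} (hz : z ∈ DD) : lap (fun y => v (f y)) z = ‖F z‖ ^ 2 * lap v (f z) := by
  have hzo : DD ∈ 𝓝 z := isOpen_ball.mem_nhds hz
  have hfz : f '' DD ∈ 𝓝 (f z) := hf.isOpen_image.mem_nhds (Set.mem_image_of_mem f hz)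
  have hfd : ContDiffOn ℝ 1 (fderiv ℝ v) (f '' DD) :=
    hv.fderiv_of_isOpen hf.isOpen_image (by (clear * -; norm_num))
  have hfdz : DifferentiableAt ℝ (fderiv ℝ v) (f z) :=
    (hfd.differentiableOn (by norm_num)).differentiableAt hfz
  have hpx : DifferentiableAt ℝ (px v) (f z) := by
    unfold px
    exact hfdz.clm_apply (differentiableAt_const _)
  have hpy : DifferentiableAt ℝ (py v) (f z) := by
    unfold py
    exact hfdz.clm_apply (differentiableAt_const _)
  have hloc : ∀ y ∈ DD, px (fun y => v (f y)) y = px v (f y) * (F y).re + py v (f y) * (F y).im ∧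
      py (fun y => v (f y)) y = py v (f y) * (F y).re - px v (f y) * (F y).im := by
    intro y hy
    apply px_py_comp _ (hf.deriv y hy)
    exact (hv.differentiableOn (by norm_num)).differentiableAt
      (hf.isOpen_image.mem_nhds (Set.mem_image_of_mem f hy))
  have ex : px (fun y => v (f y)) =ᶠ[𝓝 z]
      fun y => px v (f y) * (F y).re + py v (f y) * (F y).im := by
    filter_upwards [hzo] with y hy using (hloc y hy).1
  have ey : py (fun y => v (f y)) =ᶠ[𝓝 z]
      fun y => py v (f y) * (F y).re - px v (f y) * (F y).im := by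
    filter_upwards [hzo] with y hy using (hloc y hy).2
  have hFd : HasDerivAt F (_root_.deriv F z) z :=
    (hf.F_differentiableOn.differentiableAt hzo).hasDerivAt
  have hFr := Vale.P071.hasFDerivAt_real hFd
  have hre : HasFDerivAt (fun y => (F y).re)
      (Complex.reCLM.comp ((ContinuousLinearMap.toSpanSingleton ℂ
        (_root_.deriv F z)).restrictScalars ℝ)) z :=
    Complex.reCLM.hasFDerivAt.comp z hFr
  have him : HasFDerivAt (fun y => (F y).im)
      (Complex.imCLM.comp ((ContinuousLinearMap.toSpanSingleton ℂ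
        (_root_.deriv F z)).restrictScalars ℝ)) z :=
    Complex.imCLM.hasFDerivAt.comp z hFr
  have hA : HasFDerivAt (fun y => px v (f y)) _ z :=
    hpx.hasFDerivAt.comp z (Vale.P071.hasFDerivAt_real (hf.deriv z hz))
  have hB : HasFDerivAt (fun y => py v (f y)) _ z :=
    hpy.hasFDerivAt.comp z (Vale.P071.hasFDerivAt_real (hf.deriv z hz))
  have hA2 := px_py_comp hpx (hf.deriv z hz)
  have hB2 := px_py_comp hpy (hf.deriv z hz)
  have h1 : px (px (fun y => v (f y))) z =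
      px v (f z) * (_root_.deriv F z).re + (F z).re * px (fun y => px v (f y)) z +
      (py v (f z) * (_root_.deriv F z).im + (F z).im * px (fun y => py v (f y)) z) := by
    have h := (hA.mul hre).add (hB.mul him)
    have h' : HasFDerivAt (fun y => px v (f y) * (F y).re + py v (f y) * (F y).im) _ z := h
    have eA : px (fun y => px v (f y)) z = fderiv ℝ (px v) (f z) (F z) := by
      change fderiv ℝ (fun y => px v (f y)) z 1 = _
      rw [hA.fderiv]; simp only [ContinuousLinearMap.comp_apply, ContinuousLinearMap.coe_restrictScalars', ContinuousLinearMap.toSpanSingleton_apply, smul_eq_mul, one_mul]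
    have eB : px (fun y => py v (f y)) z = fderiv ℝ (py v) (f z) (F z) := by
      change fderiv ℝ (fun y => py v (f y)) z 1 = _
      rw [hB.fderiv]; simp only [ContinuousLinearMap.comp_apply, ContinuousLinearMap.coe_restrictScalars', ContinuousLinearMap.toSpanSingleton_apply, smul_eq_mul, one_mul]
    change fderiv ℝ (px (fun y => v (f y))) z 1 = _
    rw [ex.fderiv_eq, h'.fderiv, eA, eB]
    simp only [add_apply, smul_apply, ContinuousLinearMap.comp_apply, ContinuousLinearMap.coe_restrictScalars', ContinuousLinearMap.toSpanSingleton_apply, smul_eq_mul, one_mul, Complex.reCLM_apply, Complex.imCLM_apply]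
  have h2 : py (py (fun y => v (f y))) z =
      py v (f z) * (-(_root_.deriv F z).im) + (F z).re * py (fun y => py v (f y)) z -
      (px v (f z) * (_root_.deriv F z).re + (F z).im * py (fun y => px v (f y)) z) := by
    have h := (hB.mul hre).sub (hA.mul him)
    have h' : HasFDerivAt (fun y => py v (f y) * (F y).re - px v (f y) * (F y).im) _ z := h
    have eA : py (fun y => px v (f y)) z = fderiv ℝ (px v) (f z) (Complex.I * F z) := by
      change fderiv ℝ (fun y => px v (f y)) z Complex.I = _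
      rw [hA.fderiv]; simp only [ContinuousLinearMap.comp_apply, ContinuousLinearMap.coe_restrictScalars', ContinuousLinearMap.toSpanSingleton_apply, smul_eq_mul]
    have eB : py (fun y => py v (f y)) z = fderiv ℝ (py v) (f z) (Complex.I * F z) := by
      change fderiv ℝ (fun y => py v (f y)) z Complex.I = _
      rw [hB.fderiv]; simp only [ContinuousLinearMap.comp_apply, ContinuousLinearMap.coe_restrictScalars', ContinuousLinearMap.toSpanSingleton_apply, smul_eq_mul]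
    change fderiv ℝ (py (fun y => v (f y))) z Complex.I = _
    rw [ey.fderiv_eq, h'.fderiv, eA, eB]
    simp only [sub_apply, add_apply, smul_apply, ContinuousLinearMap.comp_apply, ContinuousLinearMap.coe_restrictScalars', ContinuousLinearMap.toSpanSingleton_apply, smul_eq_mul, Complex.reCLM_apply, Complex.mul_re, Complex.I_re, zero_mul, Complex.I_im, one_mul, zero_sub, mul_neg, Complex.imCLM_apply, Complex.mul_im, zero_add]
  have hn : ‖F z‖ ^ 2 = (F z).re ^ 2 + (F z).im ^ 2 := by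
    rw [← Complex.normSq_eq_norm_sq, Complex.normSq_apply]; ring
  unfold lap
  rw [h1, h2, hA2.1, hA2.2, hB2.1, hB2.2, hn]
  ring

end Vale.Agent.P071.Lim
end

section

/-!
# Elementary inequalities on discs (task LIM-DISC)
-/

open MeasureTheory Metric Filter Topology Real
open scoped ContDiff ENNReal

namespace Vale.Agent.P071.Lim

lemma sq_fderiv_le_gsq (g : ℂ → ℝ) (z v : ℂ) :
    (fderiv ℝ g z v) ^ 2 ≤ gsq g z * ‖v‖ ^ 2 := by
  have hv : v = v.re • (1 : ℂ) + v.im • Complex.I := by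
    apply Complex.ext <;> simp only [Complex.real_smul, mul_one, Complex.re_add_im]
  have h1 : fderiv ℝ g z v = v.re * px g z + v.im * py g z := by
    conv_lhs => rw [hv]
    rw [map_add, map_smul, map_smul]
    simp only [smul_eq_mul, px, py]
  have h2 : ‖v‖ ^ 2 = v.re ^ 2 + v.im ^ 2 := by
    rw [← Complex.normSq_eq_norm_sq, Complex.normSq_apply]
    ring
  rw [h1, h2, gsq]
  nlinarith only [sq_nonneg (v.re * py g z - v.im * px g z)]

lemma gsq_nonneg (g : ℂ → ℝ) (z : ℂ) : 0 ≤ gsq g z := by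
  unfold gsq; positivity

lemma continuousOn_gsq_DD {g : ℂ → ℝ} (hg : ContDiffOn ℝ 1 g DD) : ContinuousOn (gsq g) DD := by
  have h : ContinuousOn (fderiv ℝ g) DD :=
    hg.continuousOn_fderiv_of_isOpen isOpen_ball le_rfl
  unfold gsq px py
  exact ((h.clm_apply continuousOn_const).pow 2).add ((h.clm_apply continuousOn_const).pow 2)

lemma seg_mem {R t : ℝ} {x y : ℂ} (hx : x ∈ ball (0 : ℂ) R) (hy : y ∈ ball (0 : ℂ) R)
    (ht0 : 0 ≤ t) (ht1 : t ≤ 1) : y + t • (x - y) ∈ ball (0 : ℂ) R := by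
  have h := (convex_ball (0 : ℂ) R) hy hx (sub_nonneg.2 ht1) ht0 (by ring)
  have e : y + t • (x - y) = (1 - t) • y + t • x := by
    rw [smul_sub, sub_smul, one_smul]; ring
  rw [e]; exact h

lemma half_eq (x y : ℂ) : y + (1 / 2 : ℝ) • (x - y) = (x + y) / 2 := by
  rw [Complex.real_smul]; push_cast; ring

/-- Fundamental theorem of calculus with Cauchy-Schwarz on half a segment. -/
lemma half_seg {R : ℝ} (hR1 : R ≤ 1) {g : ℂ → ℝ} (hg : ContDiffOn ℝ 1 g DD) {x y : ℂ}
    (hx : x ∈ ball (0 : ℂ) R) (hy : y ∈ ball (0 : ℂ) R) :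
    (g x - g ((x + y) / 2)) ^ 2 ≤
      2 * ∫ t in (1 / 2 : ℝ)..1, gsq g (y + t • (x - y)) := by
  have hsub : ball (0 : ℂ) R ⊆ DD := ball_subset_ball hR1
  have hmem : ∀ t ∈ Set.uIcc (1 / 2 : ℝ) 1, y + t • (x - y) ∈ DD := by
    intro t ht
    rw [Set.uIcc_of_le (by norm_num)] at ht
    exact hsub (seg_mem hx hy (by linarith only [ht.1]) ht.2)
  have hder : ∀ t ∈ Set.uIcc (1 / 2 : ℝ) 1,
      HasDerivAt (fun t : ℝ => g (y + t • (x - y))) (fderiv ℝ g (y + t • (x - y)) (x - y)) t := by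
    intro t ht
    have h1 : HasFDerivAt g (fderiv ℝ g (y + t • (x - y))) (y + t • (x - y)) :=
      ((hg.differentiableOn (by norm_num)).differentiableAt
        (isOpen_ball.mem_nhds (hmem t ht))).hasFDerivAt
    have h2 : HasDerivAt (fun t : ℝ => y + t • (x - y)) (x - y) t := by
      have := ((hasDerivAt_id t).smul_const (x - y)).const_add y
      simpa only [Complex.real_smul, hasDerivAt_const_add_iff, id_eq, one_smul] using this
    exact h1.comp_hasDerivAt t h2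
  have hpath : Continuous (fun t : ℝ => y + t • (x - y)) := by fun_prop
  have hcf : ContinuousOn (fun t : ℝ => fderiv ℝ g (y + t • (x - y)) (x - y))
      (Set.uIcc (1 / 2 : ℝ) 1) := by
    have h : ContinuousOn (fderiv ℝ g) DD :=
      hg.continuousOn_fderiv_of_isOpen isOpen_ball le_rfl
    have h3 : ContinuousOn (fun t : ℝ => fderiv ℝ g (y + t • (x - y)))
        (Set.uIcc (1 / 2 : ℝ) 1) := h.comp hpath.continuousOn hmem
    exact h3.clm_apply continuousOn_const
  have hint : IntervalIntegrable (fun t : ℝ => fderiv ℝ g (y + t • (x - y)) (x - y)) volume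
      (1 / 2) 1 := hcf.intervalIntegrable
  have hint2 : IntervalIntegrable (fun t : ℝ => (fderiv ℝ g (y + t • (x - y)) (x - y)) ^ 2) volume
      (1 / 2) 1 := (hcf.pow 2).intervalIntegrable
  have hgint : IntervalIntegrable (fun t : ℝ => gsq g (y + t • (x - y))) volume (1 / 2) 1 := by
    have : ContinuousOn (fun t : ℝ => gsq g (y + t • (x - y))) (Set.uIcc (1 / 2 : ℝ) 1) :=
      (continuousOn_gsq_DD hg).comp hpath.continuousOn hmem
    exact this.intervalIntegrable
  have hFTC := intervalIntegral.integral_eq_sub_of_hasDerivAt hder hint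
  have hval : g x - g ((x + y) / 2) = ∫ t in (1 / 2 : ℝ)..1,
      fderiv ℝ g (y + t • (x - y)) (x - y) := by
    rw [hFTC, half_eq]
    simp
  set I : ℝ := ∫ t in (1 / 2 : ℝ)..1, fderiv ℝ g (y + t • (x - y)) (x - y) with hI
  have hCS : 2 * I ^ 2 ≤ ∫ t in (1 / 2 : ℝ)..1, (fderiv ℝ g (y + t • (x - y)) (x - y)) ^ 2 := by
    have h0 : 0 ≤ ∫ t in (1 / 2 : ℝ)..1,
        ((fderiv ℝ g (y + t • (x - y)) (x - y)) ^ 2 -
          (4 * I) * (fderiv ℝ g (y + t • (x - y)) (x - y)) + 4 * I ^ 2) := by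
      apply intervalIntegral.integral_nonneg (by norm_num)
      intro t _
      nlinarith only [sq_nonneg (fderiv ℝ g (y + t • (x - y)) (x - y) - 2 * I)]
    rw [intervalIntegral.integral_add (hint2.sub (hint.const_mul _)) (by simp),
      intervalIntegral.integral_sub hint2 (hint.const_mul _),
      intervalIntegral.integral_const_mul, intervalIntegral.integral_const, ← hI] at h0
    rw [smul_eq_mul] at h0
    nlinarith only [h0]
  have hle : ∫ t in (1 / 2 : ℝ)..1, (fderiv ℝ g (y + t • (x - y)) (x - y)) ^ 2 ≤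
      ∫ t in (1 / 2 : ℝ)..1, 4 * gsq g (y + t • (x - y)) := by
    apply intervalIntegral.integral_mono_on (by norm_num) hint2 (hgint.const_mul 4)
    intro t _
    have h1 := sq_fderiv_le_gsq g (y + t • (x - y)) (x - y)
    have h2 : ‖x - y‖ ≤ 2 := by
      have hx' : ‖x‖ < 1 := by
        have := hsub hx
        simpa only [gt_iff_lt, mem_ball, dist_zero_right] using this
      have hy' : ‖y‖ < 1 := by
        have := hsub hy
        simpa only [gt_iff_lt, mem_ball, dist_zero_right] using this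
      calc ‖x - y‖ ≤ ‖x‖ + ‖y‖ := norm_sub_le _ _
        _ ≤ 2 := by linarith only [hx', hy']
    have h3 : ‖x - y‖ ^ 2 ≤ 4 := by nlinarith only [h2, norm_nonneg (x - y)]
    nlinarith only [h1, h3, gsq_nonneg g (y + t • (x - y))]
  rw [intervalIntegral.integral_const_mul] at hle
  rw [hval]
  linarith only [hCS, hle]

/-- Change of variables along a homothety of a disc. -/
lemma homothety_le {R : ℝ} {h : ℂ → ℝ} (h0 : ∀ z, 0 ≤ h z)
    (hint : IntegrableOn h (ball (0 : ℂ) R)) {y : ℂ} (hy : y ∈ ball (0 : ℂ) R) {t : ℝ}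
    (ht : 1 / 2 ≤ t) (ht1 : t ≤ 1) :
    ∫ x in ball (0 : ℂ) R, h (y + t • (x - y)) ≤ 4 * ∫ x in ball (0 : ℂ) R, h x := by
  have htpos : 0 < t := by linarith
  set H : ℂ → ℝ := (ball (0 : ℂ) R).indicator h with hH
  have hHint : Integrable H := by
    rw [hH, integrable_indicator_iff measurableSet_ball]; exact hint
  have hH0 : ∀ z, 0 ≤ H z := fun z => Set.indicator_nonneg (fun z _ => h0 z) z
  have e1 : ∫ x in ball (0 : ℂ) R, h (y + t • (x - y)) =
      ∫ x in ball (0 : ℂ) R, H ((1 - t) • y + t • x) := by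
    apply setIntegral_congr_fun measurableSet_ball
    intro x hx
    have hm := seg_mem hx hy htpos.le ht1
    have e : y + t • (x - y) = (1 - t) • y + t • x := by
      rw [smul_sub, sub_smul, one_smul]; ring
    simp only [hH]
    rw [← e, Set.indicator_of_mem hm]
  have hcomp : Integrable (fun x : ℂ => H ((1 - t) • y + t • x)) := by
    have h1 : Integrable (fun u : ℂ => H ((1 - t) • y + u)) := hHint.comp_add_left _
    exact (integrable_comp_smul_iff volume _ htpos.ne').2 h1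
  have e2 : ∫ x in ball (0 : ℂ) R, H ((1 - t) • y + t • x) ≤ ∫ x, H ((1 - t) • y + t • x) :=
    setIntegral_le_integral hcomp (Eventually.of_forall fun x => hH0 _)
  have e3 : ∫ x, H ((1 - t) • y + t • x) = |(t ^ 2)⁻¹| * ∫ x, H x := by
    have := Measure.integral_comp_smul (volume : Measure ℂ) (fun u : ℂ => H ((1 - t) • y + u)) t
    rw [Complex.finrank_real_complex] at this
    rw [this, integral_add_left_eq_self, smul_eq_mul]
  have e4 : ∫ x, H x = ∫ x in ball (0 : ℂ) R, h x := integral_indicator measurableSet_ball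
  have hnn : 0 ≤ ∫ x in ball (0 : ℂ) R, h x :=
    integral_nonneg fun x => h0 x
  have e5 : |(t ^ 2)⁻¹| ≤ 4 := by
    rw [abs_of_nonneg (by positivity), inv_le_comm₀ (by positivity) (by norm_num)]
    nlinarith only [ht]
  rw [e1]
  refine e2.trans ?_
  rw [e3, e4]
  exact mul_le_mul_of_nonneg_right e5 hnn

lemma integrableOn_of_bdd {E : Type*} [TopologicalSpace E] [MeasurableSpace E]
    [OpensMeasurableSpace E] {μ : Measure E} {s : Set E} {f : E → ℝ} {C : ℝ}
    (hs : MeasurableSet s) (hμ : μ s ≠ ⊤) (hc : ContinuousOn f s)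
    (hC : ∀ x ∈ s, |f x| ≤ C) : IntegrableOn f s μ := by
  have : IsFiniteMeasure (μ.restrict s) := ⟨by
    rw [Measure.restrict_apply_univ]; exact lt_top_iff_ne_top.2 hμ⟩
  refine Integrable.of_bound (hc.aestronglyMeasurable hs) C ?_
  exact (ae_restrict_iff' hs).2 (Eventually.of_forall fun x hx => by
    rw [Real.norm_eq_abs]; exact hC x hx)

lemma mid_mem {R : ℝ} {x y : ℂ} (hx : x ∈ ball (0 : ℂ) R) (hy : y ∈ ball (0 : ℂ) R) :
    (x + y) / 2 ∈ ball (0 : ℂ) R := by
  rw [← half_eq]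
  exact seg_mem hx hy (by norm_num) (by norm_num)

lemma int_half {R : ℝ} (hR1 : R ≤ 1) {g : ℂ → ℝ} (hg : BG g) {y : ℂ}
    (hy : y ∈ ball (0 : ℂ) R) :
    ∫ x in ball (0 : ℂ) R, (g x - g ((x + y) / 2)) ^ 2 ≤ 4 * ∫ x in ball (0 : ℂ) R, gsq g x := by
  obtain ⟨hg1, C, hC⟩ := hg
  have hsub : ball (0 : ℂ) R ⊆ DD := ball_subset_ball hR1
  have hfin : volume (ball (0 : ℂ) R) ≠ ⊤ := measure_ball_lt_top.ne
  have hgsqint : IntegrableOn (gsq g) (ball (0 : ℂ) R) := by
    refine integrableOn_of_bdd (C := C) measurableSet_ball hfin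
      ((continuousOn_gsq_DD hg1).mono hsub) ?_
    intro x hx
    rw [abs_of_nonneg (gsq_nonneg g x)]
    exact (hC x (hsub hx)).2
  have hmaps : Set.MapsTo (fun p : ℂ × ℝ => y + p.2 • (p.1 - y))
      (ball (0 : ℂ) R ×ˢ Set.Ioc (1 / 2 : ℝ) 1) DD := by
    rintro ⟨x, t⟩ ⟨hx, ht⟩
    exact hsub (seg_mem hx hy (by linarith only [ht.1]) ht.2)
  have hprod : Integrable (Function.uncurry fun (x : ℂ) (t : ℝ) => gsq g (y + t • (x - y)))
      ((volume.restrict (ball (0 : ℂ) R)).prod (volume.restrict (Set.Ioc (1 / 2 : ℝ) 1))) := by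
    rw [Measure.prod_restrict]
    refine integrableOn_of_bdd (C := C) (measurableSet_ball.prod measurableSet_Ioc) ?_ ?_ ?_
    · rw [Measure.prod_prod]
      exact ENNReal.mul_ne_top hfin (by simp only [one_div, volume_Ioc, ne_eq, ENNReal.ofReal_ne_top, not_false_eq_true])
    · exact (continuousOn_gsq_DD hg1).comp (by fun_prop) hmaps
    · rintro ⟨x, t⟩ hp
      simp only [Function.uncurry]
      rw [abs_of_nonneg (gsq_nonneg g _)]
      exact (hC _ (hmaps hp)).2
  have hcontg : ContinuousOn g (ball (0 : ℂ) R) := (hg1.continuousOn).mono hsub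
  have hmid : ContinuousOn (fun x => g ((x + y) / 2)) (ball (0 : ℂ) R) :=
    hcontg.comp (by (clear * -; fun_prop)) (fun x hx => mid_mem hx hy)
  have hleft : IntegrableOn (fun x => (g x - g ((x + y) / 2)) ^ 2) (ball (0 : ℂ) R) := by
    refine integrableOn_of_bdd (C := (C + C) ^ 2) measurableSet_ball hfin
      ((hcontg.sub hmid).pow 2) ?_
    intro x hx
    have h1 := (hC x (hsub hx)).1
    have h2 := (hC _ (hsub (mid_mem hx hy))).1
    rw [abs_of_nonneg (sq_nonneg _), ← sq_abs]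
    have h3 : |g x - g ((x + y) / 2)| ≤ C + C := (abs_sub _ _).trans (add_le_add h1 h2)
    exact pow_le_pow_left₀ (abs_nonneg _) h3 2
  calc ∫ x in ball (0 : ℂ) R, (g x - g ((x + y) / 2)) ^ 2
      ≤ ∫ x in ball (0 : ℂ) R, 2 * ∫ t in Set.Ioc (1 / 2 : ℝ) 1, gsq g (y + t • (x - y)) := by
        refine setIntegral_mono_on hleft (hprod.integral_prod_left.const_mul 2)
          measurableSet_ball ?_
        intro x hx
        have := half_seg hR1 hg1 hx hy
        rwa [intervalIntegral.integral_of_le (by norm_num)] at this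
    _ = 2 * ∫ t in Set.Ioc (1 / 2 : ℝ) 1, ∫ x in ball (0 : ℂ) R, gsq g (y + t • (x - y)) := by
        rw [integral_const_mul, integral_integral_swap hprod]
    _ ≤ 2 * ∫ t in Set.Ioc (1 / 2 : ℝ) 1, 4 * ∫ x in ball (0 : ℂ) R, gsq g x := by
        refine mul_le_mul_of_nonneg_left ?_ (by norm_num)
        refine setIntegral_mono_on hprod.integral_prod_right (integrable_const _) measurableSet_Ioc ?_
        intro t ht
        exact homothety_le (gsq_nonneg g) hgsqint hy ht.1.le ht.2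
    _ = 4 * ∫ x in ball (0 : ℂ) R, gsq g x := by
        rw [setIntegral_const]
        simp only [measureReal_def, Real.volume_Ioc, smul_eq_mul]
        rw [ENNReal.toReal_ofReal (by norm_num)]
        ring

/-- Elementary inequality on discs. -/
theorem disc_ineq {R : ℝ} (hR : 1 / 2 < R) (hR1 : R < 1) : ∃ C : ℝ, 0 < C ∧ ∀ g : ℂ → ℝ, BG g →
    ∫ z in ball 0 R, g z ^ 2 ≤
      C * ((∫ z in DD, gsq g z) + ∫ z in ball 0 (1 / 2), g z ^ 2) := by
  refine ⟨8, by norm_num, ?_⟩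
  intro g hg
  have hR0 : 0 < R := by linarith only [hR]
  have hy : (0 : ℂ) ∈ ball (0 : ℂ) R := mem_ball_self hR0
  have hmain := int_half hR1.le hg hy
  obtain ⟨hg1, C, hC⟩ := hg
  have hsub : ball (0 : ℂ) R ⊆ DD := ball_subset_ball hR1.le
  have hsub2 : ball (0 : ℂ) (1 / 2) ⊆ DD := ball_subset_ball (by norm_num)
  have hfin : ∀ r : ℝ, volume (ball (0 : ℂ) r) ≠ ⊤ := fun r => measure_ball_lt_top.ne
  have hgsqD : IntegrableOn (gsq g) DD := by
    refine integrableOn_of_bdd (C := C) measurableSet_ball (hfin 1) (continuousOn_gsq_DD hg1) ?_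
    intro x hx
    rw [abs_of_nonneg (gsq_nonneg g x)]
    exact (hC x hx).2
  have hg2D : IntegrableOn (fun x => g x ^ 2) DD := by
    refine integrableOn_of_bdd (C := C ^ 2) measurableSet_ball (hfin 1)
      (hg1.continuousOn.pow 2) ?_
    intro x hx
    rw [abs_of_nonneg (sq_nonneg _), ← sq_abs]
    exact pow_le_pow_left₀ (abs_nonneg _) (hC x hx).1 2
  have hcontg : ContinuousOn g (ball (0 : ℂ) R) := (hg1.continuousOn).mono hsub
  have hmid : ContinuousOn (fun x => g ((x + 0) / 2)) (ball (0 : ℂ) R) :=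
    hcontg.comp (by (clear * -; fun_prop)) (fun x hx => mid_mem hx hy)
  have hI1 : IntegrableOn (fun x => (g x - g ((x + 0) / 2)) ^ 2) (ball (0 : ℂ) R) := by
    refine integrableOn_of_bdd (C := (C + C) ^ 2) measurableSet_ball (hfin R)
      ((hcontg.sub hmid).pow 2) ?_
    intro x hx
    have h1 := (hC x (hsub hx)).1
    have h2 := (hC _ (hsub (mid_mem hx hy))).1
    rw [abs_of_nonneg (sq_nonneg _), ← sq_abs]
    have h3 : |g x - g ((x + 0) / 2)| ≤ C + C := (abs_sub _ _).trans (add_le_add h1 h2)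
    exact pow_le_pow_left₀ (abs_nonneg _) h3 2
  have hI2 : IntegrableOn (fun x => g ((x + 0) / 2) ^ 2) (ball (0 : ℂ) R) := by
    refine integrableOn_of_bdd (C := C ^ 2) measurableSet_ball (hfin R) (hmid.pow 2) ?_
    intro x hx
    rw [abs_of_nonneg (sq_nonneg _), ← sq_abs]
    exact pow_le_pow_left₀ (abs_nonneg _) (hC _ (hsub (mid_mem hx hy))).1 2
  have hscale : ∫ x in ball (0 : ℂ) R, g ((x + 0) / 2) ^ 2 ≤
      4 * ∫ x in ball (0 : ℂ) (1 / 2), g x ^ 2 := by
    have e := Measure.setIntegral_comp_smul_of_pos (volume : Measure ℂ) (fun x => g x ^ 2)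
      (ball (0 : ℂ) R) (R := (1 / 2 : ℝ)) (by norm_num)
    rw [Complex.finrank_real_complex] at e
    have e1 : ∫ x in ball (0 : ℂ) R, g ((x + 0) / 2) ^ 2 =
        ∫ x in ball (0 : ℂ) R, g ((1 / 2 : ℝ) • x) ^ 2 := by
      congr 1
      funext x
      congr 2
      rw [Complex.real_smul]; push_cast; ring
    rw [e1, e, smul_eq_mul]
    have e2 : ((1 / 2 : ℝ) ^ 2)⁻¹ = 4 := by norm_num
    rw [e2]
    refine mul_le_mul_of_nonneg_left ?_ (by norm_num)
    refine setIntegral_mono_set (hg2D.mono_set hsub2) ?_ ?_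
    · exact Eventually.of_forall fun x => sq_nonneg _
    · refine LE.le.eventuallyLE ?_
      intro z hz
      obtain ⟨x, hx, rfl⟩ := Set.mem_smul_set.1 hz
      rw [mem_ball_zero_iff] at hx ⊢
      rw [norm_smul]
      norm_num
      linarith only [hR1, hx]
  have hmono : ∫ x in ball (0 : ℂ) R, gsq g x ≤ ∫ x in DD, gsq g x := by
    refine setIntegral_mono_set hgsqD ?_ (LE.le.eventuallyLE hsub)
    exact Eventually.of_forall fun x => gsq_nonneg g x
  have hpt : ∫ x in ball (0 : ℂ) R, g x ^ 2 ≤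
      ∫ x in ball (0 : ℂ) R, (2 * (g x - g ((x + 0) / 2)) ^ 2 + 2 * g ((x + 0) / 2) ^ 2) := by
    refine setIntegral_mono_on (hg2D.mono_set hsub)
      ((hI1.const_mul 2).add (hI2.const_mul 2)) measurableSet_ball ?_
    intro x _
    nlinarith only [sq_nonneg (g x - 2 * g ((x + 0) / 2))]
  rw [integral_add (hI1.const_mul 2) (hI2.const_mul 2), integral_const_mul,
    integral_const_mul] at hpt
  have hnn : 0 ≤ ∫ x in ball (0 : ℂ) (1 / 2), g x ^ 2 := integral_nonneg fun x => sq_nonneg _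
  linarith

/-- Poincaré inequality on the disc of radius `1/2`. -/
theorem disc_poincare : ∃ C : ℝ, 0 < C ∧ ∀ g : ℂ → ℝ, BG g →
    ∃ c : ℝ, ∫ z in ball 0 (1 / 2), (g z - c) ^ 2 ≤ C * ∫ z in DD, gsq g z := by
  refine ⟨16, by norm_num, ?_⟩
  intro g hg
  have hmain := fun (y : ℂ) (hy : y ∈ ball (0 : ℂ) (1 / 2)) =>
    int_half (R := 1 / 2) (by norm_num) hg hy
  obtain ⟨hg1, C, hC⟩ := hg
  set B : Set ℂ := ball (0 : ℂ) (1 / 2) with hB
  have hsub : B ⊆ DD := ball_subset_ball (by norm_num)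
  have hBm : MeasurableSet B := measurableSet_ball
  have hfin : volume B ≠ ⊤ := measure_ball_lt_top.ne
  have hpos : volume B ≠ 0 := (measure_ball_pos volume (0 : ℂ) (by norm_num)).ne'
  have hgsqD : IntegrableOn (gsq g) DD := by
    refine integrableOn_of_bdd (C := C) measurableSet_ball measure_ball_lt_top.ne
      (continuousOn_gsq_DD hg1) ?_
    intro x hx
    rw [abs_of_nonneg (gsq_nonneg g x)]
    exact (hC x hx).2
  set G : ℝ := ∫ x in B, gsq g x with hG
  have hmono : G ≤ ∫ x in DD, gsq g x := by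
    refine setIntegral_mono_set hgsqD ?_ (LE.le.eventuallyLE hsub)
    exact Eventually.of_forall fun x => gsq_nonneg g x
  have hcg : ContinuousOn g B := (hg1.continuousOn).mono hsub
  have hBB : volume.prod volume (B ×ˢ B) ≠ ⊤ := by
    rw [Measure.prod_prod]; exact ENNReal.mul_ne_top hfin hfin
  have hfst : ContinuousOn (fun p : ℂ × ℂ => g p.1) (B ×ˢ B) :=
    hcg.comp continuousOn_fst (fun p hp => hp.1)
  have hsnd : ContinuousOn (fun p : ℂ × ℂ => g p.2) (B ×ˢ B) :=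
    hcg.comp continuousOn_snd (fun p hp => hp.2)
  have hmid : ContinuousOn (fun p : ℂ × ℂ => g ((p.1 + p.2) / 2)) (B ×ˢ B) :=
    hcg.comp (by (clear * -; fun_prop)) (fun p hp => mid_mem hp.1 hp.2)
  have hmid' : ContinuousOn (fun p : ℂ × ℂ => g ((p.2 + p.1) / 2)) (B ×ˢ B) :=
    hcg.comp (by (clear * -; fun_prop)) (fun p hp => mid_mem hp.2 hp.1)
  have hbd : ∀ a ∈ B, ∀ b ∈ B, |(g a - g b) ^ 2| ≤ (C + C) ^ 2 := by
    intro a ha b hb
    rw [abs_of_nonneg (sq_nonneg _), ← sq_abs]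
    have h3 : |g a - g b| ≤ C + C :=
      (abs_sub _ _).trans (add_le_add (hC a (hsub ha)).1 (hC b (hsub hb)).1)
    exact pow_le_pow_left₀ (abs_nonneg _) h3 2
  -- p = (y, x)
  have hP : ∀ F : ℂ × ℂ → ℝ, ContinuousOn F (B ×ˢ B) → (∀ p ∈ B ×ˢ B, |F p| ≤ (C + C) ^ 2) →
      Integrable F ((volume.restrict B).prod (volume.restrict B)) := by
    intro F hF hF2
    rw [Measure.prod_restrict]
    exact integrableOn_of_bdd (hBm.prod hBm) hBB hF hF2
  have i1 : Integrable (Function.uncurry fun y x : ℂ => (g x - g y) ^ 2)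
      ((volume.restrict B).prod (volume.restrict B)) :=
    hP _ ((hsnd.sub hfst).pow 2) (fun p hp => hbd _ hp.2 _ hp.1)
  have i2 : Integrable (Function.uncurry fun y x : ℂ => (g x - g ((x + y) / 2)) ^ 2)
      ((volume.restrict B).prod (volume.restrict B)) :=
    hP _ ((hsnd.sub hmid').pow 2) (fun p hp => hbd _ hp.2 _ (mid_mem hp.2 hp.1))
  have i3 : Integrable (Function.uncurry fun y x : ℂ => (g y - g ((y + x) / 2)) ^ 2)
      ((volume.restrict B).prod (volume.restrict B)) :=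
    hP _ ((hfst.sub hmid).pow 2) (fun p hp => hbd _ hp.1 _ (mid_mem hp.1 hp.2))
  have hle : ∫ y in B, ∫ x in B, (g x - g y) ^ 2 ≤
      ∫ y in B, ∫ x in B, (2 * (g x - g ((x + y) / 2)) ^ 2 + 2 * (g y - g ((y + x) / 2)) ^ 2) := by
    have i4 : Integrable (Function.uncurry fun y x : ℂ =>
        (2 * (g x - g ((x + y) / 2)) ^ 2 + 2 * (g y - g ((y + x) / 2)) ^ 2))
        ((volume.restrict B).prod (volume.restrict B)) :=
      (i2.const_mul 2).add (i3.const_mul 2)
    rw [integral_integral i1, integral_integral i4]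
    refine integral_mono i1 i4 ?_
    rintro ⟨y, x⟩
    simp only []
    rw [add_comm y x]
    nlinarith [sq_nonneg (g x - g ((x + y) / 2) + (g y - g ((x + y) / 2)))]
  have hsum : ∫ y in B, ∫ x in B,
      (2 * (g x - g ((x + y) / 2)) ^ 2 + 2 * (g y - g ((y + x) / 2)) ^ 2) =
      2 * (∫ y in B, ∫ x in B, (g x - g ((x + y) / 2)) ^ 2) +
        2 * ∫ y in B, ∫ x in B, (g y - g ((y + x) / 2)) ^ 2 := by
    have i4 : Integrable (Function.uncurry fun y x : ℂ =>
        (2 * (g x - g ((x + y) / 2)) ^ 2 + 2 * (g y - g ((y + x) / 2)) ^ 2))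
        ((volume.restrict B).prod (volume.restrict B)) :=
      (i2.const_mul 2).add (i3.const_mul 2)
    have key := integral_add (i2.const_mul 2) (i3.const_mul 2)
    rw [integral_const_mul, integral_const_mul] at key
    rw [integral_integral i4, integral_integral i2, integral_integral i3]
    exact key
  have hswap : ∫ y in B, ∫ x in B, (g y - g ((y + x) / 2)) ^ 2 =
      ∫ x in B, ∫ y in B, (g y - g ((y + x) / 2)) ^ 2 := integral_integral_swap i3
  have hb : ∫ y in B, ∫ x in B, (g x - g ((x + y) / 2)) ^ 2 ≤ ∫ _y in B, 4 * G := by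
    have : IsFiniteMeasure (volume.restrict B) := ⟨by
      rw [Measure.restrict_apply_univ]; exact lt_top_iff_ne_top.2 hfin⟩
    refine setIntegral_mono_on i2.integral_prod_left (integrable_const _) hBm ?_
    intro y hy
    exact hmain y hy
  have hvol : ∫ _y in B, 4 * G = volume.real B * (4 * G) := by
    rw [setIntegral_const, smul_eq_mul]
  have htot : ∫ y in B, ∫ x in B, (g x - g y) ^ 2 ≤ volume.real B * (16 * G) := by
    rw [hsum, hswap] at hle
    linarith only [hle, hb, hvol]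
  obtain ⟨y, _, hyle⟩ := exists_le_setAverage hpos hfin
    (i1.integral_prod_left : IntegrableOn (fun y => ∫ x in B, (g x - g y) ^ 2) B volume)
  refine ⟨g y, ?_⟩
  refine hyle.trans ?_
  rw [setAverage_eq, smul_eq_mul]
  have hvpos : 0 < volume.real B := ENNReal.toReal_pos hpos hfin
  calc (volume.real B)⁻¹ * ∫ y in B, ∫ x in B, (g x - g y) ^ 2
      ≤ (volume.real B)⁻¹ * (volume.real B * (16 * G)) :=
        mul_le_mul_of_nonneg_left htot (by (clear * - hvpos; positivity))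
    _ = 16 * G := by (clear * - hvpos; field_simp)
    _ ≤ 16 * ∫ z in DD, gsq g z := by linarith only [hmono]

end Vale.Agent.P071.Lim
end

section

/-!
# Uniform Poincare inequality (task LIM-T4)
-/

open MeasureTheory Metric Filter Topology Real
open scoped ContDiff ENNReal

namespace Vale.Agent.P071.Lim

theorem Conf.t4_diffOn {f F : ℂ → ℂ} (hf : Conf f F) : DifferentiableOn ℂ f DD :=
  fun z hz => (hf.deriv z hz).differentiableAt.differentiableWithinAt

theorem Conf.t4_contF {f F : ℂ → ℂ} (hf : Conf f F) : ContinuousOn F DD := by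
  have h1 : ContinuousOn (_root_.deriv f) DD :=
    (hf.t4_diffOn.deriv isOpen_ball).continuousOn
  exact h1.congr fun z hz => (hf.deriv z hz).deriv.symm

theorem t4_mul_mem_DD {r : ℝ} (hr : 0 < r) (hr1 : r < 1) {z : ℂ} (hz : z ∈ DD) :
    ((r : ℂ) * z) ∈ DD := by
  rw [mem_ball_zero_iff] at hz ⊢
  rw [norm_mul, Complex.norm_real, Real.norm_eq_abs, abs_of_pos hr]
  nlinarith [norm_nonneg z]

theorem t4_mul_mem_cball {r R : ℝ} (hr : 0 < r) (hr1 : r < 1) (hR : 0 < R) {z : ℂ}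
    (hz : z ∈ closedBall (0 : ℂ) R) :
    ((r : ℂ) * z) ∈ closedBall (0 : ℂ) R := by
  rw [mem_closedBall_zero_iff] at hz ⊢
  rw [norm_mul, Complex.norm_real, Real.norm_eq_abs, abs_of_pos hr]
  nlinarith only [hr, hz, hr1, hR]

theorem Conf.t4_bdd_closedBall {f F : ℂ → ℂ} (hf : Conf f F) {R : ℝ} (hR1 : R < 1) :
    ∃ C : ℝ, 0 ≤ C ∧ ∀ z ∈ closedBall (0 : ℂ) R, ‖F z‖ ^ 2 ≤ C := by
  have hsub : closedBall (0 : ℂ) R ⊆ DD := closedBall_subset_ball hR1
  have hc : ContinuousOn (fun z => ‖F z‖ ^ 2) (closedBall (0 : ℂ) R) :=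
    ((hf.t4_contF.mono hsub).norm).pow 2
  obtain ⟨C, hC⟩ := (isCompact_closedBall (0 : ℂ) R).bddAbove_image hc
  refine ⟨max C 0, le_max_right _ _, fun z hz => ?_⟩
  exact le_trans (hC (Set.mem_image_of_mem _ hz)) (le_max_left _ _)

/-- A function which is continuous and bounded in the disc is integrable there. -/
theorem t4_integrableOn_DD {h : ℂ → ℝ} (hc : ContinuousOn h DD) {C : ℝ} (hb : ∀ z ∈ DD, |h z| ≤ C) :
    IntegrableOn h DD := by
  have hfin : IsFiniteMeasure (volume.restrict DD) :=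
    ⟨by rw [Measure.restrict_apply_univ]; exact measure_ball_lt_top⟩
  refine Integrable.of_bound (hc.aestronglyMeasurable measurableSet_ball) C ?_
  filter_upwards [ae_restrict_mem measurableSet_ball] with z hz
  simpa only [norm_eq_abs] using hb z hz

theorem t4_gsq_sub_const (φ : ℂ → ℝ) (c : ℝ) (z : ℂ) : gsq (fun y => φ y - c) z = gsq φ z := by
  have h : fderiv ℝ (fun y => φ y - c) z = fderiv ℝ φ z := by
    simp only [fderiv_sub_const]
  simp only [gsq, px, py, h]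

theorem BG.t4_sub_const {φ : ℂ → ℝ} (h : BG φ) (c : ℝ) : BG (fun y => φ y - c) := by
  obtain ⟨h1, C, hC⟩ := h
  refine ⟨h1.sub contDiffOn_const, |C| + |c|, fun z hz => ⟨?_, ?_⟩⟩
  · have := abs_sub (φ z) c
    (clear * - this hC hz; linarith [(hC z hz).1, le_abs_self C])
  · rw [t4_gsq_sub_const]
    linarith only [(hC z hz).2, le_abs_self C, abs_nonneg c]

/-- (T4) uniform Poincaré inequality for all weights `κ_r`. -/
theorem uniform_poincare {f F : ℂ → ℂ} (hf : Conf f F) (hT : TailU F) :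
    ∃ m₀ : ℝ, 0 < m₀ ∧ ∀ ρ : ℂ → ℝ, Continuous ρ → (∀ z ∈ DD, 1 / 2 ≤ ρ (f z) ∧ ρ (f z) ≤ 2) →
      ∀ r : ℝ, 0 < r → r < 1 → ∀ φ : ℂ → ℝ, BG φ → ∫ z in DD, kap f F ρ r z * φ z = 0 →
        m₀ * ∫ z in DD, kap f F ρ r z * φ z ^ 2 ≤ ∫ z in DD, gsq φ z := by
  obtain ⟨R, hR, hR1, hTR⟩ := hT 1 one_pos
  obtain ⟨CR, hCR0, hCR⟩ := hf.t4_bdd_closedBall hR1
  obtain ⟨C1, hC1, hd1⟩ := disc_ineq hR hR1
  obtain ⟨C2, hC2, hd2⟩ := disc_poincare
  have hM : 0 < 2 * (CR * C1 + 1) * (1 + C2) := by (clear * - hCR0 hC1 hC2; positivity)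
  refine ⟨(2 * (CR * C1 + 1) * (1 + C2))⁻¹, inv_pos.mpr hM, ?_⟩
  intro ρ hρc hρ r hr hr1 φ hφ hmean
  obtain ⟨c, hc⟩ := hd2 φ hφ
  -- abbreviations
  set g : ℂ → ℝ := fun y => φ y - c with hg
  have hgBG : BG g := hφ.t4_sub_const c
  have hE : ∫ z in DD, gsq g z = ∫ z in DD, gsq φ z := by
    refine setIntegral_congr_fun measurableSet_ball fun z _ => ?_
    exact t4_gsq_sub_const φ c z
  set E : ℝ := ∫ z in DD, gsq φ z with hEdef
  set A : ℝ := ∫ z in ball (0 : ℂ) (1 / 2), g z ^ 2 with hA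
  have hA0 : 0 ≤ A := integral_nonneg fun z => sq_nonneg _
  have hAE : A ≤ C2 * E := hc
  have hE0 : 0 ≤ E := by
    refine integral_nonneg fun z => ?_
    simp only [gsq, Pi.zero_apply]; (clear * -; positivity)
  -- continuity
  have hmap : Set.MapsTo (fun z : ℂ => (r : ℂ) * z) DD DD := fun z hz => t4_mul_mem_DD hr hr1 hz
  have hcm : ContinuousOn (fun z : ℂ => (r : ℂ) * z) DD :=
    (continuous_const.mul continuous_id).continuousOn
  have hcF : ContinuousOn (fun z : ℂ => ‖F ((r : ℂ) * z)‖ ^ 2) DD :=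
    ((hf.t4_contF.comp hcm hmap).norm).pow 2
  have hcf : ContinuousOn (fun z : ℂ => f ((r : ℂ) * z)) DD :=
    hf.t4_diffOn.continuousOn.comp hcm hmap
  have hck : ContinuousOn (kap f F ρ r) DD := by
    have h0 : ContinuousOn (fun _ : ℂ => (r : ℝ) ^ 2) DD := continuousOn_const
    exact (h0.mul hcF).mul (hρc.comp_continuousOn hcf)
  have hφc : ContinuousOn φ DD := hφ.1.continuousOn
  have hgc : ContinuousOn g DD := hgBG.1.continuousOn
  -- bounds
  obtain ⟨Kr, hKr0, hKr⟩ := hf.t4_bdd_closedBall hr1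
  have hFr : ∀ z ∈ DD, ‖F ((r : ℂ) * z)‖ ^ 2 ≤ Kr := by
    intro z hz
    refine hKr _ ?_
    rw [mem_ball_zero_iff] at hz
    rw [mem_closedBall_zero_iff, norm_mul, Complex.norm_real, Real.norm_eq_abs, abs_of_pos hr]
    nlinarith only [hr, hz]
  have hk0 : ∀ z ∈ DD, 0 ≤ kap f F ρ r z := by
    intro z hz
    have := (hρ _ (hmap hz)).1
    unfold kap
    have h2 : (0 : ℝ) ≤ ρ (f ((r : ℂ) * z)) := by linarith only [this]
    (clear * - hr this; positivity)
  have hk2 : ∀ z ∈ DD, kap f F ρ r z ≤ 2 * ‖F ((r : ℂ) * z)‖ ^ 2 := by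
    intro z hz
    have h1 := (hρ _ (hmap hz)).1
    have h2 := (hρ _ (hmap hz)).2
    have hr2 : r ^ 2 ≤ 1 := by nlinarith only [hr1, hr]
    have hn : 0 ≤ ‖F ((r : ℂ) * z)‖ ^ 2 := by (clear * -; positivity)
    unfold kap
    calc r ^ 2 * ‖F ((r : ℂ) * z)‖ ^ 2 * ρ (f ((r : ℂ) * z))
        ≤ 1 * ‖F ((r : ℂ) * z)‖ ^ 2 * 2 := by
          (clear * - hr2 h2 h1; gcongr)
      _ = 2 * ‖F ((r : ℂ) * z)‖ ^ 2 := by ring
  have hkK : ∀ z ∈ DD, kap f F ρ r z ≤ 2 * Kr := fun z hz =>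
    (hk2 z hz).trans (by linarith only [hFr z hz])
  obtain ⟨Cφ, hCφ⟩ := hφ.2
  obtain ⟨Cg, hCg⟩ := hgBG.2
  have hCφ0 : 0 ≤ Cφ := le_trans (abs_nonneg _) (hCφ 0 (mem_ball_self one_pos)).1
  have hCg0 : 0 ≤ Cg := le_trans (abs_nonneg _) (hCg 0 (mem_ball_self one_pos)).1
  have hg2 : ∀ z ∈ DD, g z ^ 2 ≤ Cg ^ 2 := fun z hz => sq_le_sq' (by
    linarith only [(abs_le.mp (hCg z hz).1).1]) (abs_le.mp (hCg z hz).1).2
  have hφ2 : ∀ z ∈ DD, φ z ^ 2 ≤ Cφ ^ 2 := fun z hz => sq_le_sq' (by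
    linarith only [(abs_le.mp (hCφ z hz).1).1]) (abs_le.mp (hCφ z hz).1).2
  have hik : IntegrableOn (kap f F ρ r) DD := by
    refine t4_integrableOn_DD hck (C := 2 * Kr) fun z hz => ?_
    rw [abs_of_nonneg (hk0 z hz)]; exact hkK z hz
  have hikφ : IntegrableOn (fun z => kap f F ρ r z * φ z) DD := by
    refine t4_integrableOn_DD (hck.mul hφc) (C := 2 * Kr * Cφ) fun z hz => ?_
    rw [abs_mul, abs_of_nonneg (hk0 z hz)]
    exact mul_le_mul (hkK z hz) (hCφ z hz).1 (abs_nonneg _) (by (clear * - hKr0; positivity))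
  have hikφ2 : IntegrableOn (fun z => kap f F ρ r z * φ z ^ 2) DD := by
    refine t4_integrableOn_DD (hck.mul (hφc.pow 2)) (C := 2 * Kr * Cφ ^ 2) fun z hz => ?_
    rw [abs_mul, abs_of_nonneg (hk0 z hz), abs_of_nonneg (sq_nonneg _)]
    exact mul_le_mul (hkK z hz) (hφ2 z hz) (sq_nonneg _) (by (clear * - hKr0; positivity))
  have hikg2 : IntegrableOn (fun z => kap f F ρ r z * g z ^ 2) DD := by
    refine t4_integrableOn_DD (hck.mul (hgc.pow 2)) (C := 2 * Kr * Cg ^ 2) fun z hz => ?_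
    rw [abs_mul, abs_of_nonneg (hk0 z hz), abs_of_nonneg (sq_nonneg _)]
    exact mul_le_mul (hkK z hz) (hg2 z hz) (sq_nonneg _) (by (clear * - hKr0; positivity))
  have hiFg2 : IntegrableOn (fun z => ‖F ((r : ℂ) * z)‖ ^ 2 * g z ^ 2) DD := by
    refine t4_integrableOn_DD (hcF.mul (hgc.pow 2)) (C := Kr * Cg ^ 2) fun z hz => ?_
    rw [abs_mul, abs_of_nonneg (by (clear * -; positivity)), abs_of_nonneg (sq_nonneg _)]
    exact mul_le_mul (hFr z hz) (hg2 z hz) (sq_nonneg _) hKr0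
  have hig2 : IntegrableOn (fun z => g z ^ 2) DD := by
    refine t4_integrableOn_DD (hgc.pow 2) (C := Cg ^ 2) fun z hz => ?_
    rw [abs_of_nonneg (sq_nonneg _)]; exact hg2 z hz
  -- step 1
  have hstep1 : ∫ z in DD, kap f F ρ r z * φ z ^ 2 ≤ ∫ z in DD, kap f F ρ r z * g z ^ 2 := by
    have hexp : ∫ z in DD, kap f F ρ r z * g z ^ 2 =
        (∫ z in DD, kap f F ρ r z * φ z ^ 2) - 2 * c * (∫ z in DD, kap f F ρ r z * φ z) +
          c ^ 2 * ∫ z in DD, kap f F ρ r z := by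
      have e1 : ∫ z in DD, kap f F ρ r z * g z ^ 2 =
          ∫ z in DD, ((kap f F ρ r z * φ z ^ 2 - 2 * c * (kap f F ρ r z * φ z)) +
            c ^ 2 * kap f F ρ r z) := by
        refine integral_congr_ae (Eventually.of_forall fun z => ?_)
        simp only [hg]
        ring
      have i1 : Integrable (fun z => kap f F ρ r z * φ z ^ 2 - 2 * c * (kap f F ρ r z * φ z))
          (volume.restrict DD) := hikφ2.sub (hikφ.const_mul (2 * c))
      rw [e1, integral_add i1 (hik.const_mul (c ^ 2)),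
        integral_sub hikφ2 (hikφ.const_mul (2 * c)), integral_const_mul, integral_const_mul]
    rw [hexp, hmean]
    have : 0 ≤ ∫ z in DD, kap f F ρ r z := setIntegral_nonneg measurableSet_ball hk0
    nlinarith only [this]
  -- step 2
  have hsubR : ball (0 : ℂ) R ⊆ DD := ball_subset_ball hR1.le
  have hstep2 : ∫ z in DD, kap f F ρ r z * g z ^ 2 ≤
      2 * ∫ z in DD, ‖F ((r : ℂ) * z)‖ ^ 2 * g z ^ 2 := by
    rw [← integral_const_mul]
    refine setIntegral_mono_on hikg2 (hiFg2.const_mul _) measurableSet_ball fun z hz => ?_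
    have := mul_le_mul_of_nonneg_right (hk2 z hz) (sq_nonneg (g z))
    linarith only [this]
  have hsplit : ∫ z in DD, ‖F ((r : ℂ) * z)‖ ^ 2 * g z ^ 2 =
      (∫ z in ball (0 : ℂ) R, ‖F ((r : ℂ) * z)‖ ^ 2 * g z ^ 2) +
        ∫ z in DD \ ball (0 : ℂ) R, ‖F ((r : ℂ) * z)‖ ^ 2 * g z ^ 2 := by
    rw [← setIntegral_union Set.disjoint_sdiff_right (measurableSet_ball.diff measurableSet_ball)
      (hiFg2.mono_set hsubR) (hiFg2.mono_set Set.sdiff_subset), Set.union_sdiff_cancel hsubR]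
  have hin : ∫ z in ball (0 : ℂ) R, ‖F ((r : ℂ) * z)‖ ^ 2 * g z ^ 2 ≤
      CR * ∫ z in ball (0 : ℂ) R, g z ^ 2 := by
    rw [← integral_const_mul]
    refine setIntegral_mono_on (hiFg2.mono_set hsubR) ((hig2.mono_set hsubR).const_mul _)
      measurableSet_ball fun z hz => ?_
    have h1 : ‖F ((r : ℂ) * z)‖ ^ 2 ≤ CR :=
      hCR _ (t4_mul_mem_cball hr hr1 (by linarith only [hR]) (ball_subset_closedBall hz))
    exact mul_le_mul_of_nonneg_right h1 (sq_nonneg _)
  have hd := hd1 g hgBG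
  have hout := hTR r hr hr1 g hgBG
  rw [hE] at hd hout
  rw [one_mul] at hout
  have hfin : ∫ z in DD, kap f F ρ r z * φ z ^ 2 ≤ 2 * (CR * C1 + 1) * (1 + C2) * E := by
    have h3 : CR * ∫ z in ball (0 : ℂ) R, g z ^ 2 ≤ CR * (C1 * (E + A)) :=
      mul_le_mul_of_nonneg_left hd hCR0
    have h4 : (CR * C1 + 1) * (E + A) ≤ (CR * C1 + 1) * ((1 + C2) * E) :=
      mul_le_mul_of_nonneg_left (by linarith only [hc]) (by (clear * - hCR0 hC1; positivity))
    have h5 : ∫ z in DD, ‖F ((r : ℂ) * z)‖ ^ 2 * g z ^ 2 ≤ (CR * C1 + 1) * (E + A) := by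
      rw [hsplit]
      calc _ ≤ CR * (C1 * (E + A)) + (E + A) := add_le_add (hin.trans h3) hout
        _ = (CR * C1 + 1) * (E + A) := by ring
    calc _ ≤ 2 * ((CR * C1 + 1) * ((1 + C2) * E)) := by linarith only [hstep1, hstep2, hsplit, hin, hout, h3, h4]
      _ = _ := by ring
  rw [inv_mul_le_iff₀ hM]
  exact hfin

end Vale.Agent.P071.Lim
end

section

/-!
# Auxiliary facts for the selected limit (task LIM-SELc)
-/

open MeasureTheory Metric Filter Topology Real
open scoped ContDiff ENNReal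

namespace Vale.Agent.P071.Lim.SelC

theorem continuous_polyFun {s : ℂ → ℝ} (hs : IsPolyFun s) : Continuous s := by
  obtain ⟨N, c, h⟩ := hs
  have h2 : s = fun x => (∑ m ∈ Finset.range N, ∑ n ∈ Finset.range N,
      c m n * x ^ m * (starRingEnd ℂ x) ^ n).re := by
    funext x
    rw [← h x]
    simp
  rw [h2]
  have hc : Continuous (fun x : ℂ => starRingEnd ℂ x) := Complex.continuous_conj
  refine Complex.continuous_re.comp ?_
  refine continuous_finsetSum _ fun m _ => continuous_finsetSum _ fun n _ => ?_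
  exact (continuous_const.mul (continuous_pow m)).mul (hc.pow n)

theorem contf {f F : ℂ → ℂ} (hf : Conf f F) : ContinuousOn f DD :=
  fun z hz => (hf.deriv z hz).continuousAt.continuousWithinAt

theorem contF {f F : ℂ → ℂ} (hf : Conf f F) : ContinuousOn F DD := by
  have h1 : DifferentiableOn ℂ f DD :=
    fun z hz => (hf.deriv z hz).differentiableAt.differentiableWithinAt
  have h2 := (h1.deriv isOpen_ball).continuousOn
  exact h2.congr fun z hz => ((hf.deriv z hz).deriv).symm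

theorem cont_px {w : ℂ → ℝ} (hw : ContDiffOn ℝ 1 w DD) : ContinuousOn (px w) DD := by
  have h := hw.continuousOn_fderiv_of_isOpen isOpen_ball le_rfl
  exact h.clm_apply continuousOn_const

theorem cont_py {w : ℂ → ℝ} (hw : ContDiffOn ℝ 1 w DD) : ContinuousOn (py w) DD := by
  have h := hw.continuousOn_fderiv_of_isOpen isOpen_ball le_rfl
  exact h.clm_apply continuousOn_const

theorem cont_gsq {w : ℂ → ℝ} (hw : ContDiffOn ℝ 1 w DD) : ContinuousOn (gsq w) DD :=
  ((cont_px hw).pow 2).add ((cont_py hw).pow 2)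

theorem gsq_nonneg (w : ℂ → ℝ) (z : ℂ) : 0 ≤ gsq w z := by
  unfold gsq; positivity

theorem integrable_bdd {h : ℂ → ℝ} (hc : ContinuousOn h DD) {C : ℝ}
    (hb : ∀ z ∈ DD, |h z| ≤ C) : IntegrableOn h DD := by
  have : IsFiniteMeasure (volume.restrict DD) :=
    ⟨by rw [Measure.restrict_apply_univ]; exact measure_ball_lt_top⟩
  refine Integrable.of_bound (hc.aestronglyMeasurable measurableSet_ball) C ?_
  refine (ae_restrict_iff' measurableSet_ball).2 (Eventually.of_forall fun z hz => ?_)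
  rw [Real.norm_eq_abs]
  exact hb z hz

theorem integrable_mul_bdd {h k : ℂ → ℝ} (hk : IntegrableOn k DD) (hc : ContinuousOn h DD)
    {C : ℝ} (hb : ∀ z ∈ DD, |h z| ≤ C) : IntegrableOn (fun z => k z * h z) DD := by
  refine Integrable.mul_bdd (c := C) hk (hc.aestronglyMeasurable measurableSet_ball) ?_
  refine (ae_restrict_iff' measurableSet_ball).2 (Eventually.of_forall fun z hz => ?_)
  rw [Real.norm_eq_abs]
  exact hb z hz

/-- continuous functions of `f` are bounded -/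
theorem bdd_comp {f F : ℂ → ℂ} (hf : Conf f F) {s : ℂ → ℝ} (hs : Continuous s) :
    ∃ C : ℝ, ∀ z ∈ DD, |s (f z)| ≤ C := by
  obtain ⟨B, hB⟩ := hf.bdd
  obtain ⟨C, hC⟩ := (isCompact_closedBall (0 : ℂ) B).exists_bound_of_continuousOn hs.continuousOn
  refine ⟨C, fun z hz => ?_⟩
  have := hC (f z) (by simpa only [mem_closedBall, dist_zero_right] using hB z hz)
  simpa only [ge_iff_le, norm_eq_abs] using this

/-- the cut-off -/
noncomputable def cut (δ : ℝ) (z : ℂ) : ℝ := max 0 (min 1 ((1 - ‖z‖) / δ - 1))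

/-- the bump -/
noncomputable def bmp (z₀ : ℂ) (ε : ℝ) (z : ℂ) : ℝ := max 0 (1 - ‖z - z₀‖ / ε)

/-- `1 + |∇U|²/κ` -/
noncomputable def GG (F : ℂ → ℂ) (U : ℂ → ℝ) (z : ℂ) : ℝ := 1 + gsq U z / ‖F z‖ ^ 2

/-- the negative part of the penalty -/
noncomputable def HH (F : ℂ → ℂ) (U : ℂ → ℝ) (δ : ℝ) (z : ℂ) : ℝ :=
  cut δ z * (GG F U z / (U z ^ 2 + δ))

/-- the penalty -/
noncomputable def Psi (N : ℝ) (z₀ : ℂ) (ε : ℝ) (F : ℂ → ℂ) (U : ℂ → ℝ) (δ : ℝ) (z : ℂ) : ℝ :=
  N * (cut δ z * bmp z₀ ε z) - HH F U δ z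

theorem cut_cont (δ : ℝ) : Continuous (cut δ) := by
  unfold cut
  exact continuous_const.max (continuous_const.min
    (((continuous_const.sub continuous_norm).div_const δ).sub continuous_const))

theorem cut_nonneg (δ : ℝ) (z : ℂ) : 0 ≤ cut δ z := le_max_left _ _

theorem cut_le_one (δ : ℝ) (z : ℂ) : cut δ z ≤ 1 :=
  max_le zero_le_one (min_le_left _ _)

theorem cut_eq_zero {δ : ℝ} (hδ : 0 < δ) {z : ℂ} (hz : 1 - δ ≤ ‖z‖) : cut δ z = 0 := by
  unfold cut
  refine max_eq_left ((min_le_right _ _).trans ?_)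
  have : (1 - ‖z‖) / δ ≤ 1 := by
    rw [div_le_one hδ]; linarith
  linarith only [this]

theorem cut_eq_one {δ : ℝ} (hδ : 0 < δ) {z : ℂ} (hz : ‖z‖ ≤ 1 - 2 * δ) : cut δ z = 1 := by
  unfold cut
  have : 2 ≤ (1 - ‖z‖) / δ := by
    rw [le_div_iff₀ hδ]; linarith only [hz]
  rw [min_eq_left (by linarith), max_eq_right zero_le_one]

theorem bmp_cont (z₀ : ℂ) (ε : ℝ) : Continuous (bmp z₀ ε) := by
  unfold bmp
  exact continuous_const.max (continuous_const.sub
    ((continuous_id.sub continuous_const).norm.div_const ε))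

theorem bmp_nonneg (z₀ : ℂ) (ε : ℝ) (z : ℂ) : 0 ≤ bmp z₀ ε z := le_max_left _ _

theorem bmp_le_one {ε : ℝ} (hε : 0 < ε) (z₀ z : ℂ) : bmp z₀ ε z ≤ 1 := by
  unfold bmp
  refine max_le zero_le_one ?_
  have : 0 ≤ ‖z - z₀‖ / ε := by positivity
  linarith only [this]

theorem bmp_eq_zero {ε : ℝ} (hε : 0 < ε) {z₀ z : ℂ} (hz : z ∉ closedBall z₀ ε) :
    bmp z₀ ε z = 0 := by
  unfold bmp
  refine max_eq_left ?_
  rw [mem_closedBall, dist_eq_norm, not_le] at hz
  have : 1 ≤ ‖z - z₀‖ / ε := by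
    rw [le_div_iff₀ hε]; linarith
  linarith only [this]

theorem bmp_pos {ε : ℝ} (hε : 0 < ε) {z₀ z : ℂ} (hz : z ∈ ball z₀ ε) :
    0 < bmp z₀ ε z := by
  unfold bmp
  rw [mem_ball, dist_eq_norm] at hz
  refine lt_max_of_lt_right ?_
  have : ‖z - z₀‖ / ε < 1 := by
    rw [div_lt_one hε]; exact hz
  (clear * - this; linarith)

variable {f F : ℂ → ℂ} {μ : ℝ} {U : ℂ → ℝ}

theorem kpos (hf : Conf f F) {z : ℂ} (hz : z ∈ DD) : 0 < ‖F z‖ ^ 2 := by
  have := norm_pos_iff.2 (hf.ne_zero z hz)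
  positivity

theorem GG_cont (hf : Conf f F) (hU : ContDiffOn ℝ 1 U DD) : ContinuousOn (GG F U) DD := by
  unfold GG
  exact continuousOn_const.add ((cont_gsq hU).div ((contF hf).norm.pow 2)
    fun z hz => (kpos hf hz).ne')

theorem GG_ge (z : ℂ) : 1 ≤ GG F U z := by
  unfold GG
  have := gsq_nonneg U z
  have h2 : 0 ≤ gsq U z / ‖F z‖ ^ 2 := by (clear * - this; positivity)
  linarith

theorem HH_nonneg {δ : ℝ} (hδ : 0 < δ) (z : ℂ) : 0 ≤ HH F U δ z := by
  unfold HH
  have h1 := cut_nonneg δ z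
  have h2 := GG_ge (F := F) (U := U) z
  (clear * - h1 h2 hδ; positivity)

theorem HH_cont (hf : Conf f F) (hU : ContDiffOn ℝ 1 U DD) {δ : ℝ} (hδ : 0 < δ) :
    ContinuousOn (HH F U δ) DD := by
  unfold HH
  refine (cut_cont δ).continuousOn.mul ((GG_cont hf hU).div
    ((hU.continuousOn.pow 2).add continuousOn_const) fun z _ => ?_)
  (clear * - hδ; positivity)

theorem Psi_zero {N : ℝ} {z₀ : ℂ} {ε δ : ℝ} (hδ : 0 < δ) {z : ℂ}
    (hz : z ∉ closedBall (0 : ℂ) (1 - δ)) : Psi N z₀ ε F U δ z = 0 := by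
  have : cut δ z = 0 := by
    apply cut_eq_zero hδ
    rw [mem_closedBall_zero_iff, not_le] at hz
    exact hz.le
  simp only [Psi, this, zero_mul, mul_zero, HH, sub_self]

theorem Psi_supp {N : ℝ} {z₀ : ℂ} {ε δ : ℝ} (hδ : 0 < δ) :
    tsupport (Psi N z₀ ε F U δ) ⊆ closedBall (0 : ℂ) (1 - δ) := by
  refine closure_minimal ?_ isClosed_closedBall
  intro z hz
  by_contra h
  exact hz (Psi_zero hδ h)

theorem Psi_compact {N : ℝ} {z₀ : ℂ} {ε δ : ℝ} (hδ : 0 < δ) :
    HasCompactSupport (Psi N z₀ ε F U δ) :=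
  HasCompactSupport.intro (isCompact_closedBall (0 : ℂ) (1 - δ)) fun _ hz => Psi_zero hδ hz

theorem Psi_sub {N : ℝ} {z₀ : ℂ} {ε δ : ℝ} (hδ : 0 < δ) :
    tsupport (Psi N z₀ ε F U δ) ⊆ DD :=
  (Psi_supp hδ).trans (closedBall_subset_ball (by linarith))

theorem Psi_cont (hf : Conf f F) (hU : ContDiffOn ℝ 1 U DD) {N : ℝ} {z₀ : ℂ} {ε δ : ℝ}
    (hδ : 0 < δ) : Continuous (Psi N z₀ ε F U δ) := by
  refine ContinuousOn.continuous_of_tsupport_subset ?_ isOpen_ball (Psi_sub hδ)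
  unfold Psi
  exact (continuousOn_const.mul ((cut_cont δ).continuousOn.mul
    (bmp_cont z₀ ε).continuousOn)).sub (HH_cont hf hU hδ)

/-- Lower bound for the comparison functional at `U`. -/
theorem lhs_bound (hf : Conf f F) (hU : Target F μ U) {z₀ : ℂ} {ε : ℝ} (hε : 0 < ε)
    {N δ : ℝ} (hδ : 0 < δ) (hδ1 : closedBall z₀ ε ⊆ closedBall 0 (1 - 2 * δ))
    {s : ℂ → ℝ} (hsc : Continuous s) (hs : ∀ z ∈ DD, |s (f z) - Psi N z₀ ε F U δ z| ≤ δ) :
    N * (∫ z in DD, ‖F z‖ ^ 2 * U z ^ 2 * bmp z₀ ε z) - (∫ z in DD, ‖F z‖ ^ 2) - μ - δ ≤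
      ∫ z in DD, ‖F z‖ ^ 2 * s (f z) * U z ^ 2 := by
  have hU1 : ContDiffOn ℝ 1 U DD := hU.smooth.of_le (by norm_num)
  have hA := conf_area hf
  obtain ⟨C, hC⟩ := bdd_comp hf hsc
  have i1 : IntegrableOn (fun z => ‖F z‖ ^ 2 * U z ^ 2 * bmp z₀ ε z) DD :=
    integrable_mul_bdd hU.int_sq (bmp_cont z₀ ε).continuousOn (C := 1) fun z _ => by
      rw [abs_of_nonneg (bmp_nonneg _ _ _)]; exact bmp_le_one hε _ _
  have i2 : IntegrableOn (fun z => ‖F z‖ ^ 2 * U z ^ 2 * s (f z)) DD :=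
    integrable_mul_bdd hU.int_sq (hsc.comp_continuousOn (contf hf)) hC
  have i2' : IntegrableOn (fun z => ‖F z‖ ^ 2 * s (f z) * U z ^ 2) DD := by
    refine i2.congr_fun (fun z _ => ?_) measurableSet_ball
    ring
  have j0 : IntegrableOn (fun z => N * (‖F z‖ ^ 2 * U z ^ 2 * bmp z₀ ε z)) DD := i1.const_mul N
  have j1 : IntegrableOn (fun z => N * (‖F z‖ ^ 2 * U z ^ 2 * bmp z₀ ε z) - ‖F z‖ ^ 2) DD :=
    j0.sub hA
  have j2 : IntegrableOn
      (fun z => N * (‖F z‖ ^ 2 * U z ^ 2 * bmp z₀ ε z) - ‖F z‖ ^ 2 - gsq U z) DD :=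
    j1.sub hU.int_gsq
  have j3 : IntegrableOn (fun z => δ * (‖F z‖ ^ 2 * U z ^ 2)) DD := hU.int_sq.const_mul δ
  have hkey : ∫ z in DD, (N * (‖F z‖ ^ 2 * U z ^ 2 * bmp z₀ ε z) - ‖F z‖ ^ 2 - gsq U z -
      δ * (‖F z‖ ^ 2 * U z ^ 2)) ≤ ∫ z in DD, ‖F z‖ ^ 2 * s (f z) * U z ^ 2 := by
    refine setIntegral_mono_on (j2.sub j3) i2' measurableSet_ball ?_
    intro z hz
    have hk := kpos hf hz
    have h1 := (abs_le.1 (hs z hz)).1
    have hcb : cut δ z * bmp z₀ ε z = bmp z₀ ε z := by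
      by_cases hzz : z ∈ closedBall z₀ ε
      · have := hδ1 hzz
        rw [mem_closedBall_zero_iff] at this
        rw [cut_eq_one hδ this, one_mul]
      · rw [bmp_eq_zero hε hzz, mul_zero]
    have h2 : HH F U δ z * U z ^ 2 ≤ GG F U z := by
      have hG := GG_ge (F := F) (U := U) z
      have hc0 := cut_nonneg δ z
      have hc1 := cut_le_one δ z
      have h3 : U z ^ 2 / (U z ^ 2 + δ) ≤ 1 := by
        rw [div_le_one (by (clear * - hδ; positivity))]; linarith only [hδ]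
      have h3' : 0 ≤ U z ^ 2 / (U z ^ 2 + δ) := by (clear * - hδ; positivity)
      have h4 : HH F U δ z * U z ^ 2 = (cut δ z * (U z ^ 2 / (U z ^ 2 + δ))) * GG F U z := by
        unfold HH; ring
      rw [h4]
      have h5 : cut δ z * (U z ^ 2 / (U z ^ 2 + δ)) ≤ 1 := by
        calc cut δ z * (U z ^ 2 / (U z ^ 2 + δ)) ≤ 1 * 1 :=
              mul_le_mul hc1 h3 h3' zero_le_one
          _ = 1 := one_mul 1
      calc (cut δ z * (U z ^ 2 / (U z ^ 2 + δ))) * GG F U z ≤ 1 * GG F U z :=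
            mul_le_mul_of_nonneg_right h5 (by linarith only [hG])
        _ = GG F U z := one_mul _
    have h3 : ‖F z‖ ^ 2 * GG F U z = ‖F z‖ ^ 2 + gsq U z := by
      unfold GG
      rw [mul_add, mul_one, mul_comm (‖F z‖ ^ 2) (gsq U z / ‖F z‖ ^ 2), div_mul_cancel₀ _ hk.ne']
    have h4 : s (f z) ≥ N * bmp z₀ ε z - HH F U δ z - δ := by
      have : Psi N z₀ ε F U δ z = N * bmp z₀ ε z - HH F U δ z := by
        unfold Psi; rw [hcb]
      rw [this] at h1
      linarith only [h1]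
    have h5 : ‖F z‖ ^ 2 * U z ^ 2 * (N * bmp z₀ ε z - HH F U δ z - δ) ≤
        ‖F z‖ ^ 2 * U z ^ 2 * s (f z) :=
      mul_le_mul_of_nonneg_left h4 (by (clear * - hk; positivity))
    have h6 : ‖F z‖ ^ 2 * (HH F U δ z * U z ^ 2) ≤ ‖F z‖ ^ 2 * GG F U z :=
      mul_le_mul_of_nonneg_left h2 hk.le
    linarith
  have e1 : ∫ z in DD, (N * (‖F z‖ ^ 2 * U z ^ 2 * bmp z₀ ε z) - ‖F z‖ ^ 2 - gsq U z -
      δ * (‖F z‖ ^ 2 * U z ^ 2)) = N * (∫ z in DD, ‖F z‖ ^ 2 * U z ^ 2 * bmp z₀ ε z) -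
      (∫ z in DD, ‖F z‖ ^ 2) - μ - δ := by
    rw [integral_sub j2 j3, integral_sub j1 hU.int_gsq, integral_sub j0 hA,
      integral_const_mul, integral_const_mul, hU.energy, hU.norm, mul_one]
  rw [← e1]
  exact hkey

end Vale.Agent.P071.Lim.SelC
end

section

/-!
# Auxiliary facts for the selected limit, second part (task LIM-SELc)
-/

open MeasureTheory Metric Filter Topology Real
open scoped ContDiff ENNReal

namespace Vale.Agent.P071.Lim.SelC

variable {f F : ℂ → ℂ} {μ : ℝ} {U : ℂ → ℝ}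

theorem norm_scale {r : ℝ} (hr0 : 0 < r) (z : ℂ) : ‖(r : ℂ) * z‖ = r * ‖z‖ := by
  rw [norm_mul, Complex.norm_real, Real.norm_eq_abs, abs_of_pos hr0]

theorem scale_mem {r : ℝ} (hr0 : 0 < r) (hr1 : r < 1) {z : ℂ} (hz : z ∈ DD) :
    (r : ℂ) * z ∈ DD := by
  rw [mem_ball_zero_iff] at hz ⊢
  rw [norm_scale hr0]
  have := norm_nonneg z
  nlinarith

theorem scale_mem' {r : ℝ} (hr0 : 0 < r) {z : ℂ} (hz : z ∈ DD) :
    (r : ℂ) * z ∈ closedBall (0 : ℂ) r := by
  rw [mem_ball_zero_iff] at hz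
  rw [mem_closedBall_zero_iff, norm_scale hr0]
  nlinarith

theorem scale_cont {E : Type*} [TopologicalSpace E] {g : ℂ → E} (hg : ContinuousOn g DD)
    {r : ℝ} (hr0 : 0 < r) (hr1 : r < 1) : ContinuousOn (fun z : ℂ => g (r * z)) DD :=
  hg.comp (continuous_const.mul continuous_id).continuousOn fun _ hz => scale_mem hr0 hr1 hz

theorem scale_bdd {g : ℂ → ℝ} (hg : ContinuousOn g DD)
    {r : ℝ} (hr0 : 0 < r) (hr1 : r < 1) : ∃ C : ℝ, ∀ z ∈ DD, |g (r * z)| ≤ C := by
  obtain ⟨C, hC⟩ := (isCompact_closedBall (0 : ℂ) r).exists_bound_of_continuousOn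
    (hg.mono (closedBall_subset_ball hr1))
  refine ⟨C, fun z hz => ?_⟩
  have := hC _ (scale_mem' hr0 hz)
  simpa only [ge_iff_le, norm_eq_abs] using this

theorem kap_eq (f F : ℂ → ℂ) (ρ : ℂ → ℝ) (r : ℝ) (z : ℂ) :
    kap f F ρ r z = kap f F (fun _ => 1) r z * ρ (f (r * z)) := by
  unfold kap; ring

theorem kap_cont (hf : Conf f F) {r : ℝ} (hr0 : 0 < r) (hr1 : r < 1) :
    ContinuousOn (kap f F (fun _ => 1) r) DD := by
  unfold kap
  exact (continuousOn_const.mul ((scale_cont (contF hf) hr0 hr1).norm.pow 2)).mul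
    continuousOn_const

theorem kap_nonneg (f F : ℂ → ℂ) (r : ℝ) (z : ℂ) : 0 ≤ kap f F (fun _ => 1) r z := by
  unfold kap; positivity

theorem kap_bdd (hf : Conf f F) {r : ℝ} (hr0 : 0 < r) (hr1 : r < 1) :
    ∃ C : ℝ, ∀ z ∈ DD, |kap f F (fun _ => 1) r z| ≤ C := by
  have hc : ContinuousOn (fun z : ℂ => r ^ 2 * ‖F z‖ ^ 2 * 1) DD :=
    (continuousOn_const.mul ((contF hf).norm.pow 2)).mul continuousOn_const
  exact scale_bdd hc hr0 hr1

theorem int_ok (hf : Conf f F) {r : ℝ} (hr0 : 0 < r) (hr1 : r < 1) {g w : ℂ → ℝ}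
    (hg : ContinuousOn g DD) (hw : ContinuousOn w DD) {Cw : ℝ} (hwb : ∀ z ∈ DD, |w z| ≤ Cw) :
    IntegrableOn (fun z => kap f F (fun _ => 1) r z * g (r * z) * w z ^ 2) DD := by
  obtain ⟨C1, hC1⟩ := kap_bdd hf hr0 hr1
  obtain ⟨C2, hC2⟩ := scale_bdd hg hr0 hr1
  refine integrable_bdd (C := C1 * C2 * Cw ^ 2)
    (((kap_cont hf hr0 hr1).mul (scale_cont hg hr0 hr1)).mul (hw.pow 2)) fun z hz => ?_
  rw [abs_mul, abs_mul, abs_pow]
  have h1 := hC1 z hz
  have h2 := hC2 z hz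
  have h3 := hwb z hz
  have a1 := abs_nonneg (kap f F (fun _ => 1) r z)
  have a2 := abs_nonneg (g (r * z))
  have a3 := abs_nonneg (w z)
  have h4 : |w z| ^ 2 ≤ Cw ^ 2 := pow_le_pow_left₀ a3 h3 2
  have h5 : |kap f F (fun _ => 1) r z| * |g (r * z)| ≤ C1 * C2 :=
    mul_le_mul h1 h2 a2 (a1.trans h1)
  exact mul_le_mul h5 h4 (by (clear * -; positivity)) (mul_nonneg (a1.trans h1) (a2.trans h2))

/-- Upper bound for the comparison functional at `w`. -/
theorem rhs_bound (hf : Conf f F) (hU1 : ContDiffOn ℝ 1 U DD) {z₀ : ℂ} {ε : ℝ}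
    {N δ : ℝ} (hN : 0 ≤ N) (hδ : 0 < δ)
    {s ρ : ℂ → ℝ} (hsc : Continuous s) (hs : ∀ z ∈ DD, |s (f z) - Psi N z₀ ε F U δ z| ≤ δ)
    (hρ : Continuous ρ) (hρ1 : ∀ z ∈ DD, 1 / 2 ≤ ρ (f z))
    {r μ' : ℝ} (hr0 : 0 < r) (hr1 : r < 1) {w : ℂ → ℝ} (hw : DiscMin (kap f F ρ r) μ' w) :
    ∫ z in DD, kap f F (fun _ => 1) r z * s (f (r * z)) * w z ^ 2 ≤
      N * (∫ z in DD, kap f F (fun _ => 1) r z * bmp z₀ ε (r * z) * w z ^ 2) -
      (∫ z in DD, kap f F (fun _ => 1) r z * HH F U δ (r * z) * w z ^ 2) + 2 * δ := by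
  have hwc : ContinuousOn w DD := hw.smooth.continuousOn
  obtain ⟨Cw, hCw⟩ := hw.bg.2
  have hwb : ∀ z ∈ DD, |w z| ≤ Cw := fun z hz => (hCw z hz).1
  have i1 : IntegrableOn
      (fun z => kap f F (fun _ => 1) r z * s (f (r * z)) * w z ^ 2) DD :=
    int_ok hf hr0 hr1 (g := fun z => s (f z)) (hsc.comp_continuousOn (contf hf)) hwc hwb
  have i2 : IntegrableOn
      (fun z => kap f F (fun _ => 1) r z * bmp z₀ ε (r * z) * w z ^ 2) DD :=
    int_ok hf hr0 hr1 (bmp_cont z₀ ε).continuousOn hwc hwb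
  have i3 : IntegrableOn
      (fun z => kap f F (fun _ => 1) r z * HH F U δ (r * z) * w z ^ 2) DD :=
    int_ok hf hr0 hr1 (HH_cont hf hU1 hδ) hwc hwb
  have i4 : IntegrableOn
      (fun z => kap f F (fun _ => 1) r z * ρ (f (r * z)) * w z ^ 2) DD :=
    int_ok hf hr0 hr1 (g := fun z => ρ (f z)) (hρ.comp_continuousOn (contf hf)) hwc hwb
  have j2 := i2.const_mul N
  have j3 : IntegrableOn (fun z => N * (kap f F (fun _ => 1) r z * bmp z₀ ε (r * z) * w z ^ 2) -
      kap f F (fun _ => 1) r z * HH F U δ (r * z) * w z ^ 2) DD := j2.sub i3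
  have j4 := i4.const_mul (2 * δ)
  have e1 : ∫ z in DD, (N * (kap f F (fun _ => 1) r z * bmp z₀ ε (r * z) * w z ^ 2) -
      kap f F (fun _ => 1) r z * HH F U δ (r * z) * w z ^ 2 +
      2 * δ * (kap f F (fun _ => 1) r z * ρ (f (r * z)) * w z ^ 2)) =
      N * (∫ z in DD, kap f F (fun _ => 1) r z * bmp z₀ ε (r * z) * w z ^ 2) -
      (∫ z in DD, kap f F (fun _ => 1) r z * HH F U δ (r * z) * w z ^ 2) + 2 * δ := by
    rw [integral_add j3 j4, integral_sub j2 i3, integral_const_mul, integral_const_mul]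
    have hn : ∫ z in DD, kap f F (fun _ => 1) r z * ρ (f (r * z)) * w z ^ 2 = 1 := by
      refine Eq.trans (setIntegral_congr_fun measurableSet_ball fun z _ => ?_) hw.norm
      show kap f F (fun _ => 1) r z * ρ (f (r * z)) * w z ^ 2 = kap f F ρ r z * w z ^ 2
      rw [kap_eq f F ρ r z]
    rw [hn, mul_one]
  rw [← e1]
  refine setIntegral_mono_on i1 (j3.add j4) measurableSet_ball fun z hz => ?_
  have hz' := scale_mem hr0 hr1 hz
  have h1 := (abs_le.1 (hs _ hz')).2
  have hb0 := bmp_nonneg z₀ ε (r * z)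
  have hc1 := cut_le_one δ (r * z)
  have hc0 := cut_nonneg δ (r * z)
  have h2 : s (f (r * z)) ≤ N * bmp z₀ ε (r * z) - HH F U δ (r * z) + δ := by
    have h3 : N * (cut δ (r * z) * bmp z₀ ε (r * z)) ≤ N * bmp z₀ ε (r * z) := by
      refine mul_le_mul_of_nonneg_left ?_ hN
      nlinarith only [hb0, hc1]
    unfold Psi at h1
    linarith only [h1, h3]
  have hk := kap_nonneg f F r z
  have h3 : kap f F (fun _ => 1) r z * w z ^ 2 * s (f (r * z)) ≤
      kap f F (fun _ => 1) r z * w z ^ 2 * (N * bmp z₀ ε (r * z) - HH F U δ (r * z) + δ) :=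
    mul_le_mul_of_nonneg_left h2 (by (clear * - hk; positivity))
  have h4 : kap f F (fun _ => 1) r z * w z ^ 2 * δ ≤
      2 * δ * (kap f F (fun _ => 1) r z * ρ (f (r * z)) * w z ^ 2) := by
    have h5 := hρ1 _ hz'
    have h6 : 0 ≤ kap f F (fun _ => 1) r z * w z ^ 2 * δ := by (clear * - hk hδ; positivity)
    nlinarith only [h5, h6]
  show kap f F (fun _ => 1) r z * s (f (r * z)) * w z ^ 2 ≤
    (N * (kap f F (fun _ => 1) r z * bmp z₀ ε (r * z) * w z ^ 2) -
      kap f F (fun _ => 1) r z * HH F U δ (r * z) * w z ^ 2) +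
      2 * δ * (kap f F (fun _ => 1) r z * ρ (f (r * z)) * w z ^ 2)
  linarith

/-- points of the disc have converging scalings -/
theorem scale_tendsto {r : ℕ → ℝ} (hr1 : Tendsto r atTop (𝓝 1)) (z : ℂ) :
    Tendsto (fun n => (r n : ℂ) * z) atTop (𝓝 z) := by
  have h : Tendsto (fun n => (r n : ℂ)) atTop (𝓝 ((1 : ℝ) : ℂ)) :=
    (Complex.continuous_ofReal.tendsto 1).comp hr1
  have := h.mul_const z
  simpa only [Complex.ofReal_one, one_mul] using this

theorem kap_tendsto (hf : Conf f F) {r : ℕ → ℝ} (hr1 : Tendsto r atTop (𝓝 1)) {z : ℂ}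
    (hz : z ∈ DD) :
    Tendsto (fun n => kap f F (fun _ => 1) (r n) z) atTop (𝓝 (‖F z‖ ^ 2)) := by
  unfold kap
  have h1 : Tendsto (fun n => F ((r n : ℂ) * z)) atTop (𝓝 (F z)) :=
    ((contF hf).continuousAt (isOpen_ball.mem_nhds hz)).tendsto.comp (scale_tendsto hr1 z)
  have := ((hr1.pow 2).mul (h1.norm.pow 2)).mul_const 1
  simpa only [mul_one, one_pow, one_mul] using this

/-- Convergence of the integrals against the bump. -/
theorem lim_bmp (hf : Conf f F) {z₀ : ℂ} {ε : ℝ} (hε : 0 < ε) (hB : closedBall z₀ ε ⊆ DD)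
    {r : ℕ → ℝ} (hr : ∀ n, 0 < r n ∧ r n < 1) (hr1 : Tendsto r atTop (𝓝 1))
    {w : ℕ → ℂ → ℝ} {w₀ : ℂ → ℝ} (hwc : ∀ n, ContinuousOn (w n) DD) (hw0 : ContinuousOn w₀ DD)
    (hlim : ∀ R < 1, TendstoUniformlyOn w w₀ atTop (closedBall 0 R)) :
    Tendsto (fun n => ∫ z in DD, kap f F (fun _ => 1) (r n) z * bmp z₀ ε (r n * z) * w n z ^ 2)
      atTop (𝓝 (∫ z in DD, ‖F z‖ ^ 2 * bmp z₀ ε z * w₀ z ^ 2)) := by
  obtain ⟨zm, hzm, hmax⟩ := (isCompact_closedBall z₀ ε).exists_isMaxOn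
    ⟨z₀, mem_closedBall_self hε.le⟩ continuous_norm.continuousOn
  have hR0 : ‖zm‖ < 1 := by simpa only [mem_ball, dist_zero_right] using hB hzm
  set R₀ := ‖zm‖ with hR0def
  have hR00 : 0 ≤ R₀ := norm_nonneg _
  set R₁ := (1 + R₀) / 2 with hR1def
  have hR1 : R₁ < 1 := by rw [hR1def]; linarith only [hR0]
  have hR01 : R₀ < R₁ := by rw [hR1def]; linarith only [hR1def, hR1]
  have hsub : closedBall (0 : ℂ) R₁ ⊆ DD := closedBall_subset_ball hR1
  obtain ⟨CF, hCF⟩ := (isCompact_closedBall (0 : ℂ) R₁).exists_bound_of_continuousOn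
    ((contF hf).mono hsub)
  obtain ⟨Cw, hCw⟩ := (isCompact_closedBall (0 : ℂ) R₁).exists_bound_of_continuousOn
    (hw0.mono hsub)
  have hfin : IsFiniteMeasure (volume.restrict DD) :=
    ⟨by rw [Measure.restrict_apply_univ]; exact measure_ball_lt_top⟩
  have hCF0 : 0 ≤ CF := (norm_nonneg _).trans (hCF 0 (mem_closedBall_self (by linarith only [hR00, hR1def])))
  have hCw0 : 0 ≤ Cw := (norm_nonneg _).trans (hCw 0 (mem_closedBall_self (by linarith only [hR00, hR1def])))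
  have ev1 : ∀ᶠ n in atTop, R₀ < r n * R₁ := by
    have : Tendsto (fun n => r n * R₁) atTop (𝓝 (1 * R₁)) := hr1.mul_const R₁
    rw [one_mul] at this
    exact this.eventually (lt_mem_nhds hR01)
  have ev2 : ∀ᶠ n in atTop, ∀ z ∈ closedBall (0 : ℂ) R₁, dist (w₀ z) (w n z) < 1 :=
    Metric.tendstoUniformlyOn_iff.1 (hlim R₁ hR1) 1 one_pos
  refine tendsto_integral_filter_of_dominated_convergence
    (fun _ => CF ^ 2 * 1 * (Cw + 1) ^ 2) ?_ ?_ (integrable_const _) ?_
  · refine Eventually.of_forall fun n => ?_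
    exact ((((kap_cont hf (hr n).1 (hr n).2).mul
      (scale_cont (bmp_cont z₀ ε).continuousOn (hr n).1 (hr n).2)).mul
      ((hwc n).pow 2))).aestronglyMeasurable measurableSet_ball
  · filter_upwards [ev1, ev2] with n h1 h2
    refine (ae_restrict_iff' measurableSet_ball).2 (Eventually.of_forall fun z hz => ?_)
    by_cases hb : (r n : ℂ) * z ∈ closedBall z₀ ε
    · have h3 : ‖(r n : ℂ) * z‖ ≤ R₀ := hmax hb
      have h3' := h3
      rw [norm_scale (hr n).1] at h3
      have hz1 : ‖z‖ ≤ R₁ := by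
        have : r n * ‖z‖ < r n * R₁ := lt_of_le_of_lt h3 h1
        exact (lt_of_mul_lt_mul_left this (hr n).1.le).le
      have hzm1 : z ∈ closedBall (0 : ℂ) R₁ := by simpa only [mem_closedBall, dist_zero_right] using hz1
      have hzm2 : (r n : ℂ) * z ∈ closedBall (0 : ℂ) R₁ := by
        rw [mem_closedBall_zero_iff]; linarith only [hR1def, hR1, h3']
      have b1 : ‖F ((r n : ℂ) * z)‖ ≤ CF := hCF _ hzm2
      have b2 : |w n z| ≤ Cw + 1 := by
        have c1 := hCw _ hzm1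
        have c2 := h2 z hzm1
        rw [Real.norm_eq_abs] at c1
        rw [Real.dist_eq] at c2
        have c3 := abs_lt.1 c2
        have c4 := abs_le.1 c1
        rw [abs_le]
        constructor <;> linarith only [c3, c4]
      have b3 : kap f F (fun _ => 1) (r n) z ≤ CF ^ 2 := by
        unfold kap
        have c1 : ‖F ((r n : ℂ) * z)‖ ^ 2 ≤ CF ^ 2 := pow_le_pow_left₀ (norm_nonneg _) b1 2
        have c2 : r n ^ 2 ≤ 1 := pow_le_one₀ (hr n).1.le (hr n).2.le
        have c3 : 0 ≤ ‖F ((r n : ℂ) * z)‖ ^ 2 := by (clear * -; positivity)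
        nlinarith only [c2, c1]
      rw [Real.norm_eq_abs, abs_mul, abs_mul, abs_of_nonneg (kap_nonneg _ _ _ _),
        abs_of_nonneg (bmp_nonneg _ _ _), abs_pow]
      have b4 := bmp_le_one hε z₀ ((r n : ℂ) * z)
      have b5 : |w n z| ^ 2 ≤ (Cw + 1) ^ 2 := pow_le_pow_left₀ (abs_nonneg _) b2 2
      exact mul_le_mul (mul_le_mul b3 b4 (bmp_nonneg _ _ _) (by (clear * -; positivity))) b5
        (by (clear * -; positivity)) (by (clear * -; positivity))
    · rw [bmp_eq_zero hε hb]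
      simp only [mul_zero, zero_mul, norm_zero]
      (clear * - hCw0; positivity)
  · refine (ae_restrict_iff' measurableSet_ball).2 (Eventually.of_forall fun z hz => ?_)
    have h1 := kap_tendsto hf hr1 hz
    have h2 : Tendsto (fun n => bmp z₀ ε ((r n : ℂ) * z)) atTop (𝓝 (bmp z₀ ε z)) :=
      ((bmp_cont z₀ ε).tendsto z).comp (scale_tendsto hr1 z)
    have h3 : Tendsto (fun n => w n z) atTop (𝓝 (w₀ z)) :=
      (hlim ‖z‖ (by simpa only [mem_ball, dist_zero_right] using hz)).tendsto_at (by simp)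
    exact (h1.mul h2).mul (h3.pow 2)

/-- Pointwise lower bound for the Fatou argument. -/
theorem fatou_pt (hf : Conf f F) (hU1 : ContDiffOn ℝ 1 U DD)
    {r δ : ℕ → ℝ} (hr : ∀ n, 0 < r n ∧ r n < 1) (hr1 : Tendsto r atTop (𝓝 1))
    (hδ : ∀ n, 0 < δ n) (hδ0 : Tendsto δ atTop (𝓝 0))
    {w : ℕ → ℂ → ℝ} {w₀ : ℂ → ℝ}
    (hlim : ∀ R < 1, TendstoUniformlyOn w w₀ atTop (closedBall 0 R)) {z : ℂ} (hz : z ∈ DD) :
    ENNReal.ofReal ((‖F z‖ ^ 2 + gsq U z) * w₀ z ^ 2) / ENNReal.ofReal (U z ^ 2) ≤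
      liminf (fun n => ENNReal.ofReal
        (kap f F (fun _ => 1) (r n) z * HH F U (δ n) (r n * z) * w n z ^ 2)) atTop := by
  have hk := kpos hf hz
  have t1 := kap_tendsto hf hr1 hz
  have t2 : Tendsto (fun n => w n z) atTop (𝓝 (w₀ z)) :=
    (hlim ‖z‖ (by simpa only [mem_ball, dist_zero_right] using hz)).tendsto_at (by simp)
  have tU : Tendsto (fun n => U ((r n : ℂ) * z)) atTop (𝓝 (U z)) :=
    (hU1.continuousOn.continuousAt (isOpen_ball.mem_nhds hz)).tendsto.comp (scale_tendsto hr1 z)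
  have tG : Tendsto (fun n => GG F U ((r n : ℂ) * z)) atTop (𝓝 (GG F U z)) :=
    ((GG_cont hf hU1).continuousAt (isOpen_ball.mem_nhds hz)).tendsto.comp (scale_tendsto hr1 z)
  have tD : Tendsto (fun n => U ((r n : ℂ) * z) ^ 2 + δ n) atTop (𝓝 (U z ^ 2)) := by
    simpa only [add_zero] using (tU.pow 2).add hδ0
  have ecut : ∀ᶠ n in atTop, cut (δ n) ((r n : ℂ) * z) = 1 := by
    have hz1 : ‖z‖ < 1 := by simpa only [mem_ball, dist_zero_right] using hz
    have : ∀ᶠ n in atTop, δ n < (1 - ‖z‖) / 2 := hδ0.eventually (gt_mem_nhds (by linarith))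
    filter_upwards [this] with n hn
    apply cut_eq_one (hδ n)
    rw [norm_scale (hr n).1]
    have := (hr n).2
    have h0 := norm_nonneg z
    nlinarith only [hn, this, h0]
  by_cases hUz : U z = 0
  · by_cases hwz : w₀ z = 0
    · simp only [hwz, ne_eq, OfNat.ofNat_ne_zero, not_false_eq_true, zero_pow, mul_zero, ENNReal.ofReal_zero, ENNReal.zero_div, zero_le]
    · -- the sequence tends to infinity
      have tinv : Tendsto (fun n => (U ((r n : ℂ) * z) ^ 2 + δ n)⁻¹) atTop atTop := by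
        refine tendsto_inv_nhdsGT_zero.comp ?_
        refine tendsto_nhdsWithin_iff.2 ⟨?_, Eventually.of_forall fun n => ?_⟩
        · simpa [hUz] using tD
        · have := hδ n
          show 0 < U ((r n : ℂ) * z) ^ 2 + δ n
          (clear * - this; positivity)
      have tH : Tendsto (fun n => HH F U (δ n) ((r n : ℂ) * z)) atTop atTop := by
        refine tendsto_atTop_mono' atTop ?_ tinv
        filter_upwards [ecut] with n hn
        unfold HH
        rw [hn, one_mul, inv_eq_one_div]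
        have := hδ n
        exact div_le_div_of_nonneg_right (GG_ge _) (by (clear * - this; positivity))
      have tA : Tendsto (fun n => (kap f F (fun _ => 1) (r n) z * w n z ^ 2) *
          HH F U (δ n) ((r n : ℂ) * z)) atTop atTop := by
        refine Tendsto.pos_mul_atTop (C := ‖F z‖ ^ 2 * w₀ z ^ 2) (by (clear * - hk hwz; positivity))
          (t1.mul (t2.pow 2)) tH
      have tB : Tendsto (fun n => ENNReal.ofReal
          (kap f F (fun _ => 1) (r n) z * HH F U (δ n) (r n * z) * w n z ^ 2)) atTop (𝓝 ⊤) := by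
        refine (ENNReal.tendsto_ofReal_atTop.comp tA).congr fun n => ?_
        simp only [Function.comp]
        congr 1
        ring
      rw [tB.liminf_eq]
      exact le_top
  · have hU2 : 0 < U z ^ 2 := by (clear * - hUz; positivity)
    have tH : Tendsto (fun n => HH F U (δ n) ((r n : ℂ) * z)) atTop
        (𝓝 (GG F U z / U z ^ 2)) := by
      refine (tG.div tD hU2.ne').congr' ?_
      filter_upwards [ecut] with n hn
      unfold HH
      rw [hn, one_mul]
      rfl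
    have tA := (t1.mul tH).mul (t2.pow 2)
    have tB := (ENNReal.continuous_ofReal.tendsto _).comp tA
    have e : ‖F z‖ ^ 2 * (GG F U z / U z ^ 2) * w₀ z ^ 2 =
        ((‖F z‖ ^ 2 + gsq U z) * w₀ z ^ 2) / U z ^ 2 := by
      have h3 : ‖F z‖ ^ 2 * GG F U z = ‖F z‖ ^ 2 + gsq U z := by
        unfold GG
        rw [mul_add, mul_one, mul_comm (‖F z‖ ^ 2) (gsq U z / ‖F z‖ ^ 2), div_mul_cancel₀ _ hk.ne']
      rw [← h3]
      ring
    rw [← ENNReal.ofReal_div_of_pos hU2, ← e]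
    exact tB.liminf_eq.ge

end Vale.Agent.P071.Lim.SelC
end

section

/-!
# Weak forms of the equations (task LIM-VARa)
-/

open MeasureTheory Metric Filter Topology Real
open scoped ContDiff ENNReal

namespace Vale.Agent.P071.Lim

lemma varA_continuousOn_F {f F : ℂ → ℂ} (hf : Conf f F) : ContinuousOn F DD := by
  have hd : DifferentiableOn ℂ f DD := fun z hz =>
    (hf.deriv z hz).differentiableAt.differentiableWithinAt
  have h1 : ContinuousOn (deriv f) DD := (hd.deriv isOpen_ball).continuousOn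
  exact h1.congr fun z hz => (hf.deriv z hz).deriv.symm

lemma varA_continuousOn_px {W : ℂ → ℝ} (hW : ContDiffOn ℝ 1 W DD) : ContinuousOn (px W) DD := by
  have h : ContinuousOn (fderiv ℝ W) DD := hW.continuousOn_fderiv_of_isOpen isOpen_ball le_rfl
  exact h.clm_apply continuousOn_const

lemma varA_continuousOn_py {W : ℂ → ℝ} (hW : ContDiffOn ℝ 1 W DD) : ContinuousOn (py W) DD := by
  have h : ContinuousOn (fderiv ℝ W) DD := hW.continuousOn_fderiv_of_isOpen isOpen_ball le_rfl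
  exact h.clm_apply continuousOn_const

lemma varA_integrable {g h : ℂ → ℝ} (hg : ContinuousOn g DD) (hh : IntegrableOn h DD)
    (hle : ∀ z ∈ DD, |g z| ≤ h z) : IntegrableOn g DD := by
  refine Integrable.mono' hh (hg.aestronglyMeasurable measurableSet_ball) ?_
  exact (ae_restrict_iff' measurableSet_ball).mpr (Eventually.of_forall fun z hz => hle z hz)

lemma varA_quadratic {a b : ℝ} (h : ∀ t : ℝ, 0 ≤ 2 * t * a + t ^ 2 * b) : a = 0 := by
  by_contra ha
  have hb : 0 < |b| + 1 := by positivity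
  have h1 := h (-a / (|b| + 1))
  have h2 : 0 < a ^ 2 := by positivity
  have h3 : b ≤ |b| := le_abs_self b
  have h4 : 2 * (-a / (|b| + 1)) * a + (-a / (|b| + 1)) ^ 2 * b
      = (a ^ 2 * (b - 2 * (|b| + 1))) / (|b| + 1) ^ 2 := by
    field_simp
    ring
  rw [h4] at h1
  have h5 : a ^ 2 * (b - 2 * (|b| + 1)) < 0 := by
    have h6 : b - 2 * (|b| + 1) < 0 := by
      have := abs_nonneg b
      linarith only [hb, h3]
    nlinarith only [h2, hb, h3]
  have h6 : (a ^ 2 * (b - 2 * (|b| + 1))) / (|b| + 1) ^ 2 < 0 :=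
    div_neg_of_neg_of_pos h5 (by positivity)
  linarith only [h1, h6]

lemma varA_differentiableAt {W : ℂ → ℝ} (hW : ContDiffOn ℝ 1 W DD) {z : ℂ} (hz : z ∈ DD) :
    DifferentiableAt ℝ W z :=
  (hW.differentiableOn one_ne_zero).differentiableAt (isOpen_ball.mem_nhds hz)

lemma varA_px_comb {W₀ W : ℂ → ℝ} (hW₀ : ContDiffOn ℝ 1 W₀ DD) (hW : ContDiffOn ℝ 1 W DD)
    (t c : ℝ) {z : ℂ} (hz : z ∈ DD) (v : ℂ) :
    fderiv ℝ (fun y => W₀ y + t * (W y - c)) z v = fderiv ℝ W₀ z v + t * fderiv ℝ W z v := by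
  have h1 := (varA_differentiableAt hW₀ hz).hasFDerivAt
  have h2 := (varA_differentiableAt hW hz).hasFDerivAt
  have h3 : HasFDerivAt (fun y => W₀ y + t * (W y - c)) (fderiv ℝ W₀ z + t • fderiv ℝ W z) z :=
    h1.add ((h2.sub_const c).const_mul t)
  rw [h3.fderiv]
  rfl

lemma varA_int_add {a b : ℂ → ℝ} (ha : IntegrableOn a DD) (hb : IntegrableOn b DD) (t : ℝ) :
    IntegrableOn (fun z => a z + t * b z) DD ∧
      ∫ z in DD, (a z + t * b z) = (∫ z in DD, a z) + t * ∫ z in DD, b z := by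
  have h1 : IntegrableOn (fun z => t * b z) DD := hb.const_mul t
  refine ⟨ha.add h1, ?_⟩
  rw [integral_add ha h1, integral_const_mul]

/-- The same for any minimiser `W₀` (for instance a limit of eigenfunctions). -/
theorem weak_of_minimal {f F : ℂ → ℂ} (hf : Conf f F) {μ : ℝ} {U W₀ : ℂ → ℝ}
    (hU : Target F μ U) (hW₀ : ContDiffOn ℝ 1 W₀ DD)
    (h2₀ : IntegrableOn (fun z => ‖F z‖ ^ 2 * W₀ z ^ 2) DD) (hg₀ : IntegrableOn (gsq W₀) DD)
    (hm₀ : ∫ z in DD, ‖F z‖ ^ 2 * W₀ z = 0)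
    (hE : ∫ z in DD, gsq W₀ z ≤ μ * ∫ z in DD, ‖F z‖ ^ 2 * W₀ z ^ 2)
    {W : ℂ → ℝ} (hW : ContDiffOn ℝ 1 W DD) (h2 : IntegrableOn (fun z => ‖F z‖ ^ 2 * W z ^ 2) DD)
    (hg : IntegrableOn (gsq W) DD) :
    ∫ z in DD, (px W₀ z * px W z + py W₀ z * py W z) =
      μ * ∫ z in DD, ‖F z‖ ^ 2 * W₀ z * W z := by
  have hFc := varA_continuousOn_F hf
  have hκc : ContinuousOn (fun z => ‖F z‖ ^ 2) DD := hFc.norm.pow 2
  have hκi : IntegrableOn (fun z => ‖F z‖ ^ 2) DD := conf_area hf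
  have hWc := hW.continuousOn
  have hW₀c := hW₀.continuousOn
  have hpx := varA_continuousOn_px hW
  have hpy := varA_continuousOn_py hW
  have hpx₀ := varA_continuousOn_px hW₀
  have hpy₀ := varA_continuousOn_py hW₀
  -- integrability
  have i1 : IntegrableOn (fun z => ‖F z‖ ^ 2 * W z) DD := by
    refine varA_integrable (hκc.mul hWc) (hκi.add h2) fun z _ => ?_
    rw [abs_mul, abs_of_nonneg (by (clear * -; positivity) : (0 : ℝ) ≤ ‖F z‖ ^ 2)]
    show ‖F z‖ ^ 2 * |W z| ≤ ‖F z‖ ^ 2 + ‖F z‖ ^ 2 * W z ^ 2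
    have h3 : |W z| ≤ 1 + W z ^ 2 := by
      rw [← sq_abs (W z)]
      nlinarith only []
    (clear * - h3; nlinarith [sq_nonneg ‖F z‖])
  have i2 : IntegrableOn (fun z => ‖F z‖ ^ 2 * W₀ z) DD := by
    refine varA_integrable (hκc.mul hW₀c) (hκi.add h2₀) fun z _ => ?_
    rw [abs_mul, abs_of_nonneg (by (clear * -; positivity) : (0 : ℝ) ≤ ‖F z‖ ^ 2)]
    show ‖F z‖ ^ 2 * |W₀ z| ≤ ‖F z‖ ^ 2 + ‖F z‖ ^ 2 * W₀ z ^ 2
    have h3 : |W₀ z| ≤ 1 + W₀ z ^ 2 := by
      rw [← sq_abs (W₀ z)]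
      nlinarith only []
    nlinarith only [h3]
  have i3 : IntegrableOn (fun z => ‖F z‖ ^ 2 * W₀ z * W z) DD := by
    refine varA_integrable ((hκc.mul hW₀c).mul hWc) (h2₀.add h2) fun z _ => ?_
    rw [abs_mul, abs_mul, abs_of_nonneg (by (clear * -; positivity) : (0 : ℝ) ≤ ‖F z‖ ^ 2)]
    show ‖F z‖ ^ 2 * |W₀ z| * |W z| ≤ ‖F z‖ ^ 2 * W₀ z ^ 2 + ‖F z‖ ^ 2 * W z ^ 2
    have h3 : |W₀ z| * |W z| ≤ W₀ z ^ 2 + W z ^ 2 := by
      rw [← sq_abs (W₀ z), ← sq_abs (W z)]
      nlinarith only []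
    nlinarith only [h3]
  have i4 : IntegrableOn (fun z => px W₀ z * px W z + py W₀ z * py W z) DD := by
    refine varA_integrable ((hpx₀.mul hpx).add (hpy₀.mul hpy)) (hg₀.add hg) fun z _ => ?_
    show |px W₀ z * px W z + py W₀ z * py W z| ≤
      (px W₀ z ^ 2 + py W₀ z ^ 2) + (px W z ^ 2 + py W z ^ 2)
    rw [abs_le]
    constructor <;> nlinarith [sq_nonneg (px W₀ z + px W z), sq_nonneg (px W₀ z - px W z),
      sq_nonneg (py W₀ z + py W z), sq_nonneg (py W₀ z - py W z)]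
  -- positivity of the area
  have hA : 0 < ∫ z in DD, ‖F z‖ ^ 2 := by
    rw [setIntegral_pos_iff_support_of_nonneg_ae (Eventually.of_forall fun z => by (clear * -; positivity))
      hκi]
    have h3 : DD ⊆ Function.support (fun z => ‖F z‖ ^ 2) ∩ DD := by
      intro z hz
      refine ⟨?_, hz⟩
      have := norm_pos_iff.mpr (hf.ne_zero z hz)
      exact (by (clear * - this; positivity) : (0 : ℝ) < ‖F z‖ ^ 2).ne'
    exact lt_of_lt_of_le (measure_ball_pos volume (0 : ℂ) one_pos) (measure_mono h3)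
  set c : ℝ := (∫ z in DD, ‖F z‖ ^ 2 * W z) / ∫ z in DD, ‖F z‖ ^ 2 with hc
  have hcA : c * ∫ z in DD, ‖F z‖ ^ 2 = ∫ z in DD, ‖F z‖ ^ 2 * W z := by
    rw [hc]
    (clear * - hA; field_simp)
  set N₀ := ∫ z in DD, ‖F z‖ ^ 2 * W₀ z ^ 2 with hN₀
  set N := ∫ z in DD, ‖F z‖ ^ 2 * W z ^ 2 with hN
  set B := ∫ z in DD, ‖F z‖ ^ 2 * W₀ z * W z with hB
  set G := ∫ z in DD, (px W₀ z * px W z + py W₀ z * py W z) with hG
  set E₀ := ∫ z in DD, gsq W₀ z with hE₀
  set E := ∫ z in DD, gsq W z with hEdef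
  set A := ∫ z in DD, ‖F z‖ ^ 2 with hAdef
  set M := ∫ z in DD, ‖F z‖ ^ 2 * W z with hM
  have key : ∀ t : ℝ, 0 ≤ 2 * t * (G - μ * B) + t ^ 2 * (E - μ * (N - 2 * c * M + c ^ 2 * A)) := by
    intro t
    obtain ⟨a1, b1⟩ := varA_int_add h2₀ i3 (2 * t)
    obtain ⟨a2, b2⟩ := varA_int_add a1 i2 (-(2 * t * c))
    obtain ⟨a3, b3⟩ := varA_int_add a2 h2 (t ^ 2)
    obtain ⟨a4, b4⟩ := varA_int_add a3 i1 (-(t ^ 2 * (2 * c)))
    obtain ⟨a5, b5⟩ := varA_int_add a4 hκi (t ^ 2 * c ^ 2)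
    have e1 : (fun z => ‖F z‖ ^ 2 * (W₀ z + t * (W z - c)) ^ 2)
        = fun z => ‖F z‖ ^ 2 * W₀ z ^ 2 + 2 * t * (‖F z‖ ^ 2 * W₀ z * W z)
          + -(2 * t * c) * (‖F z‖ ^ 2 * W₀ z) + t ^ 2 * (‖F z‖ ^ 2 * W z ^ 2)
          + -(t ^ 2 * (2 * c)) * (‖F z‖ ^ 2 * W z) + t ^ 2 * c ^ 2 * ‖F z‖ ^ 2 := by
      funext z
      ring
    have e2 : ∀ z ∈ DD, gsq (fun y => W₀ y + t * (W y - c)) z
        = gsq W₀ z + 2 * t * (px W₀ z * px W z + py W₀ z * py W z) + t ^ 2 * gsq W z := by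
      intro z hz
      unfold gsq px py
      rw [varA_px_comb hW₀ hW t c hz, varA_px_comb hW₀ hW t c hz]
      ring
    obtain ⟨c1, d1⟩ := varA_int_add hg₀ i4 (2 * t)
    obtain ⟨c2, d2⟩ := varA_int_add c1 hg (t ^ 2)
    obtain ⟨f1, g1⟩ := varA_int_add i2 i1 t
    obtain ⟨f2, g2⟩ := varA_int_add f1 hκi (-(t * c))
    have hmin := hU.minimal (fun y => W₀ y + t * (W y - c))
      (hW₀.add (contDiffOn_const.mul (hW.sub contDiffOn_const)))
      (by rw [e1]; exact a5)
      (c2.congr_fun (fun z hz => (e2 z hz).symm) measurableSet_ball)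
      (by
        have e3 : (fun z => ‖F z‖ ^ 2 * (W₀ z + t * (W z - c)))
            = fun z => ‖F z‖ ^ 2 * W₀ z + t * (‖F z‖ ^ 2 * W z) + -(t * c) * ‖F z‖ ^ 2 := by
          funext z; ring
        rw [e3, g2, g1, hm₀]
        linear_combination (-t) * hcA)
    have s1 : ∫ z in DD, ‖F z‖ ^ 2 * (W₀ z + t * (W z - c)) ^ 2
        = N₀ + 2 * t * B + t ^ 2 * N + -(t ^ 2 * (2 * c)) * M + t ^ 2 * c ^ 2 * A := by
      rw [e1, b5, b4, b3, b2, b1, hm₀, mul_zero, add_zero]
    have s2 : ∫ z in DD, gsq (fun y => W₀ y + t * (W y - c)) z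
        = E₀ + 2 * t * G + t ^ 2 * E := by
      rw [setIntegral_congr_fun measurableSet_ball e2, d2, d1]
    rw [s1, s2] at hmin
    linarith only [hmin, hE]
  have hfin := varA_quadratic key
  linarith only [hfin]

/-- Weak form of the equation of the target against `C¹` functions of finite energy. -/
theorem Target.weak {f F : ℂ → ℂ} (hf : Conf f F) {μ : ℝ} {U : ℂ → ℝ} (hU : Target F μ U)
    {W : ℂ → ℝ} (hW : ContDiffOn ℝ 1 W DD) (h2 : IntegrableOn (fun z => ‖F z‖ ^ 2 * W z ^ 2) DD)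
    (hg : IntegrableOn (gsq W) DD) :
    ∫ z in DD, (px U z * px W z + py U z * py W z) = μ * ∫ z in DD, ‖F z‖ ^ 2 * U z * W z :=
  weak_of_minimal hf hU (hU.smooth.of_le one_le_two) hU.int_sq hU.int_gsq hU.mean
    (by rw [hU.energy, hU.norm, mul_one]) hW h2 hg

end Vale.Agent.P071.Lim
end

section

/-!
# Picone identity (task LIM-PIC)
-/

open MeasureTheory Metric Filter Topology Real
open scoped ContDiff ENNReal

namespace Vale.Agent.P071.Lim

/-- Picone: off the zero set of `U` the quotient `w/U` has gradient zero. -/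
theorem picone {f F : ℂ → ℂ} (hf : Conf f F) {μ : ℝ} {U w : ℂ → ℝ} (hU : Target F μ U)
    (hw : ContDiffOn ℝ 2 w DD) (h2 : IntegrableOn (fun z => ‖F z‖ ^ 2 * w z ^ 2) DD)
    (hg : IntegrableOn (gsq w) DD)
    (hE : ∫ z in DD, gsq w z ≤ μ * ∫ z in DD, ‖F z‖ ^ 2 * w z ^ 2)
    (hP : ∫⁻ z in DD, ENNReal.ofReal ((‖F z‖ ^ 2 + gsq U z) * w z ^ 2) /
      ENNReal.ofReal (U z ^ 2) < ⊤) :
    ∀ z ∈ DD, U z ≠ 0 → U z * px w z = w z * px U z ∧ U z * py w z = w z * py U z := by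
  have hFc : ContinuousOn F DD := varA_continuousOn_F hf
  have key := Loc.picone (Ω := DD) isOpen_ball (κ := fun z => ‖F z‖ ^ 2) (u := U) (U := w) (μ := μ)
    (hFc.norm.pow 2) (fun z hz => by have := norm_pos_iff.2 (hf.ne_zero z hz); (clear * - this; positivity))
    (conf_area hf) (hU.smooth.of_le (by norm_num)) (hw.of_le (by norm_num)) hU.int_gsq h2 hg
    (fun φ h1 h3 h4 => hU.weak hf h1 h3 h4) hE hP
  intro z hz h0
  obtain ⟨h1, h3⟩ := key z hz h0
  constructor
  · change px w z = w z / U z * px U z at h1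
    rw [h1]; (clear * - h0; field_simp)
  · change py w z = w z / U z * py U z at h3
    rw [h3]; (clear * - h0; field_simp)

/-- `w` is a constant multiple of `U` on a ball where `U ≠ 0`. -/
theorem eq_const_mul {U w : ℂ → ℝ} (hU : ContDiffOn ℝ 2 U DD) (hw : ContDiffOn ℝ 2 w DD)
    (h : ∀ z ∈ DD, U z ≠ 0 → U z * px w z = w z * px U z ∧ U z * py w z = w z * py U z)
    {z₀ : ℂ} {ε : ℝ} (hε : 0 < ε) (hB : ∀ z ∈ closedBall z₀ ε, z ∈ DD ∧ U z ≠ 0) :
    ∃ c : ℝ, ∀ z ∈ closedBall z₀ ε, w z = c * U z := by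
  have hder : ∀ z ∈ closedBall z₀ ε, HasFDerivWithinAt (fun z => w z * (U z)⁻¹)
      (0 : ℂ →L[ℝ] ℝ) (closedBall z₀ ε) z := by
    intro z hz
    obtain ⟨hzD, hU0⟩ := hB z hz
    have hUF : HasFDerivAt U (fderiv ℝ U z) z :=
      ((hU.differentiableOn two_ne_zero).differentiableAt (isOpen_ball.mem_nhds hzD)).hasFDerivAt
    have hwF : HasFDerivAt w (fderiv ℝ w z) z :=
      ((hw.differentiableOn two_ne_zero).differentiableAt (isOpen_ball.mem_nhds hzD)).hasFDerivAt
    have h3 : HasFDerivAt (fun z => (U z)⁻¹) (-(U z ^ 2)⁻¹ • fderiv ℝ U z) z :=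
      (hasDerivAt_inv hU0).comp_hasFDerivAt z hUF
    have h4 := hwF.mul h3
    have h5 : (w z • -(U z ^ 2)⁻¹ • fderiv ℝ U z + (U z)⁻¹ • fderiv ℝ w z) = 0 := by
      obtain ⟨h6, h7⟩ := h z hzD hU0
      unfold px at h6
      unfold py at h7
      have h8 : ∀ v : ℂ, fderiv ℝ w z v = v.re * fderiv ℝ w z 1 + v.im * fderiv ℝ w z Complex.I := by
        intro v
        have : v = v.re • (1 : ℂ) + v.im • Complex.I := by
          simp [Complex.real_smul]
        conv_lhs => rw [this]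
        rw [map_add, map_smul, map_smul]
        simp only [smul_eq_mul]
      have h9 : ∀ v : ℂ, fderiv ℝ U z v = v.re * fderiv ℝ U z 1 + v.im * fderiv ℝ U z Complex.I := by
        intro v
        have : v = v.re • (1 : ℂ) + v.im • Complex.I := by
          simp only [Complex.real_smul, mul_one, Complex.re_add_im]
        conv_lhs => rw [this]
        rw [map_add, map_smul, map_smul]
        simp only [smul_eq_mul]
      ext v
      simp only [_root_.add_apply, _root_.smul_apply, smul_eq_mul, _root_.zero_apply]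
      rw [h8 v, h9 v]
      field_simp
      linear_combination v.re * h6 + v.im * h7
    rw [h5] at h4
    exact h4.hasFDerivWithinAt
  refine ⟨w z₀ * (U z₀)⁻¹, fun z hz => ?_⟩
  have hz₀ : z₀ ∈ closedBall z₀ ε := mem_closedBall_self hε.le
  have h1 := (convex_closedBall z₀ ε).norm_image_sub_le_of_norm_hasFDerivWithin_le
    (C := 0) hder (fun z _ => by simp) hz₀ hz
  rw [zero_mul, norm_le_zero_iff, sub_eq_zero] at h1
  rw [← h1]
  have hU0 := (hB z hz).2
  field_simp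

end Vale.Agent.P071.Lim
end

section

/-!
# (I) excludes critical points off the zero set (task LIM-CRIT)
-/

open MeasureTheory Metric Filter Topology Real
open scoped ContDiff ENNReal

namespace Vale.Agent.P071.Lim

theorem crit_local {κ : ℂ → ℝ} {u : ℂ → ℝ} (hκ : ContinuousOn κ DD)
    (hpos : ∀ z ∈ DD, 0 < κ z) (hu : ContDiffOn ℝ 2 u DD)
    {z₀ : ℂ} (hz : z₀ ∈ DD) (h0 : u z₀ ≠ 0) (hcrit : gsq u z₀ = 0) :
    ∃ ρ > 0, ∃ a > 0, ∃ L > 0, closedBall z₀ ρ ⊆ DD ∧
      ∀ z ∈ closedBall z₀ ρ, a ≤ κ z ^ 2 * u z ^ 2 ∧ gsq u z ≤ (L * ‖z - z₀‖) ^ 2 := by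
  have hD : DD ∈ 𝓝 z₀ := isOpen_ball.mem_nhds hz
  have hu1 : ContDiffOn ℝ 1 (fderiv ℝ u) DD := hu.fderiv_of_isOpen isOpen_ball (by (clear * -; norm_num))
  obtain ⟨K, t, ht, hLip⟩ := (hu1.contDiffAt hD).exists_lipschitzOnWith
  have hc : ContinuousAt (fun z => κ z ^ 2 * u z ^ 2) z₀ :=
    ((hκ.continuousAt hD).pow 2).mul ((hu.continuousOn.continuousAt hD).pow 2)
  have ha : 0 < κ z₀ ^ 2 * u z₀ ^ 2 := by
    have := hpos z₀ hz
    (clear * - this h0; positivity)
  have hev : ∀ᶠ z in 𝓝 z₀, κ z₀ ^ 2 * u z₀ ^ 2 / 2 < κ z ^ 2 * u z ^ 2 :=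
    hc.eventually (lt_mem_nhds (by linarith))
  have hall : {z | κ z₀ ^ 2 * u z₀ ^ 2 / 2 < κ z ^ 2 * u z ^ 2} ∩ t ∩ DD ∈ 𝓝 z₀ :=
    inter_mem (inter_mem hev ht) hD
  obtain ⟨ρ, hρ, hρs⟩ := Metric.nhds_basis_closedBall.mem_iff.1 hall
  have hpx : px u z₀ = 0 := by
    have : px u z₀ ^ 2 + py u z₀ ^ 2 = 0 := hcrit
    nlinarith only [this]
  have hpy : py u z₀ = 0 := by
    have : px u z₀ ^ 2 + py u z₀ ^ 2 = 0 := hcrit
    nlinarith only [this]
  have hdz : fderiv ℝ u z₀ = 0 := by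
    ext v
    have : v = v.re • (1 : ℂ) + v.im • Complex.I := by
      simp only [Complex.real_smul, mul_one, Complex.re_add_im]
    rw [this, map_add, map_smul, map_smul]
    unfold px at hpx
    unfold py at hpy
    simp only [hpx, smul_eq_mul, mul_zero, hpy, add_zero, Complex.real_smul, mul_one, Complex.re_add_im, zero_apply]
  have hz₀t : z₀ ∈ t := mem_of_mem_nhds ht
  refine ⟨ρ, hρ, κ z₀ ^ 2 * u z₀ ^ 2 / 2, by (clear * - ha; positivity), 2 * ((K : ℝ) + 1), by (clear * -; positivity),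
    fun z hz => (hρs hz).2, fun z hz => ⟨le_of_lt (hρs hz).1.1, ?_⟩⟩
  have h1 : ‖fderiv ℝ u z‖ ≤ K * ‖z - z₀‖ := by
    have := hLip.norm_sub_le (hρs hz).1.2 hz₀t
    rwa [hdz, sub_zero] at this
  have h2 : |px u z| ≤ K * ‖z - z₀‖ := by
    refine le_trans ?_ h1
    have := (fderiv ℝ u z).le_opNorm 1
    simpa only [px, ge_iff_le, norm_eq_abs, norm_one, mul_one] using this
  have h3 : |py u z| ≤ K * ‖z - z₀‖ := by
    refine le_trans ?_ h1
    have := (fderiv ℝ u z).le_opNorm Complex.I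
    simpa only [py, ge_iff_le, norm_eq_abs, Complex.norm_I, mul_one] using this
  have h4 : px u z ^ 2 ≤ (K * ‖z - z₀‖) ^ 2 := sq_le_sq' (by linarith only [h2, neg_abs_le (px u z)])
    (by linarith only [h2, le_abs_self (px u z)])
  have h5 : py u z ^ 2 ≤ (K * ‖z - z₀‖) ^ 2 := sq_le_sq' (by linarith only [h3, neg_abs_le (py u z)])
    (by linarith only [h3, le_abs_self (py u z)])
  have hK0 : 0 ≤ (K : ℝ) := K.2
  have h6 : 0 ≤ ‖z - z₀‖ ^ 2 := by (clear * -; positivity)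
  unfold gsq
  have h7 : (2 * ((K : ℝ) + 1) * ‖z - z₀‖) ^ 2 = 4 * (K + 1) ^ 2 * ‖z - z₀‖ ^ 2 := by ring
  have h8 : (K * ‖z - z₀‖) ^ 2 = K ^ 2 * ‖z - z₀‖ ^ 2 := by ring
  rw [h7]
  rw [h8] at h4 h5
  nlinarith only [h4, h5, hK0]

theorem no_crit_of_ineqI {κ : ℂ → ℝ} {μ : ℝ} {u : ℂ → ℝ} (hκ : ContinuousOn κ DD)
    (hpos : ∀ z ∈ DD, 0 < κ z) (hu : ContDiffOn ℝ 2 u DD) (hI : IneqI DD κ μ u)
    {z : ℂ} (hz : z ∈ DD) (h0 : u z ≠ 0) : gsq u z ≠ 0 := by
  intro hcrit
  obtain ⟨ρ, hρ, a, ha, L, hL, hsub, hb⟩ := crit_local hκ hpos hu hz h0 hcrit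
  let φ : ContDiffBump z := ⟨ρ / 2, ρ, by (clear * - hρ; positivity), by linarith only [hρ]⟩
  have hφ1 : ∀ y ∈ closedBall z (ρ / 2), φ y = 1 := fun y hy => φ.one_of_mem_closedBall hy
  have hts : tsupport φ = closedBall z ρ := φ.tsupport_eq
  have hφI := hI φ φ.contDiff φ.hasCompactSupport (by rw [hts]; exact hsub)
  set K : ℝ := 16 / μ ^ 2 * ∫ y in DD, gsq φ y with hK
  have hK0 : 0 ≤ K := by
    refine mul_nonneg (by (clear * -; positivity)) (integral_nonneg fun y => ?_)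
    simp only [Pi.zero_apply, gsq]
    (clear * -; positivity)
  obtain ⟨c, hc, hcK⟩ := Loc.radial_big (R := ρ / 2) hL (by (clear * - hρ; positivity)) (K / a)
  have h1 : ENNReal.ofReal (∫ y in ball z (ρ / 2), a * (1 / (c + L * ‖y - z‖) ^ 2)) ≤
      ENNReal.ofReal K := by
    have hint : IntegrableOn (fun y => a * (1 / (c + L * ‖y - z‖) ^ 2)) (ball z (ρ / 2)) := by
      refine IntegrableOn.mono_set ?_ ball_subset_closedBall
      refine ContinuousOn.integrableOn_compact (isCompact_closedBall _ _) ?_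
      refine continuousOn_const.mul (continuousOn_const.div (by fun_prop) fun y _ => ?_)
      (clear * - hc hL; positivity)
    rw [ofReal_integral_eq_lintegral_ofReal hint (Eventually.of_forall fun y => by
      simp only [Pi.zero_apply]; (clear * - ha hc hL; positivity))]
    refine le_trans ?_ hφI
    have hsub2 : ball z (ρ / 2) ⊆ DD :=
      (ball_subset_closedBall.trans (closedBall_subset_closedBall (by linarith only [hρ]))).trans hsub
    refine le_trans (setLIntegral_mono' measurableSet_ball fun y hy => ?_)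
      (lintegral_mono_set hsub2)
    have hyb : y ∈ closedBall z ρ :=
      closedBall_subset_closedBall (by linarith only [hρ]) (ball_subset_closedBall hy)
    obtain ⟨h2, h3⟩ := hb y hyb
    rw [hφ1 y (ball_subset_closedBall hy), one_pow, one_mul]
    have h4 : (L * ‖y - z‖) ^ 2 ≤ (c + L * ‖y - z‖) ^ 2 := by
      have : 0 ≤ L * ‖y - z‖ := by (clear * - hL; positivity)
      nlinarith only [hc, this]
    have h5 : 0 < (c + L * ‖y - z‖) ^ 2 := by (clear * - hc hL; positivity)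
    rw [mul_one_div, ENNReal.ofReal_div_of_pos h5]
    exact ENNReal.div_le_div (ENNReal.ofReal_le_ofReal h2)
      (ENNReal.ofReal_le_ofReal (h3.trans h4))
  have h2 : ∫ y in ball z (ρ / 2), a * (1 / (c + L * ‖y - z‖) ^ 2) ≤ K :=
    (ENNReal.ofReal_le_ofReal_iff hK0).1 h1
  have h4 : ∫ y in ball z (ρ / 2), a * (1 / (c + L * ‖y - z‖) ^ 2) =
      a * ∫ y in ball (0 : ℂ) (ρ / 2), 1 / (c + L * ‖y‖) ^ 2 := by
    rw [integral_const_mul]
    congr 1
    rw [← integral_indicator measurableSet_ball, ← integral_indicator measurableSet_ball,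
      ← integral_sub_right_eq_self
        ((ball (0 : ℂ) (ρ / 2)).indicator fun z => 1 / (c + L * ‖z‖) ^ 2) z]
    congr 1
    funext y
    by_cases hy : y ∈ ball z (ρ / 2)
    · rw [Set.indicator_of_mem hy, Set.indicator_of_mem]
      rw [mem_ball, dist_eq_norm] at hy
      simpa using hy
    · rw [Set.indicator_of_notMem hy, Set.indicator_of_notMem]
      rw [mem_ball, dist_eq_norm] at hy
      simpa only [mem_ball, dist_zero_right, not_lt] using hy
  rw [h4] at h2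
  rw [div_lt_iff₀ ha] at hcK
  linarith only [hcK, h2]

end Vale.Agent.P071.Lim
end

section

/-!
# Tightness in the disc (task LIM-T2)
-/

open MeasureTheory Metric Filter Topology Real Set
open scoped ContDiff ENNReal

namespace Vale.Agent.P071.Lim

lemma ta_continuousOn_gsq {g : ℂ → ℝ} (hg : ContDiffOn ℝ 1 g DD) : ContinuousOn (gsq g) DD := by
  have hfd : ContinuousOn (fderiv ℝ g) DD := hg.continuousOn_fderiv_of_isOpen isOpen_ball le_rfl
  unfold gsq px py
  exact ((hfd.clm_apply continuousOn_const).pow 2).add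
    ((hfd.clm_apply continuousOn_const).pow 2)

/-- a bounded continuous function is integrable on the disc -/
lemma ta_integrableOn {h : ℂ → ℝ} (hc : ContinuousOn h DD) {C : ℝ}
    (hb : ∀ z ∈ DD, |h z| ≤ C) : IntegrableOn h DD := by
  refine IntegrableOn.of_bound (C := C) measure_ball_lt_top
    (hc.aestronglyMeasurable measurableSet_ball) ?_
  exact (ae_restrict_iff' measurableSet_ball).2 (Eventually.of_forall hb)

lemma BG.integrable_sq {g : ℂ → ℝ} (hg : BG g) : IntegrableOn (fun z => g z ^ 2) DD := by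
  obtain ⟨h1, C, hC⟩ := hg
  apply ta_integrableOn (h := fun z => g z ^ 2) (h1.continuousOn.pow 2) (C := C ^ 2)
  intro z hz
  rw [abs_pow]
  have := (hC z hz).1
  (clear * - this; gcongr)

lemma ta_gsq_nonneg (w : ℂ → ℝ) (z : ℂ) : 0 ≤ gsq w z := by
  unfold gsq; positivity

lemma BG.integrable_gsq {g : ℂ → ℝ} (hg : BG g) : IntegrableOn (gsq g) DD := by
  obtain ⟨h1, C, hC⟩ := hg
  apply ta_integrableOn (ta_continuousOn_gsq h1) (C := C)
  intro z hz
  rw [abs_of_nonneg (ta_gsq_nonneg _ _)]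
  exact (hC z hz).2

lemma Conf.F_continuousOn {f F : ℂ → ℂ} (hf : Conf f F) : ContinuousOn F DD :=
  hf.F_differentiableOn.continuousOn

/-- `|F|² g²` is integrable for bounded `g` -/
lemma BG.integrable_weight {f F : ℂ → ℂ} (hf : Conf f F) {g : ℂ → ℝ} (hg : BG g) :
    IntegrableOn (fun z => ‖F z‖ ^ 2 * g z ^ 2) DD := by
  obtain ⟨h1, C, hC⟩ := hg
  refine Integrable.mono' ((conf_area hf).mul_const (C ^ 2)) ?_ ?_
  · exact (((hf.F_continuousOn.norm).pow 2).mul (h1.continuousOn.pow 2)).aestronglyMeasurable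
      measurableSet_ball
  · refine (ae_restrict_iff' measurableSet_ball).2 (Eventually.of_forall fun z hz => ?_)
    rw [Real.norm_eq_abs, abs_mul, abs_of_nonneg (by (clear * -; positivity) : 0 ≤ ‖F z‖ ^ 2), abs_pow]
    have := (hC z hz).1
    (clear * - this; gcongr)

/-- tails in terms of the full energy -/
lemma tail_full {f F : ℂ → ℂ} (hf : Conf f F) (hT : Tight (f '' DD)) {δ : ℝ} (hδ : 0 < δ) :
    ∃ R : ℝ, 1 / 2 < R ∧ R < 1 ∧ ∀ g : ℂ → ℝ, BG g →
      ∫ z in DD \ ball 0 R, ‖F z‖ ^ 2 * g z ^ 2 ≤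
        δ * ((∫ z in DD, ‖F z‖ ^ 2 * g z ^ 2) + ∫ z in DD, gsq g z) := by
  obtain ⟨K, hKc, hKs, hK⟩ := hT δ hδ
  obtain ⟨ρ, hρ0, hρ1, hρK⟩ := Vale.P071.exists_radius hf.differentiableOn hf.inj hf.deriv_ne hKc hKs
  obtain ⟨k, hko, hk1, hk2, hk3, hk4⟩ := exists_inverse hf
  refine ⟨max ρ (3 / 4), lt_max_of_lt_right (by norm_num), max_lt hρ1 (by norm_num),
    fun g hg => ?_⟩
  set R := max ρ (3 / 4) with hR
  have hR1 : R < 1 := max_lt hρ1 (by norm_num)
  -- the transplanted function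
  set v : ℂ → ℝ := fun x => g (k x) with hv
  have hkr : ContDiffOn ℝ 1 k (f '' DD) := (hk4.restrict_scalars ℝ).of_le (by simp only [WithTop.one_le_coe, le_top])
  have hvc : ContDiffOn ℝ 1 v (f '' DD) := hg.1.comp hkr fun x hx => (hk2 x hx).1
  have hgv : ∀ z ∈ DD, v (f z) = g z := fun z hz => by simp only [hv, hk1 z hz]
  have hgs : ∀ z ∈ DD, ‖F z‖ ^ 2 * gsq v (f z) = gsq g z := by
    intro z hz
    rw [← gsq_comp hf hvc hz]
    have he : (fun y => v (f y)) =ᶠ[𝓝 z] g := by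
      filter_upwards [isOpen_ball.mem_nhds hz] with y hy using hgv y hy
    unfold gsq px py
    rw [he.fderiv_eq]
  have hi1 : IntegrableOn (fun x => v x ^ 2) (f '' DD) := by
    rw [conf_integrable_iff hf]
    refine (hg.integrable_weight hf).congr_fun (fun z hz => ?_) measurableSet_ball
    simp only [hgv z hz]
  have hi2 : IntegrableOn (gsq v) (f '' DD) := by
    rw [conf_integrable_iff hf]
    refine hg.integrable_gsq.congr_fun (fun z hz => ?_) measurableSet_ball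
    simp only [hgs z hz]
  have hmain := hK v hvc hi1 hi2
  rw [integral_add hi1 hi2, conf_integral hf, conf_integral hf] at hmain
  have e1 : ∫ z in DD, ‖F z‖ ^ 2 * v (f z) ^ 2 = ∫ z in DD, ‖F z‖ ^ 2 * g z ^ 2 := by
    apply setIntegral_congr_fun measurableSet_ball
    intro z hz
    simp only [hgv z hz]
  have e2 : ∫ z in DD, ‖F z‖ ^ 2 * gsq v (f z) = ∫ z in DD, gsq g z := by
    apply setIntegral_congr_fun measurableSet_ball
    intro z hz
    exact hgs z hz
  rw [e1, e2] at hmain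
  refine le_trans ?_ hmain
  have hA : MeasurableSet (DD \ ball (0:ℂ) R) := measurableSet_ball.diff measurableSet_ball
  have e3 : ∫ z in DD \ ball 0 R, ‖F z‖ ^ 2 * g z ^ 2 = ∫ x in f '' (DD \ ball 0 R), v x ^ 2 := by
    rw [integral_image_eq_integral_abs_det_fderiv_smul volume hA
      (fun z hz => (hf.hasFDerivWithinAt z hz.1).mono sdiff_subset) (hf.inj.mono sdiff_subset)]
    apply setIntegral_congr_fun hA
    intro z hz
    simp only [abs_det_toSpanSingleton, smul_eq_mul, hgv z hz.1]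
  rw [e3]
  apply setIntegral_mono_set (hi1.mono_set sdiff_subset)
  · exact Eventually.of_forall fun x => sq_nonneg _
  · apply LE.le.eventuallyLE
    rintro _ ⟨z, ⟨hz1, hz2⟩, rfl⟩
    refine ⟨mem_image_of_mem f hz1, fun hzK => ?_⟩
    obtain ⟨y, hy, hyz⟩ := hρK hzK
    have : y = z := hf.inj (ball_subset_ball hρ1.le hy) hz1 hyz
    rw [this] at hy
    exact hz2 (ball_subset_ball (le_max_left _ _) hy)

/-- splitting an integral over the disc -/
lemma split_disc {h : ℂ → ℝ} (hh : IntegrableOn h DD) {R : ℝ} (hR1 : R < 1) :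
    ∫ z in DD, h z = (∫ z in ball 0 R, h z) + ∫ z in DD \ ball 0 R, h z := by
  have hs : ball (0:ℂ) R ⊆ DD := ball_subset_ball hR1.le
  rw [← setIntegral_union disjoint_sdiff_self_right
    (measurableSet_ball.diff measurableSet_ball) (hh.mono_set hs) (hh.mono_set sdiff_subset),
    union_sdiff_cancel hs]

/-- (T2) -/
theorem tailF_of_tight {f F : ℂ → ℂ} (hf : Conf f F) (hT : Tight (f '' DD)) : TailF F := by
  -- Poincaré
  obtain ⟨R₀, hR₀, hR₀1, hP⟩ := tail_full hf hT (δ := 1 / 2) (by norm_num)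
  obtain ⟨C, hC, hCd⟩ := disc_ineq hR₀ hR₀1
  have hcb : IsCompact (closedBall (0:ℂ) R₀) := isCompact_closedBall _ _
  obtain ⟨C1, hC1⟩ := hcb.exists_bound_of_continuousOn
    (hf.F_continuousOn.mono (closedBall_subset_ball hR₀1))
  have hpoin : ∀ g : ℂ → ℝ, BG g → ∫ z in DD, ‖F z‖ ^ 2 * g z ^ 2 ≤
      (2 * C1 ^ 2 * C + 1) * ((∫ z in DD, gsq g z) + ∫ z in ball 0 (1 / 2), g z ^ 2) := by
    intro g hg
    have h1 := hP g hg
    have h2 := hCd g hg
    have hs := split_disc (hg.integrable_weight hf) hR₀1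
    have hsub : ball (0:ℂ) R₀ ⊆ DD := ball_subset_ball hR₀1.le
    have h3 : ∫ z in ball 0 R₀, ‖F z‖ ^ 2 * g z ^ 2 ≤ C1 ^ 2 * ∫ z in ball 0 R₀, g z ^ 2 := by
      rw [← integral_const_mul]
      apply setIntegral_mono_on ((hg.integrable_weight hf).mono_set hsub)
        ((hg.integrable_sq.mono_set hsub).const_mul _) measurableSet_ball
      intro z hz
      have := hC1 z (ball_subset_closedBall hz)
      (clear * - this; gcongr)
    have g0 : 0 ≤ ∫ z in DD, gsq g z := integral_nonneg fun z => gsq_nonneg _ _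
    have p0 : 0 ≤ ∫ z in ball (0:ℂ) (1/2), g z ^ 2 := integral_nonneg fun z => sq_nonneg _
    have h4 : C1 ^ 2 * ∫ z in ball 0 R₀, g z ^ 2 ≤
        C1 ^ 2 * (C * ((∫ z in DD, gsq g z) + ∫ z in ball 0 (1 / 2), g z ^ 2)) := by (clear * - h2; gcongr)
    linarith
  intro δ hδ
  set M := 2 * C1 ^ 2 * C + 1 with hM
  have hMpos : 0 < M := by (clear * - hC; positivity)
  obtain ⟨R, hR, hR1, hRt⟩ := tail_full hf hT (δ := δ / (M + 1)) (by (clear * - hδ hC; positivity))
  refine ⟨R, hR, hR1, fun g hg => (hRt g hg).trans ?_⟩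
  have h1 := hpoin g hg
  have g0 : 0 ≤ ∫ z in DD, gsq g z := integral_nonneg fun z => gsq_nonneg _ _
  have p0 : 0 ≤ ∫ z in ball (0:ℂ) (1/2), g z ^ 2 := integral_nonneg fun z => sq_nonneg _
  set G := ∫ z in DD, gsq g z
  set P := ∫ z in ball (0:ℂ) (1/2), g z ^ 2
  calc δ / (M + 1) * ((∫ z in DD, ‖F z‖ ^ 2 * g z ^ 2) + G)
      ≤ δ / (M + 1) * (M * (G + P) + (G + P)) := by
        have : 0 ≤ δ / (M + 1) := by (clear * - hδ hC; positivity)
        apply mul_le_mul_of_nonneg_left _ this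
        linarith only [p0, h1]
    _ = δ * (G + P) := by (clear * - hMpos hδ; field_simp)

end Vale.Agent.P071.Lim
end

section

/-!
# Lipschitz boundary implies tightness
-/

open MeasureTheory Metric Filter Topology Real
open scoped ContDiff ENNReal

namespace Vale.Agent.P071.Lim

theorem tight_of_lipschitz {Ω : Set ℂ} (ho : IsOpen Ω) (hb : Bornology.IsBounded Ω)
    (hL : LipschitzBoundary Ω) : Tight Ω := by
  intro δ hδ
  obtain ⟨K, h1, h2, h3⟩ := Vale.P071.lip_tails (Ω := Ω) ho hb hL hδ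
  refine ⟨K, h1, h2, fun v hv hv2 hg => ?_⟩
  have h := h3 v hv hv2 hg
  refine h.trans (le_of_eq ?_)
  congr 1
  exact (integral_add hv2 hg).symm

end Vale.Agent.P071.Lim
end
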