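import Vale.Agent.P071.MathlibUsed
import Vale.Agent.P071.Bdl.B5
import Vale.Agent.P071.Bdl.B4
import Vale.Agent.P071.Bdl.B1
import Vale.Agent.P071.Bdl.B7
attribute [-instance] ProperSMul.toContinuousSMul IsTopologicalTorsor.toContinuousSMul IdemSemiring.toCanonicallyOrderedAdd IdemSemiring.toMulLeftMono IdemSemiring.toMulRightMono AddQuantale.instAddLeftMono AddQuantale.instAddRightMono Quantale.instMulLeftMono Quantale.instMulRightMono FiniteDimensional.rclike_to_real IsScalarTower.complexToReal FiniteDimensional.complexToReal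

set_option linter.all false

section

/-!
# Limits of eigenfunctions: no loss of mass (task LIM-VARb)
-/

open MeasureTheory Metric Filter Topology Real
open scoped ContDiff ENNReal

namespace Vale.Agent.P071.Lim

namespace VarB

theorem F_cont {f F : ℂ → ℂ} (hf : Conf f F) : ContinuousOn F DD :=
  hf.F_differentiableOn.continuousOn

theorem f_cont {f F : ℂ → ℂ} (hf : Conf f F) : ContinuousOn f DD :=
  hf.differentiableOn.continuousOn

theorem nsq_cont {f F : ℂ → ℂ} (hf : Conf f F) : ContinuousOn (fun z => ‖F z‖ ^ 2) DD :=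
  (F_cont hf).norm.pow 2

theorem nsq_contDiffOn {f F : ℂ → ℂ} (hf : Conf f F) :
    ContDiffOn ℝ 1 (fun z => ‖F z‖ ^ 2) DD := by
  have h1 : ContDiffOn ℂ 1 F DD := hf.F_differentiableOn.contDiffOn isOpen_ball
  exact (h1.restrict_scalars ℝ).norm_sq ℝ

theorem scale_mem {r : ℝ} (hr : 0 < r ∧ r < 1) {z : ℂ} (hz : z ∈ DD) : (r : ℂ) * z ∈ DD := by
  rw [mem_ball_zero_iff] at hz ⊢
  rw [norm_mul, Complex.norm_real, Real.norm_eq_abs, abs_of_pos hr.1]
  have := norm_nonneg z
  nlinarith only [hr, hz]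

theorem kap_cont {f F : ℂ → ℂ} (hf : Conf f F) {ρ : ℂ → ℝ} (hρ : Continuous ρ) {r : ℝ}
    (hr : 0 < r ∧ r < 1) : ContinuousOn (kap f F ρ r) DD := by
  have h1 : ContinuousOn (fun z : ℂ => (r : ℂ) * z) DD := by fun_prop
  have h2 : ContinuousOn (fun z : ℂ => F (r * z)) DD :=
    (F_cont hf).comp h1 fun z hz => scale_mem hr hz
  have h3 : ContinuousOn (fun z : ℂ => f (r * z)) DD :=
    (f_cont hf).comp h1 fun z hz => scale_mem hr hz
  exact (continuousOn_const.mul (h2.norm.pow 2)).mul (hρ.comp_continuousOn h3)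

/-- Uniform convergence of the weights `‖F (r z)‖²`. -/
theorem scale_unif {f F : ℂ → ℂ} (hf : Conf f F) {r : ℕ → ℝ}
    (hr : ∀ n, 0 < r n ∧ r n < 1) (hr1 : Tendsto r atTop (𝓝 1)) {R : ℝ} (hR : R < 1) :
    TendstoUniformlyOn (fun n z => ‖F (r n * z)‖ ^ 2) (fun z => ‖F z‖ ^ 2) atTop
      (closedBall (0 : ℂ) R) := by
  set K : Set (ℝ × ℂ) := Set.Icc (0 : ℝ) 1 ×ˢ closedBall (0 : ℂ) R with hK
  have hKc : IsCompact K := isCompact_Icc.prod (isCompact_closedBall _ _)
  have hG : ContinuousOn (fun x : ℝ × ℂ => ‖F ((x.1 : ℂ) * x.2)‖ ^ 2) K := by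
    refine (nsq_cont hf).comp (by (clear * -; fun_prop)) ?_
    rintro ⟨s, z⟩ ⟨hs, hz⟩
    rw [mem_closedBall_zero_iff] at hz
    rw [mem_ball_zero_iff, norm_mul, Complex.norm_real, Real.norm_eq_abs, abs_of_nonneg hs.1]
    have := norm_nonneg z
    have := hs.2
    have := hs.1
    simp only at *
    (clear f F hf r hr hr1 K hK hKc this; nlinarith)
  have hu := hKc.uniformContinuousOn_of_continuous hG
  rw [Metric.uniformContinuousOn_iff] at hu
  rw [Metric.tendstoUniformlyOn_iff]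
  intro ε hε
  obtain ⟨δ, hδ, h⟩ := hu ε hε
  filter_upwards [Metric.tendsto_nhds.1 hr1 δ hδ] with n hn z hz
  have h1 := h (1, z) ⟨⟨zero_le_one, le_rfl⟩, hz⟩ (r n, z) ⟨⟨(hr n).1.le, (hr n).2.le⟩, hz⟩ (by
    rw [Prod.dist_eq]
    simp only [dist_self]
    rw [dist_comm]
    exact max_lt hn hδ)
  simpa using h1

theorem kap_unif {f F : ℂ → ℂ} (hf : Conf f F) {ρ : ℕ → ℂ → ℝ} {r : ℕ → ℝ}
    (hρ : ∀ δ > 0, ∀ᶠ n in atTop, ∀ z ∈ DD, |ρ n (f z) - 1| ≤ δ)
    (hr : ∀ n, 0 < r n ∧ r n < 1) (hr1 : Tendsto r atTop (𝓝 1)) :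
    TendstoLocallyUniformlyOn (fun n => kap f F (ρ n) (r n)) (fun z => ‖F z‖ ^ 2) atTop DD := by
  have t1 : TendstoLocallyUniformlyOn (fun n (_ : ℂ) => r n ^ 2) (fun _ => (1 : ℝ)) atTop DD := by
    rw [CompA.tlu_iff]
    intro R _
    rw [Metric.tendstoUniformlyOn_iff]
    intro ε hε
    have h2 : Tendsto (fun n => r n ^ 2) atTop (𝓝 1) := by
      have := hr1.pow 2
      simpa using this
    filter_upwards [Metric.tendsto_nhds.1 h2 ε hε] with n hn z _
    rw [dist_comm]; exact hn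
  have t2 : TendstoLocallyUniformlyOn (fun n (z : ℂ) => ‖F (r n * z)‖ ^ 2)
      (fun z => ‖F z‖ ^ 2) atTop DD := CompA.tlu_iff.2 fun R hR => scale_unif hf hr hr1 hR
  have t3 : TendstoLocallyUniformlyOn (fun n (z : ℂ) => ρ n (f (r n * z)))
      (fun _ => (1 : ℝ)) atTop DD := by
    rw [CompA.tlu_iff]
    intro R hR
    rw [Metric.tendstoUniformlyOn_iff]
    intro ε hε
    filter_upwards [hρ (ε / 2) (by linarith only [hε])] with n hn z hz
    rw [dist_comm, Real.dist_eq]
    have := hn (r n * z) (scale_mem (hr n) (closedBall_subset_ball hR hz))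
    linarith only [hε, this]
  have t4 := t1.fun_mul₀ t2 continuousOn_const (nsq_cont hf)
  have t5 := t4.fun_mul₀ t3 (continuousOn_const.mul (nsq_cont hf)) continuousOn_const
  refine (TendstoLocallyUniformlyOn.congr_right t5 ?_)
  intro z _
  simp

/-- Convergence of integrals over smaller discs. -/
theorem conv_int {g : ℕ → ℂ → ℝ} {g₀ : ℂ → ℝ} (hg : ∀ n, ContinuousOn (g n) DD)
    (hg₀ : ContinuousOn g₀ DD) (h : TendstoLocallyUniformlyOn g g₀ atTop DD) {R : ℝ} (hR : R < 1) :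
    Tendsto (fun n => ∫ z in ball 0 R, g n z) atTop (𝓝 (∫ z in ball 0 R, g₀ z)) := by
  have hs : ball (0 : ℂ) R ⊆ DD := ball_subset_ball hR.le
  have hU := (CompA.tlu_iff.1 h) R hR
  obtain ⟨C, hC⟩ := ((isCompact_closedBall (0 : ℂ) R).bddAbove_image
    (hg₀.mono (closedBall_subset_ball hR)).norm)
  refine tendsto_integral_filter_of_dominated_convergence (fun _ => C + 1) ?_ ?_ ?_ ?_
  · exact Eventually.of_forall fun n =>
      ((hg n).mono hs).aestronglyMeasurable measurableSet_ball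
  · filter_upwards [Metric.tendstoUniformlyOn_iff.1 hU 1 one_pos] with n hn
    filter_upwards [ae_restrict_mem measurableSet_ball] with z hz
    have h1 := hn z (ball_subset_closedBall hz)
    have h2 : ‖g₀ z‖ ≤ C := hC ⟨z, ball_subset_closedBall hz, rfl⟩
    rw [dist_comm, dist_eq_norm] at h1
    have h3 : ‖g n z‖ ≤ ‖g n z - g₀ z‖ + ‖g₀ z‖ := by
      have := norm_add_le (g n z - g₀ z) (g₀ z)
      simpa only [norm_eq_abs, ge_iff_le, sub_add_cancel] using this
    linarith only [h1, h2, h3]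
  · exact (integrableOn_const (by exact measure_ball_lt_top.ne))
  · filter_upwards [ae_restrict_mem measurableSet_ball] with z hz
    exact hU.tendsto_at (ball_subset_closedBall hz)

/-- Radii increasing to `1`. -/
noncomputable def Rn (n : ℕ) : ℝ := 1 - 1 / (n + 2)

theorem Rn_lt (n : ℕ) : Rn n < 1 := by
  unfold Rn
  have : (0 : ℝ) < 1 / (n + 2) := by positivity
  linarith

theorem Rn_tendsto : Tendsto Rn atTop (𝓝 1) := by
  unfold Rn
  have h1 : Tendsto (fun n : ℕ => (1 : ℝ) / ((n : ℝ) + 2)) atTop (𝓝 0) := by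
    have h2 : Tendsto (fun n : ℕ => (n : ℝ) + 2) atTop atTop :=
      tendsto_atTop_add_const_right _ _ tendsto_natCast_atTop_atTop
    simpa only [one_div] using (tendsto_const_nhds (x := (1 : ℝ))).div_atTop h2
  simpa only [one_div, sub_zero] using h1.const_sub 1

theorem cover : AECover (volume.restrict DD) atTop (fun n => ball (0 : ℂ) (Rn n)) where
  ae_eventually_mem := by
    filter_upwards [ae_restrict_mem measurableSet_ball] with z hz
    rw [mem_ball_zero_iff] at hz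
    filter_upwards [Rn_tendsto.eventually (lt_mem_nhds hz)] with n hn
    rwa [mem_ball_zero_iff]
  measurableSet := fun n => measurableSet_ball

theorem restr (n : ℕ) (f : ℂ → ℝ) :
    ∫ z in ball (0 : ℂ) (Rn n), f z ∂(volume.restrict DD) = ∫ z in ball (0 : ℂ) (Rn n), f z := by
  rw [Measure.restrict_restrict measurableSet_ball,
    Set.inter_eq_left.2 (ball_subset_ball (Rn_lt n).le)]

theorem exhaust {f : ℂ → ℝ} (hc : ContinuousOn f DD) (h0 : ∀ z ∈ DD, 0 ≤ f z) {C : ℝ}
    (hb : ∀ R < 1, ∫ z in ball (0 : ℂ) R, f z ≤ C) : IntegrableOn f DD := by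
  refine cover.integrable_of_integral_bounded_of_nonneg_ae C (fun n => ?_) ?_ ?_
  · have h1 : IntegrableOn f (closedBall (0 : ℂ) (Rn n)) :=
      (hc.mono (closedBall_subset_ball (Rn_lt n))).integrableOn_compact (isCompact_closedBall _ _)
    exact (h1.mono_set ball_subset_closedBall).mono_measure Measure.restrict_le_self
  · filter_upwards [ae_restrict_mem measurableSet_ball] with z hz
    exact h0 z hz
  · exact Eventually.of_forall fun n => by
      rw [restr]
      exact hb _ (Rn_lt n)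

theorem exhaust_tendsto {f : ℂ → ℝ} (hf : IntegrableOn f DD) :
    Tendsto (fun n => ∫ z in ball (0 : ℂ) (Rn n), f z) atTop (𝓝 (∫ z in DD, f z)) := by
  have h := cover.integral_tendsto_of_countably_generated hf
  simpa only [restr] using h

theorem int_split {f : ℂ → ℝ} (hf : IntegrableOn f DD) {R : ℝ} (hR : R < 1) :
    ∫ z in DD, f z = (∫ z in ball (0 : ℂ) R, f z) + ∫ z in DD \ ball (0 : ℂ) R, f z := by
  have hs : ball (0 : ℂ) R ⊆ DD := ball_subset_ball hR.le
  rw [← setIntegral_union Set.disjoint_sdiff_right (measurableSet_ball.diff measurableSet_ball)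
    (hf.mono_set hs) (hf.mono_set Set.sdiff_subset), Set.union_sdiff_cancel hs]

theorem intOn_of_bound {g : ℂ → ℝ} (hg : ContinuousOn g DD) {C : ℝ} (hC : ∀ z ∈ DD, ‖g z‖ ≤ C) :
    IntegrableOn g DD := by
  have : IsFiniteMeasure (volume.restrict DD) :=
    ⟨by rw [Measure.restrict_apply_univ]; exact measure_ball_lt_top⟩
  refine Integrable.of_bound (hg.aestronglyMeasurable measurableSet_ball) C ?_
  filter_upwards [ae_restrict_mem measurableSet_ball] with z hz
  exact hC z hz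

theorem bg_cont {g : ℂ → ℝ} (hg : BG g) : ContinuousOn g DD := hg.1.continuousOn

theorem bg_gsq_int {g : ℂ → ℝ} (hg : BG g) : IntegrableOn (gsq g) DD := by
  obtain ⟨C, hC⟩ := hg.2
  refine intOn_of_bound (CompA.contOn_gsq hg.1) (C := C) fun z hz => ?_
  rw [Real.norm_eq_abs, abs_of_nonneg (CompA.gsq_nonneg' g z)]
  exact (hC z hz).2

/-- A bounded function times a weight bounded on the closed disc of radius `r < 1`, scaled. -/
theorem wint {f F : ℂ → ℂ} (hf : Conf f F) {r : ℝ} (hr : 0 < r ∧ r < 1) {g : ℂ → ℝ}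
    (hg : ContinuousOn g DD) {C : ℝ} (hC : ∀ z ∈ DD, |g z| ≤ C) :
    IntegrableOn (fun z => ‖F (r * z)‖ ^ 2 * g z) DD := by
  obtain ⟨B, hB⟩ := ((isCompact_closedBall (0 : ℂ) r).bddAbove_image
    ((nsq_cont hf).mono (closedBall_subset_ball hr.2)))
  have h1 : ContinuousOn (fun z : ℂ => ‖F (r * z)‖ ^ 2) DD := by
    have h1 : ContinuousOn (fun z : ℂ => (r : ℂ) * z) DD := by fun_prop
    exact ((F_cont hf).comp h1 fun z hz => scale_mem hr hz).norm.pow 2
  refine intOn_of_bound (h1.mul hg) (C := B * C) fun z hz => ?_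
  have h2 : ‖F (r * z)‖ ^ 2 ≤ B := by
    refine hB ⟨r * z, ?_, rfl⟩
    rw [mem_closedBall_zero_iff, norm_mul, Complex.norm_real, Real.norm_eq_abs, abs_of_pos hr.1]
    rw [mem_ball_zero_iff] at hz
    have := norm_nonneg z
    nlinarith only [hr, hz]
  rw [norm_mul, Real.norm_eq_abs, Real.norm_eq_abs, abs_of_nonneg (by positivity)]
  exact mul_le_mul h2 (hC z hz) (abs_nonneg _) (le_trans (by positivity) h2)

theorem kint {f F : ℂ → ℂ} (hf : Conf f F) {ρ : ℂ → ℝ} (hρ : Continuous ρ)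
    (hρb : ∀ z ∈ DD, 1 / 2 ≤ ρ (f z) ∧ ρ (f z) ≤ 2) {r : ℝ} (hr : 0 < r ∧ r < 1) {g : ℂ → ℝ}
    (hg : ContinuousOn g DD) {C : ℝ} (hC : ∀ z ∈ DD, |g z| ≤ C) :
    IntegrableOn (fun z => kap f F ρ r z * g z) DD := by
  have h1 : ContinuousOn (fun z : ℂ => (r : ℂ) * z) DD := by fun_prop
  have h3 : ContinuousOn (fun z : ℂ => ρ (f (r * z))) DD :=
    hρ.comp_continuousOn ((f_cont hf).comp h1 fun z hz => scale_mem hr hz)
  have h2 := wint hf hr (g := fun z => r ^ 2 * ρ (f (r * z)) * g z) (C := r ^ 2 * 2 * C)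
    ((continuousOn_const.mul h3).mul hg) (fun z hz => by
      rw [abs_mul, abs_mul]
      have h4 := hρb _ (scale_mem hr hz)
      rw [abs_of_nonneg (by positivity : (0 : ℝ) ≤ r ^ 2), abs_of_nonneg (by linarith only [h4])]
      have h5 := hC z hz
      have h6 : 0 ≤ C := (abs_nonneg _).trans h5
      have h7 := h4.2
      have h8 : 0 ≤ ρ (f (r * z)) := by linarith only [h4]
      (clear * - h7 h5; gcongr))
  refine h2.congr_fun (fun z _ => ?_) measurableSet_ball
  unfold kap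
  ring

theorem kap_nonneg {f F : ℂ → ℂ} {ρ : ℂ → ℝ}
    (hρb : ∀ z ∈ DD, 1 / 2 ≤ ρ (f z) ∧ ρ (f z) ≤ 2) {r : ℝ} (hr : 0 < r ∧ r < 1) {z : ℂ}
    (hz : z ∈ DD) : 0 ≤ kap f F ρ r z := by
  unfold kap
  have h4 := hρb _ (scale_mem hr hz)
  have h8 : 0 ≤ ρ (f (r * z)) := by linarith only [h4]
  (clear * - h8; positivity)

theorem kap_le {f F : ℂ → ℂ} {ρ : ℂ → ℝ}
    (hρb : ∀ z ∈ DD, 1 / 2 ≤ ρ (f z) ∧ ρ (f z) ≤ 2) {r : ℝ} (hr : 0 < r ∧ r < 1) {z : ℂ}
    (hz : z ∈ DD) : kap f F ρ r z ≤ 2 * ‖F (r * z)‖ ^ 2 := by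
  unfold kap
  have h4 := hρb _ (scale_mem hr hz)
  have h8 : 0 ≤ ρ (f (r * z)) := by linarith only [h4]
  have h9 : r ^ 2 ≤ 1 := by nlinarith only [hr]
  have h10 : 0 ≤ ‖F (r * z)‖ ^ 2 := by positivity
  calc r ^ 2 * ‖F (r * z)‖ ^ 2 * ρ (f (r * z)) ≤ 1 * ‖F (r * z)‖ ^ 2 * 2 := by
        gcongr
        exact h4.2
    _ = _ := by ring

end VarB

/-- Limits of eigenfunctions: no loss of mass. `ρ_n → 1` uniformly on `f(D)`, `r_n → 1`. -/
theorem limit_of_discMin {f F : ℂ → ℂ} (hf : Conf f F) (hT : TailU F)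
    {ρ : ℕ → ℂ → ℝ} {r μ : ℕ → ℝ} {u : ℕ → ℂ → ℝ} {M : ℝ}
    (hρc : ∀ n, Continuous (ρ n)) (hρb : ∀ n, ∀ z ∈ DD, 1 / 2 ≤ ρ n (f z) ∧ ρ n (f z) ≤ 2)
    (hρ : ∀ δ > 0, ∀ᶠ n in atTop, ∀ z ∈ DD, |ρ n (f z) - 1| ≤ δ)
    (hr : ∀ n, 0 < r n ∧ r n < 1) (hr1 : Tendsto r atTop (𝓝 1)) (hμM : ∀ n, μ n ≤ M)
    (hu : ∀ n, DiscMin (kap f F (ρ n) (r n)) (μ n) (u n)) :
    ∃ (ν : ℕ → ℕ) (w : ℂ → ℝ) (μ₀ : ℝ), StrictMono ν ∧ ContDiffOn ℝ 2 w DD ∧
      Tendsto (fun n => μ (ν n)) atTop (𝓝 μ₀) ∧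
      (∀ R < 1, TendstoUniformlyOn (fun n => u (ν n)) w atTop (closedBall 0 R)) ∧
      (∀ R < 1, TendstoUniformlyOn (fun n => px (u (ν n))) (px w) atTop (closedBall 0 R)) ∧
      (∀ R < 1, TendstoUniformlyOn (fun n => py (u (ν n))) (py w) atTop (closedBall 0 R)) ∧
      (∀ z ∈ DD, -lap w z = μ₀ * ‖F z‖ ^ 2 * w z) ∧
      IntegrableOn (fun z => ‖F z‖ ^ 2 * w z ^ 2) DD ∧ IntegrableOn (gsq w) DD ∧
      ∫ z in DD, ‖F z‖ ^ 2 * w z = 0 ∧ ∫ z in DD, ‖F z‖ ^ 2 * w z ^ 2 = 1 ∧
      ∫ z in DD, gsq w z ≤ μ₀ := by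
  have hsub0 : ∀ {R : ℝ}, R < 1 → ball (0 : ℂ) R ⊆ DD := fun hR => ball_subset_ball hR.le
  have hκc : ∀ n, ContinuousOn (kap f F (ρ n) (r n)) DD := fun n => VarB.kap_cont hf (hρc n) (hr n)
  have hκ₀c : ContinuousOn (fun z => ‖F z‖ ^ 2) DD := VarB.nsq_cont hf
  have hκ₀pos : ∀ z ∈ DD, 0 < ‖F z‖ ^ 2 := fun z hz => by
    have := norm_pos_iff.2 (hf.ne_zero z hz)
    positivity
  have hκU := VarB.kap_unif hf hρ hr hr1
  have hκlim := CompA.tlu_iff.1 hκU
  have hκnn : ∀ n, ∀ z ∈ DD, 0 ≤ kap f F (ρ n) (r n) z := fun n z hz =>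
    VarB.kap_nonneg (hρb n) (hr n) hz
  have hμ0 : ∀ n, 0 ≤ μ n := fun n => by
    rw [← (hu n).energy]
    exact setIntegral_nonneg measurableSet_ball fun z _ => CompA.gsq_nonneg' _ z
  set M' : ℝ := max M 1 with hM'
  have hM'0 : 0 ≤ M' := le_trans zero_le_one (le_max_right _ _)
  -- integrability
  have hi1 : ∀ n, IntegrableOn (fun z => kap f F (ρ n) (r n) z * u n z ^ 2) DD := by
    intro n
    obtain ⟨C, hC⟩ := (hu n).bg.2
    refine VarB.kint hf (hρc n) (hρb n) (hr n) ((VarB.bg_cont (hu n).bg).pow 2) (C := C ^ 2)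
      fun z hz => ?_
    rw [abs_pow]
    exact pow_le_pow_left₀ (abs_nonneg _) (hC z hz).1 2
  have hi1' : ∀ n, IntegrableOn (fun z => ‖F (r n * z)‖ ^ 2 * u n z ^ 2) DD := by
    intro n
    obtain ⟨C, hC⟩ := (hu n).bg.2
    refine VarB.wint hf (hr n) ((VarB.bg_cont (hu n).bg).pow 2) (C := C ^ 2)
      fun z hz => ?_
    rw [abs_pow]
    exact pow_le_pow_left₀ (abs_nonneg _) (hC z hz).1 2
  have hi0 : ∀ n, IntegrableOn (fun z => kap f F (ρ n) (r n) z * u n z) DD := by
    intro n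
    obtain ⟨C, hC⟩ := (hu n).bg.2
    exact VarB.kint hf (hρc n) (hρb n) (hr n) (VarB.bg_cont (hu n).bg) (C := C)
      fun z hz => (hC z hz).1
  have hik : ∀ n, IntegrableOn (fun z => ‖F (r n * z)‖ ^ 2 * (1 : ℝ) ^ 2) DD := by
    intro n
    exact VarB.wint hf (hr n) continuousOn_const (C := 1) fun z hz => by norm_num
  have hi2 : ∀ n, IntegrableOn (gsq (u n)) DD := fun n => VarB.bg_gsq_int (hu n).bg
  obtain ⟨ν, w, μ₀, hν, hw1, hμlim, hul, hxl, hyl, hweak⟩ := exists_subseq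
    (κ := fun n => kap f F (ρ n) (r n)) (κ₀ := fun z => ‖F z‖ ^ 2) (μ := μ) (u := u) (M := M')
    hκc hκ₀c hκ₀pos hκlim (fun n => ⟨hμ0 n, (hμM n).trans (le_max_left _ _)⟩)
    (fun n => (hu n).smooth) (fun n => (hu n).eqn) hi1
    (fun n => by rw [(hu n).norm]; exact le_max_right _ _) hκnn hi2
    (fun n => by rw [(hu n).energy]; exact (hμM n).trans (le_max_left _ _))
  have hreg := c2_of_weak isOpen_ball hw1
    (h := fun z => μ₀ * ‖F z‖ ^ 2 * w z)
    ((contDiffOn_const.mul (VarB.nsq_contDiffOn hf)).mul hw1) hweak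
  obtain ⟨hw2, heq⟩ := hreg
  have hwc : ContinuousOn w DD := hw2.continuousOn
  have hgc : ContinuousOn (gsq w) DD := CompA.contOn_gsq hw1
  -- locally uniform convergence along the subsequence
  have hκU' : TendstoLocallyUniformlyOn (fun n => kap f F (ρ (ν n)) (r (ν n)))
      (fun z => ‖F z‖ ^ 2) atTop DD := by
    rw [CompA.tlu_iff]
    intro R hR s hs
    exact hν.tendsto_atTop.eventually (hκlim R hR s hs)
  have huU : TendstoLocallyUniformlyOn (fun n => u (ν n)) w atTop DD := CompA.tlu_iff.2 hul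
  have hxU : TendstoLocallyUniformlyOn (fun n => px (u (ν n))) (px w) atTop DD :=
    CompA.tlu_iff.2 hxl
  have hyU : TendstoLocallyUniformlyOn (fun n => py (u (ν n))) (py w) atTop DD :=
    CompA.tlu_iff.2 hyl
  have hpxc := CompA.contOn_px hw1
  have hpyc := CompA.contOn_py hw1
  have T1 : TendstoLocallyUniformlyOn (fun n z => kap f F (ρ (ν n)) (r (ν n)) z * u (ν n) z)
      (fun z => ‖F z‖ ^ 2 * w z) atTop DD := hκU'.fun_mul₀ huU hκ₀c hwc
  have T2 : TendstoLocallyUniformlyOn (fun n z => kap f F (ρ (ν n)) (r (ν n)) z * u (ν n) z ^ 2)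
      (fun z => ‖F z‖ ^ 2 * w z ^ 2) atTop DD := by
    have := T1.fun_mul₀ huU (hκ₀c.mul hwc) hwc
    refine (this.congr_right ?_).congr ?_
    · intro z _; simp only; ring
    · intro n z _; simp only; ring
  have T3 : TendstoLocallyUniformlyOn (fun n => gsq (u (ν n))) (gsq w) atTop DD := by
    have h1 := hxU.fun_mul₀ hxU hpxc hpxc
    have h2 := hyU.fun_mul₀ hyU hpyc hpyc
    have h3 := h1.add h2
    refine (h3.congr_right ?_).congr ?_
    · intro z _; simp only [Pi.add_apply, gsq]; ring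
    · intro n z _; simp only [Pi.add_apply, gsq]; ring
  have hcu : ∀ n, ContinuousOn (u n) DD := fun n => (hu n).smooth.continuousOn
  have L1 : ∀ R < 1, Tendsto (fun n => ∫ z in ball 0 R, kap f F (ρ (ν n)) (r (ν n)) z * u (ν n) z)
      atTop (𝓝 (∫ z in ball 0 R, ‖F z‖ ^ 2 * w z)) := fun R hR =>
    VarB.conv_int (fun n => (hκc _).mul (hcu _)) (hκ₀c.mul hwc) T1 hR
  have L2 : ∀ R < 1, Tendsto (fun n => ∫ z in ball 0 R,
      kap f F (ρ (ν n)) (r (ν n)) z * u (ν n) z ^ 2)
      atTop (𝓝 (∫ z in ball 0 R, ‖F z‖ ^ 2 * w z ^ 2)) := fun R hR =>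
    VarB.conv_int (fun n => (hκc _).mul ((hcu _).pow 2)) (hκ₀c.mul (hwc.pow 2)) T2 hR
  have L3 : ∀ R < 1, Tendsto (fun n => ∫ z in ball 0 R, gsq (u (ν n)) z)
      atTop (𝓝 (∫ z in ball 0 R, gsq w z)) := fun R hR =>
    VarB.conv_int (fun n => CompA.contOn_gsq ((hu _).smooth.of_le (by norm_num))) hgc T3 hR
  -- lower bound of the weights near the origin
  obtain ⟨c, hc0, hcn⟩ : ∃ c > 0, ∀ᶠ n in atTop, ∀ z ∈ ball (0 : ℂ) (1 / 2),
      c ≤ kap f F (ρ (ν n)) (r (ν n)) z := by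
    obtain ⟨z₀, hz₀, hmin⟩ := (isCompact_closedBall (0 : ℂ) (1 / 2)).exists_isMinOn
      ⟨0, by simp only [one_div, mem_closedBall, dist_self, inv_nonneg, Nat.ofNat_nonneg]⟩ (hκ₀c.mono (closedBall_subset_ball (by norm_num)))
    have hpos := hκ₀pos z₀ (closedBall_subset_ball (by norm_num) hz₀)
    refine ⟨‖F z₀‖ ^ 2 / 2, by (clear * - hpos; positivity), ?_⟩
    filter_upwards [Metric.tendstoUniformlyOn_iff.1 ((CompA.tlu_iff.1 hκU') (1 / 2) (by norm_num))
      (‖F z₀‖ ^ 2 / 2) (by (clear * - hpos; positivity))] with n hn z hz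
    have h1 := hn z (ball_subset_closedBall hz)
    have h2 := hmin (ball_subset_closedBall hz)
    rw [Real.dist_eq, abs_lt] at h1
    simp only [Set.mem_ofPred_eq] at h2
    linarith only [h1, h2]
  have hhalf : ∀ᶠ n in atTop, ∫ z in ball (0 : ℂ) (1 / 2), u (ν n) z ^ 2 ≤ 1 / c := by
    filter_upwards [hcn] with n hn
    have hI := hi1 (ν n)
    have e1 : ∫ z in ball (0 : ℂ) (1 / 2), u (ν n) z ^ 2 ≤
        ∫ z in ball (0 : ℂ) (1 / 2), 1 / c * (kap f F (ρ (ν n)) (r (ν n)) z * u (ν n) z ^ 2) := by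
      refine setIntegral_mono_on ?_ ((hI.mono_set (hsub0 (by norm_num))).const_mul _)
        measurableSet_ball fun z hz => ?_
      · exact ((((hcu (ν n)).pow 2).mono (closedBall_subset_ball
          (by norm_num : (1 / 2 : ℝ) < 1))).integrableOn_compact
          (isCompact_closedBall _ _)).mono_set ball_subset_closedBall
      · rw [div_mul_eq_mul_div, one_mul, le_div_iff₀ hc0]
        nlinarith only [hn z hz]
    refine e1.trans ?_
    rw [integral_const_mul]
    have e2 : ∫ z in ball (0 : ℂ) (1 / 2), kap f F (ρ (ν n)) (r (ν n)) z * u (ν n) z ^ 2 ≤ 1 := by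
      refine le_trans ?_ (hu (ν n)).norm.le
      refine setIntegral_mono_set hI ?_ (hsub0 (by norm_num)).eventuallyLE
      filter_upwards [ae_restrict_mem measurableSet_ball] with z hz
      exact mul_nonneg (hκnn _ z hz) (sq_nonneg _)
    have : 0 ≤ 1 / c := by (clear * - hc0; positivity)
    nlinarith only [e2, this]
  -- the tails
  set A : ℝ := 2 * (M' + 1 / c) with hA
  have hA0 : 0 ≤ A := by (clear * - hc0; positivity)
  have hone : BG (fun _ : ℂ => (1 : ℝ)) := by
    refine ⟨contDiffOn_const, 1, fun z _ => ⟨by norm_num, ?_⟩⟩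
    unfold gsq px py
    simp only [fderiv_fun_const, Pi.zero_apply, zero_apply, ne_eq, OfNat.ofNat_ne_zero, not_false_eq_true, zero_pow, add_zero, zero_le_one]
  set B : ℝ := 2 * ∫ z in ball (0 : ℂ) (1 / 2), (1 : ℝ) ^ 2 with hB
  have hB0 : 0 ≤ B := by
    rw [hB]
    have : 0 ≤ ∫ z in ball (0 : ℂ) (1 / 2), (1 : ℝ) ^ 2 :=
      setIntegral_nonneg measurableSet_ball fun z _ => by norm_num
    linarith only [this]
  have tails : ∀ δ > 0, ∃ R₀ < 1, ∀ R, R₀ ≤ R → R < 1 → ∀ᶠ n in atTop,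
      (∫ z in DD \ ball (0 : ℂ) R, kap f F (ρ (ν n)) (r (ν n)) z * u (ν n) z ^ 2 ≤ δ * A) ∧
      (∫ z in DD \ ball (0 : ℂ) R, kap f F (ρ (ν n)) (r (ν n)) z ≤ δ * B) := by
    intro δ hδ
    obtain ⟨R₀, _, hR₀, hTR⟩ := hT δ hδ
    refine ⟨R₀, hR₀, fun R hRR hR1 => ?_⟩
    have hmono : DD \ ball (0 : ℂ) R ⊆ DD \ ball (0 : ℂ) R₀ :=
      Set.sdiff_subset_sdiff_right (ball_subset_ball hRR)
    have hm : MeasurableSet (DD \ ball (0 : ℂ) R) := measurableSet_ball.diff measurableSet_ball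
    have hm0 : MeasurableSet (DD \ ball (0 : ℂ) R₀) := measurableSet_ball.diff measurableSet_ball
    filter_upwards [hhalf] with n hn
    have step : ∀ g : ℂ → ℝ, IntegrableOn (fun z => ‖F (r (ν n) * z)‖ ^ 2 * g z ^ 2) DD →
        IntegrableOn (fun z => kap f F (ρ (ν n)) (r (ν n)) z * g z ^ 2) DD →
        ∫ z in DD \ ball (0 : ℂ) R, kap f F (ρ (ν n)) (r (ν n)) z * g z ^ 2 ≤
          2 * ∫ z in DD \ ball (0 : ℂ) R₀, ‖F (r (ν n) * z)‖ ^ 2 * g z ^ 2 := by
      intro g hg1 hg2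
      rw [← integral_const_mul]
      calc ∫ z in DD \ ball (0 : ℂ) R, kap f F (ρ (ν n)) (r (ν n)) z * g z ^ 2
          ≤ ∫ z in DD \ ball (0 : ℂ) R, 2 * (‖F (r (ν n) * z)‖ ^ 2 * g z ^ 2) := by
            refine setIntegral_mono_on (hg2.mono_set Set.sdiff_subset)
              ((hg1.mono_set Set.sdiff_subset).const_mul _) hm fun z hz => ?_
            have := VarB.kap_le (F := F) (hρb (ν n)) (hr (ν n)) hz.1
            nlinarith only [this]
        _ ≤ ∫ z in DD \ ball (0 : ℂ) R₀, 2 * (‖F (r (ν n) * z)‖ ^ 2 * g z ^ 2) := by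
            refine setIntegral_mono_set ((hg1.mono_set Set.sdiff_subset).const_mul _) ?_
              hmono.eventuallyLE
            filter_upwards with z
            simp only [Pi.zero_apply]
            (clear * -; positivity)
    constructor
    · have h1 := step (u (ν n)) (hi1' _) (hi1 _)
      have h2 := hTR (r (ν n)) (hr _).1 (hr _).2 (u (ν n)) (hu _).bg
      rw [(hu (ν n)).energy] at h2
      have h3 : μ (ν n) ≤ M' := (hμM _).trans (le_max_left _ _)
      have h4 : δ * (μ (ν n) + ∫ z in ball (0 : ℂ) (1 / 2), u (ν n) z ^ 2) ≤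
          δ * (M' + 1 / c) := by (clear * - h3 hn hδ; gcongr)
      rw [hA]
      linarith only [h1, h2, h4]
    · have hik2 : IntegrableOn (fun z => kap f F (ρ (ν n)) (r (ν n)) z * (1 : ℝ) ^ 2) DD :=
        VarB.kint hf (hρc _) (hρb _) (hr _) continuousOn_const (C := 1) fun z hz => by norm_num
      have h1 := step (fun _ => 1) (hik _) hik2
      have h2 := hTR (r (ν n)) (hr _).1 (hr _).2 (fun _ => 1) hone
      have h3 : ∫ z in DD, gsq (fun _ : ℂ => (1 : ℝ)) z = 0 := by
        unfold gsq px py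
        simp
      rw [h3, zero_add] at h2
      simp only [one_pow, mul_one] at h1 h2
      rw [hB]
      simp only [one_pow]
      linarith only [h1, h2]
  -- upper bound of the mass
  have up2 : ∀ R < 1, ∫ z in ball (0 : ℂ) R, ‖F z‖ ^ 2 * w z ^ 2 ≤ 1 := by
    intro R hR
    refine le_of_tendsto (L2 R hR) (Eventually.of_forall fun n => ?_)
    refine le_trans ?_ (hu (ν n)).norm.le
    refine setIntegral_mono_set (hi1 _) ?_ (hsub0 hR).eventuallyLE
    filter_upwards [ae_restrict_mem measurableSet_ball] with z hz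
    exact mul_nonneg (hκnn _ z hz) (sq_nonneg _)
  have I2 : IntegrableOn (fun z => ‖F z‖ ^ 2 * w z ^ 2) DD :=
    VarB.exhaust (hκ₀c.mul (hwc.pow 2)) (fun z _ => by (clear * -; positivity)) up2
  have low2 : ∀ δ > 0, ∃ R₀ < 1, ∀ R, R₀ ≤ R → R < 1 →
      1 - δ * A ≤ ∫ z in ball (0 : ℂ) R, ‖F z‖ ^ 2 * w z ^ 2 := by
    intro δ hδ
    obtain ⟨R₀, hR₀, hR⟩ := tails δ hδ
    refine ⟨R₀, hR₀, fun R h1 h2 => ?_⟩
    refine ge_of_tendsto (L2 R h2) ?_
    filter_upwards [hR R h1 h2] with n hn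
    have h3 := VarB.int_split (hi1 (ν n)) h2
    rw [(hu (ν n)).norm] at h3
    linarith only [hn, h3]
  have mass : ∫ z in DD, ‖F z‖ ^ 2 * w z ^ 2 = 1 := by
    have hlim := VarB.exhaust_tendsto I2
    refine le_antisymm (le_of_tendsto hlim (Eventually.of_forall fun n => up2 _ (VarB.Rn_lt n))) ?_
    refine le_of_forall_pos_le_add fun ε hε => ?_
    obtain ⟨R₀, hR₀, hR⟩ := low2 (ε / (A + 1)) (by (clear * - hε hc0; positivity))
    have h1 : 1 - ε / (A + 1) * A ≤ ∫ z in DD, ‖F z‖ ^ 2 * w z ^ 2 := by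
      refine ge_of_tendsto hlim ?_
      filter_upwards [VarB.Rn_tendsto.eventually (lt_mem_nhds hR₀)] with n hn
      exact hR _ hn.le (VarB.Rn_lt n)
    have h2 : ε / (A + 1) * A ≤ ε := by
      rw [div_mul_eq_mul_div, div_le_iff₀ (by linarith only [hA0])]
      nlinarith only [hε]
    linarith only [h1, h2]
  -- the mean
  have I1 : IntegrableOn (fun z => ‖F z‖ ^ 2 * w z) DD := by
    have hF := conf_area hf
    refine (hF.add I2).mono' ((hκ₀c.mul hwc).aestronglyMeasurable measurableSet_ball) ?_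
    filter_upwards with z
    rw [norm_mul, Real.norm_eq_abs, Real.norm_eq_abs, abs_of_nonneg (by (clear * -; positivity))]
    simp only [Pi.add_apply]
    have h1 : |w z| ≤ 1 + w z ^ 2 := by
      rw [← sq_abs]
      nlinarith only []
    have h2 : 0 ≤ ‖F z‖ ^ 2 := by (clear * -; positivity)
    nlinarith only [h1]
  have mean : ∫ z in DD, ‖F z‖ ^ 2 * w z = 0 := by
    have hlim := VarB.exhaust_tendsto I1
    rw [← abs_eq_zero]
    refine le_antisymm (le_of_forall_pos_le_add fun ε hε => ?_) (abs_nonneg _)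
    rw [zero_add]
    obtain ⟨R₀, hR₀, hR⟩ := tails (ε / (A + B + 1)) (by (clear * - hε hc0; positivity))
    refine le_of_tendsto hlim.abs ?_
    filter_upwards [VarB.Rn_tendsto.eventually (lt_mem_nhds hR₀)] with m hm
    refine le_of_tendsto (L1 _ (VarB.Rn_lt m)).abs ?_
    filter_upwards [hR _ hm.le (VarB.Rn_lt m)] with n hn
    have h3 := VarB.int_split (hi0 (ν n)) (VarB.Rn_lt m)
    rw [(hu (ν n)).mean] at h3
    have h4 : ∫ z in ball (0 : ℂ) (VarB.Rn m), kap f F (ρ (ν n)) (r (ν n)) z * u (ν n) z =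
        -∫ z in DD \ ball (0 : ℂ) (VarB.Rn m), kap f F (ρ (ν n)) (r (ν n)) z * u (ν n) z := by
      linarith only [h3]
    rw [h4, abs_neg]
    have hm' : MeasurableSet (DD \ ball (0 : ℂ) (VarB.Rn m)) :=
      measurableSet_ball.diff measurableSet_ball
    have hik2 : IntegrableOn (fun z => kap f F (ρ (ν n)) (r (ν n)) z) DD := by
      have := VarB.kint hf (hρc (ν n)) (hρb _) (hr (ν n)) (g := fun _ => 1) continuousOn_const
        (C := 1) fun z hz => by norm_num
      simpa using this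
    have h5 : |∫ z in DD \ ball (0 : ℂ) (VarB.Rn m), kap f F (ρ (ν n)) (r (ν n)) z * u (ν n) z| ≤
        ∫ z in DD \ ball (0 : ℂ) (VarB.Rn m), (kap f F (ρ (ν n)) (r (ν n)) z +
          kap f F (ρ (ν n)) (r (ν n)) z * u (ν n) z ^ 2) := by
      rw [← Real.norm_eq_abs]
      refine norm_integral_le_of_norm_le
        ((hik2.mono_set Set.sdiff_subset).add ((hi1 _).mono_set Set.sdiff_subset)) ?_
      filter_upwards [ae_restrict_mem hm'] with z hz
      have h6 := hκnn (ν n) z hz.1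
      rw [norm_mul, Real.norm_eq_abs, Real.norm_eq_abs, abs_of_nonneg h6]
      have h7 : |u (ν n) z| ≤ 1 + u (ν n) z ^ 2 := by
        rw [← sq_abs]
        nlinarith only []
      nlinarith only [h6, h7]
    rw [integral_add (hik2.mono_set Set.sdiff_subset) ((hi1 _).mono_set Set.sdiff_subset)] at h5
    have h8 : ε / (A + B + 1) * B + ε / (A + B + 1) * A ≤ ε := by
      rw [← mul_add, div_mul_eq_mul_div, div_le_iff₀ (by linarith only [hA0, hB0])]
      nlinarith only [hε]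
    linarith only [hn, h5, h8]
  -- the energy
  have upE : ∀ R < 1, ∫ z in ball (0 : ℂ) R, gsq w z ≤ μ₀ := by
    intro R hR
    refine le_of_tendsto_of_tendsto (L3 R hR) hμlim (Eventually.of_forall fun n => ?_)
    show ∫ z in ball (0 : ℂ) R, gsq (u (ν n)) z ≤ μ (ν n)
    rw [← (hu (ν n)).energy]
    refine setIntegral_mono_set (hi2 _) ?_ (hsub0 hR).eventuallyLE
    filter_upwards with z
    exact CompA.gsq_nonneg' _ z
  have IE : IntegrableOn (gsq w) DD :=
    VarB.exhaust hgc (fun z _ => CompA.gsq_nonneg' _ z) upE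
  have energy : ∫ z in DD, gsq w z ≤ μ₀ :=
    le_of_tendsto (VarB.exhaust_tendsto IE) (Eventually.of_forall fun n => upE _ (VarB.Rn_lt n))
  exact ⟨ν, w, μ₀, hν, hw2, hμlim, hul, hxl, hyl, heq, I2, IE, mean, mass, energy⟩

end Vale.Agent.P071.Lim
end

section

/-!
# Lower semicontinuity of the first eigenvalue (task LIM-VARc)
-/

open MeasureTheory Metric Filter Topology Real
open scoped ContDiff ENNReal

namespace Vale.Agent.P071.Lim

theorem varC_gsq_nonneg (w : ℂ → ℝ) (z : ℂ) : 0 ≤ gsq w z := by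
  unfold gsq
  positivity

theorem varC_kap_nonneg (f F : ℂ → ℂ) (r : ℝ) (z : ℂ) : 0 ≤ kap f F (fun _ => 1) r z := by
  unfold kap
  positivity

theorem varC_poly : IsPolyFun (fun _ => 1) := by
  refine ⟨1, fun _ _ => 1, fun x => ?_⟩
  simp

theorem varC_px_const (c : ℝ) : px (fun _ => c) = fun _ => 0 := by
  funext z
  unfold px
  rw [fderiv_fun_const]
  rfl

theorem varC_py_const (c : ℝ) : py (fun _ => c) = fun _ => 0 := by
  funext z
  unfold py
  rw [fderiv_fun_const]
  rfl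

theorem varC_lap (z : ℂ) : lap (fun _ => (1 : ℝ)) z = 0 := by
  unfold lap
  rw [varC_px_const, varC_py_const, varC_px_const, varC_py_const]
  exact add_zero 0

theorem varC_gsq (z : ℂ) : gsq (fun _ => (1 : ℝ)) z = 0 := by
  unfold gsq
  rw [varC_px_const, varC_py_const]
  simp

/-- `liminf μ₁(Ω_r) ≥ μ₁(Ω)`. -/
theorem liminf_first {f F : ℂ → ℂ} (hf : Conf f F) (hT : TailU F) (hD : DiscThm f F)
    {μ : ℝ} {U : ℂ → ℝ} (hU : Target F μ U) {δ : ℝ} (hδ : 0 < δ) :
    ∃ R < (1 : ℝ), ∀ r : ℝ, R < r → 0 < r → r < 1 → ∀ φ : ℂ → ℝ, BG φ →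
      ∫ z in DD, kap f F (fun _ => 1) r z * φ z = 0 →
      (μ - δ) * ∫ z in DD, kap f F (fun _ => 1) r z * φ z ^ 2 ≤ ∫ z in DD, gsq φ z := by
  by_contra hcon
  push Not at hcon
  -- the bad sequence
  have hR : ∀ n : ℕ, (1 : ℝ) - 1 / ((n : ℝ) + 1) < 1 := by
    intro n
    have : (0 : ℝ) < 1 / ((n : ℝ) + 1) := by (clear * -; positivity)
    linarith
  choose r hrR hr0 hr1 φ hφ hmean hE using fun n : ℕ => hcon _ (hR n)
  obtain ⟨m₀, hm₀, hP⟩ := uniform_poincare hf hT
  have hP1 := hP (fun _ => 1) continuous_const (fun z _ => ⟨by norm_num, by norm_num⟩)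
  have hDisc := hD (fun _ => 1) varC_poly ⟨1, one_pos, fun z _ => le_rfl⟩ (m₀ / 2) m₀
    (by linarith only [hm₀]) (by linarith)
    (fun z _ => by
      rw [varC_lap, varC_gsq]
      norm_num
      linarith only [hm₀]) hP1
  choose μ' u hu _ using fun n : ℕ => hDisc (r n) (hr0 n) (hr1 n)
  have hμ' : ∀ n, μ' n ≤ μ - δ := by
    intro n
    have h1 := (hu n).minimal (φ n) (hφ n) (hmean n)
    have h2 := hE n
    have h3 : 0 ≤ ∫ z in DD, kap f F (fun _ => 1) (r n) z * φ n z ^ 2 :=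
      integral_nonneg fun z => mul_nonneg (varC_kap_nonneg f F (r n) z) (sq_nonneg _)
    have h4 : 0 ≤ ∫ z in DD, gsq (φ n) z := integral_nonneg fun z => varC_gsq_nonneg _ z
    by_contra hlt
    push Not at hlt
    have h5 := mul_le_mul_of_nonneg_right hlt.le h3
    linarith
  have hrt : Tendsto r atTop (𝓝 1) := by
    have h0 : Tendsto (fun n : ℕ => (1 : ℝ) - 1 / ((n : ℝ) + 1)) atTop (𝓝 1) := by
      have := (tendsto_one_div_add_atTop_nhds_zero_nat (𝕜 := ℝ)).const_sub 1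
      rwa [sub_zero] at this
    exact tendsto_of_tendsto_of_tendsto_of_le_of_le h0 tendsto_const_nhds
      (fun n => (hrR n).le) (fun n => (hr1 n).le)
  obtain ⟨ν, w, μ₀, _, hw, hμ₀, _, _, _, _, hi, hg, hmw, hnw, hew⟩ :=
    limit_of_discMin (ρ := fun _ _ => 1) (r := r) (μ := μ') (u := u) (M := μ - δ) hf hT
      (fun _ => continuous_const) (fun _ z _ => ⟨by norm_num, by norm_num⟩)
      (fun δ' hδ' => Eventually.of_forall fun n z _ => by simpa only [sub_self, abs_zero] using hδ'.le)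
      (fun n => ⟨hr0 n, hr1 n⟩) hrt hμ' hu
  have hle : μ₀ ≤ μ - δ := le_of_tendsto' hμ₀ fun n => hμ' _
  have hmin := hU.minimal w (hw.of_le (by norm_num)) hi hg hmw
  rw [hnw, mul_one] at hmin
  linarith

end Vale.Agent.P071.Lim
end

section

/-!
# Polynomial weights (auxiliary lemmas for LIM-SELa)
-/

open MeasureTheory Metric Filter Topology Real
open scoped ContDiff ENNReal ComplexConjugate

namespace Vale.Agent.P071.Lim

namespace SelA

lemma poly_contDiff {s : ℂ → ℝ} (hs : IsPolyFun s) : ContDiff ℝ ∞ s := by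
  obtain ⟨N, c, hc⟩ := hs
  have h1 : s = fun x => Complex.reCLM (∑ m ∈ Finset.range N, ∑ n ∈ Finset.range N,
      c m n * x ^ m * (conj x) ^ n) := by
    funext x
    rw [← hc x]
    simp
  rw [h1]
  refine Complex.reCLM.contDiff.comp ?_
  refine ContDiff.sum fun m _ => ContDiff.sum fun n _ => ?_
  refine ContDiff.mul (contDiff_const.mul (contDiff_id.pow m)) ?_
  exact (Complex.conjCLE.contDiff).pow n

lemma poly_affine {s : ℂ → ℝ} (hs : IsPolyFun s) (ε : ℝ) : IsPolyFun (fun x => 1 + ε * s x) := by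
  obtain ⟨N, c, hc⟩ := hs
  refine ⟨N + 1, fun m n => (if m < N ∧ n < N then (ε : ℂ) * c m n else 0) +
    (if m = 0 ∧ n = 0 then 1 else 0), fun x => ?_⟩
  have h2 : ∑ m ∈ Finset.range (N + 1), ∑ n ∈ Finset.range (N + 1),
      (if m < N ∧ n < N then (ε : ℂ) * c m n else 0) * x ^ m * (conj x) ^ n = ε * s x := by
    rw [Finset.sum_range_succ, Finset.sum_congr rfl (g := fun m => (ε : ℂ) *
      ∑ n ∈ Finset.range N, c m n * x ^ m * (conj x) ^ n)]
    · rw [← Finset.mul_sum, ← hc x]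
      simp
    · intro m hm
      rw [Finset.sum_range_succ, Finset.mul_sum]
      have hm' := Finset.mem_range.1 hm
      simp only [lt_self_iff_false, and_false, if_false, zero_mul, add_zero]
      refine Finset.sum_congr rfl fun n hn => ?_
      rw [if_pos ⟨hm', Finset.mem_range.1 hn⟩]
      ring
  have h3 : ∑ m ∈ Finset.range (N + 1), ∑ n ∈ Finset.range (N + 1),
      (if m = 0 ∧ n = 0 then (1 : ℂ) else 0) * x ^ m * (conj x) ^ n = 1 := by
    rw [Finset.sum_eq_single 0]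
    · rw [Finset.sum_eq_single 0]
      · simp
      · intro n _ hn
        simp [hn]
      · simp only [Finset.mem_range, lt_add_iff_pos_left, Order.lt_add_one_iff, zero_le, not_true_eq_false, and_self, ↓reduceIte, pow_zero, mul_one, one_ne_zero, imp_self]
    · intro m _ hm
      refine Finset.sum_eq_zero fun n _ => ?_
      simp [hm]
    · simp only [Finset.mem_range, lt_add_iff_pos_left, Order.lt_add_one_iff, zero_le, not_true_eq_false, true_and, pow_zero, mul_one, ite_mul, one_mul, zero_mul, Finset.sum_ite_eq', ↓reduceIte, one_ne_zero, imp_self]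
  rw [Finset.sum_congr rfl (g := fun m => (∑ n ∈ Finset.range (N + 1),
      (if m < N ∧ n < N then (ε : ℂ) * c m n else 0) * x ^ m * (conj x) ^ n) +
      (∑ n ∈ Finset.range (N + 1),
      (if m = 0 ∧ n = 0 then (1 : ℂ) else 0) * x ^ m * (conj x) ^ n)), Finset.sum_add_distrib,
      h2, h3]
  · push_cast
    ring
  · intro m _
    rw [← Finset.sum_add_distrib]
    refine Finset.sum_congr rfl fun n _ => ?_
    ring

lemma px_contDiff {s : ℂ → ℝ} (hs : ContDiff ℝ ∞ s) : ContDiff ℝ ∞ (px s) := by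
  have h : ContDiff ℝ ∞ (fderiv ℝ s) := hs.fderiv_right (by simp)
  exact h.clm_apply contDiff_const

lemma py_contDiff {s : ℂ → ℝ} (hs : ContDiff ℝ ∞ s) : ContDiff ℝ ∞ (py s) := by
  have h : ContDiff ℝ ∞ (fderiv ℝ s) := hs.fderiv_right (by simp)
  exact h.clm_apply contDiff_const

lemma px_affine {s : ℂ → ℝ} (hs : ContDiff ℝ ∞ s) (ε : ℝ) :
    px (fun x => 1 + ε * s x) = fun x => ε * px s x := by
  funext x
  have hd : DifferentiableAt ℝ s x := (hs.differentiable (by simp)) x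
  rw [px, px, fderiv_const_add, fderiv_const_mul hd]
  rfl

lemma py_affine {s : ℂ → ℝ} (hs : ContDiff ℝ ∞ s) (ε : ℝ) :
    py (fun x => 1 + ε * s x) = fun x => ε * py s x := by
  funext x
  have hd : DifferentiableAt ℝ s x := (hs.differentiable (by simp)) x
  rw [py, py, fderiv_const_add, fderiv_const_mul hd]
  rfl

lemma px_const_mul {s : ℂ → ℝ} (hs : ContDiff ℝ ∞ s) (ε : ℝ) :
    px (fun x => ε * s x) = fun x => ε * px s x := by
  funext x
  have hd : DifferentiableAt ℝ s x := (hs.differentiable (by simp)) x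
  rw [px, px, fderiv_const_mul hd]
  rfl

lemma py_const_mul {s : ℂ → ℝ} (hs : ContDiff ℝ ∞ s) (ε : ℝ) :
    py (fun x => ε * s x) = fun x => ε * py s x := by
  funext x
  have hd : DifferentiableAt ℝ s x := (hs.differentiable (by simp)) x
  rw [py, py, fderiv_const_mul hd]
  rfl

lemma gsq_affine {s : ℂ → ℝ} (hs : ContDiff ℝ ∞ s) (ε : ℝ) (x : ℂ) :
    gsq (fun x => 1 + ε * s x) x = ε ^ 2 * gsq s x := by
  rw [gsq, px_affine hs, py_affine hs, gsq]
  ring

lemma lap_affine {s : ℂ → ℝ} (hs : ContDiff ℝ ∞ s) (ε : ℝ) (x : ℂ) :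
    lap (fun x => 1 + ε * s x) x = ε * lap s x := by
  rw [lap, px_affine hs, py_affine hs, lap, px_const_mul (px_contDiff hs),
    py_const_mul (py_contDiff hs)]
  ring

/-- bounds on the image of `f`. -/
lemma poly_bounds {f F : ℂ → ℂ} (hf : Conf f F) {s : ℂ → ℝ} (hs : ContDiff ℝ ∞ s) :
    ∃ B : ℝ, 1 ≤ B ∧ ∀ z ∈ DD, |s (f z)| ≤ B ∧ |lap s (f z)| ≤ B ∧ gsq s (f z) ≤ B := by
  obtain ⟨C, hC⟩ := hf.bdd
  have hK : IsCompact (closedBall (0 : ℂ) C) := isCompact_closedBall _ _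
  have c1 : Continuous s := hs.continuous
  have c2 : Continuous (lap s) :=
    ((px_contDiff (px_contDiff hs)).continuous).add ((py_contDiff (py_contDiff hs)).continuous)
  have c3 : Continuous (gsq s) :=
    ((px_contDiff hs).continuous.pow 2).add ((py_contDiff hs).continuous.pow 2)
  obtain ⟨B1, hB1⟩ := hK.exists_bound_of_continuousOn c1.continuousOn
  obtain ⟨B2, hB2⟩ := hK.exists_bound_of_continuousOn c2.continuousOn
  obtain ⟨B3, hB3⟩ := hK.exists_bound_of_continuousOn c3.continuousOn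
  refine ⟨max 1 (max B1 (max B2 B3)), le_max_left _ _, fun z hz => ?_⟩
  have hz' : f z ∈ closedBall (0 : ℂ) C := by
    rw [mem_closedBall_zero_iff]
    exact hC z hz
  have e1 := hB1 _ hz'
  have e2 := hB2 _ hz'
  have e3 := hB3 _ hz'
  rw [Real.norm_eq_abs] at e1 e2 e3
  refine ⟨?_, ?_, ?_⟩
  · exact e1.trans ((le_max_left _ _).trans (le_max_right _ _))
  · exact e2.trans ((le_max_left _ _).trans ((le_max_right _ _).trans (le_max_right _ _)))
  · exact (le_abs_self _).trans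
      (e3.trans ((le_max_right _ _).trans ((le_max_right _ _).trans (le_max_right _ _))))

end SelA

end Vale.Agent.P071.Lim
end

section

/-!
# Upper bound (auxiliary lemma for LIM-SELa)
-/

open MeasureTheory Metric Filter Topology Real
open scoped ContDiff ENNReal ComplexConjugate

namespace Vale.Agent.P071.Lim

namespace SelA

lemma gsq_nonneg (w : ℂ → ℝ) (z : ℂ) : 0 ≤ gsq w z := by
  rw [gsq]
  positivity

lemma int_of_le {h g : ℂ → ℝ} (hc : ContinuousOn h DD) (hg : IntegrableOn g DD)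
    (hb : ∀ z ∈ DD, |h z| ≤ g z) : IntegrableOn h DD := by
  refine Integrable.mono' hg (hc.aestronglyMeasurable measurableSet_ball) ?_
  refine (ae_restrict_iff' measurableSet_ball).2 (Eventually.of_forall fun z hz => ?_)
  rw [Real.norm_eq_abs]
  exact hb z hz

lemma area_pos {f F : ℂ → ℂ} (hf : Conf f F) : 0 < ∫ z in DD, ‖F z‖ ^ 2 := by
  rw [setIntegral_pos_iff_support_of_nonneg_ae _ (conf_area hf)]
  · have h1 : Function.support (fun z => ‖F z‖ ^ 2) ∩ DD = DD := by
      ext z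
      simp only [Set.mem_inter_iff, Function.mem_support, and_iff_right_iff_imp]
      exact fun hz => pow_ne_zero _ (norm_ne_zero_iff.2 (hf.ne_zero z hz))
    rw [h1]
    exact measure_ball_pos _ _ one_pos
  · exact Eventually.of_forall fun z => sq_nonneg _

lemma conf_F_continuousOn {f F : ℂ → ℂ} (hf : Conf f F) : ContinuousOn F DD := by
  have h1 : DifferentiableOn ℂ f DD := fun z hz =>
    (hf.deriv z hz).differentiableAt.differentiableWithinAt
  have h2 : ContinuousOn (deriv f) DD := (h1.deriv isOpen_ball).continuousOn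
  exact h2.congr fun z hz => (hf.deriv z hz).deriv.symm

lemma upper {f F : ℂ → ℂ} (hf : Conf f F) {μ : ℝ} {U : ℂ → ℝ} (hU : Target F μ U) {s : ℂ → ℝ}
    (hs : Continuous s) {B : ℝ} (hB1 : 1 ≤ B) (hB : ∀ z ∈ DD, |s (f z)| ≤ B) :
    ∃ C1 : ℝ, 1 ≤ C1 ∧ ∀ ε : ℝ, 0 < ε → ε ≤ 1 → ε * B ≤ 1 / 2 → ∀ᶠ n : ℕ in atTop,
      ∀ (μ' : ℝ) (w : ℂ → ℝ),
        DiscMin (kap f F (fun x => 1 + ε * s x) (1 - 1 / ((n : ℝ) + 2))) μ' w →
          μ' * (1 + ε * (∫ z in DD, ‖F z‖ ^ 2 * s (f z) * U z ^ 2) - C1 * ε ^ 2) ≤ μ := by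
  have cF : ContinuousOn (fun z => ‖F z‖ ^ 2) DD := (conf_F_continuousOn hf).norm.pow 2
  have cU : ContinuousOn U DD := hU.smooth.continuousOn
  have cs : ContinuousOn (fun z => s (f z)) DD := hs.comp_continuousOn (conf_continuousOn hf)
  have i0 : IntegrableOn (fun z => ‖F z‖ ^ 2) DD := conf_area hf
  have i2 : IntegrableOn (fun z => ‖F z‖ ^ 2 * U z ^ 2) DD := hU.int_sq
  have hab : ∀ x : ℝ, |x| ≤ 1 + x ^ 2 := fun x => by
    have := sq_abs x
    nlinarith only [this]
  have i1 : IntegrableOn (fun z => ‖F z‖ ^ 2 * U z) DD := by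
    refine int_of_le (cF.mul cU) (i0.add i2) fun z _ => ?_
    rw [abs_mul, abs_of_nonneg (sq_nonneg _)]
    have := mul_le_mul_of_nonneg_left (hab (U z)) (sq_nonneg ‖F z‖)
    simp only [Pi.add_apply]
    linarith only [this]
  have bd : ∀ (x y : ℝ) {z : ℂ}, z ∈ DD → |x * s (f z) * y| ≤ B * (|x| * |y|) := by
    intro x y z hz
    rw [abs_mul, abs_mul]
    have := mul_le_mul_of_nonneg_right (hB z hz) (mul_nonneg (abs_nonneg x) (abs_nonneg y))
    linarith
  have j2 : IntegrableOn (fun z => ‖F z‖ ^ 2 * s (f z) * U z ^ 2) DD := by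
    refine int_of_le ((cF.mul cs).mul (cU.pow 2)) (i2.const_mul B) fun z hz => ?_
    refine (bd _ _ hz).trans ?_
    rw [abs_of_nonneg (sq_nonneg _), abs_of_nonneg (sq_nonneg _)]
  have j1 : IntegrableOn (fun z => ‖F z‖ ^ 2 * s (f z) * U z) DD := by
    refine int_of_le ((cF.mul cs).mul cU) ((i0.add i2).const_mul B) fun z hz => ?_
    refine (bd _ _ hz).trans ?_
    rw [abs_of_nonneg (sq_nonneg _)]
    have := mul_le_mul_of_nonneg_left (hab (U z)) (sq_nonneg ‖F z‖)
    simp only [Pi.add_apply]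
    refine mul_le_mul_of_nonneg_left ?_ (by linarith)
    linarith
  have j0 : IntegrableOn (fun z => ‖F z‖ ^ 2 * s (f z) * 1) DD := by
    refine int_of_le ((cF.mul cs).mul continuousOn_const) (i0.const_mul B) fun z hz => ?_
    refine (bd _ _ hz).trans ?_
    rw [abs_of_nonneg (sq_nonneg _), abs_one, mul_one]
  set S := ∫ z in DD, ‖F z‖ ^ 2 * s (f z) * U z ^ 2 with hS
  set a := ∫ z in DD, ‖F z‖ ^ 2 * s (f z) * U z with ha
  set A := ∫ z in DD, ‖F z‖ ^ 2 with hA
  set As := ∫ z in DD, ‖F z‖ ^ 2 * s (f z) * 1 with hAs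
  have hApos : 0 < A := area_pos hf
  have hAsb : |As| ≤ B * A := by
    rw [hAs, hA, ← integral_const_mul, ← Real.norm_eq_abs]
    refine (norm_integral_le_integral_norm _).trans ?_
    refine setIntegral_mono_on j0.norm (i0.const_mul B) measurableSet_ball fun z hz => ?_
    rw [Real.norm_eq_abs]
    refine (bd _ _ hz).trans ?_
    rw [abs_of_nonneg (sq_nonneg _), abs_one, mul_one]
  refine ⟨1 + 4 * (|a| + 1) ^ 2 / A, ?_, fun ε hε hε1 hεB => ?_⟩
  · have : 0 ≤ 4 * (|a| + 1) ^ 2 / A := by (clear * - hApos; positivity)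
    linarith only [this]
  set H2 : ℂ → ℝ := fun z => ‖F z‖ ^ 2 * (1 + ε * s (f z)) * U z ^ 2 with hH2
  set H1 : ℂ → ℝ := fun z => ‖F z‖ ^ 2 * (1 + ε * s (f z)) * U z with hH1
  set H0 : ℂ → ℝ := fun z => ‖F z‖ ^ 2 * (1 + ε * s (f z)) with hH0
  have k2 : IntegrableOn H2 DD := by
    refine (i2.add (j2.const_mul ε)).congr_fun (fun z _ => ?_) measurableSet_ball
    simp only [Pi.add_apply, hH2]
    ring
  have k1 : IntegrableOn H1 DD := by
    refine (i1.add (j1.const_mul ε)).congr_fun (fun z _ => ?_) measurableSet_ball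
    simp only [Pi.add_apply, hH1]
    ring
  have k0 : IntegrableOn H0 DD := by
    refine (i0.add (j0.const_mul ε)).congr_fun (fun z _ => ?_) measurableSet_ball
    simp only [Pi.add_apply, hH0]
    ring
  have v2 : ∫ z in DD, H2 z = 1 + ε * S := by
    have h : ∫ z in DD, H2 z = ∫ z in DD, (1 * (‖F z‖ ^ 2 * U z ^ 2) +
        ε * (‖F z‖ ^ 2 * s (f z) * U z ^ 2) + 0 * ‖F z‖ ^ 2) := by
      refine setIntegral_congr_fun measurableSet_ball fun z _ => ?_
      simp only [hH2]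
      ring
    rw [h, integral_lin3 i2 j2 i0, hU.norm]
    ring
  have v1 : ∫ z in DD, H1 z = ε * a := by
    have h : ∫ z in DD, H1 z = ∫ z in DD, (1 * (‖F z‖ ^ 2 * U z) +
        ε * (‖F z‖ ^ 2 * s (f z) * U z) + 0 * ‖F z‖ ^ 2) := by
      refine setIntegral_congr_fun measurableSet_ball fun z _ => ?_
      simp only [hH1]
      ring
    rw [h, integral_lin3 i1 j1 i0, hU.mean]
    ring
  have v0 : ∫ z in DD, H0 z = A + ε * As := by
    have h : ∫ z in DD, H0 z = ∫ z in DD, (1 * ‖F z‖ ^ 2 +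
        ε * (‖F z‖ ^ 2 * s (f z) * 1) + 0 * ‖F z‖ ^ 2) := by
      refine setIntegral_congr_fun measurableSet_ball fun z _ => ?_
      simp only [hH0]
      ring
    rw [h, integral_lin3 i0 j0 i0]
    ring
  have v0' : A / 2 ≤ ∫ z in DD, H0 z := by
    rw [v0]
    have h1 := mul_le_mul_of_nonneg_left (abs_le.1 hAsb).1 hε.le
    have h2 := mul_le_mul_of_nonneg_right hεB hApos.le
    have h3 : ε * -(B * A) = -(ε * B * A) := by ring
    rw [h3] at h1
    linarith only [h1, h2]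
  have t2 := (tendsto_balls k2).eventually (lt_mem_nhds (show (∫ z in DD, H2 z) - ε ^ 2 <
    ∫ z in DD, H2 z by have := pow_pos hε 2; linarith only [this]))
  have t1 := (tendsto_balls k1).eventually (lt_mem_nhds (show (∫ z in DD, H1 z) - ε ^ 2 <
    ∫ z in DD, H1 z by have := pow_pos hε 2; linarith only [this]))
  have t1' := (tendsto_balls k1).eventually (gt_mem_nhds (show (∫ z in DD, H1 z) <
    (∫ z in DD, H1 z) + ε ^ 2 by have := pow_pos hε 2; linarith only [this]))
  have t0 := (tendsto_balls k0).eventually (lt_mem_nhds (show A / 4 <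
    ∫ z in DD, H0 z by linarith only [hApos, v0']))
  filter_upwards [t2, t1, t1', t0] with n n2 n1 n1' n0
  intro μ' w hw
  set r : ℝ := 1 - 1 / ((n : ℝ) + 2) with hr
  have hr0 : 0 < r := by
    have h1 : 1 / ((n : ℝ) + 2) < 1 := by
      rw [div_lt_one (by (clear * -; positivity))]
      have : (0 : ℝ) ≤ n := Nat.cast_nonneg n
      linarith only []
    linarith only [h1]
  have hr1 : r < 1 := by
    have : (0 : ℝ) < 1 / ((n : ℝ) + 2) := by (clear * -; positivity)
    linarith only [this]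
  set a0 := ∫ z in ball (0 : ℂ) r, H2 z with ha0
  set a1 := ∫ z in ball (0 : ℂ) r, H1 z with ha1
  set a2 := ∫ z in ball (0 : ℂ) r, H0 z with ha2
  rw [v2] at n2
  rw [v1] at n1 n1'
  have ha2pos : 0 < a2 := by linarith only [hApos, n0]
  set κ : ℂ → ℝ := kap f F (fun x => 1 + ε * s x) r with hκ
  have hU1 : ContDiffOn ℝ 1 U DD := hU.smooth.of_le (by norm_num)
  obtain ⟨hbg, hgs⟩ := bg_scale hU1 hr0 hr1
  have hρc : Continuous (fun x : ℂ => 1 + ε * s x) := continuous_const.add (continuous_const.mul hs)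
  have cκ : CB κ := CB.kap hf hρc hr0 hr1
  have cφ : CB (fun z => U (r * z)) := CB.of_bg hbg
  have l0 : IntegrableOn κ DD := cκ.int
  have l1 : IntegrableOn (fun z => κ z * U (r * z)) DD := (cκ.mul cφ).int
  have l2 : IntegrableOn (fun z => κ z * U (r * z) ^ 2) DD := by
    have := (cκ.mul (cφ.mul cφ)).int
    simpa only [pow_two] using this
  have w0 : ∫ z in DD, κ z = a2 := by
    rw [ha2, ← scale_integral H0 hr0]
    refine setIntegral_congr_fun measurableSet_ball fun z _ => ?_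
    simp only [hκ, kap, hH0]
    ring
  have w1 : ∫ z in DD, κ z * U (r * z) = a1 := by
    rw [ha1, ← scale_integral H1 hr0]
    refine setIntegral_congr_fun measurableSet_ball fun z _ => ?_
    simp only [hκ, kap, hH1]
    ring
  have w2 : ∫ z in DD, κ z * U (r * z) ^ 2 = a0 := by
    rw [ha0, ← scale_integral H2 hr0]
    refine setIntegral_congr_fun measurableSet_ball fun z _ => ?_
    simp only [hκ, kap, hH2]
    ring
  have h8 := hw.minimal (fun z => U (r * z) - a1 / a2) (bg_sub_const hbg _) (by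
    have h9 : ∫ z in DD, κ z * (U (r * z) - a1 / a2) =
        ∫ z in DD, (1 * (κ z * U (r * z)) + (-(a1 / a2)) * κ z + 0 * κ z) := by
      refine setIntegral_congr_fun measurableSet_ball fun z _ => ?_
      ring
    rw [h9, integral_lin3 l1 l0 l0, w0, w1]
    field_simp
    ring)
  have h10 : ∫ z in DD, κ z * (U (r * z) - a1 / a2) ^ 2 = a0 - a1 ^ 2 / a2 := by
    have h3 : ∫ z in DD, κ z * (U (r * z) - a1 / a2) ^ 2 =
        ∫ z in DD, (1 * (κ z * U (r * z) ^ 2) + (-2 * (a1 / a2)) * (κ z * U (r * z)) +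
          (a1 / a2) ^ 2 * κ z) := by
      refine setIntegral_congr_fun measurableSet_ball fun z _ => ?_
      ring
    rw [h3, integral_lin3 l2 l1 l0, w0, w1, w2]
    field_simp
    ring
  have h11 : ∫ z in DD, gsq (fun z => U (r * z) - a1 / a2) z ≤ μ := by
    have h12 : ∫ z in DD, gsq (fun z => U (r * z) - a1 / a2) z =
        ∫ z in ball (0 : ℂ) r, gsq U z := by
      rw [← scale_integral (gsq U) hr0]
      refine setIntegral_congr_fun measurableSet_ball fun z hz => ?_
      have e := gsq_sub_const (fun z => U (r * z)) (a1 / a2) z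
      exact e.trans (hgs z hz)
    rw [h12, ← hU.energy]
    exact setIntegral_mono_set hU.int_gsq
      (Eventually.of_forall fun z => gsq_nonneg U z)
      (LE.le.eventuallyLE (ball_subset_ball hr1.le))
  rw [h10] at h8
  have hμ' : 0 ≤ μ' := by
    rw [← hw.energy]
    exact integral_nonneg fun z => gsq_nonneg w z
  have h13 : a1 ^ 2 / a2 ≤ 4 * (|a| + 1) ^ 2 / A * ε ^ 2 := by
    have h14 : |a1| ≤ ε * (|a| + 1) := by
      rw [abs_le]
      have h20 := mul_le_mul_of_nonneg_left (abs_le.1 (le_refl |a|)).1 hε.le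
      have h21 := mul_le_mul_of_nonneg_left (abs_le.1 (le_refl |a|)).2 hε.le
      have h22 : ε ^ 2 ≤ ε := by
        rw [pow_two]
        exact mul_le_of_le_one_right hε.le hε1
      constructor <;> linarith only [n1', h21, h22, n1, h20]
    have h15 : a1 ^ 2 ≤ (ε * (|a| + 1)) ^ 2 := by
      rw [← sq_abs]
      exact pow_le_pow_left₀ (abs_nonneg _) h14 2
    calc a1 ^ 2 / a2 ≤ (ε * (|a| + 1)) ^ 2 / (A / 4) := by
          exact div_le_div₀ (sq_nonneg _) h15 (by (clear * - hApos; positivity)) n0.le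
      _ = 4 * (|a| + 1) ^ 2 / A * ε ^ 2 := by
          (clear * - hApos hε; field_simp)
  calc μ' * (1 + ε * S - (1 + 4 * (|a| + 1) ^ 2 / A) * ε ^ 2) ≤ μ' * (a0 - a1 ^ 2 / a2) := by
        refine mul_le_mul_of_nonneg_left ?_ hμ'
        linarith only [n2, h13]
    _ ≤ μ := h8.trans h11

end SelA

end Vale.Agent.P071.Lim
end

section

/-!
# Second order comparison (task LIM-SELa)
-/

open MeasureTheory Metric Filter Topology Real
open scoped ContDiff ENNReal

namespace Vale.Agent.P071.Lim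

namespace SelA

lemma ev_gt {R : ℝ} (hR : R < 1) : ∀ᶠ n : ℕ in atTop, R < 1 - 1 / ((n : ℝ) + 2) := by
  obtain ⟨N, hN⟩ := exists_nat_one_div_lt (sub_pos.2 hR)
  filter_upwards [eventually_ge_atTop N] with n hn
  have h1 : (N : ℝ) ≤ n := by exact_mod_cast hn
  have h2 : 1 / ((n : ℝ) + 2) ≤ 1 / ((N : ℝ) + 1) :=
    one_div_le_one_div_of_le (by positivity) (by linarith only [h1])
  linarith only [hN, h2]

lemma alg_Q {ε δ S C B : ℝ} (hε : 0 < ε) (hε1 : ε ≤ 1) (hδ : 0 < δ) (hC : 1 ≤ C)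
    (hK : ε * (C + S ^ 2 + δ * |S| + 2 * B ^ 2 + C * |S| + C * δ + 2 * B ^ 2 * |S|) ≤ δ / 2) :
    1 + ε * δ / 2 ≤ (1 - ε * S + ε * δ - 2 * ε ^ 2 * B ^ 2) * (1 + ε * S - C * ε ^ 2) := by
  have hS := neg_abs_le S
  have hS' := le_abs_self S
  have hS0 := abs_nonneg S
  have e2 : 0 ≤ ε ^ 2 := sq_nonneg ε
  have e3 : 0 ≤ ε ^ 3 := by positivity
  have e32 : ε ^ 3 ≤ ε ^ 2 := by
    have : ε ^ 3 = ε ^ 2 * ε := by ring
    rw [this]
    exact mul_le_of_le_one_right e2 hε1
  have a1 : -(ε ^ 2 * (δ * |S|)) ≤ ε ^ 2 * (δ * S) := by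
    have := mul_le_mul_of_nonneg_left (mul_le_mul_of_nonneg_left hS hδ.le) e2
    linarith only [this]
  have a2 : -(ε ^ 2 * (C * |S|)) ≤ ε ^ 3 * (C * S) := by
    have h1 := mul_le_mul_of_nonneg_left
      (mul_le_mul_of_nonneg_left hS (by linarith only [hC] : (0 : ℝ) ≤ C)) e3
    have h2 := mul_le_mul_of_nonneg_right e32 (by (clear * - hC; positivity) : (0 : ℝ) ≤ C * |S|)
    linarith only [h1, h2]
  have a3 : -(ε ^ 2 * (2 * B ^ 2 * |S|)) ≤ -(ε ^ 3 * (2 * B ^ 2 * S)) := by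
    have h1 := mul_le_mul_of_nonneg_left
      (mul_le_mul_of_nonneg_left hS' (by (clear * -; positivity) : (0 : ℝ) ≤ 2 * B ^ 2)) e3
    have h2 := mul_le_mul_of_nonneg_right e32 (by (clear * -; positivity) : (0 : ℝ) ≤ 2 * B ^ 2 * |S|)
    linarith only [h1, h2]
  have a4 : -(ε ^ 2 * (C * δ)) ≤ -(ε ^ 3 * (C * δ)) := by
    have h2 := mul_le_mul_of_nonneg_right e32 (by positivity : (0 : ℝ) ≤ C * δ)
    linarith only [h2]
  have a5 : 0 ≤ 2 * C * ε ^ 4 * B ^ 2 := by (clear * - hC hε; positivity)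
  have a6 := mul_le_mul_of_nonneg_left hK hε.le
  have a7 : (1 - ε * S + ε * δ - 2 * ε ^ 2 * B ^ 2) * (1 + ε * S - C * ε ^ 2) =
      1 + ε * δ - ε ^ 2 * C - ε ^ 2 * S ^ 2 + ε ^ 2 * (δ * S) - ε ^ 2 * (2 * B ^ 2) +
        ε ^ 3 * (C * S) - ε ^ 3 * (C * δ) - ε ^ 3 * (2 * B ^ 2 * S) +
        2 * C * ε ^ 4 * B ^ 2 := by ring
  rw [a7]
  have a8 : ε * (ε * (C + S ^ 2 + δ * |S| + 2 * B ^ 2 + C * |S| + C * δ +
      2 * B ^ 2 * |S|)) = ε ^ 2 * C + ε ^ 2 * S ^ 2 + ε ^ 2 * (δ * |S|) + ε ^ 2 * (2 * B ^ 2) +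
      ε ^ 2 * (C * |S|) + ε ^ 2 * (C * δ) + ε ^ 2 * (2 * B ^ 2 * |S|) := by ring
  rw [a8] at a6
  linarith only [a1, a2, a3, a4, a5, a6]

lemma exists_eps {c D : ℝ} (hc : 0 < c) (hD : 1 ≤ D) :
    ∃ ε : ℝ, 0 < ε ∧ ∀ X : ℝ, X ≤ D → ε * X ≤ c := by
  refine ⟨c / D, by positivity, fun X hX => ?_⟩
  rw [div_mul_eq_mul_div, div_le_iff₀ (by linarith)]
  exact mul_le_mul_of_nonneg_left hX hc.le

end SelA

open SelA in
/-- Second order comparison for a fixed polynomial `s` and small `ε`. -/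
theorem select {f F : ℂ → ℂ} (hf : Conf f F) (hT : TailU F) (hD : DiscThm f F)
    {μ : ℝ} {U : ℂ → ℝ} (hU : Target F μ U) {s : ℂ → ℝ} (hs : IsPolyFun s) {δ : ℝ} (hδ : 0 < δ) :
    ∃ ε > 0, ∃ (r μ' : ℝ) (w : ℂ → ℝ), 1 - δ < r ∧ 0 < r ∧ r < 1 ∧ μ' ≤ μ + δ ∧
      (∀ z ∈ DD, |ε * s (f z)| ≤ δ ∧ |ε * s (f z)| ≤ 1 / 2) ∧
      DiscMin (kap f F (fun x => 1 + ε * s x) r) μ' w ∧
      IneqI DD (kap f F (fun x => 1 + ε * s x) r) μ' w ∧
      (∫ z in DD, ‖F z‖ ^ 2 * s (f z) * U z ^ 2) - δ ≤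
        ∫ z in DD, kap f F (fun _ => 1) r z * s (f (r * z)) * w z ^ 2 := by
  have hs' : ContDiff ℝ ∞ s := poly_contDiff hs
  have hsc : Continuous s := hs'.continuous
  obtain ⟨m₀, hm₀, hPoin⟩ := uniform_poincare hf hT
  obtain ⟨B, hB1, hBall⟩ := poly_bounds hf hs'
  have hB : ∀ z ∈ DD, |s (f z)| ≤ B := fun z hz => (hBall z hz).1
  obtain ⟨C, hC1, hup⟩ := upper hf hU hsc hB1 hB
  set S := ∫ z in DD, ‖F z‖ ^ 2 * s (f z) * U z ^ 2 with hS
  have hμ := hU.mu_pos
  set K := C + S ^ 2 + δ * |S| + 2 * B ^ 2 + C * |S| + C * δ + 2 * B ^ 2 * |S| with hK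
  have hK0 : 0 ≤ K := by (clear * - hC1 hδ hB1; positivity)
  have hSabs := abs_nonneg S
  have hfrac : 0 < δ / (μ + δ) := by (clear * - hδ hμ; positivity)
  obtain ⟨ε, hε, hεX⟩ := exists_eps
    (c := min (min 1 δ) (min (min (1 / 2) (m₀ / 16)) (min (δ / (μ + δ)) (δ / 2))))
    (D := 1 + B + 5 / 2 * B + (|S| + C) + K + δ) (by (clear * - hδ hm₀ hμ; positivity)) (by
      have : (0 : ℝ) ≤ B := by linarith only [hB1]
      linarith only [hδ, hB1, hC1, hK0, hSabs])
  have hBnn : (0 : ℝ) ≤ B := by linarith only [hB1]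
  have c0 : ε ≤ 1 := by
    have := (hεX 1 (by linarith only [hδ, hB1, hC1, hK0, hSabs])).trans ((min_le_left _ _).trans (min_le_left _ _))
    linarith only [this]
  have c1 : ε * B ≤ δ := (hεX B (by linarith only [hδ, hB1, hC1, hK0, hSabs])).trans ((min_le_left _ _).trans (min_le_right _ _))
  have c2 : ε * B ≤ 1 / 2 := (hεX B (by linarith only [hδ, hB1, hC1, hK0, hSabs])).trans
    ((min_le_right _ _).trans ((min_le_left _ _).trans (min_le_left _ _)))
  have c3 : ε * (5 / 2 * B) ≤ m₀ / 16 := (hεX _ (by linarith only [hδ, hB1, hC1, hK0, hSabs])).trans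
    ((min_le_right _ _).trans ((min_le_left _ _).trans (min_le_right _ _)))
  have c4 : ε * (|S| + C) ≤ δ / (μ + δ) := (hεX _ (by linarith only [hδ, hB1, hK0])).trans
    ((min_le_right _ _).trans ((min_le_right _ _).trans (min_le_left _ _)))
  have c5 : ε * K ≤ δ / 2 := (hεX _ (by linarith only [hδ, hB1, hC1, hSabs])).trans
    ((min_le_right _ _).trans ((min_le_right _ _).trans (min_le_right _ _)))
  have c6 : ε * δ ≤ 1 := (hεX _ (by linarith only [hB1, hC1, hK0, hSabs])).trans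
    ((min_le_left _ _).trans (min_le_left _ _))
  have hsb : ∀ z ∈ DD, |ε * s (f z)| ≤ ε * B := fun z hz => by
    rw [abs_mul, abs_of_pos hε]
    exact mul_le_mul_of_nonneg_left (hB z hz) hε.le
  -- the disc theorem
  have hρb : ∀ z ∈ DD, 1 / 2 ≤ 1 + ε * s (f z) ∧ 1 + ε * s (f z) ≤ 2 := fun z hz => by
    have := abs_le.1 ((hsb z hz).trans c2)
    constructor <;> linarith only [this]
  have hρc : Continuous (fun x : ℂ => 1 + ε * s x) := continuous_const.add (continuous_const.mul hsc)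
  have hdisc := hD (fun x => 1 + ε * s x) (poly_affine hs ε)
    ⟨1 / 2, by norm_num, fun z hz => (hρb z hz).1⟩ (m₀ / 2) m₀ (by linarith only [hm₀]) (by linarith only [hm₀])
    (by
      intro z hz
      rw [lap_affine hs', gsq_affine hs']
      obtain ⟨_, hl, hg⟩ := hBall z hz
      obtain ⟨hr1, _⟩ := hρb z hz
      have hr2 : 1 + ε * s (f z) ≤ 3 / 2 := by
        have := abs_le.1 ((hsb z hz).trans c2)
        linarith only [this]
      have h1 : (1 / 8 : ℝ) ≤ (1 + ε * s (f z)) ^ 3 := by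
        have := pow_le_pow_left₀ (by norm_num : (0 : ℝ) ≤ 1 / 2) hr1 3
        norm_num at this ⊢
        exact this
      have h2 : -(m₀ / 2) * (1 + ε * s (f z)) ^ 3 ≤ -(m₀ / 16) := by
        have := mul_le_mul_of_nonneg_left h1 (by linarith only [hm₀] : 0 ≤ m₀ / 2)
        linarith only [this]
      have h3 : |(1 + ε * s (f z)) * (ε * lap s (f z))| ≤ 3 / 2 * (ε * B) := by
        rw [abs_mul, abs_mul, abs_of_pos hε, abs_of_nonneg (by linarith only [hr1] : 0 ≤ 1 + ε * s (f z))]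
        exact mul_le_mul hr2 (mul_le_mul_of_nonneg_left hl hε.le) (by (clear * - hε; positivity)) (by norm_num)
      have h4 : ε ^ 2 * gsq s (f z) ≤ ε * B := by
        have h5 : ε ^ 2 * gsq s (f z) ≤ ε ^ 2 * B := mul_le_mul_of_nonneg_left hg (sq_nonneg _)
        have h6 : ε ^ 2 * B ≤ ε * B := by
          refine mul_le_mul_of_nonneg_right ?_ hBnn
          rw [pow_two]
          exact mul_le_of_le_one_right hε.le c0
        exact h5.trans h6
      have h7 := (abs_le.1 h3).1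
      linarith only [c3, h2, h4, h7])
    (fun r hr hr1 φ hφ h0 => hPoin _ hρc hρb r hr hr1 φ hφ h0)
  -- choice of δ₁ and r
  obtain ⟨R, hR1, hfirst⟩ := liminf_first hf hT hD hU (δ := μ * (ε * δ) / 8) (by (clear * - hμ hε hδ; positivity))
  obtain ⟨n, hn1, hn2, hn3⟩ := ((hup ε hε c0 c2).and
    ((ev_gt hR1).and (ev_gt (show 1 - δ < 1 by linarith only [hδ])))).exists
  set r : ℝ := 1 - 1 / ((n : ℝ) + 2) with hr
  have hr0 : 0 < r := by
    have h1 : 1 / ((n : ℝ) + 2) < 1 := by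
      rw [div_lt_one (by (clear * -; positivity))]
      have : (0 : ℝ) ≤ n := Nat.cast_nonneg n
      linarith only []
    linarith only [h1]
  have hr1 : r < 1 := by
    have : (0 : ℝ) < 1 / ((n : ℝ) + 2) := by (clear * -; positivity)
    linarith only [this]
  obtain ⟨μ', w, hw, hI⟩ := hdisc r hr0 hr1
  have hu := hn1 μ' w hw
  have hεδ : 0 < ε * δ := mul_pos hε hδ
  have hLpos : 0 < μ - μ * (ε * δ) / 8 := by
    have := mul_le_mul_of_nonneg_left c6 hμ.le
    linarith only [hμ, this]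
  have hlow := lower hf hsc hB1 hB hε c2 hr0 hr1 hLpos.le
    (fun φ hφ h0 => hfirst r hn2 hr0 hr1 φ hφ h0) hw
  have hP : 1 - δ / (μ + δ) ≤ 1 + ε * S - C * ε ^ 2 := by
    have h1 := mul_le_mul_of_nonneg_left (neg_abs_le S) hε.le
    have h2 : C * ε ^ 2 ≤ ε * C := by
      have h3 : ε ^ 2 ≤ ε := by
        rw [pow_two]
        exact mul_le_of_le_one_right hε.le c0
      rw [mul_comm ε C]
      exact mul_le_mul_of_nonneg_left h3 (by linarith only [hC1])
    linarith only [c4, h1, h2]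
  have hPpos : 0 < 1 + ε * S - C * ε ^ 2 := by
    have : δ / (μ + δ) < 1 := by
      rw [div_lt_one (by (clear * - hμ hδ; positivity))]
      linarith only [hμ]
    linarith only [hP, this]
  refine ⟨ε, hε, r, μ', w, hn3, hr0, hr1, ?_, fun z hz => ⟨(hsb z hz).trans c1,
    (hsb z hz).trans c2⟩, hw, hI, ?_⟩
  · -- upper bound for the eigenvalue
    have hμ'0 : 0 ≤ μ' := by
      rw [← hw.energy]
      exact integral_nonneg fun z => gsq_nonneg w z
    have h1 : μ' * (μ / (μ + δ)) ≤ μ := by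
      have h2 : 1 - δ / (μ + δ) = μ / (μ + δ) := by
        field_simp
        ring
      rw [← h2]
      exact (mul_le_mul_of_nonneg_left hP hμ'0).trans hu
    rw [← mul_div_assoc, div_le_iff₀ (by (clear * - hμ hδ; positivity))] at h1
    have h3 : μ * μ' ≤ μ * (μ + δ) := by linarith only [h1]
    exact le_of_mul_le_mul_left h3 hμ
  · by_contra hcon
    push Not at hcon
    set Sw := ∫ z in DD, kap f F (fun _ => 1) r z * s (f (r * z)) * w z ^ 2 with hSw
    set L := μ - μ * (ε * δ) / 8 with hL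
    have h1 : L * (1 - ε * Sw - 2 * ε ^ 2 * B ^ 2) * (1 + ε * S - C * ε ^ 2) ≤ μ :=
      (mul_le_mul_of_nonneg_right hlow hPpos.le).trans hu
    have h2 : 1 - ε * S + ε * δ - 2 * ε ^ 2 * B ^ 2 ≤ 1 - ε * Sw - 2 * ε ^ 2 * B ^ 2 := by
      have := mul_lt_mul_of_pos_left hcon hε
      linarith only [this]
    have h3 := alg_Q (B := B) hε c0 hδ hC1 c5
    have h4 : L * (1 + ε * δ / 2) ≤ μ := by
      calc L * (1 + ε * δ / 2) ≤ L * ((1 - ε * S + ε * δ - 2 * ε ^ 2 * B ^ 2) *
            (1 + ε * S - C * ε ^ 2)) := mul_le_mul_of_nonneg_left h3 hLpos.le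
        _ ≤ L * ((1 - ε * Sw - 2 * ε ^ 2 * B ^ 2) * (1 + ε * S - C * ε ^ 2)) :=
            mul_le_mul_of_nonneg_left (mul_le_mul_of_nonneg_right h2 hPpos.le) hLpos.le
        _ ≤ μ := by linarith only [h1]
    have h5 : 0 < μ * (ε * δ) := mul_pos hμ hεδ
    have h6 : L * (1 + ε * δ / 2) = μ + μ * (ε * δ) * (3 / 8 - (ε * δ) / 16) := by
      rw [hL]
      ring
    rw [h6] at h4
    have h7 : 0 < μ * (ε * δ) * (3 / 8 - (ε * δ) / 16) := mul_pos h5 (by linarith only [c6])
    linarith only [h4, h7]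

end Vale.Agent.P071.Lim
end

section

/-!
# Approximation of the penalty by polynomials (task LIM-SELb)
-/

open MeasureTheory Metric Filter Topology Real
open scoped ContDiff ENNReal

namespace Vale.Agent.P071.Lim

open scoped ComplexConjugate in
/-- elements of the star algebra generated by the identity are polynomials in `x, conj x` -/
theorem selb_repr {K : Set ℂ} {p : C(K, ℂ)}
    (hp : p ∈ (polynomialFunctions K).starClosure) :
    ∃ (N : ℕ) (c : ℕ → ℕ → ℂ), ∀ M : ℕ, N ≤ M → ∀ x : K,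
      p x = ∑ m ∈ Finset.range M, ∑ n ∈ Finset.range M, c m n * (x : ℂ) ^ m * (conj (x : ℂ)) ^ n := by
  rw [polynomialFunctions.starClosure_eq_adjoin_X] at hp
  have hp2 : p ∈ Subalgebra.toSubmodule (StarAlgebra.adjoin ℂ
      {Polynomial.toContinuousMapOnAlgHom K Polynomial.X}).toSubalgebra := hp
  rw [StarAlgebra.adjoin_eq_span] at hp2
  have hst : (star {Polynomial.toContinuousMapOnAlgHom K Polynomial.X} : Set C(K, ℂ))
      = {star (Polynomial.toContinuousMapOnAlgHom K Polynomial.X)} := Set.star_singleton _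
  rw [hst, Set.singleton_union] at hp2
  clear hp hst
  induction hp2 using Submodule.span_induction with
  | mem q hq =>
    rw [SetLike.mem_coe, Submonoid.mem_closure_pair] at hq
    obtain ⟨a, b, rfl⟩ := hq
    refine ⟨max a b + 1, fun m n => if m = a ∧ n = b then 1 else 0, fun M hM x => ?_⟩
    have ha : a ∈ Finset.range M := by
      rw [Finset.mem_range]; have := le_max_left a b; omega
    have hb : b ∈ Finset.range M := by
      rw [Finset.mem_range]; have := le_max_right a b; omega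
    rw [Finset.sum_eq_single a, Finset.sum_eq_single b]
    · simp only [Polynomial.toContinuousMapOnAlgHom_apply, ContinuousMap.mul_apply, ContinuousMap.pow_apply, Polynomial.toContinuousMapOn_apply, Polynomial.toContinuousMap_apply, Polynomial.eval_X, ContinuousMap.star_apply, RCLike.star_def, and_self, ↓reduceIte, one_mul]
    · intro n _ hn; simp [hn]
    · intro h; exact absurd hb h
    · intro m _ hm
      refine Finset.sum_eq_zero fun n _ => ?_
      simp [hm]
    · intro h; exact absurd ha h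
  | zero => exact ⟨0, fun _ _ => 0, fun M _ x => by simp⟩
  | add q r _ _ hq hr =>
    obtain ⟨N, c, h⟩ := hq
    obtain ⟨N', c', h'⟩ := hr
    refine ⟨max N N', fun m n => c m n + c' m n, fun M hM x => ?_⟩
    rw [ContinuousMap.add_apply, h M ((le_max_left _ _).trans hM) x,
      h' M ((le_max_right _ _).trans hM) x, ← Finset.sum_add_distrib]
    refine Finset.sum_congr rfl fun m _ => ?_
    rw [← Finset.sum_add_distrib]
    exact Finset.sum_congr rfl fun n _ => by ring
  | smul a q _ hq =>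
    obtain ⟨N, c, h⟩ := hq
    refine ⟨N, fun m n => a * c m n, fun M hM x => ?_⟩
    rw [ContinuousMap.smul_apply, h M hM x, smul_eq_mul, Finset.mul_sum]
    refine Finset.sum_congr rfl fun m _ => ?_
    rw [Finset.mul_sum]
    exact Finset.sum_congr rfl fun n _ => by ring

open scoped ComplexConjugate in
/-- the real part of a polynomial in `x, conj x` -/
theorem selb_re (N : ℕ) (c : ℕ → ℕ → ℂ) : IsPolyFun fun x : ℂ =>
    (∑ m ∈ Finset.range N, ∑ n ∈ Finset.range N, c m n * x ^ m * (conj x) ^ n).re := by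
  refine ⟨N, fun m n => (c m n + conj (c n m)) / 2, fun x => ?_⟩
  have h1 : conj (∑ m ∈ Finset.range N, ∑ n ∈ Finset.range N, c m n * x ^ m * (conj x) ^ n)
      = ∑ m ∈ Finset.range N, ∑ n ∈ Finset.range N, conj (c n m) * x ^ m * (conj x) ^ n := by
    rw [map_sum]
    simp only [map_sum]
    conv_rhs => rw [Finset.sum_comm]
    refine Finset.sum_congr rfl fun m _ => Finset.sum_congr rfl fun n _ => ?_
    simp only [map_mul, map_pow, Complex.conj_conj]
    ring
  rw [Complex.re_eq_add_conj, h1, ← Finset.sum_add_distrib, Finset.sum_div]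
  refine Finset.sum_congr rfl fun m _ => ?_
  rw [← Finset.sum_add_distrib, Finset.sum_div]
  exact Finset.sum_congr rfl fun n _ => by ring

/-- Approximation of the penalty by polynomials (Stone-Weierstrass): for every continuous `Ψ`
compactly supported in the disc and `δ > 0` there is a polynomial function `s` of `x, conj x`
with `|s ∘ f - Ψ| ≤ δ` on the disc. -/
theorem exists_poly {f F : ℂ → ℂ} (hf : Conf f F) {Ψ : ℂ → ℝ} (hΨ : Continuous Ψ)
    (hs : HasCompactSupport Ψ) (hsub : tsupport Ψ ⊆ DD) {δ : ℝ} (hδ : 0 < δ) :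
    ∃ s : ℂ → ℝ, IsPolyFun s ∧ ∀ z ∈ DD, |s (f z) - Ψ z| ≤ δ := by
  classical
  obtain ⟨g, hopen, hgf, hg, hgd, -⟩ := exists_inverse hf
  have hfc : ContinuousOn f DD := fun z hz => (hf.deriv z hz).continuousAt.continuousWithinAt
  have hgc : ContinuousOn g (f '' DD) := fun x hx => (hgd x hx).continuousAt.continuousWithinAt
  have hK0 : IsCompact (f '' tsupport Ψ) := IsCompact.image_of_continuousOn hs (hfc.mono hsub)
  set Φ : ℂ → ℝ := fun x => if x ∈ f '' DD then Ψ (g x) else 0 with hΦdef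
  have hΦf : ∀ z ∈ DD, Φ (f z) = Ψ z := by
    intro z hz
    have hm : f z ∈ f '' DD := ⟨z, hz, rfl⟩
    simp only [hΦdef, if_pos hm, hgf z hz]
  have hΦc : Continuous Φ := by
    rw [continuous_iff_continuousAt]
    intro x
    by_cases hx : x ∈ f '' DD
    · have h1 : ContinuousAt (fun y => Ψ (g y)) x :=
        hΨ.continuousAt.comp (hgd x hx).continuousAt
      refine h1.congr ?_
      filter_upwards [hopen.mem_nhds hx] with y hy
      simp only [hΦdef, if_pos hy]
    · have hx2 : x ∈ (f '' tsupport Ψ)ᶜ := fun h => hx (Set.image_mono hsub h)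
      have h1 : ContinuousAt (fun _ : ℂ => (0:ℝ)) x := continuousAt_const
      refine h1.congr ?_
      filter_upwards [hK0.isClosed.isOpen_compl.mem_nhds hx2] with y hy
      by_cases hy2 : y ∈ f '' DD
      · simp only [hΦdef, if_pos hy2]
        obtain ⟨z, hz, rfl⟩ := hy2
        rw [hgf z hz]
        have hz2 : z ∉ tsupport Ψ := fun h => hy ⟨z, h, rfl⟩
        exact (image_eq_zero_of_notMem_tsupport hz2).symm
      · simp only [hΦdef, if_neg hy2]
  obtain ⟨C, hC⟩ := hf.bdd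
  have : CompactSpace (closedBall (0:ℂ) C) :=
    isCompact_iff_compactSpace.mp (isCompact_closedBall 0 C)
  set Φc : C(closedBall (0:ℂ) C, ℂ) := ⟨fun x => (Φ x : ℂ), by fun_prop⟩ with hΦcdef
  have htop : Φc ∈ ((polynomialFunctions (closedBall (0:ℂ) C)).starClosure.topologicalClosure :
      StarSubalgebra ℂ C(closedBall (0:ℂ) C, ℂ)) := by
    rw [polynomialFunctions.starClosure_topologicalClosure]
    exact StarSubalgebra.mem_top
  rw [← SetLike.mem_coe, StarSubalgebra.topologicalClosure_coe, Metric.mem_closure_iff] at htop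
  obtain ⟨p, hp, hpd⟩ := htop δ hδ
  obtain ⟨N, c, hrep⟩ := selb_repr hp
  refine ⟨_, selb_re N c, fun z hz => ?_⟩
  have hzK : f z ∈ closedBall (0:ℂ) C := by
    rw [mem_closedBall_zero_iff]; exact hC z hz
  have h1 := hrep N le_rfl ⟨f z, hzK⟩
  have h2 : dist (Φc ⟨f z, hzK⟩) (p ⟨f z, hzK⟩) ≤ dist Φc p :=
    ContinuousMap.dist_apply_le_dist _
  have h3 : Φc ⟨f z, hzK⟩ = (Ψ z : ℂ) := by
    simp only [hΦcdef, ContinuousMap.coe_mk, hΦf z hz]
  simp only at h1
  rw [← h1]
  have h4 : (p ⟨f z, hzK⟩).re - Ψ z = (p ⟨f z, hzK⟩ - (Ψ z : ℂ)).re := by simp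
  rw [h4]
  refine (Complex.abs_re_le_norm _).trans ?_
  rw [← h3, ← dist_eq_norm, dist_comm]
  linarith only [hpd, h2]

end Vale.Agent.P071.Lim
end

section

/-!
# The selected limit (task LIM-SELc)
-/

open MeasureTheory Metric Filter Topology Real
open scoped ContDiff ENNReal

namespace Vale.Agent.P071.Lim

open SelC in
/-- The limit of the selected eigenfunctions: it is a minimiser, satisfies (I), has finite
`∫ w² (|F|² + |∇U|²)/U²` and does not vanish identically on the given ball. -/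
theorem exists_limit {f F : ℂ → ℂ} (hf : Conf f F) (hT : TailU F) (hD : DiscThm f F)
    {μ : ℝ} {U : ℂ → ℝ} (hU : Target F μ U) {z₀ : ℂ} {ε : ℝ} (hε : 0 < ε)
    (hB : ∀ z ∈ closedBall z₀ ε, z ∈ DD ∧ U z ≠ 0) :
    ∃ w : ℂ → ℝ, ContDiffOn ℝ 2 w DD ∧
      IntegrableOn (fun z => ‖F z‖ ^ 2 * w z ^ 2) DD ∧ IntegrableOn (gsq w) DD ∧
      ∫ z in DD, ‖F z‖ ^ 2 * w z = 0 ∧ ∫ z in DD, ‖F z‖ ^ 2 * w z ^ 2 = 1 ∧
      ∫ z in DD, gsq w z ≤ μ ∧ IneqI DD (fun z => ‖F z‖ ^ 2) μ w ∧
      ∫⁻ z in DD, ENNReal.ofReal ((‖F z‖ ^ 2 + gsq U z) * w z ^ 2) / ENNReal.ofReal (U z ^ 2) < ⊤ ∧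
      ∃ z₁ ∈ closedBall z₀ ε, w z₁ ≠ 0 := by
  have hU1 : ContDiffOn ℝ 1 U DD := hU.smooth.of_le (by norm_num)
  have hBD : closedBall z₀ ε ⊆ DD := fun z hz => (hB z hz).1
  have hA := conf_area hf
  -- the radius of a disc containing the ball
  obtain ⟨zm, hzm, hmax⟩ := (isCompact_closedBall z₀ ε).exists_isMaxOn
    ⟨z₀, mem_closedBall_self hε.le⟩ continuous_norm.continuousOn
  have hR0 : ‖zm‖ < 1 := by simpa only [mem_ball, dist_zero_right] using hBD hzm
  -- positivity of the integral of the bump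
  have i1 : IntegrableOn (fun z => ‖F z‖ ^ 2 * U z ^ 2 * bmp z₀ ε z) DD :=
    integrable_mul_bdd hU.int_sq (bmp_cont z₀ ε).continuousOn (C := 1) fun z _ => by
      rw [abs_of_nonneg (bmp_nonneg _ _ _)]; exact bmp_le_one hε _ _
  have hI0 : 0 < ∫ z in DD, ‖F z‖ ^ 2 * U z ^ 2 * bmp z₀ ε z := by
    rw [setIntegral_pos_iff_support_of_nonneg_ae ?_ i1]
    · refine lt_of_lt_of_le (measure_ball_pos volume z₀ hε) (measure_mono ?_)
      intro z hz
      have hz1 : z ∈ closedBall z₀ ε := ball_subset_closedBall hz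
      refine ⟨?_, hBD hz1⟩
      rw [Function.mem_support]
      have h1 := kpos hf (hBD hz1)
      have h2 := (hB z hz1).2
      have h3 := bmp_pos hε hz
      (clear * - h1 h2 h3; positivity)
    · refine Eventually.of_forall fun z => ?_
      have := bmp_nonneg z₀ ε z
      show 0 ≤ ‖F z‖ ^ 2 * U z ^ 2 * bmp z₀ ε z
      (clear * - this; positivity)
  set I₀ := ∫ z in DD, ‖F z‖ ^ 2 * U z ^ 2 * bmp z₀ ε z with hI₀
  set A := ∫ z in DD, ‖F z‖ ^ 2 with hAdef
  have hA0 : 0 ≤ A := integral_nonneg fun z => by (clear * -; positivity)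
  have hμ := hU.mu_pos
  -- the constant
  set N : ℝ := (A + μ + 1) / I₀ with hN
  have hNI : N * I₀ = A + μ + 1 := by rw [hN, div_mul_cancel₀ _ hI0.ne']
  have hN0 : 0 ≤ N := by rw [hN]; (clear * - hμ hI0; positivity)
  -- the small parameters
  set δ : ℕ → ℝ := fun j => 1 / ((j : ℝ) + 2) with hδdef
  have hδ : ∀ j, 0 < δ j := fun j => by simp only [hδdef]; (clear * -; positivity)
  have hδ1 : ∀ j, δ j ≤ 1 / 2 := fun j => by
    simp only [hδdef]
    exact one_div_le_one_div_of_le (by norm_num) (by linarith only [])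
  have hδ0 : Tendsto δ atTop (𝓝 0) := by
    have h := tendsto_one_div_add_atTop_nhds_zero_nat (𝕜 := ℝ)
    have h2 := (tendsto_add_atTop_iff_nat (f := fun n : ℕ => (1 : ℝ) / ((n : ℝ) + 1)) 1).2 h
    refine h2.congr fun n => ?_
    simp only [hδdef]
    push_cast
    ring_nf
  have hpoly : ∀ j, ∃ s : ℂ → ℝ, IsPolyFun s ∧
      ∀ z ∈ DD, |s (f z) - Psi N z₀ ε F U (δ j) z| ≤ δ j := fun j =>
    exists_poly hf (Psi_cont hf hU1 (hδ j)) (Psi_compact (hδ j)) (Psi_sub (hδ j)) (hδ j)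
  choose s hs hsb using hpoly
  have hsel := fun j => select hf hT hD hU (hs j) (hδ j)
  choose e he r m w hr1 hr0 hr2 hm hes hdm hI hcmp using hsel
  have hrlim : Tendsto r atTop (𝓝 1) := by
    refine tendsto_of_tendsto_of_tendsto_of_le_of_le (g := fun j => 1 - δ j) (h := fun _ => 1)
      ?_ tendsto_const_nhds (fun j => (hr1 j).le) (fun j => (hr2 j).le)
    simpa only [sub_zero] using hδ0.const_sub 1
  have hsc : ∀ j, Continuous (s j) := fun j => continuous_polyFun (hs j)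
  have hρc : ∀ j, Continuous (fun x => 1 + e j * s j x) := fun j =>
    continuous_const.add (continuous_const.mul (hsc j))
  have hρb : ∀ j, ∀ z ∈ DD, 1 / 2 ≤ 1 + e j * s j (f z) ∧ 1 + e j * s j (f z) ≤ 2 := by
    intro j z hz
    have := abs_le.1 (hes j z hz).2
    constructor <;> linarith only [this]
  obtain ⟨ν, W, μ₀, hν, hWs, hμ₀, hW0, hWx, hWy, hWeq, hWi, hWg, hWm, hWn, hWe⟩ :=
    limit_of_discMin hf hT (ρ := fun j x => 1 + e j * s j x) (r := r) (μ := m) (u := w)
      (M := μ + 1) hρc hρb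
      (fun d hd => by
        filter_upwards [hδ0.eventually (gt_mem_nhds hd)] with j hj z hz
        have := (hes j z hz).1
        simp only [add_sub_cancel_left]
        linarith only [hj, this])
      (fun j => ⟨hr0 j, hr2 j⟩) hrlim (fun j => by linarith only [hm j, hδ1 j]) hdm
  have hW1 : ContDiffOn ℝ 1 W DD := hWs.of_le (by norm_num)
  have hνt := hν.tendsto_atTop
  -- the eigenvalue
  have hle : μ₀ ≤ μ := by
    have h1 : Tendsto (fun n => μ + δ (ν n)) atTop (𝓝 (μ + 0)) :=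
      tendsto_const_nhds.add (hδ0.comp hνt)
    rw [add_zero] at h1
    exact le_of_tendsto_of_tendsto' hμ₀ h1 fun n => hm (ν n)
  have hge : μ ≤ μ₀ := by
    have := hU.minimal W hW1 hWi hWg hWm
    rw [hWn, mul_one] at this
    linarith only [hWe, this]
  have hμeq : μ₀ = μ := le_antisymm hle hge
  subst hμeq
  have hrν : ∀ n, 0 < r (ν n) ∧ r (ν n) < 1 := fun n => ⟨hr0 _, hr2 _⟩
  have hrν1 : Tendsto (fun n => r (ν n)) atTop (𝓝 1) := hrlim.comp hνt
  have hδν : Tendsto (fun n => δ (ν n)) atTop (𝓝 0) := hδ0.comp hνt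
  have hptw : ∀ z ∈ DD, z ∈ closedBall (0 : ℂ) ‖z‖ ∧ ‖z‖ < 1 := fun z hz =>
    ⟨by simp, by simpa using hz⟩
  -- inequality (I)
  have hII : IneqI DD (fun z => ‖F z‖ ^ 2) μ₀ W := by
    refine ineqI_of_tendsto (κ := fun n => kap f F (fun x => 1 + e (ν n) * s (ν n) x) (r (ν n)))
      (μ := fun n => m (ν n)) (u := fun n => w (ν n)) hμ hμ₀ ?_ ?_ ?_ ?_ ?_ ?_ (fun n => hI (ν n))
    · intro z hz
      have h1 := kap_tendsto hf hrν1 hz
      have h2 : Tendsto (fun n => 1 + e (ν n) * s (ν n) (f ((r (ν n) : ℂ) * z))) atTop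
          (𝓝 (1 + 0)) := by
        refine tendsto_const_nhds.add ?_
        refine squeeze_zero_norm (fun n => ?_) hδν
        rw [Real.norm_eq_abs]
        exact (hes (ν n) _ (scale_mem (hrν n).1 (hrν n).2 hz)).1
      have h3 := h1.mul h2
      simp only [add_zero, mul_one] at h3
      refine h3.congr fun n => ?_
      rw [kap_eq f F (fun x => 1 + e (ν n) * s (ν n) x) (r (ν n)) z]
    · intro z hz
      exact (hW0 ‖z‖ (hptw z hz).2).tendsto_at (hptw z hz).1
    · intro z hz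
      exact (hWx ‖z‖ (hptw z hz).2).tendsto_at (hptw z hz).1
    · intro z hz
      exact (hWy ‖z‖ (hptw z hz).2).tendsto_at (hptw z hz).1
    · intro n
      have h1 := (kap_cont hf (hrν n).1 (hrν n).2).mul (scale_cont
        ((hρc (ν n)).comp_continuousOn (contf hf)) (hrν n).1 (hrν n).2)
      refine h1.congr fun z _ => ?_
      rw [kap_eq f F (fun x => 1 + e (ν n) * s (ν n) x) (r (ν n)) z]
      rfl
    · intro n
      exact (hdm (ν n)).smooth.of_le (by norm_num)
  -- the comparison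
  set B : ℕ → ℝ := fun n => ∫ z in DD, kap f F (fun _ => 1) (r (ν n)) z *
    bmp z₀ ε (r (ν n) * z) * w (ν n) z ^ 2 with hBdef
  set P : ℕ → ℝ := fun n => ∫ z in DD, kap f F (fun _ => 1) (r (ν n)) z *
    HH F U (δ (ν n)) (r (ν n) * z) * w (ν n) z ^ 2 with hPdef
  have hev : ∀ᶠ n in atTop, 1 - 4 * δ (ν n) ≤ N * B n - P n := by
    have h1 : ∀ᶠ n in atTop, δ (ν n) < (1 - ‖zm‖) / 2 :=
      hδν.eventually (gt_mem_nhds (by linarith only [hR0]))
    filter_upwards [h1] with n hn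
    have hsub : closedBall z₀ ε ⊆ closedBall 0 (1 - 2 * δ (ν n)) := by
      intro z hz
      have h2 : ‖z‖ ≤ ‖zm‖ := hmax hz
      rw [mem_closedBall_zero_iff]
      linarith only [hn, h2]
    have h2 := lhs_bound hf hU hε (N := N) (hδ (ν n)) hsub (hsc (ν n)) (hsb (ν n))
    have h3 := rhs_bound hf hU1 hN0 (hδ (ν n)) (hsc (ν n)) (hsb (ν n)) (hρc (ν n))
      (fun z hz => (hρb (ν n) z hz).1) (hrν n).1 (hrν n).2 (hdm (ν n))
    have h4 := hcmp (ν n)
    have h5 : N * I₀ - A - μ₀ = 1 := by rw [hNI]; ring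
    simp only [hBdef, hPdef]
    linarith only [hNI, h2, h3, h4]
  have hwc : ∀ n, ContinuousOn (w (ν n)) DD := fun n => (hdm (ν n)).smooth.continuousOn
  have hBlim : Tendsto B atTop (𝓝 (∫ z in DD, ‖F z‖ ^ 2 * bmp z₀ ε z * W z ^ 2)) :=
    lim_bmp hf hε hBD hrν hrν1 hwc hWs.continuousOn hW0
  have hP0 : ∀ n, 0 ≤ P n := fun n => integral_nonneg fun z => by
    have h1 := kap_nonneg f F (r (ν n)) z
    have h2 := HH_nonneg (F := F) (U := U) (hδ (ν n)) (r (ν n) * z)
    show 0 ≤ kap f F (fun _ => 1) (r (ν n)) z *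
      HH F U (δ (ν n)) (r (ν n) * z) * w (ν n) z ^ 2
    (clear * - h1 h2; positivity)
  refine ⟨W, hWs, hWi, hWg, hWm, hWn, hWe, hII, ?_, ?_⟩
  · -- Fatou
    have hevC : ∀ᶠ n in atTop, P n ≤ N * ((∫ z in DD, ‖F z‖ ^ 2 * bmp z₀ ε z * W z ^ 2) + 1) + 1 := by
      have h1 := hBlim.eventually (gt_mem_nhds (lt_add_one _))
      filter_upwards [hev, h1] with n hn hn1
      have h2 := hδ1 (ν n)
      have h3 : N * B n ≤ N * ((∫ z in DD, ‖F z‖ ^ 2 * bmp z₀ ε z * W z ^ 2) + 1) :=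
        mul_le_mul_of_nonneg_left hn1.le hN0
      linarith only [hn, h2, h3]
    have hmeas : ∀ n, AEMeasurable (fun z => ENNReal.ofReal
        (kap f F (fun _ => 1) (r (ν n)) z * HH F U (δ (ν n)) (r (ν n) * z) * w (ν n) z ^ 2))
        (volume.restrict DD) := by
      intro n
      refine ENNReal.measurable_ofReal.comp_aemeasurable ?_
      exact ((((kap_cont hf (hrν n).1 (hrν n).2).mul
        (scale_cont (HH_cont hf hU1 (hδ (ν n))) (hrν n).1 (hrν n).2)).mul
        ((hwc n).pow 2))).aemeasurable measurableSet_ball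
    have h1 : ∫⁻ z in DD, ENNReal.ofReal ((‖F z‖ ^ 2 + gsq U z) * W z ^ 2) /
        ENNReal.ofReal (U z ^ 2) ≤ ∫⁻ z in DD, liminf (fun n => ENNReal.ofReal
        (kap f F (fun _ => 1) (r (ν n)) z * HH F U (δ (ν n)) (r (ν n) * z) * w (ν n) z ^ 2))
        atTop := by
      refine lintegral_mono_ae ((ae_restrict_iff' measurableSet_ball).2
        (Eventually.of_forall fun z hz => ?_))
      exact fatou_pt hf hU1 hrν hrν1 (fun n => hδ (ν n)) hδν hW0 hz
    have h2 := lintegral_liminf_le' (μ := volume.restrict DD) (u := atTop) hmeas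
    have h3 : ∀ n, ∫⁻ z in DD, ENNReal.ofReal
        (kap f F (fun _ => 1) (r (ν n)) z * HH F U (δ (ν n)) (r (ν n) * z) * w (ν n) z ^ 2) =
        ENNReal.ofReal (P n) := by
      intro n
      obtain ⟨Cw, hCw⟩ := (hdm (ν n)).bg.2
      symm
      refine ofReal_integral_eq_lintegral_ofReal ?_ ?_
      · exact int_ok hf (hrν n).1 (hrν n).2 (HH_cont hf hU1 (hδ (ν n))) (hwc n)
          (fun z hz => (hCw z hz).1)
      · refine Eventually.of_forall fun z => ?_
        have h1 := kap_nonneg f F (r (ν n)) z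
        have h2 := HH_nonneg (F := F) (U := U) (hδ (ν n)) (r (ν n) * z)
        show 0 ≤ kap f F (fun _ => 1) (r (ν n)) z *
          HH F U (δ (ν n)) (r (ν n) * z) * w (ν n) z ^ 2
        (clear * - h1 h2; positivity)
    have h4 : liminf (fun n => ∫⁻ z in DD, ENNReal.ofReal
        (kap f F (fun _ => 1) (r (ν n)) z * HH F U (δ (ν n)) (r (ν n) * z) * w (ν n) z ^ 2))
        atTop ≤ ENNReal.ofReal
        (N * ((∫ z in DD, ‖F z‖ ^ 2 * bmp z₀ ε z * W z ^ 2) + 1) + 1) := by
      refine liminf_le_of_frequently_le' ?_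
      refine (hevC.mono fun n hn => ?_).frequently
      rw [h3 n]
      exact ENNReal.ofReal_le_ofReal hn
    exact lt_of_le_of_lt (h1.trans (h2.trans h4)) ENNReal.ofReal_lt_top
  · -- W does not vanish on the ball
    by_contra hcon
    push Not at hcon
    have hz : ∫ z in DD, ‖F z‖ ^ 2 * bmp z₀ ε z * W z ^ 2 = 0 := by
      refine setIntegral_eq_zero_of_forall_eq_zero fun z _ => ?_
      by_cases hzb : z ∈ closedBall z₀ ε
      · rw [hcon z hzb]; ring
      · rw [bmp_eq_zero hε hzb]; ring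
    have h1 : Tendsto (fun n => N * B n + 4 * δ (ν n)) atTop (𝓝 (N * 0 + 4 * 0)) := by
      rw [hz] at hBlim
      exact (hBlim.const_mul N).add (hδν.const_mul 4)
    simp only [mul_zero, add_zero] at h1
    have h2 : (1 : ℝ) ≤ 0 := by
      refine ge_of_tendsto h1 ?_
      filter_upwards [hev] with n hn
      have := hP0 n
      linarith only [hn, this]
    linarith only [h2]

end Vale.Agent.P071.Lim
end

section

/-!
# Uniform tightness in the disc (task LIM-T3)
-/

open MeasureTheory Metric Filter Topology Real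
open scoped ContDiff ENNReal

namespace Vale.Agent.P071.Lim

theorem tb_F_diff {f F : ℂ → ℂ} (hf : Conf f F) : DifferentiableOn ℂ F DD := by
  have h1 : DifferentiableOn ℂ f DD := fun z hz =>
    (hf.deriv z hz).differentiableAt.differentiableWithinAt
  have h2 : DifferentiableOn ℂ (deriv f) DD := h1.deriv isOpen_ball
  exact h2.congr fun z hz => (hf.deriv z hz).deriv.symm

/-- multiplication by a unit complex number as an isometry -/
noncomputable def tbRot (c : ℂ) (hc : ‖c‖ = 1) : ℂ ≃ₗᵢ[ℝ] ℂ :=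
  rotation ⟨c, by simp [Submonoid.unitSphere, hc]⟩

theorem tb_pre {c : ℂ} (hc : ‖c‖ = 1) (r : ℝ) :
    (tbRot c hc) ⁻¹' (ball (0 : ℂ) r) = ball (0 : ℂ) r := by
  ext z
  simp

theorem tb_lint {c : ℂ} (hc : ‖c‖ = 1) {S : Set ℂ} (hS : (tbRot c hc) ⁻¹' S = S)
    (h : ℂ → ℝ≥0∞) : ∫⁻ z in S, h (c * z) = ∫⁻ z in S, h z := by
  have h1 := (tbRot c hc).measurePreserving.setLIntegral_comp_preimage_emb
    (tbRot c hc).toHomeomorph.measurableEmbedding h S
  rw [hS] at h1
  exact h1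

theorem tb_int {c : ℂ} (hc : ‖c‖ = 1) {S : Set ℂ} (hS : (tbRot c hc) ⁻¹' S = S)
    (h : ℂ → ℝ) : ∫ z in S, h (c * z) = ∫ z in S, h z := by
  have h1 := (tbRot c hc).measurePreserving.setIntegral_preimage_emb
    (tbRot c hc).toHomeomorph.measurableEmbedding h S
  rw [hS] at h1
  exact h1

theorem tb_gsq {c : ℂ} (hc : ‖c‖ = 1) {g : ℂ → ℝ} (hg : ContDiffOn ℝ 1 g DD) {z : ℂ}
    (hz : z ∈ DD) : gsq (fun y => g (c * y)) z = gsq g (c * z) := by
  have hcz : c * z ∈ DD := by
    simpa only [mem_ball, dist_zero_right, Complex.norm_mul, hc, one_mul] using hz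
  have hd : DifferentiableAt ℝ g (c * z) :=
    (hg.differentiableOn one_ne_zero).differentiableAt (isOpen_ball.mem_nhds hcz)
  have hL : HasFDerivAt (fun y : ℂ => c * y) (c • (1 : ℂ →L[ℝ] ℂ)) z := by
    have h0 : HasFDerivAt (fun y : ℂ => y) (1 : ℂ →L[ℝ] ℂ) z := hasFDerivAt_id z
    exact h0.const_smul c
  have hc1 : HasFDerivAt (fun y => g (c * y))
      ((fderiv ℝ g (c * z)).comp (c • (1 : ℂ →L[ℝ] ℂ))) z :=
    HasFDerivAt.comp z hd.hasFDerivAt hL
  have hpx : px (fun y => g (c * y)) z = c.re * px g (c * z) + c.im * py g (c * z) := by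
    rw [px, hc1.fderiv, px, py]
    have : (c • (1 : ℂ →L[ℝ] ℂ)) 1 = c.re • (1 : ℂ) + c.im • Complex.I := by
      apply Complex.ext <;> simp only [smul_apply, one_apply_eq_self, smul_eq_mul, mul_one, Complex.real_smul, Complex.re_add_im]
    rw [ContinuousLinearMap.comp_apply, this, map_add, map_smul, map_smul]
    simp only [smul_eq_mul]
  have hpy : py (fun y => g (c * y)) z = -c.im * px g (c * z) + c.re * py g (c * z) := by
    rw [py, hc1.fderiv, px, py]
    have : (c • (1 : ℂ →L[ℝ] ℂ)) Complex.I = (-c.im) • (1 : ℂ) + c.re • Complex.I := by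
      apply Complex.ext <;> simp
    rw [ContinuousLinearMap.comp_apply, this, map_add, map_smul, map_smul]
    simp only [smul_eq_mul, neg_mul]
  have hn : c.re ^ 2 + c.im ^ 2 = 1 := by
    have h1 := Complex.sq_norm c
    rw [hc, Complex.normSq_apply] at h1
    linarith
  rw [gsq, gsq, hpx, hpy]
  linear_combination (px g (c * z) ^ 2 + py g (c * z) ^ 2) * hn

theorem tb_bg {c : ℂ} (hc : ‖c‖ = 1) {g : ℂ → ℝ} (hg : BG g) : BG (fun y => g (c * y)) := by
  obtain ⟨h1, C, h2⟩ := hg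
  have hm : ∀ z ∈ DD, c * z ∈ DD := by
    intro z hz
    simpa only [mem_ball, dist_zero_right, Complex.norm_mul, hc, one_mul] using hz
  refine ⟨?_, C, fun z hz => ⟨(h2 _ (hm z hz)).1, ?_⟩⟩
  · exact h1.comp (by fun_prop) hm
  · rw [tb_gsq hc h1 hz]
    exact (h2 _ (hm z hz)).2

/-- the Poisson weight -/
noncomputable def tbP (r θ : ℝ) : ℝ :=
  (2 * π)⁻¹ * poissonKernel 0 (r : ℂ) (circleMap 0 1 θ)

theorem tbP_eq (r θ : ℝ) :
    tbP r θ = (2 * π)⁻¹ * ((1 - r ^ 2) / ‖circleMap 0 1 θ - (r : ℂ)‖ ^ 2) := by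
  have : ‖circleMap 0 1 θ‖ = 1 := by simp
  rw [tbP, poissonKernel_def, sub_zero, sub_zero, this, one_pow]
  simp only [mul_inv_rev, Complex.norm_real, norm_eq_abs, sq_abs]

theorem tbP_nonneg {r : ℝ} (hr0 : 0 < r) (hr1 : r < 1) (θ : ℝ) : 0 ≤ tbP r θ := by
  rw [tbP_eq]
  have : 0 ≤ 1 - r ^ 2 := by nlinarith
  (clear * - this; positivity)

theorem tb_ne {r : ℝ} (hr0 : 0 < r) (hr1 : r < 1) (θ : ℝ) :
    ‖circleMap 0 1 θ - (r : ℂ)‖ ≠ 0 := by
  intro h
  have h1 : circleMap 0 1 θ = (r : ℂ) := sub_eq_zero.1 (norm_eq_zero.1 h)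
  have h2 : ‖circleMap 0 1 θ‖ = 1 := by simp
  rw [h1, Complex.norm_real, Real.norm_eq_abs, abs_of_pos hr0] at h2
  linarith

theorem tbP_cont {r : ℝ} (hr0 : 0 < r) (hr1 : r < 1) : Continuous (tbP r) := by
  have h : tbP r = fun θ => (2 * π)⁻¹ * ((1 - r ^ 2) / ‖circleMap 0 1 θ - (r : ℂ)‖ ^ 2) := by
    funext θ; exact tbP_eq r θ
  rw [h]
  refine continuous_const.mul (continuous_const.div₀ ?_ fun θ => pow_ne_zero _ (tb_ne hr0 hr1 θ))
  have := continuous_circleMap (0 : ℂ) 1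
  fun_prop

theorem tb_poisson {r : ℝ} (hr0 : 0 < r) (hr1 : r < 1) {h : ℂ → ℂ}
    (hh : DiffContOnCl ℂ h (ball 0 1)) :
    ∫ θ in 0..2 * π, (tbP r θ : ℂ) * h (circleMap 0 1 θ) = h r := by
  have hw : (r : ℂ) ∈ ball (0 : ℂ) 1 := by
    simp [abs_of_pos hr0, hr1]
  have h1 := hh.circleAverage_poissonKernel_smul hw
  rw [circleAverage_def, ← intervalIntegral.integral_smul] at h1
  rw [← h1]
  refine intervalIntegral.integral_congr fun θ _ => ?_
  simp only [tbP, Pi.smul_apply', Complex.real_smul]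
  push_cast
  ring

theorem tbP_int {r : ℝ} (hr0 : 0 < r) (hr1 : r < 1) : ∫ θ in 0..2 * π, tbP r θ = 1 := by
  have h := tb_poisson hr0 hr1 (h := fun _ => 1) diffContOnCl_const
  simp only [mul_one] at h
  rw [intervalIntegral.integral_ofReal] at h
  exact_mod_cast h

/-- The key pointwise inequality. -/
theorem tb_key {f F : ℂ → ℂ} (hf : Conf f F) {r : ℝ} (hr0 : 0 < r) (hr1 : r < 1) {z : ℂ}
    (hz : z ∈ DD) :
    ‖F (r * z)‖ ^ 2 ≤ ∫ θ in 0..2 * π, tbP r θ * ‖F (circleMap 0 1 θ * z)‖ ^ 2 := by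
  have hz1 : ‖z‖ < 1 := by simpa only [mem_ball, dist_zero_right] using hz
  have hd : DiffContOnCl ℂ (fun ζ => F (ζ * z) ^ 2) (ball 0 1) := by
    apply DifferentiableOn.diffContOnCl
    rw [closure_ball _ one_ne_zero]
    refine DifferentiableOn.pow ?_ 2
    refine (tb_F_diff hf).comp (by fun_prop) ?_
    intro ζ hζ
    have hζ1 : ‖ζ‖ ≤ 1 := by simpa only [mem_closedBall, dist_zero_right] using hζ
    have : ‖ζ * z‖ < 1 := by
      rw [norm_mul]
      calc ‖ζ‖ * ‖z‖ ≤ 1 * ‖z‖ := by (clear * - hζ1; gcongr)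
        _ < 1 := by linarith only [hz1]
    simpa only [mem_ball, dist_zero_right, Complex.norm_mul, gt_iff_lt] using this
  have h1 := tb_poisson hr0 hr1 hd
  have h2 : ‖F (r * z)‖ ^ 2 = ‖∫ θ in 0..2 * π, (tbP r θ : ℂ) * F (circleMap 0 1 θ * z) ^ 2‖ := by
    rw [h1, norm_pow]
  rw [h2]
  refine (intervalIntegral.norm_integral_le_integral_norm (by positivity)).trans (le_of_eq ?_)
  refine intervalIntegral.integral_congr fun θ _ => ?_
  simp only [norm_mul, norm_pow, Complex.norm_real, Real.norm_eq_abs,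
    abs_of_nonneg (tbP_nonneg hr0 hr1 θ)]

theorem tb_circle (θ : ℝ) : ‖circleMap 0 1 θ‖ = 1 := by simp

theorem tb_mem {c : ℂ} (hc : ‖c‖ = 1) {z : ℂ} (hz : z ∈ DD) : c * z ∈ DD := by
  simpa only [mem_ball, dist_zero_right, Complex.norm_mul, hc, one_mul] using hz

theorem tb_preS {c : ℂ} (hc : ‖c‖ = 1) (R : ℝ) :
    (tbRot c hc) ⁻¹' (DD \ ball 0 R) = DD \ ball 0 R := by
  rw [Set.preimage_sdiff, tb_pre hc 1, tb_pre hc R]

/-- the inner estimate -/
theorem tb_inner {f F : ℂ → ℂ} (hf : Conf f F) {δ R : ℝ}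
    (hT : ∀ g : ℂ → ℝ, BG g → ∫ z in DD \ ball 0 R, ‖F z‖ ^ 2 * g z ^ 2 ≤
      δ * ((∫ z in DD, gsq g z) + ∫ z in ball 0 (1 / 2), g z ^ 2))
    {g : ℂ → ℝ} (hg : BG g) {c : ℂ} (hc : ‖c‖ = 1) :
    ∫⁻ z in DD \ ball 0 R, ENNReal.ofReal (‖F (c * z)‖ ^ 2 * g z ^ 2) ≤
      ENNReal.ofReal (δ * ((∫ z in DD, gsq g z) + ∫ z in ball 0 (1 / 2), g z ^ 2)) := by
  have hc0 : c ≠ 0 := by
    rintro rfl
    simp at hc
  have hci : ‖c⁻¹‖ = 1 := by rw [norm_inv, hc, inv_one]
  have hb := tb_bg hci hg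
  have h1 := hT _ hb
  have e1 : ∫ z in DD, gsq (fun y => g (c⁻¹ * y)) z = ∫ z in DD, gsq g z := by
    rw [← tb_int hci (tb_pre hci 1) (gsq g)]
    exact setIntegral_congr_fun measurableSet_ball fun z hz => tb_gsq hci hg.1 hz
  have e2 : ∫ z in ball (0 : ℂ) (1 / 2), g (c⁻¹ * z) ^ 2 = ∫ z in ball (0 : ℂ) (1 / 2), g z ^ 2 :=
    tb_int hci (tb_pre hci (1 / 2)) (fun z => g z ^ 2)
  rw [e1, e2] at h1
  have e3 : ∫⁻ z in DD \ ball 0 R, ENNReal.ofReal (‖F (c * z)‖ ^ 2 * g z ^ 2) =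
      ∫⁻ z in DD \ ball 0 R, ENNReal.ofReal (‖F z‖ ^ 2 * g (c⁻¹ * z) ^ 2) := by
    rw [← tb_lint hc (tb_preS hc R) (fun z => ENNReal.ofReal (‖F z‖ ^ 2 * g (c⁻¹ * z) ^ 2))]
    simp only [inv_mul_cancel_left₀ hc0]
  have hS : MeasurableSet (DD \ ball (0 : ℂ) R) := measurableSet_ball.diff measurableSet_ball
  have hint : IntegrableOn (fun z => ‖F z‖ ^ 2 * g (c⁻¹ * z) ^ 2) (DD \ ball 0 R) := by
    obtain ⟨hb1, C, hC⟩ := hb
    refine IntegrableOn.mono_set ?_ (Set.sdiff_subset : DD \ ball (0 : ℂ) R ⊆ DD)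
    refine Integrable.mono' ((conf_area hf).mul_const (C ^ 2)) ?_ ?_
    · refine ContinuousOn.aestronglyMeasurable ?_ measurableSet_ball
      exact ((tb_F_diff hf).continuousOn.norm.pow 2).mul (hb1.continuousOn.pow 2)
    · refine (ae_restrict_iff' measurableSet_ball).2 (Eventually.of_forall fun z hz => ?_)
      have h2 := (hC z hz).1
      rw [Real.norm_eq_abs, abs_of_nonneg (by (clear * -; positivity))]
      have h3 : g (c⁻¹ * z) ^ 2 ≤ C ^ 2 := by
        rw [← sq_abs (g (c⁻¹ * z))]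
        (clear * - h2; gcongr)
      (clear * - h3; gcongr)
  rw [e3, ← ofReal_integral_eq_lintegral_ofReal hint
    (Eventually.of_forall fun z => by (clear * -; positivity))]
  exact ENNReal.ofReal_le_ofReal h1

/-- (T3), by Poisson averaging and rotation invariance. -/
theorem tailU_of_tailF {f F : ℂ → ℂ} (hf : Conf f F) (hT : TailF F) : TailU F := by
  intro δ hδ
  obtain ⟨R, hR1, hR2, hTg⟩ := hT δ hδ
  refine ⟨R, hR1, hR2, fun r hr0 hr1 g hg => ?_⟩
  set E : ℝ := (∫ z in DD, gsq g z) + ∫ z in ball 0 (1 / 2), g z ^ 2 with hE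
  have hE0 : 0 ≤ δ * E := by
    refine mul_nonneg hδ.le (add_nonneg (integral_nonneg fun z => ?_) (integral_nonneg fun z => ?_))
    · simp only [gsq, Pi.zero_apply]; (clear * -; positivity)
    · simp only [Pi.zero_apply]; (clear * -; positivity)
  have hS : MeasurableSet (DD \ ball (0 : ℂ) R) := measurableSet_ball.diff measurableSet_ball
  have hFc : ContinuousOn F DD := (tb_F_diff hf).continuousOn
  have hgc : ContinuousOn g DD := hg.1.continuousOn
  have hmr : ∀ z ∈ DD, (r : ℂ) * z ∈ DD := by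
    intro z hz
    have hz1 : ‖z‖ < 1 := by simpa only [mem_ball, dist_zero_right] using hz
    have : ‖(r : ℂ) * z‖ < 1 := by
      rw [norm_mul, Complex.norm_real, Real.norm_eq_abs, abs_of_pos hr0]
      calc r * ‖z‖ ≤ 1 * ‖z‖ := by (clear * - hr1; gcongr)
        _ < 1 := by linarith only [hz1]
    simpa only [mem_ball, dist_zero_right, Complex.norm_mul, Complex.norm_real, norm_eq_abs, gt_iff_lt] using this
  have hmeas : AEStronglyMeasurable (fun z => ‖F (r * z)‖ ^ 2 * g z ^ 2)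
      (volume.restrict (DD \ ball (0 : ℂ) R)) := by
    refine ContinuousOn.aestronglyMeasurable ?_ hS
    refine ContinuousOn.mono ?_ (Set.sdiff_subset : DD \ ball (0 : ℂ) R ⊆ DD)
    exact ((hFc.comp (by fun_prop) hmr).norm.pow 2).mul (hgc.pow 2)
  rw [integral_eq_lintegral_of_nonneg_ae (Eventually.of_forall fun z => by (clear * -; positivity)) hmeas]
  refine ENNReal.toReal_le_of_le_ofReal hE0 ?_
  have hstep1 : ∫⁻ z in DD \ ball 0 R, ENNReal.ofReal (‖F (r * z)‖ ^ 2 * g z ^ 2) ≤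
      ∫⁻ z in DD \ ball 0 R, ∫⁻ θ in Set.Ioc 0 (2 * π),
        ENNReal.ofReal (tbP r θ * (‖F (circleMap 0 1 θ * z)‖ ^ 2 * g z ^ 2)) := by
    refine setLIntegral_mono_ae' hS (Eventually.of_forall fun z hz => ?_)
    have hzD : z ∈ DD := hz.1
    have hcont : Continuous fun θ => tbP r θ * (‖F (circleMap 0 1 θ * z)‖ ^ 2 * g z ^ 2) := by
      refine (tbP_cont hr0 hr1).mul ((Continuous.pow ?_ 2).mul continuous_const)
      refine Continuous.norm ?_
      refine hFc.comp_continuous ((continuous_circleMap 0 1).mul continuous_const) fun θ => ?_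
      exact tb_mem (tb_circle θ) hzD
    rw [← ofReal_integral_eq_lintegral_ofReal
      (hcont.continuousOn.integrableOn_Icc.mono_set Set.Ioc_subset_Icc_self)
      (Eventually.of_forall fun θ => mul_nonneg (tbP_nonneg hr0 hr1 θ) (by (clear * -; positivity)))]
    refine ENNReal.ofReal_le_ofReal ?_
    have h2 := tb_key hf hr0 hr1 hzD
    rw [← intervalIntegral.integral_of_le (by positivity)]
    calc ‖F (r * z)‖ ^ 2 * g z ^ 2
        ≤ (∫ θ in 0..2 * π, tbP r θ * ‖F (circleMap 0 1 θ * z)‖ ^ 2) * g z ^ 2 := by (clear * - h2; gcongr)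
      _ = ∫ θ in 0..2 * π, tbP r θ * (‖F (circleMap 0 1 θ * z)‖ ^ 2 * g z ^ 2) := by
          rw [← intervalIntegral.integral_mul_const]
          refine intervalIntegral.integral_congr fun θ _ => ?_
          ring
  refine hstep1.trans ?_
  rw [lintegral_lintegral_swap]
  · calc ∫⁻ θ in Set.Ioc 0 (2 * π), ∫⁻ z in DD \ ball 0 R,
          ENNReal.ofReal (tbP r θ * (‖F (circleMap 0 1 θ * z)‖ ^ 2 * g z ^ 2))
        ≤ ∫⁻ θ in Set.Ioc 0 (2 * π), ENNReal.ofReal (tbP r θ) * ENNReal.ofReal (δ * E) := by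
          refine lintegral_mono fun θ => ?_
          simp only [ENNReal.ofReal_mul (tbP_nonneg hr0 hr1 θ)]
          rw [lintegral_const_mul' _ _ ENNReal.ofReal_ne_top]
          gcongr
          exact tb_inner hf hTg hg (tb_circle θ)
      _ = ENNReal.ofReal (δ * E) := by
          rw [lintegral_mul_const' _ _ ENNReal.ofReal_ne_top,
            ← ofReal_integral_eq_lintegral_ofReal
              ((tbP_cont hr0 hr1).continuousOn.integrableOn_Icc.mono_set Set.Ioc_subset_Icc_self)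
              (Eventually.of_forall fun θ => tbP_nonneg hr0 hr1 θ),
            ← intervalIntegral.integral_of_le (by positivity), tbP_int hr0 hr1,
            ENNReal.ofReal_one, one_mul]
  · rw [Measure.prod_restrict]
    refine AEMeasurable.ennreal_ofReal ?_
    refine ContinuousOn.aemeasurable ?_ (hS.prod measurableSet_Ioc)
    have hfst : ContinuousOn (fun q : ℂ × ℝ => q.1) ((DD \ ball (0 : ℂ) R) ×ˢ Set.Ioc 0 (2 * π)) :=
      continuous_fst.continuousOn
    have h3 : ContinuousOn (fun q : ℂ × ℝ => circleMap 0 1 q.2 * q.1)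
        ((DD \ ball (0 : ℂ) R) ×ˢ Set.Ioc 0 (2 * π)) :=
      (((continuous_circleMap 0 1).comp continuous_snd).mul continuous_fst).continuousOn
    refine ContinuousOn.mul ((tbP_cont hr0 hr1).comp continuous_snd).continuousOn ?_
    refine ContinuousOn.mul ((ContinuousOn.norm ?_).pow 2) (ContinuousOn.pow ?_ 2)
    · refine hFc.comp h3 fun q hq => ?_
      exact tb_mem (tb_circle q.2) hq.1.1
    · exact hgc.comp hfst fun q hq => hq.1.1

end Vale.Agent.P071.Lim
end

section

/-!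
# Positivity of the first eigenvalue (task LIM-MU)
-/

open MeasureTheory Metric Filter Topology Real
open scoped ContDiff ENNReal

namespace Vale.Agent.P071.Lim

namespace MuAux

theorem scale_mem {r : ℝ} (hr0 : 0 < r) (hr1 : r < 1) {z : ℂ} (hz : z ∈ DD) :
    (r : ℂ) * z ∈ DD := by
  rw [mem_ball_zero_iff] at hz ⊢
  rw [norm_mul, Complex.norm_real, Real.norm_of_nonneg hr0.le]
  nlinarith [norm_nonneg z]

/-- the scaled conformal map -/
theorem conf_scale {f F : ℂ → ℂ} (hf : Conf f F) {r : ℝ} (hr0 : 0 < r) (hr1 : r < 1) :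
    Conf (fun z => f (r * z)) (fun z => r * F (r * z)) where
  deriv := by
    intro z hz
    have h := hf.deriv _ (scale_mem hr0 hr1 hz)
    have h2 : HasDerivAt (fun z : ℂ => (r : ℂ) * z) (r : ℂ) z := by
      simpa using (hasDerivAt_id z).const_mul (r : ℂ)
    have h3 := h.comp z h2
    rw [mul_comm]
    exact h3
  ne_zero := fun z hz => mul_ne_zero (by exact_mod_cast hr0.ne') (hf.ne_zero _ (scale_mem hr0 hr1 hz))
  inj := by
    intro z hz w hw h
    have h2 := hf.inj (scale_mem hr0 hr1 hz) (scale_mem hr0 hr1 hw) h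
    exact mul_left_cancel₀ (by exact_mod_cast hr0.ne') h2
  bdd := by
    obtain ⟨C, hC⟩ := hf.bdd
    exact ⟨C, fun z hz => hC _ (scale_mem hr0 hr1 hz)⟩

theorem conf_isOpen {f F : ℂ → ℂ} (hf : Conf f F) : IsOpen (f '' DD) := by
  obtain ⟨g, h, -⟩ := exists_inverse hf
  exact h

theorem conf_finite {f F : ℂ → ℂ} (hf : Conf f F) : volume (f '' DD) < ⊤ := by
  obtain ⟨C, hC⟩ := hf.bdd
  have : f '' DD ⊆ closedBall 0 C := by
    rintro _ ⟨z, hz, rfl⟩
    rw [mem_closedBall_zero_iff]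
    exact hC z hz
  exact (measure_mono this).trans_lt (isCompact_closedBall _ _).measure_lt_top

theorem conf_vol_pos {f F : ℂ → ℂ} (hf : Conf f F) : 0 < (volume (f '' DD)).toReal := by
  refine ENNReal.toReal_pos ?_ (conf_finite hf).ne
  refine ((conf_isOpen hf).measure_pos volume ?_).ne'
  exact ⟨f 0, 0, by simp only [mem_ball, dist_self, zero_lt_one], rfl⟩

theorem tendsto_int_sq {μ : Measure ℂ} {h : ℂ → ℝ} {hn : ℕ → ℂ → ℝ} (hm : MemLp h 2 μ)
    (hnm : ∀ n, MemLp (hn n) 2 μ)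
    (ht : Tendsto (fun n => eLpNorm (fun x => hn n x - h x) 2 μ) atTop (𝓝 0)) :
    Tendsto (fun n => ∫ x, hn n x ^ 2 ∂μ) atTop (𝓝 (∫ x, h x ^ 2 ∂μ)) := by
  have h1 : Tendsto (fun n => (hnm n).toLp (hn n)) atTop (𝓝 (hm.toLp h)) := by
    rw [Lp.tendsto_Lp_iff_tendsto_eLpNorm'']
    exact ht
  have e : ∀ {k : ℂ → ℝ} (hk : MemLp k 2 μ), ∫ x, k x ^ 2 ∂μ = ‖hk.toLp k‖ ^ 2 := by
    intro k hk
    rw [← real_inner_self_eq_norm_sq, L2.inner_def]
    apply integral_congr_ae
    filter_upwards [hk.coeFn_toLp] with x hx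
    rw [hx]
    simp only [sq, inner_self_eq_norm_sq_to_K, norm_eq_abs, ringHom_apply, abs_mul_abs_self]
  have h2 := (h1.norm).pow 2
  rw [← e hm] at h2
  refine h2.congr (fun n => ?_)
  rw [e (hnm n)]

theorem tendsto_int {μ : Measure ℂ} [IsFiniteMeasure μ] {h : ℂ → ℝ} {hn : ℕ → ℂ → ℝ}
    (hm : MemLp h 2 μ) (hnm : ∀ n, MemLp (hn n) 2 μ)
    (ht : Tendsto (fun n => eLpNorm (fun x => hn n x - h x) 2 μ) atTop (𝓝 0)) :
    Tendsto (fun n => ∫ x, hn n x ∂μ) atTop (𝓝 (∫ x, h x ∂μ)) := by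
  have h1 : Tendsto (fun n => (hnm n).toLp (hn n)) atTop (𝓝 (hm.toLp h)) := by
    rw [Lp.tendsto_Lp_iff_tendsto_eLpNorm'']
    exact ht
  have hc : MemLp (fun _ : ℂ => (1 : ℝ)) 2 μ := memLp_const 1
  have e : ∀ {k : ℂ → ℝ} (hk : MemLp k 2 μ),
      ∫ x, k x ∂μ = inner ℝ (hc.toLp _) (hk.toLp k) := by
    intro k hk
    rw [L2.inner_def]
    apply integral_congr_ae
    filter_upwards [hk.coeFn_toLp, hc.coeFn_toLp] with x hx hx2
    rw [hx, hx2]
    simp
  have h2 : Tendsto (fun n => inner ℝ (hc.toLp _) ((hnm n).toLp (hn n))) atTop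
      (𝓝 (inner ℝ (hc.toLp _) (hm.toLp h))) :=
    (tendsto_const_nhds (x := hc.toLp _)).inner h1
  rw [← e hm] at h2
  refine h2.congr (fun n => ?_)
  rw [e (hnm n)]

/-- the smooth case on `f(B_r)` -/
theorem var_ineq {f F : ℂ → ℂ} (hf : Conf f F) {m₀ : ℝ}
    (hP : ∀ r : ℝ, 0 < r → r < 1 → ∀ φ : ℂ → ℝ, BG φ →
      ∫ z in DD, kap f F (fun _ => 1) r z * φ z = 0 →
        m₀ * ∫ z in DD, kap f F (fun _ => 1) r z * φ z ^ 2 ≤ ∫ z in DD, gsq φ z)
    {r : ℝ} (hr0 : 0 < r) (hr1 : r < 1) {w : ℂ → ℝ} (hw : ContDiff ℝ ∞ w) :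
    m₀ * ((∫ x in (fun z : ℂ => f (r * z)) '' DD, w x ^ 2) -
      (∫ x in (fun z : ℂ => f (r * z)) '' DD, w x) ^ 2 /
        (volume ((fun z : ℂ => f (r * z)) '' DD)).toReal) ≤
      ∫ x in (fun z : ℂ => f (r * z)) '' DD, gsq w x := by
  have hc := conf_scale hf hr0 hr1
  set fr : ℂ → ℂ := fun z => f (r * z) with hfr
  set Fr : ℂ → ℂ := fun z => r * F (r * z) with hFr
  set S := fr '' DD with hS
  have hSo : IsOpen S := conf_isOpen hc
  have hSf : volume S < ⊤ := conf_finite hc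
  have hSp : 0 < (volume S).toReal := conf_vol_pos hc
  have hw1 : ContDiff ℝ 1 w := hw.of_le (by norm_cast)
  have hgc : Continuous (gsq w) := by
    have h1 : Continuous (fun z => fderiv ℝ w z 1) :=
      (hw1.continuous_fderiv one_ne_zero).clm_apply continuous_const
    have h2 : Continuous (fun z => fderiv ℝ w z Complex.I) :=
      (hw1.continuous_fderiv one_ne_zero).clm_apply continuous_const
    exact (h1.pow 2).add (h2.pow 2)
  -- the compact set containing `S`
  have hcl : closedBall (0 : ℂ) r ⊆ DD := closedBall_subset_ball hr1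
  have hfcont : ContinuousOn f DD := fun z hz => (hf.deriv z hz).continuousAt.continuousWithinAt
  have hK : IsCompact (f '' closedBall (0 : ℂ) r) :=
    (isCompact_closedBall _ _).image_of_continuousOn (hfcont.mono hcl)
  have hrz : ∀ z ∈ DD, (r : ℂ) * z ∈ closedBall (0 : ℂ) r := by
    intro z hz
    rw [mem_ball_zero_iff] at hz
    rw [mem_closedBall_zero_iff, norm_mul, Complex.norm_real, Real.norm_of_nonneg hr0.le]
    nlinarith only [hr0, hz]
  have hSK : S ⊆ f '' closedBall (0 : ℂ) r := by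
    rintro _ ⟨z, hz, rfl⟩
    exact ⟨_, hrz z hz, rfl⟩
  have hint : ∀ k : ℂ → ℝ, Continuous k → IntegrableOn k S := fun k hk =>
    (hk.continuousOn.integrableOn_compact hK).mono_set hSK
  set a : ℝ := (∫ x in S, w x) / (volume S).toReal with ha
  have hcd : ContDiffOn ℝ 1 fr DD := by
    have : DifferentiableOn ℂ fr DD := fun z hz => (hc.deriv z hz).differentiableAt.differentiableWithinAt
    exact (this.contDiffOn isOpen_ball : ContDiffOn ℂ 1 fr DD).restrict_scalars ℝ
  have hBG : BG (fun z => w (fr z) - a) := by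
    refine ⟨(hw1.comp_contDiffOn hcd).sub contDiffOn_const, ?_⟩
    obtain ⟨C1, hC1⟩ := hK.exists_bound_of_continuousOn hw.continuous.continuousOn
    obtain ⟨C2, hC2⟩ := hK.exists_bound_of_continuousOn hgc.continuousOn
    have hFc : ContinuousOn F DD := by
      have h1 : DifferentiableOn ℂ f DD :=
        fun z hz => (hf.deriv z hz).differentiableAt.differentiableWithinAt
      have h2 : ContinuousOn (deriv f) DD := (h1.deriv isOpen_ball).continuousOn
      exact h2.congr (fun z hz => ((hf.deriv z hz).deriv).symm)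
    obtain ⟨C3, hC3⟩ := (isCompact_closedBall (0 : ℂ) r).exists_bound_of_continuousOn (hFc.mono hcl)
    refine ⟨max (C1 + |a|) ((r * C3) ^ 2 * C2), fun z hz => ⟨?_, ?_⟩⟩
    · refine le_trans ?_ (le_max_left _ _)
      refine (abs_sub _ _).trans ?_
      have := hC1 (fr z) ⟨_, hrz z hz, rfl⟩
      rw [Real.norm_eq_abs] at this
      linarith only [this]
    · refine le_trans ?_ (le_max_right _ _)
      have e1 : gsq (fun z => w (fr z) - a) z = gsq (fun z => w (fr z)) z := by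
        unfold gsq px py
        simp only [fderiv_sub_const]
      rw [e1, gsq_comp hc hw1.contDiffOn hz]
      have h2 := hC2 (fr z) ⟨_, hrz z hz, rfl⟩
      have h3 := hC3 _ (hrz z hz)
      rw [Real.norm_eq_abs] at h2
      have h4 : ‖Fr z‖ ≤ r * C3 := by
        rw [hFr]
        simp only [norm_mul, Complex.norm_real, Real.norm_of_nonneg hr0.le]
        (clear * - h3 hr0; gcongr)
      have h5 : gsq w (fr z) ≤ C2 := (le_abs_self _).trans h2
      have h6 : 0 ≤ gsq w (fr z) := by unfold gsq; (clear * -; positivity)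
      (clear * - h4 h5 h6; gcongr)
  have ek : ∀ z, kap f F (fun _ => 1) r z = ‖Fr z‖ ^ 2 := by
    intro z
    simp only [kap, hFr, norm_mul, Complex.norm_real, Real.norm_of_nonneg hr0.le]
    ring
  have e1 : ∫ z in DD, kap f F (fun _ => 1) r z * (w (fr z) - a) = ∫ x in S, (w x - a) := by
    rw [hS, conf_integral hc (fun x => w x - a)]
    simp only [ek]
  have e2 : ∫ z in DD, kap f F (fun _ => 1) r z * (w (fr z) - a) ^ 2 = ∫ x in S, (w x - a) ^ 2 := by
    rw [hS, conf_integral hc (fun x => (w x - a) ^ 2)]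
    simp only [ek]
  have e3 : ∫ z in DD, gsq (fun z => w (fr z) - a) z = ∫ x in S, gsq w x := by
    rw [hS, conf_integral hc (gsq w)]
    refine setIntegral_congr_fun measurableSet_ball (fun z hz => ?_)
    have e1 : gsq (fun z => w (fr z) - a) z = gsq (fun z => w (fr z)) z := by
      unfold gsq px py
      simp only [fderiv_sub_const]
    rw [e1, gsq_comp hc hw1.contDiffOn hz]
  have hconst : ∫ _x in S, a = a * (volume S).toReal := by
    rw [setIntegral_const]
    simp [Measure.real, mul_comm]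
  have h0 : ∫ x in S, (w x - a) = 0 := by
    rw [integral_sub (hint w hw.continuous) (hint _ continuous_const), hconst, ha]
    field_simp
    ring
  have hmain := hP r hr0 hr1 _ hBG (by rw [e1]; exact h0)
  rw [e2, e3] at hmain
  have e4 : ∫ x in S, (w x - a) ^ 2 = (∫ x in S, w x ^ 2) -
      (∫ x in S, w x) ^ 2 / (volume S).toReal := by
    have e5 : ∀ x, (w x - a) ^ 2 = w x ^ 2 - (2 * a * w x - a ^ 2) := fun x => by ring
    simp only [e5]
    have i1 : IntegrableOn (fun x => w x ^ 2) S := hint _ (hw.continuous.pow 2)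
    have i2 : IntegrableOn (fun x => 2 * a * w x - a ^ 2) S :=
      hint _ ((continuous_const.mul hw.continuous).sub continuous_const)
    have i3 : IntegrableOn (fun x => 2 * a * w x) S :=
      hint _ (continuous_const.mul hw.continuous)
    have i4 : IntegrableOn (fun _ : ℂ => a ^ 2) S := hint _ continuous_const
    rw [integral_sub i1 i2, integral_sub i3 i4, integral_const_mul, setIntegral_const]
    simp only [Measure.real, smul_eq_mul]
    rw [ha]
    field_simp
    ring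
  rw [e4] at hmain
  exact hmain

/-- the `H¹` case on `f(B_r)` -/
theorem h1_ineq {Ω : Set ℂ} {f F : ℂ → ℂ} (hf : Conf f F) (hΩ : f '' DD = Ω) {m₀ : ℝ}
    (hP : ∀ r : ℝ, 0 < r → r < 1 → ∀ φ : ℂ → ℝ, BG φ →
      ∫ z in DD, kap f F (fun _ => 1) r z * φ z = 0 →
        m₀ * ∫ z in DD, kap f F (fun _ => 1) r z * φ z ^ 2 ≤ ∫ z in DD, gsq φ z)
    {v gx gy : ℂ → ℝ} (hv : IsH1 Ω v gx gy)
    {r : ℝ} (hr0 : 0 < r) (hr1 : r < 1) :
    m₀ * ((∫ x in (fun z : ℂ => f (r * z)) '' DD, v x ^ 2) -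
      (∫ x in (fun z : ℂ => f (r * z)) '' DD, v x) ^ 2 /
        (volume ((fun z : ℂ => f (r * z)) '' DD)).toReal) ≤
      (∫ x in (fun z : ℂ => f (r * z)) '' DD, gx x ^ 2) +
        ∫ x in (fun z : ℂ => f (r * z)) '' DD, gy x ^ 2 := by
  have hc := conf_scale hf hr0 hr1
  set fr : ℂ → ℂ := fun z => f (r * z) with hfr
  set S := fr '' DD with hS
  have hSo : IsOpen S := conf_isOpen hc
  have hSf : volume S < ⊤ := conf_finite hc
  have hSp : 0 < (volume S).toReal := conf_vol_pos hc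
  have hΩo : IsOpen Ω := hΩ ▸ conf_isOpen hf
  have hcl : closedBall (0 : ℂ) r ⊆ DD := closedBall_subset_ball hr1
  have hfcont : ContinuousOn f DD := fun z hz => (hf.deriv z hz).continuousAt.continuousWithinAt
  have hK : IsCompact (f '' closedBall (0 : ℂ) r) :=
    (isCompact_closedBall _ _).image_of_continuousOn (hfcont.mono hcl)
  have hrz : ∀ z ∈ DD, (r : ℂ) * z ∈ closedBall (0 : ℂ) r := by
    intro z hz
    rw [mem_ball_zero_iff] at hz
    rw [mem_closedBall_zero_iff, norm_mul, Complex.norm_real, Real.norm_of_nonneg hr0.le]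
    nlinarith only [hr0, hz]
  have hSK : S ⊆ f '' closedBall (0 : ℂ) r := by
    rintro _ ⟨z, hz, rfl⟩
    exact ⟨_, hrz z hz, rfl⟩
  have hKΩ : f '' closedBall (0 : ℂ) r ⊆ Ω := by
    rw [← hΩ]
    exact Set.image_mono hcl
  have hSΩ : S ⊆ Ω := hSK.trans hKΩ
  have : IsFiniteMeasure (volume.restrict S) := ⟨by simpa only [MeasurableSet.univ, Measure.restrict_apply, Set.univ_inter] using hSf⟩
  -- extension by zero
  have hmem : ∀ {k : ℂ → ℝ}, MemLp k 2 (volume.restrict Ω) → MemLp (Ω.indicator k) 2 volume :=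
    fun hk => (memLp_indicator_iff_restrict hΩo.measurableSet).2 hk
  have hV := hmem hv.v_mem
  have hX := hmem hv.gx_mem
  have hY := hmem hv.gy_mem
  have hVl : LocallyIntegrable (Ω.indicator v) := hV.locallyIntegrable (by norm_num)
  -- limits
  have hrest : ∀ {k : ℂ → ℝ}, MemLp k 2 volume →
      Tendsto (fun n => eLpNorm (fun x => Mol.moll n k x - k x) 2 (volume.restrict S))
        atTop (𝓝 0) := by
    intro k hk
    refine tendsto_of_tendsto_of_tendsto_of_le_of_le tendsto_const_nhds (Mol.moll_tendsto hk)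
      (fun _ => zero_le) (fun n => ?_)
    exact eLpNorm_mono_measure _ Measure.restrict_le_self
  have hsq : ∀ {k : ℂ → ℝ}, MemLp k 2 volume →
      Tendsto (fun n => ∫ x in S, Mol.moll n k x ^ 2) atTop (𝓝 (∫ x in S, k x ^ 2)) := fun hk =>
    tendsto_int_sq (hk.restrict S) (fun n => (Mol.moll_memLp n hk).restrict S) (hrest hk)
  have hlin : ∀ {k : ℂ → ℝ}, MemLp k 2 volume →
      Tendsto (fun n => ∫ x in S, Mol.moll n k x) atTop (𝓝 (∫ x in S, k x)) := fun hk =>
    tendsto_int (hk.restrict S) (fun n => (Mol.moll_memLp n hk).restrict S) (hrest hk)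
  have hind : ∀ k : ℂ → ℝ, ∀ x ∈ S, Ω.indicator k x = k x := fun k x hx =>
    Set.indicator_of_mem (hSΩ hx) k
  have heq2 : ∀ k : ℂ → ℝ, ∫ x in S, Ω.indicator k x ^ 2 = ∫ x in S, k x ^ 2 := fun k =>
    setIntegral_congr_fun hSo.measurableSet (fun x hx => by simp only [hind k x hx])
  have heq1 : ∀ k : ℂ → ℝ, ∫ x in S, Ω.indicator k x = ∫ x in S, k x := fun k =>
    setIntegral_congr_fun hSo.measurableSet (fun x hx => hind k x hx)
  have hL := ((hsq hV).sub (((hlin hV).pow 2).div_const (volume S).toReal)).const_mul m₀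
  have hR := (hsq hX).add (hsq hY)
  rw [heq2, heq1] at hL
  rw [heq2, heq2] at hR
  refine le_of_tendsto_of_tendsto hL hR ?_
  obtain ⟨δ, hδ, hthick⟩ := hK.exists_cthickening_subset_open hΩo hKΩ
  have h1 : ∀ᶠ n : ℕ in atTop, 1 / ((n : ℝ) + 1) < δ :=
    tendsto_one_div_add_atTop_nhds_zero_nat.eventually_lt_const hδ
  filter_upwards [h1] with n hn
  have hts : ∀ x ∈ S, tsupport (fun y => Mol.ker n (x - y)) ⊆ Ω := by
    intro x hx y hy
    apply hthick
    have h2 : y ∈ closedBall x (1 / ((n : ℝ) + 1)) := by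
      refine (closure_minimal ?_ isClosed_closedBall) hy
      intro y' hy'
      by_contra hne
      rw [mem_closedBall, dist_eq_norm, not_le, norm_sub_rev] at hne
      exact hy' (Mol.ker_zero hne)
    refine mem_cthickening_of_dist_le y x δ _ (hSK hx) ?_
    exact (mem_closedBall.1 h2).trans hn.le
  have hder : ∀ x ∈ S, gsq (Mol.moll n (Ω.indicator v)) x =
      Mol.moll n (Ω.indicator gx) x ^ 2 + Mol.moll n (Ω.indicator gy) x ^ 2 := by
    intro x hx
    have hmul : ∀ (k l : ℂ → ℝ), ∫ y, Ω.indicator k y * l y = ∫ y in Ω, k y * l y := by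
      intro k l
      rw [← integral_indicator hΩo.measurableSet]
      congr 1
      funext y
      by_cases hy : y ∈ Ω
      · simp [Set.indicator_of_mem hy]
      · simp [Set.indicator_of_notMem hy]
    have hx1 := hv.weak_x _ (Mol.ker_sub_contDiff n x) (Mol.ker_sub_cs n x) (hts x hx)
    have hy1 := hv.weak_y _ (Mol.ker_sub_contDiff n x) (Mol.ker_sub_cs n x) (hts x hx)
    rw [← hmul, ← hmul] at hx1 hy1
    have hx2 := Mol.moll_deriv n (e := 1) hVl x hx1
    have hy2 := Mol.moll_deriv n (e := Complex.I) hVl x hy1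
    unfold gsq px py
    rw [hx2, hy2]
  have h3 := var_ineq hf hP hr0 hr1 (Mol.moll_contDiff n hVl)
  refine h3.trans (le_of_eq ?_)
  rw [← integral_add]
  · exact setIntegral_congr_fun hSo.measurableSet hder
  · exact ((Mol.moll_memLp n hX).restrict S).integrable_sq
  · exact ((Mol.moll_memLp n hY).restrict S).integrable_sq

end MuAux

open MuAux

/-- The Poincaré inequality for `H¹` functions. -/
theorem h1_poincare {Ω : Set ℂ} {f F : ℂ → ℂ} (hf : Conf f F) (hΩ : f '' DD = Ω) {m₀ : ℝ}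
    (hP : ∀ r : ℝ, 0 < r → r < 1 → ∀ φ : ℂ → ℝ, BG φ →
      ∫ z in DD, kap f F (fun _ => 1) r z * φ z = 0 →
        m₀ * ∫ z in DD, kap f F (fun _ => 1) r z * φ z ^ 2 ≤ ∫ z in DD, gsq φ z)
    {v gx gy : ℂ → ℝ} (hv : IsH1 Ω v gx gy) (h0 : ∫ x in Ω, v x = 0) :
    m₀ * ∫ x in Ω, v x ^ 2 ≤ ∫ x in Ω, (gx x ^ 2 + gy x ^ 2) := by
  have hΩo : IsOpen Ω := hΩ ▸ conf_isOpen hf
  have hΩf : volume Ω < ⊤ := hΩ ▸ conf_finite hf
  have hΩp : 0 < (volume Ω).toReal := hΩ ▸ conf_vol_pos hf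
  have : IsFiniteMeasure (volume.restrict Ω) := ⟨by simpa only [MeasurableSet.univ, Measure.restrict_apply, Set.univ_inter] using hΩf⟩
  set rr : ℕ → ℝ := fun k => 1 - 1 / ((k : ℝ) + 2) with hrr
  have hr0 : ∀ k, 0 < rr k := by
    intro k
    have : 1 / ((k : ℝ) + 2) < 1 := by
      rw [div_lt_one (by (clear * -; positivity))]
      have : (0 : ℝ) ≤ k := by positivity
      linarith only []
    simp only [hrr]
    linarith only [this]
  have hr1 : ∀ k, rr k < 1 := by
    intro k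
    have : 0 < 1 / ((k : ℝ) + 2) := by (clear * -; positivity)
    simp only [hrr]
    linarith only [this]
  have hrm : Monotone rr := by
    intro a b hab
    simp only [hrr]
    have : (a : ℝ) ≤ b := by exact_mod_cast hab
    (clear * - this; gcongr)
  set S : ℕ → Set ℂ := fun k => (fun z : ℂ => f (rr k * z)) '' DD with hS
  have hSeq : ∀ k, S k = f '' ball (0 : ℂ) (rr k) := by
    intro k
    ext x
    constructor
    · rintro ⟨z, hz, rfl⟩
      refine ⟨_, ?_, rfl⟩
      rw [mem_ball_zero_iff] at hz ⊢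
      rw [norm_mul, Complex.norm_real, Real.norm_of_nonneg (hr0 k).le]
      nlinarith only [hz, hr0 k]
    · rintro ⟨z, hz, rfl⟩
      have hne : (rr k : ℂ) ≠ 0 := by exact_mod_cast (hr0 k).ne'
      refine ⟨z / rr k, ?_, ?_⟩
      · rw [mem_ball_zero_iff] at hz ⊢
        rw [norm_div, Complex.norm_real, Real.norm_of_nonneg (hr0 k).le, div_lt_one (hr0 k)]
        exact hz
      · simp only
        rw [mul_div_cancel₀ _ hne]
  have hSm : Monotone S := by
    intro a b hab
    rw [hSeq, hSeq]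
    exact Set.image_mono (ball_subset_ball (hrm hab))
  have hSo : ∀ k, MeasurableSet (S k) := fun k =>
    (conf_isOpen (conf_scale hf (hr0 k) (hr1 k))).measurableSet
  have hSU : ⋃ k, S k = Ω := by
    rw [← hΩ]
    apply subset_antisymm
    · refine Set.iUnion_subset (fun k => ?_)
      rw [hSeq]
      exact Set.image_mono (ball_subset_ball (hr1 k).le)
    · rintro _ ⟨z, hz, rfl⟩
      rw [mem_ball_zero_iff] at hz
      have ht : Tendsto rr atTop (𝓝 1) := by
        have h1 : Tendsto (fun k : ℕ => 1 / ((k : ℝ) + 2)) atTop (𝓝 0) := by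
          have := (tendsto_one_div_add_atTop_nhds_zero_nat (𝕜 := ℝ)).comp (tendsto_add_atTop_nat 1)
          refine this.congr (fun k => ?_)
          simp only [Function.comp]
          push_cast
          ring
        have h3 := h1.const_sub 1
        rw [sub_zero] at h3
        exact h3
      obtain ⟨k, hk⟩ := (ht.eventually_const_lt hz).exists
      rw [Set.mem_iUnion]
      refine ⟨k, ?_⟩
      rw [hSeq]
      exact ⟨z, by rwa [mem_ball_zero_iff], rfl⟩
  have hlim : ∀ {h : ℂ → ℝ}, IntegrableOn h Ω →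
      Tendsto (fun k => ∫ x in S k, h x) atTop (𝓝 (∫ x in Ω, h x)) := by
    intro h hh
    have := tendsto_setIntegral_of_monotone (μ := volume) (f := h) hSo hSm (by rw [hSU]; exact hh)
    rwa [hSU] at this
  have hvol : Tendsto (fun k => (volume (S k)).toReal) atTop (𝓝 (volume Ω).toReal) := by
    have h1 := hlim (h := fun _ => (1 : ℝ)) (integrable_const 1)
    refine (h1.congr (fun k => ?_)).trans (le_of_eq ?_)
    · simp only [integral_const, Measure.real, MeasurableSet.univ, Measure.restrict_apply, Set.univ_inter, smul_eq_mul, mul_one]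
    · simp only [integral_const, Measure.real, MeasurableSet.univ, Measure.restrict_apply, Set.univ_inter, smul_eq_mul, mul_one]
  have h2 : IntegrableOn (fun x => v x ^ 2) Ω := hv.v_mem.integrable_sq
  have h2x : IntegrableOn (fun x => gx x ^ 2) Ω := hv.gx_mem.integrable_sq
  have h2y : IntegrableOn (fun x => gy x ^ 2) Ω := hv.gy_mem.integrable_sq
  have h1 : IntegrableOn v Ω := hv.v_mem.integrable (by norm_num)
  have hL := ((hlim h2).sub (((hlim h1).pow 2).div hvol hΩp.ne')).const_mul m₀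
  have hR := (hlim h2x).add (hlim h2y)
  rw [← integral_add h2x h2y] at hR
  rw [h0] at hL
  have e0 : m₀ * ((∫ x in Ω, v x ^ 2) - (0 : ℝ) ^ 2 / (volume Ω).toReal) =
      m₀ * ∫ x in Ω, v x ^ 2 := by
    ring
  rw [e0] at hL
  refine le_of_tendsto_of_tendsto hL hR (Eventually.of_forall (fun k => ?_))
  exact h1_ineq hf hΩ hP hv (hr0 k) (hr1 k)

/-- A nonconstant `H¹` function with mean zero. -/
theorem exists_test {Ω : Set ℂ} (ho : IsOpen Ω) (hne : Ω.Nonempty)
    (hb : Bornology.IsBounded Ω) : ∃ v gx gy : ℂ → ℝ, IsH1 Ω v gx gy ∧ ∫ z in Ω, v z = 0 ∧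
      0 < ∫ z in Ω, v z ^ 2 := by
  obtain ⟨R, hR⟩ := hb.subset_closedBall (0 : ℂ)
  have hΩf : volume Ω < ⊤ := (measure_mono hR).trans_lt (isCompact_closedBall _ _).measure_lt_top
  have hΩp : 0 < (volume Ω).toReal :=
    ENNReal.toReal_pos (ho.measure_pos volume hne).ne' hΩf.ne
  have : IsFiniteMeasure (volume.restrict Ω) := ⟨by simpa only [MeasurableSet.univ, Measure.restrict_apply, Set.univ_inter] using hΩf⟩
  set a : ℝ := (∫ x in Ω, x.re) / (volume Ω).toReal with ha
  have hint : ∀ k : ℂ → ℝ, Continuous k → IntegrableOn k Ω := fun k hk =>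
    (hk.continuousOn.integrableOn_compact (isCompact_closedBall _ _)).mono_set hR
  have hcv : Continuous (fun z : ℂ => z.re - a) := Complex.continuous_re.sub continuous_const
  have hmem : ∀ k : ℂ → ℝ, Continuous k → MemLp k 2 (volume.restrict Ω) := by
    intro k hk
    rw [memLp_two_iff_integrable_sq (hk.aestronglyMeasurable)]
    exact hint _ (hk.pow 2)
  have hfd : ∀ z e : ℂ, fderiv ℝ (fun z : ℂ => z.re - a) z e = e.re := by
    intro z e
    have h1 : HasFDerivAt (fun z : ℂ => z.re - a) Complex.reCLM z :=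
      (Complex.reCLM.hasFDerivAt (x := z)).sub_const a
    rw [h1.fderiv]
    rfl
  have hweak : ∀ (e : ℂ) (φ : ℂ → ℝ), ContDiff ℝ ∞ φ → HasCompactSupport φ → tsupport φ ⊆ Ω →
      ∫ z in Ω, (z.re - a) * fderiv ℝ φ z e = -∫ z in Ω, e.re * φ z := by
    intro e φ hφ hc hs
    have hφ1 : ContDiff ℝ 1 φ := hφ.of_le (by norm_cast)
    have hcd : Continuous (fun z => fderiv ℝ φ z e) :=
      (hφ1.continuous_fderiv one_ne_zero).clm_apply continuous_const
    have hc' : HasCompactSupport (fun z => fderiv ℝ φ z e) :=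
      (hc.fderiv (𝕜 := ℝ)).comp_left (g := fun L : ℂ →L[ℝ] ℝ => L e) rfl
    have h0 : ∀ z, z ∉ Ω → φ z = 0 := fun z hz =>
      image_eq_zero_of_notMem_tsupport (fun h => hz (hs h))
    have h0' : ∀ z, z ∉ Ω → fderiv ℝ φ z e = 0 := by
      intro z hz
      have h1 : z ∉ tsupport (fun z => fderiv ℝ φ z e) := fun h =>
        hz (hs (tsupport_fderiv_apply_subset ℝ e h))
      exact image_eq_zero_of_notMem_tsupport (f := fun z => fderiv ℝ φ z e) h1
    rw [setIntegral_eq_integral_of_forall_compl_eq_zero (fun z hz => by rw [h0' z hz, mul_zero]),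
      setIntegral_eq_integral_of_forall_compl_eq_zero (fun z hz => by rw [h0 z hz, mul_zero])]
    have key := integral_mul_fderiv_eq_neg_fderiv_mul_of_integrable (μ := volume)
      (f := fun z : ℂ => z.re - a) (g := φ) (v := e) ?_ ?_ ?_ ?_ ?_
    · rw [key]
      simp only [hfd]
    · simp only [hfd]
      exact (hφ.continuous.integrable_of_hasCompactSupport hc).const_mul _
    · exact (hcv.mul hcd).integrable_of_hasCompactSupport hc'.mul_left
    · exact (hcv.mul hφ.continuous).integrable_of_hasCompactSupport hc.mul_left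
    · intro z _
      exact ((Complex.reCLM.hasFDerivAt (x := z)).sub_const a).differentiableAt
    · intro z _
      exact hφ1.differentiable one_ne_zero z
  refine ⟨fun z => z.re - a, fun _ => 1, fun _ => 0, ⟨hmem _ hcv, hmem _ continuous_const,
    hmem _ continuous_const, ?_, ?_⟩, ?_, ?_⟩
  · intro φ h1 h2 h3
    simpa only [px, one_mul, Complex.one_re] using hweak 1 φ h1 h2 h3
  · intro φ h1 h2 h3
    simpa only [py, zero_mul, integral_zero, neg_zero, Complex.I_re] using hweak Complex.I φ h1 h2 h3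
  · rw [integral_sub (hint _ Complex.continuous_re) (hint _ continuous_const), setIntegral_const]
    simp only [Measure.real, smul_eq_mul]
    rw [ha]
    field_simp
    ring
  · rw [setIntegral_pos_iff_support_of_nonneg_ae (Eventually.of_forall (fun z => sq_nonneg _))
      (hint _ (hcv.pow 2))]
    have hopen : IsOpen ((Function.support fun z : ℂ => (z.re - a) ^ 2) ∩ Ω) :=
      (hcv.pow 2).isOpen_support.inter ho
    refine hopen.measure_pos volume ?_
    obtain ⟨z0, hz0⟩ := hne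
    by_cases hz : z0.re = a
    · obtain ⟨ε, hε, hball⟩ := Metric.isOpen_iff.1 ho z0 hz0
      refine ⟨z0 + (ε / 2 : ℝ), ?_, hball ?_⟩
      · simp only [Function.mem_support, Complex.add_re, Complex.ofReal_re, hz]
        have : a + ε / 2 - a = ε / 2 := by ring
        rw [this]
        (clear * - hε; positivity)
      · rw [mem_ball, dist_eq_norm, add_sub_cancel_left, Complex.norm_real,
          Real.norm_of_nonneg (by positivity)]
        linarith only [hε]
    · exact ⟨z0, by simpa only [ne_eq, OfNat.ofNat_ne_zero, not_false_eq_true, Function.support_pow, Function.mem_support,     sub_eq_zero] using hz, hz0⟩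

/-- Positivity of `μ₁`. -/
theorem muOne_pos {Ω : Set ℂ} {f F : ℂ → ℂ} (hf : Conf f F) (hΩ : f '' DD = Ω)
    (hb : Bornology.IsBounded Ω) (hL : LipschitzBoundary Ω) : 0 < muOne Ω := by
  have hΩo : IsOpen Ω := hΩ ▸ conf_isOpen hf
  have hT : Tight (f '' DD) := by
    rw [hΩ]
    exact tight_of_lipschitz hΩo hb hL
  obtain ⟨m₀, hm, hU⟩ := uniform_poincare hf (tailU_of_tailF hf (tailF_of_tight hf hT))
  have hP := hU (fun _ => 1) continuous_const (fun z _ => ⟨by norm_num, by norm_num⟩)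
  have hne : Ω.Nonempty := by
    rw [← hΩ]
    exact ⟨f 0, 0, by simp, rfl⟩
  obtain ⟨v, gx, gy, hv, hv0, hvp⟩ := exists_test hΩo hne hb
  refine lt_of_lt_of_le hm (le_csInf ⟨_, v, gx, gy, hv, hv0, hvp, rfl⟩ ?_)
  rintro q ⟨v, gx, gy, hv, hv0, hvp, rfl⟩
  rw [le_div_iff₀ hvp]
  exact h1_poincare hf hΩ hP hv hv0

end Vale.Agent.P071.Lim
end

section

/-!
# The transplanted eigenfunction (task LIM-TGT)
-/

open MeasureTheory Metric Filter Topology Real
open scoped ContDiff ENNReal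

namespace Vale.Agent.P071.Lim

theorem tgt_px_smul (c : ℝ) (u : ℂ → ℝ) (z : ℂ) : px (fun x => c * u x) z = c * px u z := by
  have h := fderiv_const_smul_field (𝕜 := ℝ) (f := u) c
  have h' := congrFun h z
  have h2 : (fun x => c * u x) = c • u := by funext x; simp
  unfold px
  rw [h2, h']
  simp only [Pi.smul_apply, smul_apply, smul_eq_mul]

theorem tgt_py_smul (c : ℝ) (u : ℂ → ℝ) (z : ℂ) : py (fun x => c * u x) z = c * py u z := by
  have h := fderiv_const_smul_field (𝕜 := ℝ) (f := u) c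
  have h' := congrFun h z
  have h2 : (fun x => c * u x) = c • u := by funext x; simp
  unfold py
  rw [h2, h']
  simp

theorem tgt_gsq_smul (c : ℝ) (u : ℂ → ℝ) (z : ℂ) :
    gsq (fun x => c * u x) z = c ^ 2 * gsq u z := by
  unfold gsq
  rw [tgt_px_smul, tgt_py_smul]; ring

theorem tgt_lap_smul (c : ℝ) (u : ℂ → ℝ) (z : ℂ) :
    lap (fun x => c * u x) z = c * lap u z := by
  unfold lap
  have h1 : px (fun x => c * u x) = fun z => c * px u z := by
    funext z; exact tgt_px_smul c u z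
  have h2 : py (fun x => c * u x) = fun z => c * py u z := by
    funext z; exact tgt_py_smul c u z
  rw [h1, h2, tgt_px_smul, tgt_py_smul]; ring

theorem tgt_isOpen {Ω : Set ℂ} {f F : ℂ → ℂ} (hf : Conf f F) (hΩ : f '' DD = Ω) : IsOpen Ω := by
  obtain ⟨g, h, _⟩ := exists_inverse hf
  rwa [hΩ] at h

theorem tgt_finite {Ω : Set ℂ} {f F : ℂ → ℂ} (hf : Conf f F) (hΩ : f '' DD = Ω) :
    volume Ω < ⊤ := by
  obtain ⟨C, hC⟩ := hf.bdd
  refine Bornology.IsBounded.measure_lt_top ?_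
  rw [← hΩ]
  refine (isBounded_iff_forall_norm_le).2 ⟨C, ?_⟩
  rintro _ ⟨z, hz, rfl⟩
  exact hC z hz

theorem tgt_sq_integrable {φ : ℂ → ℝ} (h : Continuous φ) (hc : HasCompactSupport φ) :
    Integrable (fun z => φ z ^ 2) := by
  have h2 : HasCompactSupport (fun z => φ z ^ 2) := by
    refine hc.mono ?_
    intro z hz
    simp only [Function.mem_support] at hz ⊢
    intro h0
    exact hz (by rw [h0]; norm_num)
  exact (h.pow 2).integrable_of_hasCompactSupport h2

theorem tgt_hcs_px {φ : ℂ → ℝ} (hc : HasCompactSupport φ) : HasCompactSupport (px φ) := by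
  refine (hc.fderiv (𝕜 := ℝ)).mono ?_
  intro z hz
  simp only [Function.mem_support] at hz ⊢
  intro h0
  exact hz (by unfold px; rw [h0]; simp)

theorem tgt_hcs_py {φ : ℂ → ℝ} (hc : HasCompactSupport φ) : HasCompactSupport (py φ) := by
  refine (hc.fderiv (𝕜 := ℝ)).mono ?_
  intro z hz
  simp only [Function.mem_support] at hz ⊢
  intro h0
  exact hz (by unfold py; rw [h0]; simp)

/-- test functions are in `H¹`. -/
theorem tgt_isH1_test {Ω : Set ℂ} (hΩ : IsOpen Ω) {φ : ℂ → ℝ} (h : ContDiff ℝ ∞ φ)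
    (hc : HasCompactSupport φ) : IsH1 Ω φ (px φ) (py φ) := by
  have h1 : ContDiff ℝ 1 φ := h.of_le (by exact_mod_cast le_top)
  have hcf : Continuous (fderiv ℝ φ) := h1.continuous_fderiv (by simp)
  have hpx : Continuous (px φ) := hcf.clm_apply continuous_const
  have hpy : Continuous (py φ) := hcf.clm_apply continuous_const
  refine isH1_of_c1 hΩ h1.contDiffOn ?_ ?_
  · exact (tgt_sq_integrable h1.continuous hc).integrableOn
  · exact ((tgt_sq_integrable hpx (tgt_hcs_px hc)).add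
      (tgt_sq_integrable hpy (tgt_hcs_py hc))).integrableOn

/-- `1 ∈ H¹(Ω)`. -/
theorem tgt_isH1_one {Ω : Set ℂ} (hΩ : IsOpen Ω) (hfin : volume Ω < ⊤) :
    IsH1 Ω (fun _ => 1) (fun _ => 0) (fun _ => 0) := by
  have hpx : px (fun _ => (1 : ℝ)) = fun _ => 0 := by
    funext z; simp only [px, fderiv_fun_const, Pi.zero_apply, zero_apply]
  have hpy : py (fun _ => (1 : ℝ)) = fun _ => 0 := by
    funext z; simp [py]
  have := isH1_of_c1 hΩ (v := fun _ => (1 : ℝ)) contDiffOn_const ?_ ?_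
  · rwa [hpx, hpy] at this
  · have : IntegrableOn (fun _ : ℂ => (1 : ℝ)) Ω := by
      refine integrableOn_const ?_ ?_
      · exact hfin.ne
      · simp
    simpa only [one_pow, enorm_one, ne_eq, ENNReal.one_ne_top, not_false_eq_true, integrableOn_const_iff,     one_ne_zero, false_or, gt_iff_lt] using this
  · have e : gsq (fun _ => (1 : ℝ)) = fun _ => 0 := by
      funext z; unfold gsq; rw [hpx, hpy]; simp
    rw [e]
    exact integrable_zero _ _ _

theorem tgt_minimal {Ω : Set ℂ} {f F : ℂ → ℂ} (hf : Conf f F) (hΩ : f '' DD = Ω)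
    (W : ℂ → ℝ) (hW : ContDiffOn ℝ 1 W DD)
    (hW2 : IntegrableOn (fun z => ‖F z‖ ^ 2 * W z ^ 2) DD)
    (hWg : IntegrableOn (gsq W) DD) (hW0 : ∫ z in DD, ‖F z‖ ^ 2 * W z = 0) :
    muOne Ω * ∫ z in DD, ‖F z‖ ^ 2 * W z ^ 2 ≤ ∫ z in DD, gsq W z := by
  obtain ⟨g, hop, hgf, hfg, hg', hgs⟩ := exists_inverse hf
  have hmd : MeasurableSet DD := measurableSet_ball
  set v : ℂ → ℝ := fun x => W (g x) with hv
  have hgR : ContDiffOn ℝ 1 g (f '' DD) :=
    (hgs.restrict_scalars ℝ).of_le (by exact_mod_cast le_top)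
  have hvs : ContDiffOn ℝ 1 v (f '' DD) := hW.comp hgR (fun x hx => (hfg x hx).1)
  have hvf : ∀ z ∈ DD, v (f z) = W z := by
    intro z hz; simp only [hv]; rw [hgf z hz]
  -- integrals
  have i1 : ∫ x in f '' DD, v x = 0 := by
    rw [conf_integral hf, ← hW0]
    refine setIntegral_congr_fun hmd ?_
    intro z hz; simp only; rw [hvf z hz]
  have i2 : ∫ x in f '' DD, v x ^ 2 = ∫ z in DD, ‖F z‖ ^ 2 * W z ^ 2 := by
    rw [conf_integral hf]
    refine setIntegral_congr_fun hmd ?_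
    intro z hz; simp only; rw [hvf z hz]
  have j2 : IntegrableOn (fun x => v x ^ 2) (f '' DD) := by
    rw [conf_integrable_iff hf]
    refine hW2.congr_fun ?_ hmd
    intro z hz; simp only; rw [hvf z hz]
  have hgs : ∀ z ∈ DD, ‖F z‖ ^ 2 * gsq v (f z) = gsq W z := by
    intro z hz
    rw [← gsq_comp hf hvs hz]
    have hev : (fun y => v (f y)) =ᶠ[𝓝 z] W := by
      filter_upwards [isOpen_ball.mem_nhds hz] with y hy using hvf y hy
    have := hev.fderiv_eq (𝕜 := ℝ)
    unfold gsq px py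
    rw [this]
  have i3 : ∫ x in f '' DD, gsq v x = ∫ z in DD, gsq W z := by
    rw [conf_integral hf]
    refine setIntegral_congr_fun hmd ?_
    intro z hz; exact hgs z hz
  have j3 : IntegrableOn (gsq v) (f '' DD) := by
    rw [conf_integrable_iff hf]
    refine hWg.congr_fun ?_ hmd
    intro z hz; exact (hgs z hz).symm
  have hH := isH1_of_c1 hop hvs j2 j3
  rw [← i2, ← i3]
  have hnn : 0 ≤ ∫ x in f '' DD, v x ^ 2 := integral_nonneg (fun x => sq_nonneg _)
  have hgn : 0 ≤ ∫ x in f '' DD, gsq v x := integral_nonneg (fun x => by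
    show 0 ≤ gsq v x
    unfold gsq; (clear * -; positivity))
  rcases hnn.eq_or_lt with h0 | hpos
  · rw [← h0, mul_zero]; exact hgn
  · have hle : muOne Ω ≤ (∫ x in f '' DD, gsq v x) / ∫ x in f '' DD, v x ^ 2 := by
      unfold muOne
      refine csInf_le ⟨0, ?_⟩ ?_
      · rintro q ⟨v', gx, gy, _, _, _, rfl⟩
        refine div_nonneg (integral_nonneg fun x => ?_) (integral_nonneg fun x => sq_nonneg _)
        show 0 ≤ gx x ^ 2 + gy x ^ 2
        (clear * -; positivity)
      · rw [hΩ] at hH i1 hpos ⊢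
        exact ⟨v, px v, py v, hH, i1, hpos, rfl⟩
    rwa [le_div_iff₀ hpos] at hle

/-- The transplanted eigenfunction is a target. -/
theorem target_of_inV {Ω : Set ℂ} {f F : ℂ → ℂ} (hf : Conf f F) (hΩ : f '' DD = Ω)
    (hμ : 0 < muOne Ω) {u : ℂ → ℝ} (hu : InV Ω u) (hc : ContinuousOn u Ω)
    (h0 : ∃ z ∈ Ω, u z ≠ 0) :
    ∃ c : ℝ, 0 < c ∧ Target F (muOne Ω) (fun z => c * u (f z)) := by
  have hop : IsOpen Ω := tgt_isOpen hf hΩ
  have hfin : volume Ω < ⊤ := tgt_finite hf hΩ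
  have hmd : MeasurableSet DD := measurableSet_ball
  have hmΩ : MeasurableSet Ω := hop.measurableSet
  obtain ⟨gx, gy, hH, hw⟩ := hu
  obtain ⟨hsm, heq, hgrad⟩ := reg_H1 hop hH hc (μ := muOne Ω) (fun φ h1 h2 _ =>
    hw φ (px φ) (py φ) (tgt_isH1_test hop h1 h2))
  -- `u²` integrable, positive integral
  have hu2 : IntegrableOn (fun z => u z ^ 2) Ω := hH.v_mem.integrable_sq
  have hgx2 : IntegrableOn (fun z => gx z ^ 2) Ω := hH.gx_mem.integrable_sq
  have hgy2 : IntegrableOn (fun z => gy z ^ 2) Ω := hH.gy_mem.integrable_sq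
  have hgs : IntegrableOn (gsq u) Ω := by
    have h12 : IntegrableOn (fun z => gx z ^ 2 + gy z ^ 2) Ω := hgx2.add hgy2
    refine h12.congr ?_
    filter_upwards [hgrad] with z hz
    unfold gsq; rw [hz.1, hz.2]
  have hpos : 0 < ∫ z in Ω, u z ^ 2 := by
    obtain ⟨z0, hz0, hne⟩ := h0
    rw [setIntegral_pos_iff_support_of_nonneg_ae (ae_of_all _ fun z => sq_nonneg _) hu2]
    have hs : IsOpen (Ω ∩ u ⁻¹' {0}ᶜ) := hc.isOpen_inter_preimage hop isOpen_compl_singleton
    have hsub : Ω ∩ u ⁻¹' {0}ᶜ ⊆ Function.support (fun z => u z ^ 2) ∩ Ω := by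
      rintro z ⟨h1, h2⟩
      refine ⟨?_, h1⟩
      simp only [Function.mem_support]
      exact pow_ne_zero _ h2
    exact (hs.measure_pos _ ⟨z0, hz0, hne⟩).trans_le (measure_mono hsub)
  set n : ℝ := ∫ z in Ω, u z ^ 2 with hn
  set c : ℝ := 1 / √n with hcdef
  have hcpos : 0 < c := by (clear * - hpos; positivity)
  have hc2 : c ^ 2 * n = 1 := by
    rw [hcdef, div_pow, one_pow, Real.sq_sqrt hpos.le]
    (clear * - hpos; field_simp)
  refine ⟨c, hcpos, ?_⟩
  -- mean zero
  have hmean : ∫ z in Ω, u z = 0 := by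
    have := hw (fun _ => 1) (fun _ => 0) (fun _ => 0) (tgt_isH1_one hop hfin)
    simp only [mul_zero, add_zero, integral_zero, mul_one] at this
    rcases mul_eq_zero.1 this.symm with h | h
    · exact absurd h hμ.ne'
    · exact h
  -- energy
  have hen : ∫ z in Ω, gsq u z = muOne Ω * n := by
    have := hw u gx gy hH
    have e1 : ∫ z in Ω, gsq u z = ∫ z in Ω, (gx z * gx z + gy z * gy z) := by
      refine integral_congr_ae ?_
      filter_upwards [hgrad] with z hz
      unfold gsq; rw [hz.1, hz.2]; ring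
    have e2 : n = ∫ z in Ω, u z * u z := by
      rw [hn]; congr 1; funext z; ring
    rw [e1, this, e2]
  -- smoothness of f
  have hmaps : Set.MapsTo f DD Ω := by
    intro z hz; rw [← hΩ]; exact ⟨z, hz, rfl⟩
  have hfd : DifferentiableOn ℂ f DD := fun z hz =>
    (hf.deriv z hz).differentiableAt.differentiableWithinAt
  have hfs : ContDiffOn ℝ 2 f DD := (hfd.contDiffOn (n := 2) isOpen_ball).restrict_scalars ℝ
  have hcu : ContDiffOn ℝ 2 (fun x => c * u x) Ω := contDiffOn_const.mul hsm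
  have hcu' : ContDiffOn ℝ 2 (fun x => c * u x) (f '' DD) := by rw [hΩ]; exact hcu
  have hcu1 : ContDiffOn ℝ 1 (fun x => c * u x) (f '' DD) := hcu'.of_le (by norm_num)
  have hgU : ∀ z ∈ DD, gsq (fun y => c * u (f y)) z
      = ‖F z‖ ^ 2 * (c ^ 2 * gsq u (f z)) := by
    intro z hz
    have := gsq_comp hf hcu1 hz
    rw [this, tgt_gsq_smul]
  refine ⟨hμ, ?_, ?_, ?_, ?_, ?_, ?_, ?_, ?_⟩
  · exact hcu.comp hfs hmaps
  · intro z hz
    have := lap_comp hf hcu' hz
    rw [this, tgt_lap_smul]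
    have h3 := heq (f z) (hmaps hz)
    have h4 : lap u (f z) = -(muOne Ω * u (f z)) := by linarith only [h3]
    rw [h4]; ring
  · have := (conf_integrable_iff hf (fun x => (c * u x) ^ 2)).1 (by
      rw [hΩ]
      have := hu2.const_mul (c ^ 2)
      refine this.congr (ae_of_all _ fun z => ?_)
      simp only; ring)
    exact this
  · have := (conf_integrable_iff hf (fun x => c ^ 2 * gsq u x)).1 (by
      rw [hΩ]; exact hgs.const_mul (c ^ 2))
    refine this.congr_fun ?_ hmd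
    intro z hz
    exact (hgU z hz).symm
  · have := conf_integral hf (fun x => c * u x)
    rw [← this, hΩ, integral_const_mul, hmean, mul_zero]
  · have := conf_integral hf (fun x => (c * u x) ^ 2)
    rw [← this, hΩ]
    have e : ∀ z, (c * u z) ^ 2 = c ^ 2 * u z ^ 2 := fun z => by ring
    simp_rw [e]
    rw [integral_const_mul, hc2]
  · have h1 : ∫ z in DD, gsq (fun y => c * u (f y)) z
        = ∫ z in DD, ‖F z‖ ^ 2 * (c ^ 2 * gsq u (f z)) :=
      setIntegral_congr_fun hmd hgU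
    have := conf_integral hf (fun x => c ^ 2 * gsq u x)
    rw [h1, ← this, hΩ, integral_const_mul, hen]
    calc c ^ 2 * (muOne Ω * n) = muOne Ω * (c ^ 2 * n) := by ring
      _ = muOne Ω := by rw [hc2, mul_one]
  · intro W h1 h2 h3 h4
    exact tgt_minimal hf hΩ W h1 h2 h3 h4

end Vale.Agent.P071.Lim
end

section

/-!
# The passage to the limit: assembly
-/

open MeasureTheory Metric Filter Topology Real
open scoped ContDiff ENNReal

namespace Vale.Agent.P071.Lim

theorem target_no_crit {f F : ℂ → ℂ} (hf : Conf f F) (hT : TailU F) (hD : DiscThm f F)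
    {μ : ℝ} {U : ℂ → ℝ} (hU : Target F μ U) {z : ℂ} (hz : z ∈ DD) (h0 : U z ≠ 0) :
    gsq U z ≠ 0 := by
  -- a closed ball around `z` in the disc where `U ≠ 0`
  have hcont : ContinuousOn U DD := hU.smooth.continuousOn
  have hopen : IsOpen (DD ∩ U ⁻¹' {0}ᶜ) := hcont.isOpen_inter_preimage isOpen_ball isOpen_compl_singleton
  obtain ⟨ε, hε, hεs⟩ := Metric.nhds_basis_closedBall.mem_iff.1 (hopen.mem_nhds ⟨hz, h0⟩)
  have hB : ∀ y ∈ closedBall z ε, y ∈ DD ∧ U y ≠ 0 := fun y hy => ⟨(hεs hy).1, (hεs hy).2⟩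
  obtain ⟨w, hw, h2, hg, hm, hn, hE, hI, hP, z₁, hz₁, hwz₁⟩ := exists_limit hf hT hD hU hε hB
  have hE' : ∫ z in DD, gsq w z ≤ μ * ∫ z in DD, ‖F z‖ ^ 2 * w z ^ 2 := by rw [hn]; simpa only [mul_one] using hE
  have hpic := picone hf hU hw h2 hg hE' hP
  obtain ⟨c, hc⟩ := eq_const_mul hU.smooth hw hpic hε hB
  have hzB : z ∈ closedBall z ε := mem_closedBall_self hε.le
  have hc0 : c ≠ 0 := by
    rintro rfl
    exact hwz₁ (by rw [hc z₁ hz₁, zero_mul])
  have hwz : w z ≠ 0 := by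
    rw [hc z hzB]; exact mul_ne_zero hc0 h0
  have hFcont : ContinuousOn F DD := by
    have hfd : DifferentiableOn ℂ f DD := fun y hy => (hf.deriv y hy).differentiableAt.differentiableWithinAt
    have h1 : ContinuousOn (deriv f) DD := (hfd.deriv isOpen_ball).continuousOn
    exact h1.congr fun y hy => ((hf.deriv y hy).deriv).symm
  have hcrit := no_crit_of_ineqI (κ := fun z => ‖F z‖ ^ 2) (hFcont.norm.pow 2)
    (fun y hy => by have := norm_pos_iff.2 (hf.ne_zero y hy); (clear * - this; positivity)) hw hI hz hwz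
  intro hgU
  apply hcrit
  have hUx : px U z = 0 := by
    have : px U z ^ 2 + py U z ^ 2 = 0 := hgU
    nlinarith only [this]
  have hUy : py U z = 0 := by
    have : px U z ^ 2 + py U z ^ 2 = 0 := hgU
    nlinarith only [this]
  obtain ⟨h1, h2⟩ := hpic z hz h0
  rw [hUx, mul_zero] at h1
  rw [hUy, mul_zero] at h2
  have h1' : px w z = 0 := by
    rcases mul_eq_zero.1 h1 with h | h
    · exact absurd h h0
    · exact h
  have h2' : py w z = 0 := by
    rcases mul_eq_zero.1 h2 with h | h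
    · exact absurd h h0
    · exact h
  simp [gsq, h1', h2']

/-- **Hot spots for simply connected planar domains**, from the Riemann mapping theorem and the
disc theorem. -/
theorem hot_spots_of
    (hR : ∀ Ω : Set ℂ, IsOpen Ω → IsSimplyConnected Ω → Ω ≠ Set.univ → ∃ f : ℂ → ℂ,
      DifferentiableOn ℂ f DD ∧ Set.InjOn f DD ∧ f '' DD = Ω ∧ ∀ z ∈ DD, deriv f z ≠ 0)
    (hD : ∀ f F : ℂ → ℂ, Conf f F → DiscThm f F)
    (Ω : Set ℂ) (ho : IsOpen Ω) (hb : Bornology.IsBounded Ω) (hs : IsSimplyConnected Ω)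
    (hL : LipschitzBoundary Ω) (u : ℂ → ℝ) (hu : InV Ω u) (hc : ContinuousOn u (closure Ω))
    (h0 : ∃ z ∈ Ω, u z ≠ 0) :
    ∃ a ∈ frontier Ω, ∃ b ∈ frontier Ω, (∀ y ∈ frontier Ω, u a ≤ u y ∧ u y ≤ u b) ∧
      ∀ x ∈ Ω, u a < u x ∧ u x < u b := by
  have huniv : Ω ≠ Set.univ := by
    rintro rfl
    exact NormedSpace.unbounded_univ ℝ ℂ hb
  obtain ⟨f, hfd, hfi, hfΩ, hf0⟩ := hR Ω ho hs huniv
  have hf : Conf f (deriv f) :=
    { deriv := fun z hz => (hfd.differentiableAt (isOpen_ball.mem_nhds hz)).hasDerivAt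
      ne_zero := hf0
      inj := hfi
      bdd := by
        obtain ⟨C, hC⟩ := hb.exists_norm_le
        exact ⟨C, fun z hz => hC _ (hfΩ ▸ Set.mem_image_of_mem f hz)⟩ }
  have hμ := muOne_pos hf hfΩ hb hL
  have hcΩ : ContinuousOn u Ω := hc.mono subset_closure
  obtain ⟨c, hc0, hU⟩ := target_of_inV hf hfΩ hμ hu hcΩ h0
  have hTight : Tight (f '' DD) := hfΩ ▸ tight_of_lipschitz ho hb hL
  have hT : TailU (deriv f) := tailU_of_tailF hf (tailF_of_tight hf hTight)
  -- no interior extremum off the zero set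
  have hext : ∀ x ∈ Ω, u x ≠ 0 → ¬ IsLocalExtr u x := by
    intro x hx hux hex
    rw [← hfΩ] at hx
    obtain ⟨z, hz, rfl⟩ := hx
    have hUz : (fun z => c * u (f z)) z ≠ 0 := mul_ne_zero hc0.ne' hux
    have h1 := target_no_crit hf hT (hD f _ hf) hU hz hUz
    have hfc : Tendsto f (𝓝 z) (𝓝 (f z)) := (hf.deriv z hz).continuousAt
    have h2 : IsLocalExtr (fun z => c * u (f z)) z := by
      rcases hex with h | h
      · left
        have h3 : ∀ᶠ y in 𝓝 z, u (f z) ≤ u (f y) := hfc.eventually h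
        exact h3.mono fun y hy => mul_le_mul_of_nonneg_left hy hc0.le
      · right
        have h3 : ∀ᶠ y in 𝓝 z, u (f y) ≤ u (f z) := hfc.eventually h
        exact h3.mono fun y hy => mul_le_mul_of_nonneg_left hy hc0.le
    have h4 := h2.fderiv_eq_zero
    apply h1
    simp [gsq, px, py, h4]
  -- positive and negative values
  have hκint := conf_area hf
  have hUc : ContinuousOn (fun z => c * u (f z)) DD := hU.smooth.continuousOn
  have hFcont : ContinuousOn (deriv f) DD := (hfd.deriv isOpen_ball).continuousOn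
  have hκU : IntegrableOn (fun z => ‖deriv f z‖ ^ 2 * (c * u (f z))) DD := by
    refine Integrable.mono' (hκint.add hU.int_sq)
      (((hFcont.norm.pow 2).mul hUc).aestronglyMeasurable measurableSet_ball) ?_
    refine Eventually.of_forall fun z => ?_
    simp only [Pi.add_apply, norm_mul, norm_pow, Real.norm_eq_abs, abs_norm]
    have h1 : |c| * |u (f z)| ≤ 1 + (c * u (f z)) ^ 2 := by
      rw [← abs_mul]
      nlinarith only [sq_abs (c * u (f z))]
    calc ‖deriv f z‖ ^ 2 * (|c| * |u (f z)|) ≤ ‖deriv f z‖ ^ 2 * (1 + (c * u (f z)) ^ 2) := by (clear * - h1; gcongr)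
      _ = ‖deriv f z‖ ^ 2 + ‖deriv f z‖ ^ 2 * (c * u (f z)) ^ 2 := by ring
  have key : ∀ s : ℝ, s ≠ 0 → (∀ z ∈ DD, 0 ≤ s * (c * u (f z))) → False := by
    intro s hs0 hnn
    have h1 : ∫ z in DD, s * (‖deriv f z‖ ^ 2 * (c * u (f z))) = 0 := by
      rw [integral_const_mul, hU.mean, mul_zero]
    have h2 : 0 ≤ᵐ[volume.restrict DD] fun z => s * (‖deriv f z‖ ^ 2 * (c * u (f z))) := by
      refine (ae_restrict_iff' measurableSet_ball).2 (Eventually.of_forall fun z hz => ?_)
      have := hnn z hz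
      have h3 : s * (‖deriv f z‖ ^ 2 * (c * u (f z))) = ‖deriv f z‖ ^ 2 * (s * (c * u (f z))) := by
        ring
      simp only [Pi.zero_apply, h3]
      (clear * - this; positivity)
    have h3 := (integral_eq_zero_iff_of_nonneg_ae h2 (hκU.const_mul s)).1 h1
    have h4 : ∫ z in DD, ‖deriv f z‖ ^ 2 * (c * u (f z)) ^ 2 = 0 := by
      rw [← integral_zero ℂ ℝ (μ := volume.restrict DD)]
      refine integral_congr_ae (h3.mono fun z hz => ?_)
      simp only [Pi.zero_apply] at hz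
      rcases mul_eq_zero.1 hz with h | h
      · exact absurd h hs0
      · rcases mul_eq_zero.1 h with h | h
        · simp [h]
        · simp [h]
    rw [hU.norm] at h4
    exact one_ne_zero h4
  have hpos : ∃ x ∈ Ω, 0 < u x := by
    by_contra hcon
    push Not at hcon
    refine key (-1) (by norm_num) fun z hz => ?_
    have := hcon (f z) (hfΩ ▸ Set.mem_image_of_mem f hz)
    nlinarith only [hc0, this]
  have hneg : ∃ x ∈ Ω, u x < 0 := by
    by_contra hcon
    push Not at hcon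
    refine key 1 (by norm_num) fun z hz => ?_
    have := hcon (f z) (hfΩ ▸ Set.mem_image_of_mem f hz)
    have := mul_nonneg hc0.le this
    linarith
  have hcpt : IsCompact (closure Ω) := hb.isCompact_closure
  obtain ⟨xp, hxp, hup⟩ := hpos
  obtain ⟨xn, hxn, hun⟩ := hneg
  have hne : (closure Ω).Nonempty := ⟨xp, subset_closure hxp⟩
  obtain ⟨b, hb1, hb2⟩ := hcpt.exists_isMaxOn hne hc
  obtain ⟨a, ha1, ha2⟩ := hcpt.exists_isMinOn hne hc
  have hb3 : 0 < u b := hup.trans_le (hb2 (subset_closure hxp))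
  have ha3 : u a < 0 := (ha2 (subset_closure hxn)).trans_lt hun
  have hmaxI : ∀ x ∈ Ω, u x ≠ u b := by
    intro x hx hxb
    refine hext x hx (hxb ▸ hb3.ne') (Or.inr ?_)
    filter_upwards [ho.mem_nhds hx] with y hy
    rw [hxb]
    exact hb2 (subset_closure hy)
  have hminI : ∀ x ∈ Ω, u x ≠ u a := by
    intro x hx hxb
    refine hext x hx (hxb ▸ ha3.ne) (Or.inl ?_)
    filter_upwards [ho.mem_nhds hx] with y hy
    rw [hxb]
    exact ha2 (subset_closure hy)
  have hbf : b ∈ frontier Ω := by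
    rw [ho.frontier_eq]
    exact ⟨hb1, fun h => hmaxI b h rfl⟩
  have haf : a ∈ frontier Ω := by
    rw [ho.frontier_eq]
    exact ⟨ha1, fun h => hminI a h rfl⟩
  refine ⟨a, haf, b, hbf, fun y hy => ⟨ha2 hy.1, hb2 hy.1⟩, fun x hx => ⟨?_, ?_⟩⟩
  · exact lt_of_le_of_ne (ha2 (subset_closure hx)) (hminI x hx).symm
  · exact lt_of_le_of_ne (hb2 (subset_closure hx)) (hmaxI x hx)

end Vale.Agent.P071.Lim
end
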